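import Crest.Agent.R241.D4Top
import Mathlib
import Crest.Prelude.Def_Submanifold

-- ▼ part R241/D4Lift
section

/-!
# R241, block D4, part 2 (helper816): lifting Lipschitz paths through expanding local homeos

`p : E → X` local homeomorphism between metric spaces, `E` proper, locally
`dist a b ≤ C * dist (p a) (p b)`.  Then Lipschitz paths lift, and if `X` is locally Lipschitz
contractible then `p` has uniform local sections.
-/

set_option autoImplicit false

open Set Filter Topology unitInterval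
open scoped NNReal

namespace Crest.Agent.R241.D4Lift

open D4Top

variable {E X : Type*} [MetricSpace E] [MetricSpace X] {p : E → X}

/-- uniform local sections over a compact set of `E` -/
theorem unif_section (hp : IsLocalHomeomorph p) {K : Set E} (hK : IsCompact K) :
    ∃ δ > 0, ∀ e ∈ K, ∃ τ : X → E, ContinuousOn τ (Metric.ball (p e) δ) ∧
      (∀ y ∈ Metric.ball (p e) δ, p (τ y) = y) ∧ τ (p e) = e := by
  refine hK.induction_on (p := fun s => ∃ δ > 0, ∀ e ∈ s, ∃ τ : X → E,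
      ContinuousOn τ (Metric.ball (p e) δ) ∧
      (∀ y ∈ Metric.ball (p e) δ, p (τ y) = y) ∧ τ (p e) = e) ⟨1, one_pos, by simp⟩
    (fun s t hst ⟨δ, hδ, h⟩ => ⟨δ, hδ, fun e he => h e (hst he)⟩)
    (fun s t ⟨δ, hδ, h⟩ ⟨δ', hδ', h'⟩ => ⟨min δ δ', lt_min hδ hδ', ?_⟩) ?_
  · rintro e (he | he)
    · obtain ⟨τ, h1, h2, h3⟩ := h e he
      exact ⟨τ, h1.mono (Metric.ball_subset_ball (min_le_left _ _)),
        fun y hy => h2 y (Metric.ball_subset_ball (min_le_left _ _) hy), h3⟩
    · obtain ⟨τ, h1, h2, h3⟩ := h' e he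
      exact ⟨τ, h1.mono (Metric.ball_subset_ball (min_le_right _ _)),
        fun y hy => h2 y (Metric.ball_subset_ball (min_le_right _ _) hy), h3⟩
  · intro e₀ _
    obtain ⟨h, he₀, rfl⟩ := hp e₀
    obtain ⟨δ, hδ, hball⟩ := Metric.isOpen_iff.1 h.open_target (h e₀) (h.map_source he₀)
    have hcont : ContinuousAt h e₀ := h.continuousAt he₀
    refine ⟨h.source ∩ h ⁻¹' Metric.ball (h e₀) (δ / 2),
      mem_nhdsWithin_of_mem_nhds (Filter.inter_mem (h.open_source.mem_nhds he₀)
        (hcont.preimage_mem_nhds (Metric.ball_mem_nhds _ (half_pos hδ)))), δ / 2, half_pos hδ, ?_⟩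
    rintro e ⟨he, he'⟩
    have hsub : Metric.ball (h e) (δ / 2) ⊆ h.target := by
      refine Subset.trans ?_ hball
      intro y hy
      rw [Metric.mem_ball] at hy ⊢
      have h2 : dist (h e) (h e₀) < δ / 2 := he'
      calc dist y (h e₀) ≤ dist y (h e) + dist (h e) (h e₀) := dist_triangle _ _ _
        _ < δ := by linarith
    exact ⟨h.symm, h.continuousOn_symm.mono hsub, fun y hy => h.right_inv (hsub hy),
      h.left_inv he⟩

/-- local expansion condition -/
def LocExp (p : E → X) (C : ℝ≥0) : Prop :=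
  ∀ e, ∀ᶠ q in 𝓝 (e, e), dist (q : E × E).1 q.2 ≤ C * dist (p q.1) (p q.2)

/-- a priori Lipschitz bound for lifts -/
theorem lipschitz_of_lift {C : ℝ≥0} (hC : LocExp p C) {K : ℝ≥0} {c : ℝ → X} {a b : ℝ}
    (hc : LipschitzOnWith K c (Icc a b)) {w : ℝ → E} (hw : ContinuousOn w (Icc a b))
    (hwc : ∀ t ∈ Icc a b, p (w t) = c t) : LipschitzOnWith (C * K) w (Icc a b) := by
  have key : ∀ s ∈ Icc a b, ∀ t ∈ Icc s b, dist (w t) (w s) ≤ (C * K) * (t - s) := by
    intro s hs
    have hsub : Icc s b ⊆ Icc a b := Icc_subset_Icc_left hs.1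
    have := IsClosed.Icc_subset_of_forall_exists_gt (a := s) (b := b)
      (s := {t | dist (w t) (w s) ≤ (C * K) * (t - s)}) ?_ ?_ ?_
    · exact fun t ht => this ht
    · have h1 : ContinuousOn (fun t => dist (w t) (w s)) (Icc s b) :=
        (continuous_id.dist continuous_const).comp_continuousOn (hw.mono hsub)
      have h2 : ContinuousOn (fun t : ℝ => ((C : ℝ) * K) * (t - s)) (Icc s b) := by fun_prop
      have := isClosed_Icc.isClosed_le h1 h2
      convert this using 1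
      ext t
      simp only [mem_inter_iff, mem_ofPred_eq]
      tauto
    · simp
    · rintro x ⟨hx, hx1, hx2⟩ y hy
      have hxab : x ∈ Icc a b := ⟨hs.1.trans hx1, hx2.le⟩
      -- near `x`
      have hev := hC (w x)
      have hwx : Tendsto w (𝓝[Icc a b] x) (𝓝 (w x)) := hw x hxab
      have h1 : ∀ᶠ t in 𝓝[Icc a b] x, dist (w t) (w x) ≤ C * dist (p (w t)) (p (w x)) :=
        (hwx.prodMk_nhds tendsto_const_nhds).eventually hev
      have h2 : 𝓝[Ioc x (min y b)] x ≤ 𝓝[Icc a b] x := by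
        refine nhdsWithin_mono _ ?_
        intro t ht
        exact ⟨hxab.1.trans ht.1.le, ht.2.trans (min_le_right _ _)⟩
      have hlt : x < min y b := lt_min hy hx2
      have h3 : (𝓝[Ioc x (min y b)] x).NeBot := by
        rw [nhdsWithin_Ioc_eq_nhdsGT hlt]
        infer_instance
      have h5 : ∀ᶠ t in 𝓝[Ioc x (min y b)] x,
          dist (w t) (w x) ≤ C * dist (p (w t)) (p (w x)) := h2 h1
      obtain ⟨t, ht, ht'⟩ := (h5.and self_mem_nhdsWithin).exists
      refine ⟨t, ?_, ht'.1, ht'.2.trans (min_le_left _ _)⟩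
      have htab : t ∈ Icc a b := ⟨hxab.1.trans ht'.1.le, ht'.2.trans (min_le_right _ _)⟩
      simp only [mem_ofPred_eq]
      have h4 : dist (c t) (c x) ≤ K * (t - x) := by
        have := hc.dist_le_mul t htab x hxab
        rwa [Real.dist_eq, abs_of_nonneg (by linarith [ht'.1])] at this
      rw [hwc t htab, hwc x hxab] at ht
      have hx' : dist (w x) (w s) ≤ (C * K) * (x - s) := hx
      calc dist (w t) (w s) ≤ dist (w t) (w x) + dist (w x) (w s) := dist_triangle _ _ _
        _ ≤ C * (K * (t - x)) + (C * K) * (x - s) := by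
            refine add_le_add (ht.trans ?_) hx'
            exact mul_le_mul_of_nonneg_left h4 C.2
        _ = (C * K) * (t - s) := by ring
  refine LipschitzOnWith.of_dist_le_mul fun t ht s hs => ?_
  rw [Real.dist_eq]
  push_cast
  rcases le_total s t with h | h
  · rw [abs_of_nonneg (by linarith)]
    exact key s hs t ⟨h, ht.2⟩
  · rw [abs_of_nonpos (by linarith), dist_comm, neg_sub]
    exact key t ht s ⟨h, hs.2⟩

/-- Lipschitz paths lift. -/
theorem exists_lift [ProperSpace E] (hp : IsLocalHomeomorph p) {C : ℝ≥0} (hC : LocExp p C)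
    {K : ℝ≥0} {c : ℝ → X} (hc : LipschitzOnWith K c (Icc 0 1)) {w₀ : E} (h0 : p w₀ = c 0) :
    ∃ w : ℝ → E, LipschitzOnWith (C * K) w (Icc 0 1) ∧ (∀ t ∈ Icc (0 : ℝ) 1, p (w t) = c t) ∧
      w 0 = w₀ := by
  obtain ⟨δ, hδ, hsec⟩ := unif_section hp (isCompact_closedBall w₀ (C * K : ℝ))
  obtain ⟨m, hm⟩ := exists_nat_gt ((K : ℝ) / δ)
  have hm0 : (0 : ℝ) < m := lt_of_le_of_lt (by positivity) hm
  have hKm : (K : ℝ) / m < δ := by
    rw [div_lt_iff₀ hδ] at hm
    rw [div_lt_iff₀ hm0]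
    linarith
  have step : ∀ k : ℕ, k ≤ m → ∃ w : ℝ → E, ContinuousOn w (Icc 0 (k / m : ℝ)) ∧
      (∀ t ∈ Icc (0 : ℝ) (k / m), p (w t) = c t) ∧ w 0 = w₀ := by
    intro k
    induction k with
    | zero =>
      intro _
      refine ⟨fun _ => w₀, continuousOn_const, fun t ht => ?_, rfl⟩
      have : t = 0 := le_antisymm (by simpa using ht.2) ht.1
      rw [this, h0]
    | succ k ih =>
      intro hk
      obtain ⟨w, hwc, hwp, hw0⟩ := ih (by omega)
      have hk1 : ((k : ℝ) / m) ≤ 1 := by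
        rw [div_le_one hm0]; exact_mod_cast (by omega : k ≤ m)
      have hk2 : (((k + 1 : ℕ) : ℝ) / m) ≤ 1 := by
        rw [div_le_one hm0]; exact_mod_cast hk
      have hk0 : 0 ≤ (k : ℝ) / m := by positivity
      have hkk : (k : ℝ) / m ≤ ((k + 1 : ℕ) : ℝ) / m := by
        push_cast; gcongr; linarith
      have hlip := lipschitz_of_lift hC (hc.mono (Icc_subset_Icc_right hk1)) hwc hwp
      set e := w ((k : ℝ) / m) with he
      have hemem : e ∈ Metric.closedBall w₀ (C * K : ℝ) := by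
        rw [Metric.mem_closedBall, ← hw0, he]
        have := hlip.dist_le_mul ((k : ℝ) / m) ⟨hk0, le_rfl⟩ 0 ⟨le_rfl, hk0⟩
        refine this.trans ?_
        rw [Real.dist_eq, sub_zero, abs_of_nonneg hk0]
        push_cast
        calc (C : ℝ) * K * ((k : ℝ) / m) ≤ (C * K) * 1 := by gcongr
          _ = C * K := by ring
      obtain ⟨τ, hτc, hτp, hτe⟩ := hsec e hemem
      have hpe : p e = c ((k : ℝ) / m) := hwp _ ⟨hk0, le_rfl⟩
      have hball : ∀ t ∈ Icc ((k : ℝ) / m) (((k + 1 : ℕ) : ℝ) / m),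
          c t ∈ Metric.ball (p e) δ := by
        intro t ht
        rw [Metric.mem_ball, hpe]
        have := hc.dist_le_mul t ⟨hk0.trans ht.1, ht.2.trans hk2⟩ ((k : ℝ) / m) ⟨hk0, hk1⟩
        refine lt_of_le_of_lt (this.trans ?_) hKm
        rw [Real.dist_eq, abs_of_nonneg (by linarith [ht.1])]
        have h3 : t - (k : ℝ) / m ≤ 1 / m := by
          have := ht.2
          push_cast at this
          rw [add_div] at this
          linarith
        calc (K : ℝ) * (t - (k : ℝ) / m) ≤ K * (1 / m) := by gcongr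
          _ = K / m := by ring
      refine ⟨fun t => if t ≤ (k : ℝ) / m then w t else τ (c t), ?_, ?_, ?_⟩
      · have hcc : ContinuousOn c (Icc 0 1) := hc.continuousOn
        refine ContinuousOn.if ?_ ?_ ?_
        · rintro t ⟨ht, ht'⟩
          have : t = (k : ℝ) / m := frontier_Iic_subset _ ht'
          rw [this, ← hpe, hτe]
        · rw [show closure {a : ℝ | a ≤ (k : ℝ) / m} = Iic ((k : ℝ) / m) from closure_Iic _]
          exact hwc.mono fun t ht => ⟨ht.1.1, ht.2⟩
        · have hcl : closure {a : ℝ | ¬ a ≤ (k : ℝ) / m} ⊆ Ici ((k : ℝ) / m) := by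
            have : {a : ℝ | ¬ a ≤ (k : ℝ) / m} = Ioi ((k : ℝ) / m) := by
              ext a; simp
            rw [this, closure_Ioi]
          refine ContinuousOn.mono (s := Icc ((k : ℝ) / m) (((k + 1 : ℕ) : ℝ) / m)) ?_
            fun t ht => ⟨hcl ht.2, ht.1.2⟩
          exact hτc.comp (hcc.mono (Icc_subset_Icc hk0 hk2)) hball
      · intro t ht
        dsimp only
        split_ifs with h
        · exact hwp t ⟨ht.1, h⟩
        · exact hτp _ (hball t ⟨le_of_not_ge h, ht.2⟩)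
      · dsimp only
        rw [if_pos hk0, hw0]
  obtain ⟨w, h1, h2, h3⟩ := step m le_rfl
  rw [div_self hm0.ne'] at h1 h2
  exact ⟨w, lipschitz_of_lift hC hc h1 h2, h2, h3⟩

/-- local Lipschitz contractibility -/
def LocContr (X : Type*) [MetricSpace X] : Prop :=
  ∀ x : X, ∃ U : Set X, IsOpen U ∧ x ∈ U ∧ ∀ y₀ ∈ U, ∃ F : ℝ × X → X,
    ContinuousOn F (Icc 0 1 ×ˢ U) ∧ (∀ t ∈ Icc (0 : ℝ) 1, F (t, y₀) = y₀) ∧
      ∀ y ∈ U, F (0, y) = y₀ ∧ F (1, y) = y ∧
      ∃ K : ℝ≥0, LipschitzOnWith K (fun t => F (t, y)) (Icc 0 1)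

theorem hasSections [ProperSpace E] (hp : IsLocalHomeomorph p) {C : ℝ≥0} (hC : LocExp p C)
    (hX : LocContr X) : HasSections p := by
  classical
  intro x
  obtain ⟨U, hU, hxU, hF⟩ := hX x
  refine ⟨U, hU, hxU, fun e he => ?_⟩
  obtain ⟨F, hFc, hF0, hF⟩ := hF (p e) he
  have hlift : ∀ y : U, ∃ w : ℝ → E, ContinuousOn w (Icc 0 1) ∧
      (∀ t ∈ Icc (0 : ℝ) 1, p (w t) = F (t, y)) ∧ w 0 = e := by
    intro y
    obtain ⟨h0, h1, K, hK⟩ := hF y y.2
    obtain ⟨w, hw1, hw2, hw3⟩ := exists_lift hp hC hK (w₀ := e) h0.symm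
    exact ⟨w, hw1.continuousOn, hw2, hw3⟩
  choose w hwc hwp hw0 using hlift
  have hsep : IsSeparatedMap p := T2Space.isSeparatedMap p
  let f : C(I × U, X) := ⟨fun q => F (q.1, q.2), by
    have : Continuous fun q : I × U => ((q.1 : ℝ), (q.2 : X)) := by fun_prop
    exact hFc.comp_continuous this fun q => ⟨q.1.2, q.2.2⟩⟩
  let g : I × U → E := fun q => w q.2 q.1
  have hg : Continuous g := by
    refine hp.continuous_lift hsep f (g := g) ?_ ?_ ?_
    · ext q
      exact hwp q.2 q.1 q.1.2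
    · have : (fun a : U => g (0, a)) = fun _ => e := by
        ext a
        exact hw0 a
      rw [this]
      exact continuous_const
    · intro a
      exact (hwc a).comp_continuous continuous_subtype_val fun t => t.2
  refine ⟨fun y => if hy : y ∈ U then g (1, ⟨y, hy⟩) else e, ?_, ?_, ?_⟩
  · rw [continuousOn_iff_continuous_domRestrict]
    have : (U.domRestrict fun y => if hy : y ∈ U then g (1, ⟨y, hy⟩) else e) =
        fun y : U => g (1, y) := by
      ext y
      simp [domRestrict]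
    rw [this]
    fun_prop
  · intro y hy
    simp only [hy, dif_pos]
    have := hwp ⟨y, hy⟩ 1 ⟨zero_le_one, le_rfl⟩
    show p (w ⟨y, hy⟩ ((1 : I) : ℝ)) = y
    rw [Set.Icc.coe_one, this]
    exact (hF y hy).2.1
  · simp only [he, dif_pos]
    have hK : LipschitzOnWith 0 (fun _ : ℝ => p e) (Icc (0 : ℝ) 1) :=
      (LipschitzWith.const (p e)).lipschitzOnWith
    have h := lipschitz_of_lift hC hK (hwc ⟨p e, he⟩) fun t ht => by
      rw [hwp ⟨p e, he⟩ t ht]; exact hF0 t ht
    have h2 := h.dist_le_mul 1 ⟨zero_le_one, le_rfl⟩ 0 ⟨le_rfl, zero_le_one⟩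
    have h3 : dist (w ⟨p e, he⟩ 1) (w ⟨p e, he⟩ 0) ≤ 0 := by simpa using h2
    show w ⟨p e, he⟩ ((1 : I) : ℝ) = e
    rw [Set.Icc.coe_one, dist_le_zero.1 h3, hw0]

end Crest.Agent.R241.D4Lift
end

-- ▼ part R241/D4Loc
section

/-!
# R241, block D4, part 3 (helper816): charts of a submanifold, local homeomorphism property of an
expanding smooth map into a submanifold of the same dimension
-/

set_option autoImplicit false

open Set Filter Topology
open scoped ContDiff NNReal
open Crest.GeometryTopology.Submanifold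

namespace Crest.Agent.R241.D4Loc

open D4Lift D4Top

variable {n N : ℕ} {S : Set (Euc N)}

/-- A local parametrisation has, after shrinking, a left inverse defined on an open subset of the
ambient space. -/
theorem chart_inverse {p : Euc N} {f : Euc n → Euc N} {V : Set (Euc n)}
    (h : IsLocalParam n N S p f V) :
    ∃ (W : Set (Euc n)) (U : Set (Euc N)) (ρ : Euc N → Euc n), IsOpen W ∧ (0 : Euc n) ∈ W ∧
      W ⊆ V ∧ IsOpen U ∧ p ∈ U ∧ f '' W = S ∩ U ∧ (∀ x ∈ W, ρ (f x) = x) ∧ ContinuousOn ρ U ∧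
      ContDiffAt ℝ ∞ ρ p := by
  have hf0 : ContDiffAt ℝ ∞ f 0 := h.contDiffOn.contDiffAt (h.isOpen.mem_nhds h.zero_mem)
  have hinj : Function.Injective (fderiv ℝ f 0) := h.injective_fderiv 0 h.zero_mem
  obtain ⟨A, hA⟩ := LinearMap.exists_leftInverse_of_injective (fderiv ℝ f 0).toLinearMap
    (LinearMap.ker_eq_bot.2 hinj)
  let A' : Euc N →L[ℝ] Euc n := LinearMap.toContinuousLinearMap A
  have hA' : ∀ v, A' (fderiv ℝ f 0 v) = v := fun v => LinearMap.congr_fun hA v
  have hg : ContDiffAt ℝ ∞ (A' ∘ f) 0 := A'.contDiff.contDiffAt.comp 0 hf0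
  have hgd : HasFDerivAt (A' ∘ f) ((ContinuousLinearEquiv.refl ℝ (Euc n) : Euc n ≃L[ℝ] Euc n) :
      Euc n →L[ℝ] Euc n) 0 := by
    have h1 := A'.hasFDerivAt.comp (0 : Euc n) (hf0.differentiableAt (by simp)).hasFDerivAt
    have h2 : ((ContinuousLinearEquiv.refl ℝ (Euc n) : Euc n ≃L[ℝ] Euc n) : Euc n →L[ℝ] Euc n) =
        A'.comp (fderiv ℝ f 0) := ContinuousLinearMap.ext fun v => (hA' v).symm
    rw [h2]
    exact h1
  have hn0 : (∞ : WithTop ℕ∞) ≠ 0 := by simp
  set G := hg.toOpenPartialHomeomorph (A' ∘ f) hgd hn0 with hG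
  have hGc : (G : Euc n → Euc n) = A' ∘ f := rfl
  have h0G : (0 : Euc n) ∈ G.source := hg.mem_toOpenPartialHomeomorph_source hgd hn0
  have hsmooth : ContDiffAt ℝ ∞ G.symm (A' (f 0)) := hg.to_localInverse hgd hn0
  obtain ⟨U₀, hU₀, hU₀'⟩ := h.image_open (V ∩ G.source) inter_subset_left
    (h.isOpen.inter G.open_source)
  have hf_cont : ContinuousOn f V := h.contDiffOn.continuousOn
  have hAf : A' (f 0) ∈ G.target := by
    have := G.map_source h0G
    rwa [hGc] at this
  refine ⟨(V ∩ G.source) ∩ f ⁻¹' (U₀ ∩ A' ⁻¹' G.target), U₀ ∩ A' ⁻¹' G.target,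
    fun y => G.symm (A' y), ?_, ?_, ?_, ?_, ?_, ?_, ?_, ?_, ?_⟩
  · exact (hf_cont.mono inter_subset_left).isOpen_inter_preimage (h.isOpen.inter G.open_source)
      (hU₀.inter (G.open_target.preimage A'.continuous))
  · refine ⟨⟨h.zero_mem, h0G⟩, ?_, hAf⟩
    have : f 0 ∈ f '' (V ∩ G.source) := mem_image_of_mem f ⟨h.zero_mem, h0G⟩
    rw [hU₀'] at this
    exact this.2
  · exact fun x hx => hx.1.1
  · exact hU₀.inter (G.open_target.preimage A'.continuous)
  · rw [← h.map_zero]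
    refine ⟨?_, hAf⟩
    have : f 0 ∈ f '' (V ∩ G.source) := mem_image_of_mem f ⟨h.zero_mem, h0G⟩
    rw [hU₀'] at this
    exact this.2
  · ext y
    constructor
    · rintro ⟨x, ⟨hx, hx'⟩, rfl⟩
      have : f x ∈ f '' (V ∩ G.source) := mem_image_of_mem f hx
      rw [hU₀'] at this
      exact ⟨this.1, hx'⟩
    · rintro ⟨hyS, hyU, hyA⟩
      have : y ∈ f '' (V ∩ G.source) := by rw [hU₀']; exact ⟨hyS, hyU⟩
      obtain ⟨x, hx, rfl⟩ := this
      exact ⟨x, ⟨hx, hyU, hyA⟩, rfl⟩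
  · rintro x ⟨hx, -⟩
    exact G.left_inv hx.2
  · exact G.continuousOn_symm.comp A'.continuous.continuousOn fun y hy => hy.2
  · rw [← h.map_zero]
    exact ContDiffAt.comp (f 0) hsmooth A'.contDiff.contDiffAt

open Classical in
/-- chart homeomorphism `Euc n → S` -/
theorem exists_chartHomeo (hS : IsSubmanifold n N S) (q : S) :
    ∃ (f : Euc n → Euc N) (V W : Set (Euc n)) (U : Set (Euc N)) (ρ : Euc N → Euc n)
      (e : OpenPartialHomeomorph (Euc n) S), IsLocalParam n N S q f V ∧ W ⊆ V ∧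
      (0 : Euc n) ∈ W ∧ f 0 = q ∧ IsOpen U ∧ (q : Euc N) ∈ U ∧ f '' W = S ∩ U ∧
      e.source = W ∧ e.target = Subtype.val ⁻¹' U ∧ (∀ x ∈ W, (e x : Euc N) = f x) ∧
      (∀ y : S, e.symm y = ρ y) ∧ (∀ x ∈ W, ρ (f x) = x) ∧ ContinuousOn ρ U ∧
      ContDiffAt ℝ ∞ ρ q := by
  obtain ⟨f, V, h⟩ := hS q q.2
  obtain ⟨W, U, ρ, hW, h0W, hWV, hU, hqU, hfW, hρ, hρc, hρd⟩ := chart_inverse h
  have hmem : ∀ x ∈ W, f x ∈ S ∧ f x ∈ U := fun x hx => by
    have : f x ∈ f '' W := mem_image_of_mem f hx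
    rwa [hfW] at this
  have hfr : ∀ y : S, (y : Euc N) ∈ U → ρ y ∈ W ∧ f (ρ y) = y := fun y hy => by
    have : (y : Euc N) ∈ f '' W := by rw [hfW]; exact ⟨y.2, hy⟩
    obtain ⟨x, hx, hxy⟩ := this
    rw [← hxy, hρ x hx]
    exact ⟨hx, rfl⟩
  let e : OpenPartialHomeomorph (Euc n) S :=
    { toFun := fun x => if hx : f x ∈ S then ⟨f x, hx⟩ else q
      invFun := fun y => ρ y
      source := W
      target := Subtype.val ⁻¹' U
      map_source' := fun x hx => by
        simp only [mem_preimage, dif_pos (hmem x hx).1]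
        exact (hmem x hx).2
      map_target' := fun y hy => (hfr y hy).1
      left_inv' := fun x hx => by
        simp only [dif_pos (hmem x hx).1]
        exact hρ x hx
      right_inv' := fun y hy => by
        have h1 := hfr y hy
        have h2 : f (ρ y) ∈ S := by rw [h1.2]; exact y.2
        simp only [dif_pos h2]
        exact Subtype.ext h1.2
      open_source := hW
      open_target := hU.preimage continuous_subtype_val
      continuousOn_toFun := by
        rw [continuousOn_iff_continuous_domRestrict]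
        have h1 : (W.domRestrict fun x => if hx : f x ∈ S then (⟨f x, hx⟩ : S) else q) =
            fun x : W => (⟨f x, (hmem x x.2).1⟩ : S) := by
          ext x
          simp [domRestrict, (hmem x x.2).1]
        rw [h1]
        refine Continuous.subtype_mk ?_ _
        exact (h.contDiffOn.continuousOn.mono hWV).comp_continuous continuous_subtype_val
          fun x => x.2
      continuousOn_invFun := hρc.comp continuous_subtype_val.continuousOn fun y hy => hy }
  refine ⟨f, V, W, U, ρ, e, h, hWV, h0W, h.map_zero, hU, hqU, hfW, rfl, rfl, fun x hx => ?_,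
    fun y => rfl, hρ, hρc, hρd⟩
  show ((if hx : f x ∈ S then (⟨f x, hx⟩ : S) else q : S) : Euc N) = f x
  rw [dif_pos (hmem x hx).1]

/-- a submanifold is locally path connected -/
theorem locallyPathConnectedSpace (hS : IsSubmanifold n N S) : LocallyPathConnectedSpace S := by
  choose f V W U ρ e h using fun q : S => exists_chartHomeo hS q
  let inst : ChartedSpace (Euc n) S :=
    { atlas := range fun q => (e q).symm
      chartAt := fun q => (e q).symm
      mem_chart_source := fun q => by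
        obtain ⟨_, _, _, _, _, hqU, _, _, ht, _⟩ := h q
        show q ∈ (e q).target
        rw [ht]
        exact hqU
      chart_mem_atlas := fun q => mem_range_self q }
  exact ChartedSpace.locallyPathConnectedSpace (Euc n) S

/-- An expanding smooth map `Euc n → S` is a local homeomorphism. -/
theorem isLocalHomeomorph_of_expanding (hS : IsSubmanifold n N S) {Φ : Euc n → Euc N}
    (hΦ : ContDiff ℝ ∞ Φ) (hmem : ∀ v, Φ v ∈ S) (hexp : ∀ v w, ‖w‖ ≤ ‖fderiv ℝ Φ v w‖) :
    IsLocalHomeomorph (fun v => (⟨Φ v, hmem v⟩ : S)) := by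
  refine IsLocalHomeomorph.mk _ fun v₀ => ?_
  obtain ⟨f, V, W, U, ρ, e, h, hWV, h0W, hf0, hU, hqU, hfW, hes, het, hef, heρ, hρ, hρc, hρd⟩ :=
    exists_chartHomeo hS ⟨Φ v₀, hmem v₀⟩
  simp only at hqU hf0 hρd h
  -- `h = ρ ∘ Φ`
  have hhd : ContDiffAt ℝ ∞ (ρ ∘ Φ) v₀ := ContDiffAt.comp v₀ hρd hΦ.contDiffAt
  have hΦU : ∀ᶠ v in 𝓝 v₀, Φ v ∈ U := hΦ.continuous.continuousAt.preimage_mem_nhds
    (hU.mem_nhds hqU)
  have hfr : ∀ v, Φ v ∈ U → ρ (Φ v) ∈ W ∧ f (ρ (Φ v)) = Φ v := fun v hv => by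
    have : Φ v ∈ f '' W := by rw [hfW]; exact ⟨hmem v, hv⟩
    obtain ⟨x, hx, hxy⟩ := this
    rw [← hxy, hρ x hx]
    exact ⟨hx, rfl⟩
  have hρ0 : ρ (Φ v₀) = 0 := by rw [← hf0]; exact hρ 0 h0W
  have hfd : ContDiffAt ℝ ∞ f 0 := h.contDiffOn.contDiffAt (h.isOpen.mem_nhds h.zero_mem)
  have hcomp : fderiv ℝ Φ v₀ = (fderiv ℝ f 0).comp (fderiv ℝ (ρ ∘ Φ) v₀) := by
    have h1 : Φ =ᶠ[𝓝 v₀] f ∘ (ρ ∘ Φ) := hΦU.mono fun v hv => ((hfr v hv).2).symm
    rw [h1.fderiv_eq, fderiv_comp]
    · simp [hρ0]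
    · have : (ρ ∘ Φ) v₀ = 0 := hρ0
      rw [this]
      exact hfd.differentiableAt (by simp)
    · exact hhd.differentiableAt (by simp)
  have hinj : Function.Injective (fderiv ℝ (ρ ∘ Φ) v₀) := by
    rw [injective_iff_map_eq_zero]
    intro w hw
    have h1 := hexp v₀ w
    rw [hcomp] at h1
    simp only [ContinuousLinearMap.comp_apply, hw, map_zero, norm_zero] at h1
    exact norm_le_zero_iff.1 h1
  let L : Euc n ≃L[ℝ] Euc n :=
    (LinearEquiv.ofInjectiveEndo (fderiv ℝ (ρ ∘ Φ) v₀).toLinearMap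
      hinj).toContinuousLinearEquiv
  have hL : HasFDerivAt (ρ ∘ Φ) (L : Euc n →L[ℝ] Euc n) v₀ := by
    have h2 : (L : Euc n →L[ℝ] Euc n) = fderiv ℝ (ρ ∘ Φ) v₀ := ContinuousLinearMap.ext fun v => rfl
    rw [h2]
    exact (hhd.differentiableAt (by simp)).hasFDerivAt
  have hn0 : (∞ : WithTop ℕ∞) ≠ 0 := by simp
  set G := hhd.toOpenPartialHomeomorph (ρ ∘ Φ) hL hn0 with hG
  have hGc : (G : Euc n → Euc n) = ρ ∘ Φ := rfl
  have h0G : v₀ ∈ G.source := hhd.mem_toOpenPartialHomeomorph_source hL hn0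
  refine ⟨(G.restrOpen (Φ ⁻¹' U) (hU.preimage hΦ.continuous)).trans e, ?_, ?_⟩
  · rw [OpenPartialHomeomorph.trans_source]
    refine ⟨?_, ?_⟩
    · rw [OpenPartialHomeomorph.restrOpen_source]
      exact ⟨h0G, hqU⟩
    · rw [mem_preimage, hes]
      show (ρ ∘ Φ) v₀ ∈ W
      exact (hfr v₀ hqU).1
  · rintro v hv
    rw [OpenPartialHomeomorph.trans_source, OpenPartialHomeomorph.restrOpen_source] at hv
    obtain ⟨⟨-, hv⟩, -⟩ := hv
    have h1 := hfr v hv
    apply Subtype.ext
    show Φ v = (e (ρ (Φ v)) : Euc N)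
    rw [hef _ h1.1, h1.2]

/-- An expanding smooth map satisfies `LocExp` for all constants `> 1`. -/
theorem locExp_of_expanding {Φ : Euc n → Euc N} (hΦ : ContDiff ℝ ∞ Φ) (hmem : ∀ v, Φ v ∈ S)
    (hexp : ∀ v w, ‖w‖ ≤ ‖fderiv ℝ Φ v w‖) {C : ℝ≥0} (hC : 1 < C) :
    LocExp (fun v => (⟨Φ v, hmem v⟩ : S)) C := by
  intro v₀
  have hd : HasStrictFDerivAt Φ (fderiv ℝ Φ v₀) v₀ :=
    hΦ.contDiffAt.hasStrictFDerivAt (by simp)
  have hC0 : (0 : ℝ) < C := lt_trans zero_lt_one (by exact_mod_cast hC)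
  have hC1 : (1 : ℝ) < C := by exact_mod_cast hC
  have hε : 0 < 1 - (C : ℝ)⁻¹ := by
    rw [sub_pos]
    exact inv_lt_one_of_one_lt₀ hC1
  have := hd.isLittleO.def hε
  filter_upwards [this] with q hq
  have h1 := hexp v₀ (q.1 - q.2)
  rw [dist_eq_norm, Subtype.dist_eq, dist_eq_norm]
  have h2 : ‖fderiv ℝ Φ v₀ (q.1 - q.2)‖ ≤ ‖Φ q.1 - Φ q.2‖ + (1 - (C : ℝ)⁻¹) * ‖q.1 - q.2‖ := by
    calc ‖fderiv ℝ Φ v₀ (q.1 - q.2)‖
        = ‖(Φ q.1 - Φ q.2) - (Φ q.1 - Φ q.2 - fderiv ℝ Φ v₀ (q.1 - q.2))‖ := by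
          congr 1; abel
      _ ≤ ‖Φ q.1 - Φ q.2‖ + ‖Φ q.1 - Φ q.2 - fderiv ℝ Φ v₀ (q.1 - q.2)‖ := norm_sub_le _ _
      _ ≤ _ := by gcongr
  have h3 : (C : ℝ)⁻¹ * ‖q.1 - q.2‖ ≤ ‖Φ q.1 - Φ q.2‖ := by nlinarith
  calc ‖q.1 - q.2‖ = C * ((C : ℝ)⁻¹ * ‖q.1 - q.2‖) := by field_simp
    _ ≤ C * ‖Φ q.1 - Φ q.2‖ := by gcongr

/-- A submanifold is locally Lipschitz contractible. -/
theorem locContr (hS : IsSubmanifold n N S) : LocContr S := by
  intro q
  obtain ⟨f, V, W, U, ρ, e, h, hWV, h0W, hf0, hU, hqU, hfW, hes, het, hef, heρ, hρ, hρc, hρd⟩ :=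
    exists_chartHomeo hS q
  have hWo : IsOpen W := hes ▸ e.open_source
  obtain ⟨r, hr, hrW⟩ := Metric.nhds_basis_closedBall.mem_iff.1 (hWo.mem_nhds h0W)
  obtain ⟨K, hK⟩ : ∃ K, LipschitzOnWith K f (Metric.closedBall (0 : Euc n) r) :=
    ((h.contDiffOn.mono (hrW.trans hWV))).exists_lipschitzOnWith (by simp)
      (convex_closedBall _ _) (isCompact_closedBall _ _)
  have hfr : ∀ y : S, (y : Euc N) ∈ U → ρ y ∈ W ∧ f (ρ y) = y := fun y hy => by
    have : (y : Euc N) ∈ f '' W := by rw [hfW]; exact ⟨y.2, hy⟩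
    obtain ⟨x, hx, hxy⟩ := this
    rw [← hxy, hρ x hx]
    exact ⟨hx, rfl⟩
  have hρq : ρ q = 0 := by rw [← hf0]; exact hρ 0 h0W
  have hρc' : ContinuousOn (fun y : S => ρ y) (Subtype.val ⁻¹' U) :=
    hρc.comp continuous_subtype_val.continuousOn fun y hy => hy
  refine ⟨Subtype.val ⁻¹' U ∩ (fun y : S => ρ y) ⁻¹' Metric.ball 0 r,
    hρc'.isOpen_inter_preimage (hU.preimage continuous_subtype_val) Metric.isOpen_ball,
    ⟨hqU, by simp [hρq, hr]⟩, ?_⟩
  rintro y₀ ⟨hy₀U, hy₀r⟩
  have hseg : ∀ y : S, ρ y ∈ Metric.ball (0 : Euc n) r → ∀ t ∈ Icc (0 : ℝ) 1,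
      ρ y₀ + t • (ρ y - ρ y₀) ∈ Metric.ball (0 : Euc n) r := by
    intro y hy t ht
    exact (convex_ball (0 : Euc n) r).add_smul_sub_mem hy₀r hy ht
  have hballW : Metric.ball (0 : Euc n) r ⊆ W := Metric.ball_subset_closedBall.trans hrW
  have heW : ∀ x ∈ Metric.ball (0 : Euc n) r, (e x : Euc N) = f x := fun x hx => hef x (hballW hx)
  refine ⟨fun z => e (ρ y₀ + z.1 • (ρ z.2 - ρ y₀)), ?_, ?_, ?_⟩
  · refine e.continuousOn.comp ?_ ?_
    · have h2 : ContinuousOn (fun z : ℝ × S => ρ z.2)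
          (Icc (0 : ℝ) 1 ×ˢ (Subtype.val ⁻¹' U ∩ (fun y : S => ρ y) ⁻¹' Metric.ball 0 r)) :=
        hρc'.comp continuous_snd.continuousOn fun z hz => hz.2.1
      exact continuousOn_const.add (continuous_fst.continuousOn.smul (h2.sub continuousOn_const))
    · rintro ⟨t, y⟩ ⟨ht, hy⟩
      rw [hes]
      exact hballW (hseg y hy.2 t ht)
  · intro t ht
    apply Subtype.ext
    simp only [sub_self, smul_zero, add_zero]
    rw [heW _ hy₀r]
    exact (hfr y₀ hy₀U).2
  · rintro y ⟨hyU, hyr⟩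
    refine ⟨?_, ?_, K * ‖ρ y - ρ y₀‖₊, ?_⟩
    · apply Subtype.ext
      simp only [zero_smul, add_zero]
      rw [heW _ hy₀r]
      exact (hfr y₀ hy₀U).2
    · apply Subtype.ext
      simp only [one_smul, add_sub_cancel]
      rw [heW _ hyr]
      exact (hfr y hyU).2
    · refine LipschitzOnWith.of_dist_le_mul fun s hs t ht => ?_
      rw [Subtype.dist_eq]
      dsimp only
      rw [heW _ (hseg y hyr s hs), heW _ (hseg y hyr t ht)]
      refine (hK.dist_le_mul _ (Metric.ball_subset_closedBall (hseg y hyr s hs)) _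
        (Metric.ball_subset_closedBall (hseg y hyr t ht))).trans ?_
      rw [dist_eq_norm, add_sub_add_left_eq_sub, ← sub_smul, norm_smul, Real.dist_eq]
      rw [NNReal.coe_mul, coe_nnnorm, Real.norm_eq_abs]
      apply le_of_eq
      ring

/-- **D4(a)**: an expanding smooth map `Euc n → S` onto a simply connected submanifold is a
homeomorphism. -/
theorem exists_homeo (hS : IsSubmanifold n N S) [SimplyConnectedSpace S] {Φ : Euc n → Euc N}
    (hΦ : ContDiff ℝ ∞ Φ) (hmem : ∀ v, Φ v ∈ S) (hexp : ∀ v w, ‖w‖ ≤ ‖fderiv ℝ Φ v w‖) :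
    ∃ h : Euc n ≃ₜ S, ∀ v, (h v : Euc N) = Φ v := by
  have := locallyPathConnectedSpace hS
  have hp := isLocalHomeomorph_of_expanding hS hΦ hmem hexp
  have hsec : HasSections (fun v => (⟨Φ v, hmem v⟩ : S)) :=
    hasSections hp (locExp_of_expanding hΦ hmem hexp (C := 2) (by norm_num)) (locContr hS)
  obtain ⟨h, hh⟩ := homeo_of_sections hp hsec 0
  exact ⟨h, fun v => by rw [hh v]⟩

end Crest.Agent.R241.D4Loc
end

-- ▼ part R241/D4Met

/-!
# R241, block D4, part 4 (helper816): the intrinsic metric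

`ExpData n N S`: a family of exponential maps of the submanifold `S` (output of D2/D3).
For simply connected `S` we construct

* `D.homeo p : Euc n ≃ₜ S` (the exponential map at `p`), `D.log p q = (D.homeo p).symm q`;
* `XS D` : type synonym for `S` carrying the intrinsic metric `dist p q = ‖D.log p q‖`,
  a proper metric space homeomorphic to `S`;
* `D.dist_le_of_curve`: `dist p q ≤ L` for every `L`-Lipschitz curve `[0,1] → S` from `p` to `q`,
  and `D.curve`: the minimum is attained (radial geodesic);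
* `D.norm_sub_le_dist`, `D.dist_le_locally`: comparison with the ambient distance.
-/

set_option autoImplicit false

open Set Filter Topology
open scoped ContDiff NNReal
open Crest.GeometryTopology.Submanifold

namespace Crest.Agent.R241.D4Met

open D4Lift D4Top D4Loc

/-- Family of exponential maps. -/
structure ExpData (n N : ℕ) (S : Set (Euc N)) where
  sub : IsSubmanifold n N S
  sc : SimplyConnectedSpace S
  Φ : S → Euc n → Euc N
  contDiff : ∀ p, ContDiff ℝ ∞ (Φ p)
  mem : ∀ p v, Φ p v ∈ S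
  zero : ∀ p, Φ p 0 = p
  expand : ∀ p v w, ‖w‖ ≤ ‖fderiv ℝ (Φ p) v w‖
  radial : ∀ p v, ∀ t ∈ Icc (0 : ℝ) 1, ‖fderiv ℝ (Φ p) (t • v) v‖ ≤ ‖v‖

variable {n N : ℕ} {S : Set (Euc N)}

namespace ExpData

variable (D : ExpData n N S)

theorem exists_homeo' (p : S) : ∃ h : Euc n ≃ₜ S, ∀ v, (h v : Euc N) = D.Φ p v :=
  haveI := D.sc
  exists_homeo D.sub (D.contDiff p) (D.mem p) (D.expand p)

/-- the exponential map at `p` as a homeomorphism onto `S` -/
noncomputable def homeo (p : S) : Euc n ≃ₜ S := (D.exists_homeo' p).choose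

theorem homeo_coe (p : S) (v : Euc n) : (D.homeo p v : Euc N) = D.Φ p v :=
  (D.exists_homeo' p).choose_spec v

@[simp] theorem homeo_zero (p : S) : D.homeo p 0 = p := Subtype.ext (by rw [homeo_coe, D.zero])

/-- inverse of the exponential map at `p` -/
noncomputable def log (p q : S) : Euc n := (D.homeo p).symm q

@[simp] theorem homeo_log (p q : S) : D.homeo p (D.log p q) = q := (D.homeo p).apply_symm_apply q

@[simp] theorem log_homeo (p : S) (v : Euc n) : D.log p (D.homeo p v) = v :=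
  (D.homeo p).symm_apply_apply v

@[simp] theorem log_self (p : S) : D.log p p = 0 := by
  have := D.log_homeo p 0
  rwa [homeo_zero] at this

theorem locExp (p : S) {C : ℝ≥0} (hC : 1 < C) : LocExp (D.homeo p) C := by
  have := locExp_of_expanding (D.contDiff p) (D.mem p) (D.expand p) hC
  have h2 : (D.homeo p : Euc n → S) = fun v => (⟨D.Φ p v, D.mem p v⟩ : S) := by
    ext v : 1
    exact Subtype.ext (D.homeo_coe p v)
  rw [h2]
  exact this

/-- any Lipschitz curve from `p` to `q` has Lipschitz constant at least `‖log p q‖` -/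
theorem norm_log_sub_le {p : S} {L : ℝ≥0} {c : ℝ → S} {a b : ℝ} (hab : a ≤ b)
    (hc : LipschitzOnWith L c (Icc a b)) :
    ‖D.log p (c b) - D.log p (c a)‖ ≤ L * (b - a) := by
  have key : ∀ C : ℝ≥0, 1 < C → ‖D.log p (c b) - D.log p (c a)‖ ≤ C * (L * (b - a)) := by
    intro C hC
    have h := lipschitz_of_lift (D.locExp p hC) hc (w := fun t => D.log p (c t))
      ((D.homeo p).symm.continuous.comp_continuousOn hc.continuousOn)
      (fun t _ => D.homeo_log p (c t))
    have h2 := h.dist_le_mul b ⟨hab, le_rfl⟩ a ⟨le_rfl, hab⟩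
    rw [dist_eq_norm, Real.dist_eq, abs_of_nonneg (by linarith)] at h2
    push_cast at h2
    linarith
  have h0 : 0 ≤ (L : ℝ) * (b - a) := mul_nonneg L.2 (by linarith)
  have hlim : Tendsto (fun k : ℕ => (1 + 1 / ((k : ℝ) + 1)) * ((L : ℝ) * (b - a))) atTop
      (𝓝 ((1 + 0) * ((L : ℝ) * (b - a)))) :=
    (tendsto_const_nhds.add tendsto_one_div_add_atTop_nhds_zero_nat).mul_const _
  rw [add_zero, one_mul] at hlim
  refine ge_of_tendsto' hlim fun k => ?_
  have h1 := key (1 + 1 / ((k : ℝ≥0) + 1)) (by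
    rw [lt_add_iff_pos_right]; positivity)
  push_cast at h1
  exact h1

/-- radial geodesic as a curve in `S` -/
noncomputable def geo (x y : S) (t : ℝ) : S := D.homeo x (t • D.log x y)

@[simp] theorem geo_zero (x y : S) : D.geo x y 0 = x := by simp [geo]

@[simp] theorem geo_one (x y : S) : D.geo x y 1 = y := by simp [geo]

theorem lipschitz_radial (p : S) (v : Euc n) :
    LipschitzOnWith ‖v‖₊ (fun t : ℝ => D.homeo p (t • v)) (Icc 0 1) := by
  refine LipschitzOnWith.of_dist_le_mul fun s hs t ht => ?_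
  rw [Subtype.dist_eq, D.homeo_coe, D.homeo_coe]
  have h1 : ∀ r ∈ Icc (0 : ℝ) 1, HasDerivWithinAt (fun t : ℝ => D.Φ p (t • v))
      (fderiv ℝ (D.Φ p) (r • v) v) (Icc 0 1) r := by
    intro r _
    have hd : HasFDerivAt (D.Φ p) (fderiv ℝ (D.Φ p) (r • v)) (r • v) :=
      ((D.contDiff p).differentiable (by simp) _).hasFDerivAt
    have hl : HasDerivAt (fun t : ℝ => t • v) v r := by
      simpa using (hasDerivAt_id r).smul_const v
    exact (hd.comp_hasDerivAt r hl).hasDerivWithinAt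
  have := (convex_Icc (0 : ℝ) 1).norm_image_sub_le_of_norm_hasDerivWithin_le (C := ‖v‖) h1
    (fun r hr => D.radial p v r hr) ht hs
  rw [dist_eq_norm, dist_eq_norm]
  exact this

/-- concatenation of Lipschitz curves -/
theorem exists_concat {X : Type*} [MetricSpace X] {x y z : X} {L₁ L₂ : ℝ≥0}
    (h₁ : ∃ c : ℝ → X, LipschitzOnWith L₁ c (Icc 0 1) ∧ c 0 = x ∧ c 1 = y)
    (h₂ : ∃ c : ℝ → X, LipschitzOnWith L₂ c (Icc 0 1) ∧ c 0 = y ∧ c 1 = z) :
    ∃ c : ℝ → X, LipschitzOnWith (L₁ + L₂) c (Icc 0 1) ∧ c 0 = x ∧ c 1 = z := by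
  obtain ⟨c₁, h₁, h₁0, h₁1⟩ := h₁
  obtain ⟨c₂, h₂, h₂0, h₂1⟩ := h₂
  rcases eq_or_ne L₁ 0 with h0 | h0
  · subst h0
    have : dist (c₁ 0) (c₁ 1) ≤ 0 := by
      simpa using h₁.dist_le_mul 0 (by simp) 1 (by simp)
    have hxy : x = y := by rw [← h₁0, ← h₁1]; exact dist_le_zero.1 this
    exact ⟨c₂, by simpa using h₂, by rw [h₂0, hxy], h₂1⟩
  rcases eq_or_ne L₂ 0 with h0' | h0'
  · subst h0'
    have : dist (c₂ 0) (c₂ 1) ≤ 0 := by
      simpa using h₂.dist_le_mul 0 (by simp) 1 (by simp)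
    have hyz : y = z := by rw [← h₂0, ← h₂1]; exact dist_le_zero.1 this
    exact ⟨c₁, by simpa using h₁, h₁0, by rw [h₁1, hyz]⟩
  have hL₁ : (0 : ℝ) < L₁ := by exact_mod_cast pos_iff_ne_zero.2 h0
  have hL₂ : (0 : ℝ) < L₂ := by exact_mod_cast pos_iff_ne_zero.2 h0'
  set L : ℝ := L₁ + L₂ with hL
  have hLpos : 0 < L := by positivity
  set m : ℝ := L₁ / L with hm
  have hm0 : 0 < m := by positivity
  have hm1 : 1 - m = L₂ / L := by rw [hm, hL]; field_simp; ring
  have hm1' : 0 < 1 - m := by rw [hm1]; positivity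
  let c : ℝ → X := fun t => if t ≤ m then c₁ (t / m) else c₂ ((t - m) / (1 - m))
  have hcm : c m = y := by simp only [c, le_refl, if_true, div_self hm0.ne']; exact h₁1
  have hA : ∀ s ∈ Icc (0 : ℝ) m, ∀ t ∈ Icc (0 : ℝ) m, dist (c s) (c t) ≤ L * |s - t| := by
    intro s hs t ht
    simp only [c, if_pos hs.2, if_pos ht.2]
    refine (h₁.dist_le_mul _ ⟨by have := hs.1; positivity, (div_le_one hm0).2 hs.2⟩ _
      ⟨by have := ht.1; positivity, (div_le_one hm0).2 ht.2⟩).trans (le_of_eq ?_)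
    rw [Real.dist_eq, ← sub_div, abs_div, abs_of_pos hm0, hm]
    field_simp
  have hB' : ∀ t ∈ Icc m 1, c t = c₂ ((t - m) / (1 - m)) := by
    intro t ht
    rcases eq_or_lt_of_le ht.1 with h | h
    · rw [← h, hcm, sub_self, zero_div, h₂0]
    · simp only [c, if_neg (not_le.2 h)]
  have hB : ∀ s ∈ Icc m 1, ∀ t ∈ Icc m 1, dist (c s) (c t) ≤ L * |s - t| := by
    intro s hs t ht
    rw [hB' s hs, hB' t ht]
    refine (h₂.dist_le_mul _ ⟨div_nonneg (by linarith [hs.1]) hm1'.le,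
      (div_le_one hm1').2 (by linarith [hs.2])⟩ _ ⟨div_nonneg (by linarith [ht.1]) hm1'.le,
      (div_le_one hm1').2 (by linarith [ht.2])⟩).trans (le_of_eq ?_)
    rw [Real.dist_eq, ← sub_div, abs_div, abs_of_pos hm1', hm1]
    have : s - m - (t - m) = s - t := by ring
    rw [this]
    field_simp
  have hmle : m ≤ 1 := by linarith
  refine ⟨c, LipschitzOnWith.of_dist_le_mul fun s hs t ht => ?_, ?_, ?_⟩
  · rw [Real.dist_eq]
    push_cast
    have key : ∀ s t : ℝ, s ∈ Icc (0 : ℝ) 1 → t ∈ Icc (0 : ℝ) 1 → s ≤ t →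
        dist (c s) (c t) ≤ L * |s - t| := by
      intro s t hs ht hst
      rcases le_total t m with h | h
      · exact hA s ⟨hs.1, hst.trans h⟩ t ⟨ht.1, h⟩
      rcases le_total m s with h' | h'
      · exact hB s ⟨h', hs.2⟩ t ⟨h, ht.2⟩
      calc dist (c s) (c t) ≤ dist (c s) (c m) + dist (c m) (c t) := dist_triangle _ _ _
        _ ≤ L * |s - m| + L * |m - t| := add_le_add (hA s ⟨hs.1, h'⟩ m ⟨hm0.le, le_rfl⟩)
            (hB m ⟨le_rfl, hmle⟩ t ⟨h, ht.2⟩)
        _ = L * |s - t| := by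
            rw [abs_of_nonpos (by linarith), abs_of_nonpos (by linarith),
              abs_of_nonpos (by linarith)]
            ring
    rcases le_total s t with h | h
    · exact key s t hs ht h
    · rw [dist_comm, abs_sub_comm]
      exact key t s ht hs h
  · simp only [c, if_pos hm0.le, zero_div]; exact h₁0
  · rw [hB' 1 ⟨hmle, le_rfl⟩, div_self hm1'.ne', h₂1]

theorem norm_log_le {p q : S} {L : ℝ≥0}
    (h : ∃ c : ℝ → S, LipschitzOnWith L c (Icc 0 1) ∧ c 0 = p ∧ c 1 = q) :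
    ‖D.log p q‖ ≤ L := by
  obtain ⟨c, hc, h0, h1⟩ := h
  have := D.norm_log_sub_le (p := p) zero_le_one hc
  rw [h0, h1, log_self, sub_zero] at this
  simpa using this

theorem exists_curve (p q : S) :
    ∃ c : ℝ → S, LipschitzOnWith ‖D.log p q‖₊ c (Icc 0 1) ∧ c 0 = p ∧ c 1 = q :=
  ⟨D.geo p q, D.lipschitz_radial p (D.log p q), by simp, by simp⟩

theorem norm_log_comm (p q : S) : ‖D.log p q‖ = ‖D.log q p‖ := by
  have key : ∀ p q : S, ‖D.log p q‖ ≤ ‖D.log q p‖ := by
    intro p q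
    obtain ⟨c, hc, h0, h1⟩ := D.exists_curve q p
    refine D.norm_log_le (L := ‖D.log q p‖₊) ⟨fun t => c (1 - t), ?_, by simpa using h1,
      by simpa using h0⟩
    refine LipschitzOnWith.of_dist_le_mul fun s hs t ht => ?_
    refine (hc.dist_le_mul (1 - s) ⟨by linarith [hs.2], by linarith [hs.1]⟩ (1 - t)
      ⟨by linarith [ht.2], by linarith [ht.1]⟩).trans (le_of_eq ?_)
    rw [Real.dist_eq, Real.dist_eq, show 1 - s - (1 - t) = -(s - t) by ring, abs_neg]
  exact le_antisymm (key p q) (key q p)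

theorem norm_log_triangle (p q r : S) : ‖D.log p r‖ ≤ ‖D.log p q‖ + ‖D.log q r‖ := by
  have := D.norm_log_le (exists_concat (D.exists_curve p q) (D.exists_curve q r))
  simpa using this

theorem eq_of_norm_log_eq_zero {p q : S} (h : ‖D.log p q‖ = 0) : p = q := by
  have h1 : D.log p q = 0 := norm_eq_zero.1 h
  have h2 := D.homeo_log p q
  rw [h1, homeo_zero] at h2
  exact h2

/-- ambient distance ≤ intrinsic distance -/
theorem dist_le_norm_log (p q : S) : dist p q ≤ ‖D.log p q‖ := by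
  obtain ⟨c, hc, h0, h1⟩ := D.exists_curve p q
  have := hc.dist_le_mul 0 (by simp) 1 (by simp)
  rw [h0, h1] at this
  simpa using this

end ExpData

/-- the submanifold with its intrinsic metric -/
def XS (_ : ExpData n N S) : Type := S

namespace XS

variable (D : ExpData n N S)

/-- from `S` to `XS D` -/
def of (p : S) : XS D := p

/-- from `XS D` to `S` -/
def pt (p : XS D) : S := p

noncomputable instance : MetricSpace (XS D) where
  dist p q := ‖D.log (pt D p) (pt D q)‖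
  dist_self p := by rw [D.log_self, norm_zero]
  dist_comm p q := D.norm_log_comm (pt D p) (pt D q)
  dist_triangle p q r := D.norm_log_triangle (pt D p) (pt D q) (pt D r)
  eq_of_dist_eq_zero h := D.eq_of_norm_log_eq_zero h

theorem dist_def (p q : XS D) : dist p q = ‖D.log (pt D p) (pt D q)‖ := rfl

theorem dist_of (p q : S) : dist (of D p) (of D q) = ‖D.log p q‖ := rfl

theorem ambient_dist_le (p q : XS D) : dist (pt D p) (pt D q) ≤ dist p q :=
  D.dist_le_norm_log _ _

theorem continuous_pt : Continuous (pt D) :=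
  LipschitzWith.continuous (K := 1) (LipschitzWith.of_dist_le_mul fun p q => by
    simpa using ambient_dist_le D p q)

theorem continuous_of : Continuous (of D) := by
  rw [continuous_iff_continuousAt]
  intro p
  rw [ContinuousAt, tendsto_iff_dist_tendsto_zero]
  have h1 : Tendsto (fun q => ‖D.log p q‖) (𝓝 p) (𝓝 ‖D.log p p‖) :=
    ((D.homeo p).symm.continuous.norm).continuousAt
  rw [D.log_self, norm_zero] at h1
  refine h1.congr fun q => ?_
  rw [dist_comm, dist_of]

/-- the identity is a homeomorphism -/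
def homeo : XS D ≃ₜ S where
  toFun := pt D
  invFun := of D
  left_inv _ := rfl
  right_inv _ := rfl
  continuous_toFun := continuous_pt D
  continuous_invFun := continuous_of D

instance : ProperSpace (XS D) := by
  refine ⟨fun p r => ?_⟩
  have h : Metric.closedBall p r =
      (fun v => of D (D.homeo (pt D p) v)) '' Metric.closedBall (0 : Euc n) r := by
    ext q
    rw [Metric.mem_closedBall, dist_comm, dist_def]
    constructor
    · intro hq
      exact ⟨D.log (pt D p) (pt D q), by simpa using hq,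
        congrArg (of D) (D.homeo_log (pt D p) (pt D q))⟩
    · rintro ⟨v, hv, rfl⟩
      have : pt D (of D (D.homeo (pt D p) v)) = D.homeo (pt D p) v := rfl
      rw [this, D.log_homeo]
      simpa using hv
  rw [h]
  exact (isCompact_closedBall _ _).image ((continuous_of D).comp (D.homeo _).continuous)




/-- a curve in `S` which is Lipschitz for the ambient metric is Lipschitz for the intrinsic
metric with the same constant -/
theorem lipschitz_of_lipschitz {L : ℝ≥0} {c : ℝ → S} {a b : ℝ}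
    (hc : LipschitzOnWith L c (Icc a b)) :
    LipschitzOnWith L (fun t => of D (c t)) (Icc a b) := by
  have key : ∀ s ∈ Icc a b, ∀ t ∈ Icc a b, s ≤ t →
      dist (of D (c s)) (of D (c t)) ≤ L * dist s t := by
    intro s hs t ht hst
    have := D.norm_log_sub_le (p := c s) hst (hc.mono (Icc_subset_Icc hs.1 ht.2))
    rw [D.log_self, sub_zero] at this
    rw [dist_of, Real.dist_eq, abs_sub_comm, abs_of_nonneg (by linarith)]
    exact this
  refine LipschitzOnWith.of_dist_le_mul fun s hs t ht => ?_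
  rcases le_total s t with h | h
  · exact key s hs t ht h
  · rw [dist_comm, dist_comm s t]
    exact key t ht s hs h


/-- locally, the intrinsic distance is at most `C > 1` times the ambient distance -/
theorem eventually_dist_le (x : S) {C : ℝ} (hC : 1 < C) :
    ∀ᶠ q in 𝓝 (x, x), dist (of D (q : S × S).1) (of D q.2) ≤ C * dist q.1 q.2 := by
  -- `ε` with `(1 + ε) / (1 - ε) ≤ C`
  obtain ⟨ε, hε, hε1, hεC⟩ : ∃ ε : ℝ, 0 < ε ∧ ε < 1 ∧ 1 + ε ≤ C * (1 - ε) := by
    refine ⟨(C - 1) / (C + 1), by apply div_pos <;> linarith, ?_, ?_⟩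
    · rw [div_lt_one (by linarith)]; linarith
    · have : (C + 1) ≠ 0 := by linarith
      apply le_of_eq
      field_simp
      ring
  have hd := (D.contDiff x).contDiffAt (x := (0 : Euc n)) |>.hasStrictFDerivAt (n := ∞) (by simp)
  have hcont : Continuous (fderiv ℝ (D.Φ x)) := (D.contDiff x).continuous_fderiv (by simp)
  obtain ⟨r, hr, hr'⟩ := Metric.continuousAt_iff.1 (hcont.continuousAt (x := (0 : Euc n))) ε hε
  have hlog : Tendsto (fun q : S × S => (D.log x q.1, D.log x q.2)) (𝓝 (x, x)) (𝓝 (0, 0)) := by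
    have hc : Continuous fun q : S × S => (D.log x q.1, D.log x q.2) :=
      ((D.homeo x).symm.continuous.comp continuous_fst).prodMk
        ((D.homeo x).symm.continuous.comp continuous_snd)
    have := hc.tendsto (x, x)
    simpa using this
  have hball : ∀ᶠ z in 𝓝 ((0 : Euc n), (0 : Euc n)), z.1 ∈ Metric.ball (0 : Euc n) r ∧
      z.2 ∈ Metric.ball (0 : Euc n) r := by
    have h1 : Metric.ball (0 : Euc n) r ×ˢ Metric.ball (0 : Euc n) r ∈
        𝓝 ((0 : Euc n), (0 : Euc n)) :=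
      prod_mem_nhds (Metric.ball_mem_nhds _ hr) (Metric.ball_mem_nhds _ hr)
    exact h1
  filter_upwards [hlog.eventually (hd.isLittleO.def hε), hlog.eventually hball] with q hq hqr
  set a := D.log x q.1 with ha
  set b := D.log x q.2 with hb
  set A := fderiv ℝ (D.Φ x) 0 with hA
  have hqa : D.homeo x a = q.1 := D.homeo_log x q.1
  have hqb : D.homeo x b = q.2 := D.homeo_log x q.2
  have hAab : ‖a - b‖ ≤ ‖A (a - b)‖ := D.expand x 0 (a - b)
  -- lower bound for the ambient distance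
  have h1 : (1 - ε) * ‖A (a - b)‖ ≤ dist q.1 q.2 := by
    rw [← hqa, ← hqb, Subtype.dist_eq, D.homeo_coe, D.homeo_coe, dist_eq_norm]
    have h2 : ‖A (a - b)‖ ≤ ‖D.Φ x a - D.Φ x b‖ + ‖D.Φ x a - D.Φ x b - A (a - b)‖ := by
      calc ‖A (a - b)‖ = ‖(D.Φ x a - D.Φ x b) - (D.Φ x a - D.Φ x b - A (a - b))‖ := by
            congr 1; abel
        _ ≤ _ := norm_sub_le _ _
    nlinarith [norm_nonneg (A (a - b))]
  -- upper bound for the intrinsic distance
  have hK : 0 ≤ (1 + ε) * ‖A (a - b)‖ := by positivity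
  have h3 : LipschitzOnWith ⟨(1 + ε) * ‖A (a - b)‖, hK⟩
      (fun t : ℝ => D.homeo x (b + t • (a - b))) (Icc 0 1) := by
    refine LipschitzOnWith.of_dist_le_mul fun s hs t ht => ?_
    rw [Subtype.dist_eq, D.homeo_coe, D.homeo_coe]
    have h4 : ∀ r ∈ Icc (0 : ℝ) 1, HasDerivWithinAt (fun t : ℝ => D.Φ x (b + t • (a - b)))
        (fderiv ℝ (D.Φ x) (b + r • (a - b)) (a - b)) (Icc 0 1) r := by
      intro r _
      have hd : HasFDerivAt (D.Φ x) (fderiv ℝ (D.Φ x) (b + r • (a - b))) (b + r • (a - b)) :=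
        ((D.contDiff x).differentiable (by simp) _).hasFDerivAt
      have hl : HasDerivAt (fun t : ℝ => b + t • (a - b)) (a - b) r := by
        simpa using ((hasDerivAt_id r).smul_const (a - b)).const_add b
      exact (hd.comp_hasDerivAt r hl).hasDerivWithinAt
    have h5 : ∀ t ∈ Icc (0 : ℝ) 1,
        ‖fderiv ℝ (D.Φ x) (b + t • (a - b)) (a - b)‖ ≤ (1 + ε) * ‖A (a - b)‖ := by
      intro t ht
      have hmem : b + t • (a - b) ∈ Metric.ball (0 : Euc n) r :=
        (convex_ball (0 : Euc n) r).add_smul_sub_mem hqr.2 hqr.1 ht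
      have h6 := hr' hmem
      rw [dist_eq_norm] at h6
      calc ‖fderiv ℝ (D.Φ x) (b + t • (a - b)) (a - b)‖
          = ‖A (a - b) + (fderiv ℝ (D.Φ x) (b + t • (a - b)) - A) (a - b)‖ := by
            simp
        _ ≤ ‖A (a - b)‖ + ‖(fderiv ℝ (D.Φ x) (b + t • (a - b)) - A) (a - b)‖ := norm_add_le _ _
        _ ≤ ‖A (a - b)‖ + ε * ‖a - b‖ := by
            gcongr
            exact (ContinuousLinearMap.le_opNorm _ _).trans (by gcongr)
        _ ≤ ‖A (a - b)‖ + ε * ‖A (a - b)‖ := by gcongr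
        _ = _ := by ring
    have := (convex_Icc (0 : ℝ) 1).norm_image_sub_le_of_norm_hasDerivWithin_le h4 h5 ht hs
    rw [dist_eq_norm, dist_eq_norm]
    exact this
  have h6 := (lipschitz_of_lipschitz D h3).dist_le_mul 1 (by simp) 0 (by simp)
  simp only [one_smul, add_sub_cancel, zero_smul, add_zero, hqa, hqb] at h6
  have h7 : dist (of D q.1) (of D q.2) ≤ (1 + ε) * ‖A (a - b)‖ := by
    refine h6.trans (le_of_eq ?_)
    rw [Real.dist_eq, sub_zero, abs_one, mul_one]
    rfl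
  calc dist (of D q.1) (of D q.2) ≤ (1 + ε) * ‖A (a - b)‖ := h7
    _ ≤ (C * (1 - ε)) * ‖A (a - b)‖ := by gcongr
    _ = C * ((1 - ε) * ‖A (a - b)‖) := by ring
    _ ≤ C * dist q.1 q.2 := by
        apply mul_le_mul_of_nonneg_left h1; linarith

end XS

end Crest.Agent.R241.D4Met
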