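import Mathlib
import Crest.Agent.R241.D4Met

/-!
# R241, block D4, part 5 (helper816): arc length, smoothness of the logarithm

* `XS.dist_le_integral` : `dist (γ a) (γ b) ≤ ∫ ‖γ'‖` for C¹ curves in `S`.
* `exists_local_inverse` : smooth local inverse (defined in the ambient space) of an expanding map.
* `ExpData.exists_log_ext`, `ExpData.contDiffAt_log_comp` : `log p` is smooth on `S`.
-/

set_option autoImplicit false

open Set Filter Topology MeasureTheory
open scoped ContDiff NNReal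
open Crest.GeometryTopology.Submanifold

namespace Crest.Agent.R241.D4Arc

open D4Lift D4Top D4Loc D4Met

variable {n N : ℕ} {S : Set (Euc N)}

/-- smooth local inverse of an expanding map into a submanifold, defined on the ambient space -/
theorem exists_local_inverse (hS : IsSubmanifold n N S) {Φ : Euc n → Euc N}
    (hΦ : ContDiff ℝ ∞ Φ) (hmem : ∀ v, Φ v ∈ S) (hexp : ∀ v w, ‖w‖ ≤ ‖fderiv ℝ Φ v w‖)
    (v₀ : Euc n) :
    ∃ R : Euc N → Euc n, ContDiffAt ℝ ∞ R (Φ v₀) ∧ ∀ᶠ v in 𝓝 v₀, R (Φ v) = v := by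
  obtain ⟨f, V, W, U, ρ, e, h, hWV, h0W, hf0, hU, hqU, hfW, hes, het, hef, heρ, hρ, hρc, hρd⟩ :=
    exists_chartHomeo hS ⟨Φ v₀, hmem v₀⟩
  simp only at hqU hf0 hρd h
  have hhd : ContDiffAt ℝ ∞ (ρ ∘ Φ) v₀ := ContDiffAt.comp v₀ hρd hΦ.contDiffAt
  have hΦU : ∀ᶠ v in 𝓝 v₀, Φ v ∈ U := hΦ.continuous.continuousAt.preimage_mem_nhds
    (hU.mem_nhds hqU)
  have hfr : ∀ v, Φ v ∈ U → ρ (Φ v) ∈ W ∧ f (ρ (Φ v)) = Φ v := fun v hv => by
    have : Φ v ∈ f '' W := by rw [hfW]; exact ⟨hmem v, hv⟩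
    obtain ⟨x, hx, hxy⟩ := this
    rw [← hxy, hρ x hx]
    exact ⟨hx, rfl⟩
  have hρ0 : ρ (Φ v₀) = 0 := by rw [← hf0]; exact hρ 0 h0W
  have hfd : ContDiffAt ℝ ∞ f 0 := h.contDiffOn.contDiffAt (h.isOpen.mem_nhds h.zero_mem)
  have hcomp : fderiv ℝ Φ v₀ = (fderiv ℝ f 0).comp (fderiv ℝ (ρ ∘ Φ) v₀) := by
    have h1 : Φ =ᶠ[𝓝 v₀] f ∘ (ρ ∘ Φ) := hΦU.mono fun v hv => ((hfr v hv).2).symm
    rw [h1.fderiv_eq, fderiv_comp]
    · simp [hρ0]
    · have : (ρ ∘ Φ) v₀ = 0 := hρ0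
      rw [this]
      exact hfd.differentiableAt (by simp)
    · exact hhd.differentiableAt (by simp)
  have hinj : Function.Injective (fderiv ℝ (ρ ∘ Φ) v₀) := by
    rw [injective_iff_map_eq_zero]
    intro w hw
    have h1 := hexp v₀ w
    rw [hcomp] at h1
    simp only [ContinuousLinearMap.comp_apply, hw, map_zero, norm_zero] at h1
    exact norm_le_zero_iff.1 h1
  let L : Euc n ≃L[ℝ] Euc n :=
    (LinearEquiv.ofInjectiveEndo (fderiv ℝ (ρ ∘ Φ) v₀).toLinearMap
      hinj).toContinuousLinearEquiv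
  have hL : HasFDerivAt (ρ ∘ Φ) (L : Euc n →L[ℝ] Euc n) v₀ := by
    have h2 : (L : Euc n →L[ℝ] Euc n) = fderiv ℝ (ρ ∘ Φ) v₀ := ContinuousLinearMap.ext fun v => rfl
    rw [h2]
    exact (hhd.differentiableAt (by simp)).hasFDerivAt
  have hn0 : (∞ : WithTop ℕ∞) ≠ 0 := by simp
  set G := hhd.toOpenPartialHomeomorph (ρ ∘ Φ) hL hn0 with hG
  have h0G : v₀ ∈ G.source := hhd.mem_toOpenPartialHomeomorph_source hL hn0
  refine ⟨fun y => G.symm (ρ y), ?_, ?_⟩
  · have : ContDiffAt ℝ ∞ G.symm ((ρ ∘ Φ) v₀) := hhd.to_localInverse hL hn0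
    exact ContDiffAt.comp (Φ v₀) this hρd
  · filter_upwards [G.open_source.mem_nhds h0G] with v hv
    exact G.left_inv hv

end Crest.Agent.R241.D4Arc

namespace Crest.Agent.R241.D4Met

open D4Arc

variable {n N : ℕ} {S : Set (Euc N)}

namespace ExpData

variable (D : ExpData n N S)

/-- `log p` is, near each point of `S`, the restriction of a smooth map of the ambient space. -/
theorem exists_log_ext (p q : S) :
    ∃ R : Euc N → Euc n, ContDiffAt ℝ ∞ R q ∧ ∀ᶠ y in 𝓝 q, R (y : S) = D.log p y := by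
  obtain ⟨R, hR, hR'⟩ := exists_local_inverse D.sub (D.contDiff p) (D.mem p) (D.expand p)
    (D.log p q)
  have hq : D.Φ p (D.log p q) = q := by rw [← D.homeo_coe, D.homeo_log]
  rw [hq] at hR
  refine ⟨R, hR, ?_⟩
  have hc : Tendsto (fun y => D.log p y) (𝓝 q) (𝓝 (D.log p q)) :=
    ((D.homeo p).symm.continuous).continuousAt
  filter_upwards [hc.eventually hR'] with y hy
  rw [← D.homeo_coe, D.homeo_log] at hy
  exact hy

theorem contDiffAt_log_comp {F : Type*} [NormedAddCommGroup F] [NormedSpace ℝ F] (p : S)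
    {α : F → S} {s₀ : F} (hα : ContDiffAt ℝ ∞ (fun s => (α s : Euc N)) s₀) :
    ContDiffAt ℝ ∞ (fun s => D.log p (α s)) s₀ := by
  obtain ⟨R, hR, hR'⟩ := D.exists_log_ext p (α s₀)
  have hc : Tendsto α (𝓝 s₀) (𝓝 (α s₀)) := by
    rw [tendsto_subtype_rng]
    exact hα.continuousAt
  refine (ContDiffAt.comp s₀ hR hα).congr_of_eventuallyEq ?_
  filter_upwards [hc.eventually hR'] with s hs
  exact hs.symm

theorem contDiff_log_comp {F : Type*} [NormedAddCommGroup F] [NormedSpace ℝ F] (p : S)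
    {α : F → S} (hα : ContDiff ℝ ∞ (fun s => (α s : Euc N))) :
    ContDiff ℝ ∞ (fun s => D.log p (α s)) :=
  contDiff_iff_contDiffAt.2 fun _ => D.contDiffAt_log_comp p hα.contDiffAt

/-- transition maps between exponential charts are smooth -/
theorem contDiff_log_homeo (p q : S) : ContDiff ℝ ∞ (fun v => D.log p (D.homeo q v)) :=
  D.contDiff_log_comp p (α := fun v => D.homeo q v) (by
    have : (fun v => (D.homeo q v : Euc N)) = D.Φ q := funext fun v => D.homeo_coe q v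
    rw [this]
    exact D.contDiff q)

end ExpData

namespace XS

variable (D : ExpData n N S)




end XS

end Crest.Agent.R241.D4Met
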