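import Crest.Agent.R241.DDefs

/-!
R241, block D2: the geodesic flow of a closed submanifold (from the interface `Geo`).
-/

set_option autoImplicit false

open Set Filter Topology
open scoped ContDiff RealInnerProductSpace
open Crest.GeometryTopology.Submanifold
open Crest.Agent.R241.DDefs
open Crest.Agent.Lib.ODEFlow

noncomputable section

namespace Crest.Agent.R241.D2

section aux

variable {E F : Type*} [NormedAddCommGroup E] [NormedSpace ℝ E]
  [NormedAddCommGroup F] [NormedSpace ℝ F]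

lemma hda_fst {f : ℝ → E × F} {f' : E × F} {t : ℝ} (h : HasDerivAt f f' t) :
    HasDerivAt (fun s => (f s).1) f'.1 t :=
  (hasFDerivAt_fst (𝕜 := ℝ) (p := f t)).comp_hasDerivAt t h

lemma hda_snd {f : ℝ → E × F} {f' : E × F} {t : ℝ} (h : HasDerivAt f f' t) :
    HasDerivAt (fun s => (f s).2) f'.2 t :=
  (hasFDerivAt_snd (𝕜 := ℝ) (p := f t)).comp_hasDerivAt t h

end aux

variable {n N : ℕ} {κ : ℝ} {S : Set (Euc N)} (G : Geo n N κ S)

/-- Second fundamental form (for `x ∈ S`, `v, w ∈ T x`). -/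
def II (x v w : Euc N) : Euc N := fderiv ℝ G.P x v w

lemma differentiable_P : Differentiable ℝ G.P := G.contDiff_P.differentiable (by simp)

lemma P_mem {x v : Euc N} (hx : x ∈ S) : G.P x v ∈ G.T x := by
  rw [G.P_eq x hx]; exact Submodule.starProjection_apply_mem _ _

lemma P_eq_self {x v : Euc N} (hx : x ∈ S) : v ∈ G.T x ↔ G.P x v = v := by
  rw [G.P_eq x hx]; exact (Submodule.starProjection_eq_self_iff).symm

lemma P_idem {x : Euc N} (hx : x ∈ S) (v : Euc N) : G.P x (G.P x v) = G.P x v :=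
  (P_eq_self G hx).1 (P_mem G hx)

lemma inner_P_left {x : Euc N} (hx : x ∈ S) (v w : Euc N) :
    ⟪G.P x v, w⟫ = ⟪v, G.P x w⟫ := by
  rw [G.P_eq x hx]
  exact Submodule.inner_starProjection_left_eq_right _ _ _

lemma P_eq_zero {x v : Euc N} (hx : x ∈ S) : v ∈ (G.T x)ᗮ ↔ G.P x v = 0 := by
  rw [G.P_eq x hx]
  exact (Submodule.starProjection_apply_eq_zero_iff (G.T x)).symm

/-- every tangent vector is the velocity of a curve in `S`. -/
lemma exists_curve {x v : Euc N} (hx : x ∈ S) (hv : v ∈ G.T x) :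
    ∃ c : ℝ → Euc N, c 0 = x ∧ HasDerivAt c v 0 ∧ ∀ᶠ t in 𝓝 (0 : ℝ), c t ∈ S := by
  obtain ⟨c, c', h0, h0', h⟩ := G.exists_geod x hx v hv
  refine ⟨c, h0, ?_, h.mono fun t ht => ht.1⟩
  have := h.self_of_nhds.2.1
  rwa [h0'] at this

lemma II_normal {x v w : Euc N} (hx : x ∈ S) (hv : v ∈ G.T x) (hw : w ∈ G.T x) :
    G.P x (II G x v w) = 0 := by
  obtain ⟨c, h0, hc, hS⟩ := exists_curve G hx hv
  -- differentiate `P (c t) (P (c t) w) = P (c t) w`
  have hP : HasDerivAt (fun t => G.P (c t)) (fderiv ℝ G.P x v) 0 := by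
    have := ((differentiable_P G) (c 0)).hasFDerivAt.comp_hasDerivAt (0 : ℝ) hc
    rwa [h0] at this
  have h1 : HasDerivAt (fun t => G.P (c t) w) (fderiv ℝ G.P x v w) 0 := by
    simpa using hP.clm_apply (hasDerivAt_const (0 : ℝ) w)
  have h2 := hP.clm_apply h1
  have h3 : (fun t => G.P (c t) (G.P (c t) w)) =ᶠ[𝓝 0] fun t => G.P (c t) w := by
    filter_upwards [hS] with t ht
    exact P_idem G ht w
  have h4 := (h2.congr_of_eventuallyEq h3.symm).unique h1
  rw [h0, (P_eq_self G hx).1 hw] at h4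
  unfold II
  simpa using h4

lemma inner_II {x v w u : Euc N} (hx : x ∈ S) (hv : v ∈ G.T x) (hw : w ∈ G.T x)
    (hu : u ∈ G.T x) : ⟪II G x v w, u⟫ = 0 := by
  have := II_normal G hx hv hw
  rw [← (P_eq_self G hx).1 hu, ← inner_P_left G hx, this, inner_zero_left]

/-- the geodesic vector field on `ℝ^N × ℝ^N`. -/
def X (q : Euc N × Euc N) : Euc N × Euc N := (q.2, fderiv ℝ G.P q.1 q.2 q.2)

lemma contDiff_X : ContDiff ℝ ∞ (X G) := by
  have h1 : ContDiff ℝ ∞ (fderiv ℝ G.P) := G.contDiff_P.fderiv_right (by simp)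
  have h2 : ContDiff ℝ ∞ (fun q : Euc N × Euc N => fderiv ℝ G.P q.1) := h1.comp contDiff_fst
  exact contDiff_snd.prodMk ((h2.clm_apply contDiff_snd).clm_apply contDiff_snd)

lemma hX1 : ContDiffOn ℝ 1 (X G) univ := ((contDiff_X G).of_le (by simp)).contDiffOn

/-- tangent bundle of `S` as a subset of `ℝ^N × ℝ^N`. -/
def TS : Set (Euc N × Euc N) := {q | q.1 ∈ S ∧ q.2 ∈ G.T q.1}

lemma mem_TS {q : Euc N × Euc N} : q ∈ TS G ↔ q.1 ∈ S ∧ q.2 ∈ G.T q.1 := Iff.rfl

lemma isClosed_TS : IsClosed (TS G) := by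
  have : TS G = {q | q.1 ∈ S} ∩ {q | G.P q.1 q.2 = q.2} := by
    ext q
    constructor
    · rintro ⟨h1, h2⟩
      exact ⟨h1, (P_eq_self G h1).1 h2⟩
    · rintro ⟨h1, h2⟩
      exact ⟨h1, (P_eq_self G h1).2 h2⟩
  rw [this]
  refine (G.isClosed.preimage continuous_fst).inter (isClosed_eq ?_ continuous_snd)
  exact (G.contDiff_P.continuous.comp continuous_fst).clm_apply continuous_snd

/-- the geodesic flow -/
def fl (q : (Euc N × Euc N) × ℝ) : Euc N × Euc N := flow (X G) univ q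

/-- its (open) domain -/
def fd : Set ((Euc N × Euc N) × ℝ) := dom (X G) univ

lemma isOpen_fd : IsOpen (fd G) := isOpen_dom isOpen_univ (hX1 G)

lemma contDiffOn_fl : ContDiffOn ℝ ∞ (fl G) (fd G) :=
  contDiffOn_flow (n := ⊤) (by simp) isOpen_univ (contDiff_X G).contDiffOn

lemma contDiffAt_fl {q : (Euc N × Euc N) × ℝ} (h : q ∈ fd G) : ContDiffAt ℝ ∞ (fl G) q :=
  (contDiffOn_fl G).contDiffAt ((isOpen_fd G).mem_nhds h)

lemma fl_zero (q : Euc N × Euc N) : fl G (q, 0) = q :=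
  flow_zero isOpen_univ (hX1 G) (mem_univ _)


lemma hasDerivAt_fl {q : Euc N × Euc N} {t : ℝ} (h : (q, t) ∈ fd G) :
    HasDerivAt (fun s => fl G (q, s)) (X G (fl G (q, t))) t :=
  hasDerivAt_flow isOpen_univ (hX1 G) h

lemma fl_add {q : Euc N × Euc N} {s t : ℝ} (h1 : (q, s) ∈ fd G) (h2 : (fl G (q, s), t) ∈ fd G) :
    (q, s + t) ∈ fd G ∧ fl G (q, s + t) = fl G (fl G (q, s), t) :=
  flow_add isOpen_univ (hX1 G) h1 h2

lemma fl_of_curve {c : ℝ → Euc N × Euc N} {q : Euc N × Euc N} {l : ℝ} (h0 : c 0 = q)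
    (hc : ∀ s ∈ uIcc 0 l, HasDerivAt c (X G (c s)) s) :
    (q, l) ∈ fd G ∧ fl G (q, l) = c l :=
  flow_of_integralCurve' isOpen_univ (hX1 G) h0 (fun _ _ => mem_univ _) hc

lemma mem_fd_of_uIcc {q : Euc N × Euc N} {l s : ℝ} (h : (q, l) ∈ fd G) (hs : s ∈ uIcc 0 l) :
    (q, s) ∈ fd G := mem_dom_of_uIcc h hs

/-- local invariance of the tangent bundle -/
lemma local_invariance {q : Euc N × Euc N} (hq : q ∈ TS G) :
    ∀ᶠ t in 𝓝 (0 : ℝ), (q, t) ∈ fd G ∧ fl G (q, t) ∈ TS G := by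
  obtain ⟨c, c', h0, h0', h⟩ := G.exists_geod q.1 hq.1 q.2 hq.2
  obtain ⟨ε, hε, hb⟩ := Metric.eventually_nhds_iff_ball.1 h
  have hball : ∀ t ∈ Metric.ball (0 : ℝ) ε, ∀ s ∈ uIcc 0 t, s ∈ Metric.ball (0 : ℝ) ε := by
    intro t ht s hs
    rw [Metric.mem_ball, dist_zero_right, Real.norm_eq_abs] at ht ⊢
    refine lt_of_le_of_lt ?_ ht
    have := Set.abs_sub_left_of_mem_uIcc hs
    simpa using this
  filter_upwards [Metric.ball_mem_nhds (0 : ℝ) hε] with t ht
  have h1 := fl_of_curve G (c := fun s => (c s, c' s)) (q := q) (l := t)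
    (Prod.ext (by simpa using h0) (by simpa using h0'))
    (fun s hs => by
      have h2 := hb s (hball t ht s hs)
      exact h2.2.1.prodMk h2.2.2)
  refine ⟨h1.1, ?_⟩
  rw [h1.2]
  refine ⟨(hb t ht).1, ?_⟩
  have hev : ∀ᶠ s in 𝓝 t, c s ∈ S := by
    filter_upwards [Metric.isOpen_ball.mem_nhds ht] with s hs
    exact (hb s hs).1
  exact G.deriv_mem c (c' t) t hev (hb t ht).2.1

/-- reversal of geodesics -/
def rev (q : Euc N × Euc N) : Euc N × Euc N := (q.1, -q.2)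

omit G in
lemma rev_rev (q : Euc N × Euc N) : rev (rev q) = q := by simp [rev]

lemma rev_mem {q : Euc N × Euc N} (hq : q ∈ TS G) : rev q ∈ TS G :=
  ⟨hq.1, (G.T q.1).neg_mem hq.2⟩

lemma X_rev (q : Euc N × Euc N) : X G (rev q) = -rev (X G q) := by
  simp [X, rev]

lemma fl_rev {q : Euc N × Euc N} {t : ℝ} (h : (q, t) ∈ fd G) :
    (rev q, -t) ∈ fd G ∧ fl G (rev q, -t) = rev (fl G (q, t)) := by
  have h1 := fl_of_curve G (c := fun s => rev (fl G (q, -s))) (q := rev q) (l := -t)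
    (by simp [fl_zero]) (fun s hs => by
      have hs' : -s ∈ uIcc 0 t := by
        rw [mem_uIcc] at hs ⊢
        rcases hs with h | h
        · exact Or.inr ⟨by linarith, by linarith⟩
        · exact Or.inl ⟨by linarith, by linarith⟩
      have h2 := (hasDerivAt_fl G (mem_fd_of_uIcc G h hs')).scomp s (hasDerivAt_neg s)
      have h3 : HasDerivAt (fun s => fl G (q, -s)) (-(X G (fl G (q, -s)))) s := by
        simpa [Function.comp_def] using h2
      have h4 := hda_fst h3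
      have h5 := hda_snd h3
      have h6 : HasDerivAt (fun s => rev (fl G (q, -s)))
          ((-(X G (fl G (q, -s)))).1, -((-(X G (fl G (q, -s)))).2)) s := h4.prodMk h5.neg
      convert h6 using 1
      rw [X_rev]
      simp [rev])
  refine ⟨h1.1, ?_⟩
  rw [h1.2]
  simp

/-- invariance of the tangent bundle, forward times -/
lemma invariance_nonneg {q : Euc N × Euc N} (hq : q ∈ TS G) {t : ℝ} (ht : 0 ≤ t)
    (h : (q, t) ∈ fd G) : fl G (q, t) ∈ TS G := by
  have hmem : ∀ s ∈ Icc 0 t, (q, s) ∈ fd G := fun s hs =>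
    mem_fd_of_uIcc G h (by rwa [uIcc_of_le ht])
  have hcont : ContinuousOn (fun s => fl G (q, s)) (Icc 0 t) := fun s hs =>
    (hasDerivAt_fl G (hmem s hs)).continuousAt.continuousWithinAt
  have key : Icc 0 t ⊆ {s | s ∈ Icc 0 t → fl G (q, s) ∈ TS G} := by
    apply IsClosed.Icc_subset_of_forall_mem_nhdsWithin
    · have h1 : {s | s ∈ Icc 0 t → fl G (q, s) ∈ TS G} ∩ Icc 0 t =
          Icc 0 t ∩ (fun s => fl G (q, s)) ⁻¹' (TS G) := by
        ext s
        constructor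
        · rintro ⟨h1, h2⟩; exact ⟨h2, h1 h2⟩
        · rintro ⟨h1, h2⟩; exact ⟨fun _ => h2, h1⟩
      rw [h1]
      exact hcont.preimage_isClosed_of_isClosed isClosed_Icc (isClosed_TS G)
    · intro _
      rw [fl_zero]; exact hq
    · rintro s ⟨h1, h2⟩
      have hs : s ∈ Icc 0 t := ⟨h2.1, h2.2.le⟩
      have h3 := local_invariance G (h1 hs)
      have h4 : Tendsto (fun r : ℝ => r - s) (𝓝 s) (𝓝 0) := by
        have : Tendsto (fun r : ℝ => r - s) (𝓝 s) (𝓝 (s - s)) :=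
          (continuous_id.sub continuous_const).tendsto s
        simpa using this
      have h5 := h4.eventually h3
      refine nhdsWithin_le_nhds ?_
      filter_upwards [h5] with r hr _
      have h6 := (fl_add G (hmem s hs) hr.1).2
      rw [add_sub_cancel] at h6
      rw [h6]
      exact hr.2
  exact key ⟨ht, le_rfl⟩ ⟨ht, le_rfl⟩

/-- invariance of the tangent bundle -/
theorem invariance {q : Euc N × Euc N} (hq : q ∈ TS G) {t : ℝ}
    (h : (q, t) ∈ fd G) : fl G (q, t) ∈ TS G := by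
  rcases le_total 0 t with ht | ht
  · exact invariance_nonneg G hq ht h
  · have h1 := fl_rev G h
    have h2 := invariance_nonneg G (rev_mem G hq) (neg_nonneg.2 ht) h1.1
    rw [h1.2] at h2
    have := rev_mem G h2
    rwa [rev_rev] at this

lemma norm_snd_nonneg {q : Euc N × Euc N} (hq : q ∈ TS G) {t : ℝ} (ht : 0 ≤ t)
    (h : (q, t) ∈ fd G) : ‖(fl G (q, t)).2‖ = ‖q.2‖ := by
  have hmem : ∀ s ∈ Icc 0 t, (q, s) ∈ fd G := fun s hs =>
    mem_fd_of_uIcc G h (by rwa [uIcc_of_le ht])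
  have hder : ∀ s ∈ Icc 0 t, HasDerivAt (fun s => ‖(fl G (q, s)).2‖ ^ 2) 0 s := by
    intro s hs
    have h1 := hda_snd (hasDerivAt_fl G (hmem s hs))
    have h2 := h1.norm_sq
    have h3 := invariance G hq (hmem s hs)
    have h4 : ⟪(fl G (q, s)).2, (X G (fl G (q, s))).2⟫ = 0 := by
      rw [real_inner_comm]
      exact inner_II G h3.1 h3.2 h3.2 h3.2
    rw [h4, mul_zero] at h2
    exact h2
  have hconst := constant_of_has_deriv_right_zero
    (fun s hs => (hder s hs).continuousAt.continuousWithinAt)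
    (fun s hs => (hder s ⟨hs.1, hs.2.le⟩).hasDerivWithinAt) t ⟨ht, le_rfl⟩
  rw [fl_zero] at hconst
  have := (sq_eq_sq₀ (norm_nonneg _) (norm_nonneg _)).1 hconst
  exact this

lemma norm_snd {q : Euc N × Euc N} (hq : q ∈ TS G) {t : ℝ}
    (h : (q, t) ∈ fd G) : ‖(fl G (q, t)).2‖ = ‖q.2‖ := by
  rcases le_total 0 t with ht | ht
  · exact norm_snd_nonneg G hq ht h
  · have h1 := fl_rev G h
    have h2 := norm_snd_nonneg G (rev_mem G hq) (neg_nonneg.2 ht) h1.1
    rw [h1.2] at h2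
    simpa [rev] using h2

lemma complete_nonneg {q : Euc N × Euc N} (hq : q ∈ TS G) {t : ℝ} (ht : 0 ≤ t) :
    (q, t) ∈ fd G := by
  refine mem_dom_of_compact isOpen_univ (hX1 G)
    (K := Metric.closedBall (q.1) (‖q.2‖ * t) ×ˢ Metric.closedBall (0 : Euc N) ‖q.2‖)
    ((isCompact_closedBall _ _).prod (isCompact_closedBall _ _)) (subset_univ _)
    (mem_univ _) ?_ ht
  intro s hs hsd
  have hmem : ∀ r ∈ Icc 0 s, (q, r) ∈ fd G := fun r hr =>
    mem_fd_of_uIcc G hsd (by rwa [uIcc_of_le hs.1])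
  have hnorm := norm_snd G hq hsd
  constructor
  · have h1 : ∀ r ∈ Icc 0 s, HasDerivWithinAt (fun r => (fl G (q, r)).1)
        ((fl G (q, r)).2) (Icc 0 s) r := fun r hr =>
      (hda_fst (hasDerivAt_fl G (hmem r hr))).hasDerivWithinAt
    have h2 := (convex_Icc (0 : ℝ) s).norm_image_sub_le_of_norm_hasDerivWithin_le h1
      (C := ‖q.2‖) (fun r hr => (norm_snd G hq (hmem r hr)).le)
      (x := 0) (y := s) ⟨le_rfl, hs.1⟩ ⟨hs.1, le_rfl⟩
    rw [fl_zero] at h2
    rw [Metric.mem_closedBall, dist_eq_norm]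
    refine h2.trans ?_
    rw [sub_zero, Real.norm_eq_abs, abs_of_nonneg hs.1]
    exact mul_le_mul_of_nonneg_left hs.2.le (norm_nonneg _)
  · rw [Metric.mem_closedBall, dist_zero_right]
    exact hnorm.le

/-- geodesics are defined for all times -/
theorem complete {q : Euc N × Euc N} (hq : q ∈ TS G) (t : ℝ) : (q, t) ∈ fd G := by
  rcases le_total 0 t with ht | ht
  · exact complete_nonneg G hq ht
  · have h1 := complete_nonneg G (rev_mem G hq) (neg_nonneg.2 ht)
    have h2 := (fl_rev G h1).1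
    rwa [rev_rev, neg_neg] at h2

lemma fl_mem {q : Euc N × Euc N} (hq : q ∈ TS G) (t : ℝ) : fl G (q, t) ∈ TS G :=
  invariance G hq (complete G hq t)

lemma norm_fl {q : Euc N × Euc N} (hq : q ∈ TS G) (t : ℝ) : ‖(fl G (q, t)).2‖ = ‖q.2‖ :=
  norm_snd G hq (complete G hq t)

lemma fl_add' {q : Euc N × Euc N} (hq : q ∈ TS G) (s t : ℝ) :
    fl G (q, s + t) = fl G (fl G (q, s), t) :=
  (fl_add G (complete G hq s) (complete G (fl_mem G hq s) t)).2

/-- scaling -/
lemma fl_scale {x v : Euc N} (hq : (x, v) ∈ TS G) (a t : ℝ) :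
    fl G ((x, a • v), t) = ((fl G ((x, v), a * t)).1, a • (fl G ((x, v), a * t)).2) := by
  have h1 := fl_of_curve G
    (c := fun s => ((fl G ((x, v), a * s)).1, a • (fl G ((x, v), a * s)).2))
    (q := (x, a • v)) (l := t) (by simp [fl_zero]) (fun s _ => by
      have h2 : HasDerivAt (fun s : ℝ => a * s) a s := by
        simpa using (hasDerivAt_id s).const_mul a
      have h3 := (hasDerivAt_fl G (complete G hq (a * s))).scomp s h2
      have h4 : HasDerivAt (fun s => (fl G ((x, v), a * s)).1) _ s := hda_fst h3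
      have h5 : HasDerivAt (fun s => a • (fl G ((x, v), a * s)).2) _ s :=
        (hda_snd h3).const_smul a
      have h6 : HasDerivAt
        (fun s => ((fl G ((x, v), a * s)).1, a • (fl G ((x, v), a * s)).2)) _ s := h4.prodMk h5
      refine h6.congr_deriv ?_
      simp [X, smul_smul])
  exact h1.2

/-- The exponential map. -/
def Exp (p v : Euc N) : Euc N := (fl G ((p, v), 1)).1

/-- The velocity at time one of the geodesic starting at `p` with velocity `v`. -/
def Vel (p v : Euc N) : Euc N := (fl G ((p, v), 1)).2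

lemma Exp_mem {p v : Euc N} (hp : p ∈ S) (hv : v ∈ G.T p) : Exp G p v ∈ S :=
  (fl_mem G (q := (p, v)) ⟨hp, hv⟩ 1).1

lemma Vel_mem {p v : Euc N} (hp : p ∈ S) (hv : v ∈ G.T p) : Vel G p v ∈ G.T (Exp G p v) :=
  (fl_mem G (q := (p, v)) ⟨hp, hv⟩ 1).2

lemma norm_Vel {p v : Euc N} (hp : p ∈ S) (hv : v ∈ G.T p) : ‖Vel G p v‖ = ‖v‖ :=
  norm_fl G (q := (p, v)) ⟨hp, hv⟩ 1

lemma Exp_smul {p v : Euc N} (hp : p ∈ S) (hv : v ∈ G.T p) (t : ℝ) :
    Exp G p (t • v) = (fl G ((p, v), t)).1 := by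
  unfold Exp
  rw [fl_scale G ⟨hp, hv⟩, mul_one]

lemma Vel_smul {p v : Euc N} (hp : p ∈ S) (hv : v ∈ G.T p) (t : ℝ) :
    Vel G p (t • v) = t • (fl G ((p, v), t)).2 := by
  unfold Vel
  rw [fl_scale G ⟨hp, hv⟩, mul_one]

lemma Exp_zero {p : Euc N} (hp : p ∈ S) : Exp G p 0 = p := by
  have := Exp_smul G hp (G.T p).zero_mem 0
  rw [smul_zero, fl_zero] at this
  exact this

/-- reversal: the geodesic from `Exp p v` with velocity `-Vel p v` comes back to `p`. -/
lemma Exp_neg_Vel {p v : Euc N} (hp : p ∈ S) (hv : v ∈ G.T p) :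
    Exp G (Exp G p v) (-Vel G p v) = p ∧ Vel G (Exp G p v) (-Vel G p v) = -v := by
  have hq : (p, v) ∈ TS G := ⟨hp, hv⟩
  have hq1 := fl_mem G hq 1
  have h1 : fl G (fl G ((p, v), 1), -1) = (p, v) := by
    rw [← fl_add' G hq 1 (-1)]
    simp [fl_zero]
  have h2 := (fl_rev G (complete G hq1 (-1))).2
  rw [neg_neg, h1] at h2
  have h3 : rev (fl G ((p, v), 1)) = (Exp G p v, -Vel G p v) := rfl
  rw [h3] at h2
  exact ⟨congrArg Prod.fst h2, congrArg Prod.snd h2⟩

/-- smoothness of the geodesic flow near the tangent bundle -/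
lemma contDiffAt_fl' {q : Euc N × Euc N} (hq : q ∈ TS G) (t : ℝ) :
    ContDiffAt ℝ ∞ (fl G) (q, t) := contDiffAt_fl G (complete G hq t)

lemma contDiffAt_Exp {p v : Euc N} (hp : p ∈ S) (hv : v ∈ G.T p) :
    ContDiffAt ℝ ∞ (fun q : Euc N × Euc N => Exp G q.1 q.2) (p, v) := by
  have h1 := contDiffAt_fl' G (q := (p, v)) ⟨hp, hv⟩ 1
  have h2 : ContDiffAt ℝ ∞ (fun q : Euc N × Euc N => ((q.1, q.2), (1 : ℝ))) (p, v) := by
    fun_prop
  exact (ContDiffAt.comp (p, v) h1 h2).fst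

lemma contDiffAt_Vel {p v : Euc N} (hp : p ∈ S) (hv : v ∈ G.T p) :
    ContDiffAt ℝ ∞ (fun q : Euc N × Euc N => Vel G q.1 q.2) (p, v) := by
  have h1 := contDiffAt_fl' G (q := (p, v)) ⟨hp, hv⟩ 1
  have h2 : ContDiffAt ℝ ∞ (fun q : Euc N × Euc N => ((q.1, q.2), (1 : ℝ))) (p, v) := by
    fun_prop
  exact (ContDiffAt.comp (p, v) h1 h2).snd

end Crest.Agent.R241.D2
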