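import Crest.Agent.R241.Defs
import Crest.Agent.R241.D2
import Crest.Agent.R241.EModel

-- ▼ part R241/D5a
section

/-!
R241 block D5 (helper475): ODE comparison, from the Hessian inequality along geodesics to the
`CAT(-k²)` inequality.
-/

set_option autoImplicit false
open Set Filter Topology

noncomputable section
namespace Crest.Agent.R241.D5

/-- Comparison for `f'' ≥ c`. -/
theorem comparison_flat {f f' f'' : ℝ → ℝ} {c : ℝ}
    (hf : ∀ s ∈ Icc (0 : ℝ) 1, HasDerivAt f (f' s) s)
    (hf' : ∀ s ∈ Icc (0 : ℝ) 1, HasDerivAt f' (f'' s) s)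
    (h : ∀ s ∈ Icc (0 : ℝ) 1, c ≤ f'' s) {s : ℝ} (hs : s ∈ Icc (0 : ℝ) 1) :
    f s ≤ (1 - s) * f 0 + s * f 1 - s * (1 - s) * c / 2 := by
  set g : ℝ → ℝ := fun s => f s - c * s ^ 2 / 2 with hg
  have hg1 : ∀ s ∈ Icc (0 : ℝ) 1, HasDerivAt g (f' s - c * s) s := by
    intro s hs
    have h1 : HasDerivAt (fun s : ℝ => c * s ^ 2 / 2) (c * s) s := by
      have := ((hasDerivAt_pow 2 s).const_mul c).div_const 2
      exact this.congr_deriv (by norm_num; ring)
    exact (hf s hs).sub h1
  have hg2 : ∀ s ∈ Icc (0 : ℝ) 1, HasDerivAt (fun s => f' s - c * s) (f'' s - c) s := by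
    intro s hs
    have h1 : HasDerivAt (fun s : ℝ => c * s) c s := by
      simpa using (hasDerivAt_id s).const_mul c
    exact (hf' s hs).sub h1
  have hmono : MonotoneOn (fun s => f' s - c * s) (Icc (0 : ℝ) 1) := by
    apply monotoneOn_of_deriv_nonneg (convex_Icc 0 1)
    · exact fun s hs => (hg2 s hs).continuousAt.continuousWithinAt
    · intro s hs
      rw [interior_Icc] at hs
      exact (hg2 s (Ioo_subset_Icc_self hs)).differentiableAt.differentiableWithinAt
    · intro s hs
      rw [interior_Icc] at hs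
      rw [(hg2 s (Ioo_subset_Icc_self hs)).deriv]
      linarith [h s (Ioo_subset_Icc_self hs)]
  have hconv : ConvexOn ℝ (Icc (0 : ℝ) 1) g := by
    apply MonotoneOn.convexOn_of_deriv (convex_Icc 0 1)
    · exact fun s hs => (hg1 s hs).continuousAt.continuousWithinAt
    · intro s hs
      rw [interior_Icc] at hs
      exact (hg1 s (Ioo_subset_Icc_self hs)).differentiableAt.differentiableWithinAt
    · intro a ha b hb hab
      rw [interior_Icc] at ha hb
      rw [(hg1 a (Ioo_subset_Icc_self ha)).deriv, (hg1 b (Ioo_subset_Icc_self hb)).deriv]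
      exact hmono (Ioo_subset_Icc_self ha) (Ioo_subset_Icc_self hb) hab
  have h3 := hconv.2 (left_mem_Icc.mpr zero_le_one : (0 : ℝ) ∈ Icc (0 : ℝ) 1)
    (right_mem_Icc.mpr zero_le_one : (1 : ℝ) ∈ Icc (0 : ℝ) 1)
    (show (0 : ℝ) ≤ 1 - s by linarith [hs.2]) hs.1 (by ring)
  simp only [smul_eq_mul, mul_zero, mul_one, zero_add, hg] at h3
  nlinarith [h3]

/-- Comparison for `F'' ≥ a² F`. -/
theorem comparison_hyp {F F' F'' : ℝ → ℝ} {a : ℝ} (ha : 0 ≤ a)
    (hF : ∀ s ∈ Icc (0 : ℝ) 1, HasDerivAt F (F' s) s)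
    (hF' : ∀ s ∈ Icc (0 : ℝ) 1, HasDerivAt F' (F'' s) s)
    (h : ∀ s ∈ Icc (0 : ℝ) 1, a ^ 2 * F s ≤ F'' s) {s : ℝ} (hs : s ∈ Icc (0 : ℝ) 1) :
    Real.sinh a * F s ≤ Real.sinh ((1 - s) * a) * F 0 + Real.sinh (s * a) * F 1 := by
  rcases ha.eq_or_lt with rfl | ha
  · simp
  -- the difference `G`
  have hsinh : 0 < Real.sinh a := Real.sinh_pos_iff.mpr ha
  set G : ℝ → ℝ := fun s => Real.sinh a * F s
    - (Real.sinh ((1 - s) * a) * F 0 + Real.sinh (s * a) * F 1) with hG
  set G' : ℝ → ℝ := fun s => Real.sinh a * F' s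
    - (-(a * Real.cosh ((1 - s) * a)) * F 0 + a * Real.cosh (s * a) * F 1) with hG'
  set G'' : ℝ → ℝ := fun s => Real.sinh a * F'' s
    - (a ^ 2 * Real.sinh ((1 - s) * a) * F 0 + a ^ 2 * Real.sinh (s * a) * F 1) with hG''
  have hl1 : ∀ s : ℝ, HasDerivAt (fun s : ℝ => (1 - s) * a) (-a) s := by
    intro s
    have := ((hasDerivAt_id s).const_sub 1).mul_const a
    simpa using this
  have hl2 : ∀ s : ℝ, HasDerivAt (fun s : ℝ => s * a) a s := by
    intro s
    simpa using (hasDerivAt_id s).mul_const a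
  have hd1 : ∀ s ∈ Icc (0 : ℝ) 1, HasDerivAt G (G' s) s := by
    intro s hs
    have h1 : HasDerivAt (fun s => Real.sinh ((1 - s) * a) * F 0)
        (-(a * Real.cosh ((1 - s) * a)) * F 0) s := by
      have := ((hl1 s).sinh).mul_const (F 0)
      exact this.congr_deriv (by ring)
    have h2 : HasDerivAt (fun s => Real.sinh (s * a) * F 1) (a * Real.cosh (s * a) * F 1) s := by
      have := ((hl2 s).sinh).mul_const (F 1)
      exact this.congr_deriv (by ring)
    exact ((hF s hs).const_mul (Real.sinh a)).sub (h1.add h2)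
  have hd2 : ∀ s ∈ Icc (0 : ℝ) 1, HasDerivAt G' (G'' s) s := by
    intro s hs
    have h1 : HasDerivAt (fun s => -(a * Real.cosh ((1 - s) * a)) * F 0)
        (a ^ 2 * Real.sinh ((1 - s) * a) * F 0) s := by
      have := (((hl1 s).cosh).const_mul a).neg.mul_const (F 0)
      exact this.congr_deriv (by ring)
    have h2 : HasDerivAt (fun s => a * Real.cosh (s * a) * F 1)
        (a ^ 2 * Real.sinh (s * a) * F 1) s := by
      have := (((hl2 s).cosh).const_mul a).mul_const (F 1)
      exact this.congr_deriv (by ring)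
    exact ((hF' s hs).const_mul (Real.sinh a)).sub (h1.add h2)
  have hGG : ∀ s ∈ Icc (0 : ℝ) 1, a ^ 2 * G s ≤ G'' s := by
    intro s hs
    have := mul_le_mul_of_nonneg_left (h s hs) hsinh.le
    simp only [hG, hG'']
    nlinarith [this]
  have hG0 : G 0 = 0 := by simp [hG]
  have hG1 : G 1 = 0 := by simp [hG]
  -- the Wronskian with `cosh (s a)`
  set w : ℝ → ℝ := fun s => G' s * Real.cosh (s * a) - G s * (a * Real.sinh (s * a)) with hw
  have hwd : ∀ s ∈ Icc (0 : ℝ) 1, HasDerivAt w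
      (G'' s * Real.cosh (s * a) - G s * (a * (a * Real.cosh (s * a)))) s := by
    intro s hs
    have h1 : HasDerivAt (fun s => Real.cosh (s * a)) (Real.sinh (s * a) * a) s := (hl2 s).cosh
    have h2 : HasDerivAt (fun s => a * Real.sinh (s * a)) (a * (Real.cosh (s * a) * a)) s :=
      ((hl2 s).sinh).const_mul a
    have h3 := ((hd2 s hs).mul h1).sub ((hd1 s hs).mul h2)
    exact h3.congr_deriv (by ring)
  have hwmono : MonotoneOn w (Icc (0 : ℝ) 1) := by
    apply monotoneOn_of_deriv_nonneg (convex_Icc 0 1)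
    · exact fun s hs => (hwd s hs).continuousAt.continuousWithinAt
    · intro s hs
      rw [interior_Icc] at hs
      exact (hwd s (Ioo_subset_Icc_self hs)).differentiableAt.differentiableWithinAt
    · intro s hs
      rw [interior_Icc] at hs
      have hs' := Ioo_subset_Icc_self hs
      rw [(hwd s hs').deriv]
      have := mul_le_mul_of_nonneg_right (hGG s hs') (Real.cosh_pos (s * a)).le
      nlinarith [this]
  have hud : ∀ s ∈ Icc (0 : ℝ) 1,
      HasDerivAt (fun s => G s / Real.cosh (s * a)) (w s / Real.cosh (s * a) ^ 2) s := by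
    intro s hs
    have h1 : HasDerivAt (fun s => Real.cosh (s * a)) (Real.sinh (s * a) * a) s := (hl2 s).cosh
    have := (hd1 s hs).div h1 (Real.cosh_pos _).ne'
    exact this.congr_deriv (by simp only [hw]; ring)
  -- conclusion
  have hGle : G s ≤ 0 := by
    by_contra hpos
    push Not at hpos
    have hs0 : 0 < s := by
      rcases hs.1.eq_or_lt with h0 | h0
      · rw [← h0, hG0] at hpos; exact absurd hpos (lt_irrefl _)
      · exact h0
    have hs1 : s < 1 := by
      rcases hs.2.eq_or_lt with h0 | h0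
      · rw [h0, hG1] at hpos; exact absurd hpos (lt_irrefl _)
      · exact h0
    have husub : Icc 0 s ⊆ Icc (0 : ℝ) 1 := Icc_subset_Icc le_rfl hs.2
    have husub' : Icc s 1 ⊆ Icc (0 : ℝ) 1 := Icc_subset_Icc hs.1 le_rfl
    obtain ⟨ξ, hξ, hξe⟩ := exists_hasDerivAt_eq_slope (fun s => G s / Real.cosh (s * a))
      (fun s => w s / Real.cosh (s * a) ^ 2) hs0
      (fun t ht => (hud t (husub ht)).continuousAt.continuousWithinAt)
      (fun t ht => hud t (husub (Ioo_subset_Icc_self ht)))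
    have hwξ : 0 < w ξ := by
      have hGs : 0 < G s / Real.cosh (s * a) := div_pos hpos (Real.cosh_pos _)
      have h1 : 0 < w ξ / Real.cosh (ξ * a) ^ 2 := by
        rw [hξe, hG0, zero_div, sub_zero, sub_zero]; exact div_pos hGs hs0
      have h2 : 0 < Real.cosh (ξ * a) ^ 2 := by positivity
      exact (div_pos_iff_of_pos_right h2).mp h1
    obtain ⟨η, hη, hηe⟩ := exists_hasDerivAt_eq_slope (fun s => G s / Real.cosh (s * a))
      (fun s => w s / Real.cosh (s * a) ^ 2) hs1
      (fun t ht => (hud t (husub' ht)).continuousAt.continuousWithinAt)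
      (fun t ht => hud t (husub' (Ioo_subset_Icc_self ht)))
    have hwη : w ξ ≤ w η := hwmono (husub (Ioo_subset_Icc_self hξ))
      (husub' (Ioo_subset_Icc_self hη)) (hξ.2.le.trans hη.1.le)
    have h1 : 0 < w η / Real.cosh (η * a) ^ 2 := div_pos (hwξ.trans_le hwη) (by positivity)
    rw [hηe, hG1] at h1
    have hGs : 0 < G s / Real.cosh (s * a) := div_pos hpos (Real.cosh_pos _)
    have h2 : (0 / Real.cosh (1 * a) - G s / Real.cosh (s * a)) / (1 - s) ≤ 0 := by
      apply div_nonpos_of_nonpos_of_nonneg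
      · rw [zero_div, zero_sub]; linarith
      · linarith
    linarith
  simp only [hG] at hGle
  linarith

end Crest.Agent.R241.D5
end
end

-- ▼ part R241/D5

/-!
R241 block D5 (helper475): the intrinsic metric space of a Cartan-Hadamard submanifold is `CATk`.
Input: `XData` (metric output of D4) and the Hessian inequality along geodesics (D3).
-/

set_option autoImplicit false
open Set Filter Topology
open scoped ContDiff RealInnerProductSpace
open Crest.GeometryTopology.Submanifold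
open Crest.Agent.R241.DDefs Crest.Agent.R241.D2

noncomputable section
namespace Crest.Agent.R241.D5

variable {n N : ℕ} {κ : ℝ} {S : Set (Euc N)}

/-- Metric output of D4: `X` is `S` with its intrinsic distance. -/
structure XData (G : Geo n N κ S) (X : Type) [MetricSpace X] where
  ι : X → Euc N
  mem : ∀ x, ι x ∈ S
  inj : Function.Injective ι
  surj : ∀ p ∈ S, ∃ x, ι x = p
  dist_Exp : ∀ x y : X, ∀ v ∈ G.T (ι x), Exp G (ι x) v = ι y → dist x y = ‖v‖
  exists_Exp : ∀ x y : X, ∃ v ∈ G.T (ι x), Exp G (ι x) v = ι y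

variable {G : Geo n N κ S} {X : Type} [MetricSpace X] (D : XData G X)

/-- The point of `X` over a point of `S`. -/
def XData.pt (p : Euc N) (hp : p ∈ S) : X := (D.surj p hp).choose

lemma XData.ι_pt (p : Euc N) (hp : p ∈ S) : D.ι (D.pt p hp) = p := (D.surj p hp).choose_spec

/-- initial velocity of the geodesic from `x` to `y` -/
def XData.vel (x y : X) : Euc N := (D.exists_Exp x y).choose

lemma XData.vel_mem (x y : X) : D.vel x y ∈ G.T (D.ι x) := (D.exists_Exp x y).choose_spec.1

lemma XData.Exp_vel (x y : X) : Exp G (D.ι x) (D.vel x y) = D.ι y :=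
  (D.exists_Exp x y).choose_spec.2

lemma XData.norm_vel (x y : X) : ‖D.vel x y‖ = dist x y :=
  (D.dist_Exp x y _ (D.vel_mem x y) (D.Exp_vel x y)).symm

/-- the geodesic from `x` with initial velocity `v`, as a curve in `X` -/
def XData.γ (x : X) (v : Euc N) (hv : v ∈ G.T (D.ι x)) (s : ℝ) : X :=
  D.pt (Exp G (D.ι x) (s • v)) (Exp_mem G (D.mem x) ((G.T (D.ι x)).smul_mem s hv))

lemma XData.ι_γ (x : X) (v : Euc N) (hv : v ∈ G.T (D.ι x)) (s : ℝ) :
    D.ι (D.γ x v hv s) = Exp G (D.ι x) (s • v) := D.ι_pt _ _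

lemma XData.dist_γ (x : X) (v : Euc N) (hv : v ∈ G.T (D.ι x)) (s t : ℝ) :
    dist (D.γ x v hv s) (D.γ x v hv t) = |s - t| * ‖v‖ := by
  set q : Euc N × Euc N := (D.ι x, v) with hq
  have hqT : q ∈ TS G := ⟨D.mem x, hv⟩
  have h1 : D.ι (D.γ x v hv s) = (fl G (q, s)).1 := by
    rw [D.ι_γ, Exp_smul G (D.mem x) hv]
  have h2 : D.ι (D.γ x v hv t) = (fl G (q, t)).1 := by
    rw [D.ι_γ, Exp_smul G (D.mem x) hv]
  have hsT := fl_mem G hqT s
  have h3 : fl G (q, t) = fl G (fl G (q, s), t - s) := by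
    rw [← fl_add' G hqT s (t - s)]; congr 2; ring
  have hv' : (fl G (q, s)).2 ∈ G.T (D.ι (D.γ x v hv s)) := by
    rw [h1]; exact hsT.2
  have h4 : Exp G (D.ι (D.γ x v hv s)) ((t - s) • (fl G (q, s)).2) = D.ι (D.γ x v hv t) := by
    rw [Exp_smul G (D.mem _) hv', h1, h2, h3]
  rw [D.dist_Exp _ _ _ ((G.T _).smul_mem _ hv') h4, norm_smul, norm_fl G hqT s,
    Real.norm_eq_abs, abs_sub_comm]

/-- Hessian comparison along geodesics (output of D3). -/
def HessIneq (D : XData G X) (k : ℝ) : Prop :=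
  ∀ (p x : X) (v : Euc N) (hv : v ∈ G.T (D.ι x)), ∃ f' f'' : ℝ → ℝ, ∀ s ∈ Icc (0 : ℝ) 1,
    HasDerivAt (fun s => zk k (dist p (D.γ x v hv s))) (f' s) s ∧
    HasDerivAt f' (f'' s) s ∧
    ‖v‖ ^ 2 * (1 + k ^ 2 * zk k (dist p (D.γ x v hv s))) ≤ f'' s

lemma zk_zero (r : ℝ) : zk 0 r = r ^ 2 / 2 := by simp [zk]

lemma one_add_zk' (k r : ℝ) : 1 + k ^ 2 * zk k r = Real.cosh (k * r) := by
  by_cases h : k = 0
  · subst h; simp
  · rw [zk, if_neg h]; field_simp; ring

/-- **D5**: the Hessian inequality implies the comparison inequalities. -/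
def catk (D : XData G X) {k : ℝ} (hk : 0 ≤ k) (h0 : HessIneq D 0) (h1 : HessIneq D k) :
    CATk k X where
  geo x y s := D.γ x (D.vel x y) (D.vel_mem x y) s
  geo_zero x y := by
    apply D.inj
    rw [D.ι_γ, zero_smul, Exp_zero G (D.mem x)]
  geo_one x y := by
    apply D.inj
    rw [D.ι_γ, one_smul, D.Exp_vel]
  dist_geo x y s _ t _ := by rw [D.dist_γ, D.norm_vel]
  cat0 p x y s hs := by
    obtain ⟨f', f'', hf⟩ := h0 p x (D.vel x y) (D.vel_mem x y)
    have h2 := comparison_flat (c := dist x y ^ 2) (fun s hs => (hf s hs).1)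
      (fun s hs => (hf s hs).2.1) (fun s hs => by
        have := (hf s hs).2.2
        simpa [D.norm_vel] using this) hs
    simp only [zk_zero] at h2
    have hg0 : D.γ x (D.vel x y) (D.vel_mem x y) 0 = x := by
      apply D.inj
      rw [D.ι_γ, zero_smul, Exp_zero G (D.mem x)]
    have hg1 : D.γ x (D.vel x y) (D.vel_mem x y) 1 = y := by
      apply D.inj
      rw [D.ι_γ, one_smul, D.Exp_vel]
    rw [hg0, hg1] at h2
    linarith
  catk p x y s hs := by
    obtain ⟨f', f'', hf⟩ := h1 p x (D.vel x y) (D.vel_mem x y)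
    have hg0 : D.γ x (D.vel x y) (D.vel_mem x y) 0 = x := by
      apply D.inj
      rw [D.ι_γ, zero_smul, Exp_zero G (D.mem x)]
    have hg1 : D.γ x (D.vel x y) (D.vel_mem x y) 1 = y := by
      apply D.inj
      rw [D.ι_γ, one_smul, D.Exp_vel]
    have h2 := comparison_hyp (a := k * dist x y)
      (F := fun s => 1 + k ^ 2 * zk k (dist p (D.γ x (D.vel x y) (D.vel_mem x y) s)))
      (F' := fun s => k ^ 2 * f' s) (F'' := fun s => k ^ 2 * f'' s)
      (mul_nonneg hk dist_nonneg)
      (fun s hs => ((hf s hs).1.const_mul (k ^ 2)).const_add 1)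
      (fun s hs => (hf s hs).2.1.const_mul (k ^ 2))
      (fun s hs => by
        have h3 := mul_le_mul_of_nonneg_left (hf s hs).2.2 (sq_nonneg k)
        rw [D.norm_vel] at h3
        rw [mul_pow]
        nlinarith [h3]) hs
    simp only [one_add_zk', hg0, hg1] at h2
    exact h2

end Crest.Agent.R241.D5
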