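import Crest.Agent.R241.B1Weak
import Crest.Agent.R241.B8LinAlg

/-!
R241 / B1: chart actions are metric currents.  Real densities (`chartR`), any Borel set `E`, `φ`
Lipschitz on `E` (no co-Lipschitz condition), `ρ` integrable on `E`.
-/

set_option autoImplicit false

open MeasureTheory Filter Topology Metric Set Module
open scoped NNReal ENNReal

namespace Crest.Agent.R241.B1Cur

open Crest.GeometryTopology.Submanifold (Euc)
open Crest.GeometryTopology.MetricCurrent
open Crest.Agent.R241.B1Null Crest.Agent.R241.B1Weak Crest.Agent.R241.B1Density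

noncomputable section

universe u

variable {X : Type u} [MetricSpace X] {k : ℕ}

/-- The Jacobian determinant of `π ∘ φ` within `E`. -/
def jac (E : Set (Euc k)) (φ : Euc k → X) (π : Fin k → X → ℝ) (z : Euc k) : ℝ :=
  (Matrix.of fun i j =>
    fderivWithin ℝ (fun w => π i (φ w)) E z (EuclideanSpace.single j 1)).det

open Classical in
/-- Chart action with a real density. -/
def chartR (E : Set (Euc k)) (φ : Euc k → X) (ρ : Euc k → ℝ) : Functional X k :=
  fun f π => if IsTestPair f π then ∫ z in E, ρ z * f (φ z) * jac E φ π z else 0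

theorem chartAction_eq (E : Set (Euc k)) (φ : Euc k → X) (θ : Euc k → ℤ) :
    chartAction E φ θ = chartR E φ (fun z => (θ z : ℝ)) := rfl

theorem chartR_of_test {E : Set (Euc k)} {φ : Euc k → X} {ρ : Euc k → ℝ} {f : X → ℝ}
    {π : Fin k → X → ℝ} (h : IsTestPair f π) :
    chartR E φ ρ f π = ∫ z in E, ρ z * f (φ z) * jac E φ π z := by
  unfold chartR; rw [if_pos h]

theorem chartR_of_not_test {E : Set (Euc k)} {φ : Euc k → X} {ρ : Euc k → ℝ} {f : X → ℝ}
    {π : Fin k → X → ℝ} (h : ¬ IsTestPair f π) : chartR E φ ρ f π = 0 := by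
  unfold chartR; rw [if_neg h]

/-- Lipschitz extensions of `π i ∘ φ`. -/
theorem exists_ext {E : Set (Euc k)} {φ : Euc k → X} {L : ℝ≥0} (hφ : LipschitzOnWith L φ E)
    {u : X → ℝ} {C : ℝ≥0} (hu : LipschitzWith C u) :
    ∃ v : Euc k → ℝ, LipschitzWith (C * L) v ∧ EqOn (fun w => u (φ w)) v E :=
  (hu.comp_lipschitzOnWith hφ).extend_real

theorem exists_ext_family {E : Set (Euc k)} {φ : Euc k → X} {L : ℝ≥0}
    (hφ : LipschitzOnWith L φ E) {π : Fin k → X → ℝ} {C : Fin k → ℝ≥0}
    (hπ : ∀ i, LipschitzWith (C i) (π i)) :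
    ∃ F : Fin k → Euc k → ℝ, (∀ i, LipschitzWith (C i * L) (F i)) ∧
      ∀ i, EqOn (fun w => π i (φ w)) (F i) E := by
  choose F h1 h2 using fun i => exists_ext hφ (hπ i)
  exact ⟨F, h1, h2⟩

omit [MetricSpace X] in
theorem ae_jac_eq {E : Set (Euc k)} (hE : MeasurableSet E) {φ : Euc k → X} {π : Fin k → X → ℝ}
    {F : Fin k → Euc k → ℝ} (hF : ∀ i, ∃ C : ℝ≥0, LipschitzWith C (F i))
    (h : ∀ i, EqOn (fun w => π i (φ w)) (F i) E) :
    ∀ᵐ z ∂(volume.restrict E), jac E φ π z = (DM F z).det := by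
  have h1 : ∀ᵐ z ∂(volume.restrict E), ∀ i,
      fderivWithin ℝ (fun w => π i (φ w)) E z = fderiv ℝ (F i) z := by
    refine ae_all_iff.2 fun i => ?_
    obtain ⟨C, hC⟩ := hF i
    exact ae_fderivWithin_eq_of_lipschitz volume hE (h i) hC
  filter_upwards [h1] with z hz
  rw [jac]
  congr 1
  ext i j
  rw [Matrix.of_apply, hz i, DM_apply]

/-- a.e. point of `E` is good: unique differentiability, and all coordinates are differentiable
within `E`. -/
theorem ae_good {E : Set (Euc k)} (hE : MeasurableSet E) {φ : Euc k → X} {L : ℝ≥0}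
    (hφ : LipschitzOnWith L φ E) {u : X → ℝ} (hu : ∃ C : ℝ≥0, LipschitzWith C u) :
    ∀ᵐ z ∂(volume.restrict E), UniqueDiffWithinAt ℝ E z ∧
      DifferentiableWithinAt ℝ (fun w => u (φ w)) E z := by
  obtain ⟨C, hC⟩ := hu
  have h1 := (hC.comp_lipschitzOnWith hφ).ae_differentiableWithinAt (μ := volume) hE
  filter_upwards [ae_uniqueDiffWithinAt volume hE, h1] with z h2 h3
  exact ⟨h2, h3⟩

theorem aemeasurable_jac {E : Set (Euc k)} (hE : MeasurableSet E) {φ : Euc k → X} {L : ℝ≥0}
    (hφ : LipschitzOnWith L φ E) {π : Fin k → X → ℝ} (hπ : ∀ i, ∃ C : ℝ≥0, LipschitzWith C (π i)) :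
    AEMeasurable (jac E φ π) (volume.restrict E) := by
  choose C hC using hπ
  obtain ⟨F, h1, h2⟩ := exists_ext_family hφ hC
  exact (measurable_det_DM F).aemeasurable.congr (by
    filter_upwards [ae_jac_eq hE (fun i => ⟨_, h1 i⟩) h2] with z hz using hz.symm)

/-- Hadamard's inequality for `DM`. -/
theorem abs_det_DM_le_prod {F : Fin k → Euc k → ℝ} {C : Fin k → ℝ≥0}
    (hF : ∀ i, LipschitzWith (C i) (F i)) (z : Euc k) : |(DM F z).det| ≤ ∏ i, (C i : ℝ) := by
  refine (B8LinAlg.abs_det_le_prod _).trans (Finset.prod_le_prod (fun _ _ => Real.sqrt_nonneg _)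
    fun i _ => ?_)
  refine Real.sqrt_le_iff.2 ⟨(C i).2, ?_⟩
  -- the row is the gradient
  set v : Euc k := WithLp.toLp 2 (fun j => DM F z i j) with hv
  have h1 : fderiv ℝ (F i) z v = ∑ j, DM F z i j ^ 2 := by
    have h2 : v = ∑ j, (DM F z i j) • EuclideanSpace.single j (1 : ℝ) := by
      ext j
      simp [hv, Finset.sum_apply, Pi.single_apply]
    rw [h2, map_sum]
    refine Finset.sum_congr rfl fun j _ => ?_
    rw [map_smul, smul_eq_mul, DM_apply, sq]
  have h2 : ‖v‖ ^ 2 = ∑ j, DM F z i j ^ 2 := by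
    rw [EuclideanSpace.norm_sq_eq]
    simp [hv]
  have h3 := abs_fderiv_apply_le (hF i) z v
  rw [h1, ← h2, abs_of_nonneg (by positivity)] at h3
  rw [← h2]
  rcases eq_or_lt_of_le (norm_nonneg v) with h4 | h4
  · rw [← h4, zero_pow two_ne_zero]; positivity
  · have h5 : ‖v‖ ≤ C i := by
      by_contra h6
      push Not at h6
      nlinarith
    gcongr

theorem ae_abs_jac_le {E : Set (Euc k)} (hE : MeasurableSet E) {φ : Euc k → X} {L : ℝ≥0}
    (hφ : LipschitzOnWith L φ E) {π : Fin k → X → ℝ} {C : Fin k → ℝ≥0}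
    (hπ : ∀ i, LipschitzWith (C i) (π i)) :
    ∀ᵐ z ∂(volume.restrict E), |jac E φ π z| ≤ (∏ i, (C i : ℝ)) * (L : ℝ) ^ k := by
  obtain ⟨F, h1, h2⟩ := exists_ext_family hφ hπ
  filter_upwards [ae_jac_eq hE (fun i => ⟨_, h1 i⟩) h2] with z hz
  rw [hz]
  refine (abs_det_DM_le_prod h1 z).trans (le_of_eq ?_)
  push_cast
  rw [Finset.prod_mul_distrib, Finset.prod_const, Finset.card_univ, Fintype.card_fin]

theorem aestronglyMeasurable_comp {E : Set (Euc k)} (hE : MeasurableSet E) {φ : Euc k → X}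
    {L : ℝ≥0} (hφ : LipschitzOnWith L φ E) {f : X → ℝ} (hf : Continuous f) :
    AEStronglyMeasurable (fun z => f (φ z)) (volume.restrict E) :=
  (hf.comp_continuousOn hφ.continuousOn).aestronglyMeasurable hE

/-- Integrability of the integrand. -/
theorem integrable_integrand {E : Set (Euc k)} (hE : MeasurableSet E) {φ : Euc k → X} {L : ℝ≥0}
    (hφ : LipschitzOnWith L φ E) {ρ : Euc k → ℝ} (hρ : IntegrableOn ρ E)
    {f : X → ℝ} {π : Fin k → X → ℝ} (h : IsTestPair f π) :
    IntegrableOn (fun z => ρ z * f (φ z) * jac E φ π z) E := by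
  obtain ⟨⟨K, hK⟩, ⟨Cf, hCf⟩, hπ⟩ := h
  choose C hC using hπ
  have h1 : IntegrableOn (fun z => ρ z * f (φ z)) E :=
    hρ.mul_bdd (c := Cf) (aestronglyMeasurable_comp hE hφ hK.continuous)
      (Eventually.of_forall fun z => hCf _)
  refine h1.mul_bdd (c := (∏ i, (C i : ℝ)) * (L : ℝ) ^ k)
    (aemeasurable_jac hE hφ (fun i => ⟨_, hC i⟩)).aestronglyMeasurable ?_
  exact ae_abs_jac_le hE hφ hC

omit [MetricSpace X] in
theorem jac_update {E : Set (Euc k)} {φ : Euc k → X} (π : Fin k → X → ℝ) (i : Fin k)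
    (g : X → ℝ) (z : Euc k) :
    jac E φ (Function.update π i g) z =
      ((Matrix.of fun i j =>
        fderivWithin ℝ (fun w => π i (φ w)) E z (EuclideanSpace.single j (1 : ℝ))).updateRow i
        (fun j => fderivWithin ℝ (fun w => g (φ w)) E z (EuclideanSpace.single j 1))).det := by
  rw [jac]
  congr 1
  ext a j
  rw [Matrix.of_apply, Matrix.updateRow_apply]
  by_cases h : a = i
  · subst h; simp
  · simp [h]


omit [MetricSpace X] in
theorem jac_update_add {E : Set (Euc k)} {φ : Euc k → X} (π : Fin k → X → ℝ) (i : Fin k)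
    {g h : X → ℝ} {z : Euc k} (hz : UniqueDiffWithinAt ℝ E z)
    (hg : DifferentiableWithinAt ℝ (fun w => g (φ w)) E z)
    (hh : DifferentiableWithinAt ℝ (fun w => h (φ w)) E z) :
    jac E φ (Function.update π i (g + h)) z =
      jac E φ (Function.update π i g) z + jac E φ (Function.update π i h) z := by
  rw [jac_update, jac_update, jac_update, ← Matrix.det_updateRow_add]
  congr 2
  funext j
  have : (fun w => (g + h) (φ w)) = fun w => g (φ w) + h (φ w) := rfl
  rw [this, fderivWithin_fun_add hz hg hh]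
  rfl

omit [MetricSpace X] in
theorem jac_update_smul {E : Set (Euc k)} {φ : Euc k → X} (π : Fin k → X → ℝ) (i : Fin k)
    (c : ℝ) {g : X → ℝ} {z : Euc k} (hz : UniqueDiffWithinAt ℝ E z)
    (hg : DifferentiableWithinAt ℝ (fun w => g (φ w)) E z) :
    jac E φ (Function.update π i (c • g)) z = c * jac E φ (Function.update π i g) z := by
  rw [jac_update, jac_update, ← Matrix.det_updateRow_smul]
  congr 2
  funext j
  have : (fun w => (c • g) (φ w)) = fun w => c • g (φ w) := rfl
  rw [this, fderivWithin_fun_const_smul hz hg]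
  rfl

/-- `jac` vanishes if a coordinate is constant near `φ z`. -/
theorem jac_eq_zero {E : Set (Euc k)} {φ : Euc k → X} {π : Fin k → X → ℝ} {i : Fin k}
    {U : Set X} {c : ℝ} (hU : IsOpen U) (hc : ∀ x ∈ U, π i x = c) {z : Euc k}
    (hφ : ContinuousWithinAt φ E z) (hz : φ z ∈ U) : jac E φ π z = 0 := by
  refine Matrix.det_eq_zero_of_row_eq_zero i fun j => ?_
  rw [Matrix.of_apply]
  have h1 : (fun w => π i (φ w)) =ᶠ[𝓝[E] z] fun _ => c := by
    filter_upwards [hφ.preimage_mem_nhdsWithin (hU.mem_nhds hz)] with w hw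
    exact hc _ hw
  rw [h1.fderivWithin_eq (hc _ hz), fderivWithin_fun_const]
  rfl

section Continuity

variable {E : Set (Euc k)} {φ : Euc k → X} {L : ℝ≥0} {ρ : Euc k → ℝ}

/-- pointwise convergence of uniformly Lipschitz functions is uniform on bounded sets. -/
theorem tendstoUniformlyOn_of_lipschitz {s : Set (Euc k)} (hs : Bornology.IsBounded s)
    {C : ℝ≥0} {u : ℕ → Euc k → ℝ} {v : Euc k → ℝ} (hu : ∀ n, LipschitzOnWith C (u n) s)
    (hv : LipschitzOnWith C v s) (h : ∀ x ∈ s, Tendsto (fun n => u n x) atTop (𝓝 (v x)))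
    (ε : ℝ) (hε : 0 < ε) : ∀ᶠ n in atTop, ∀ x ∈ s, |u n x - v x| ≤ ε := by
  have htb : TotallyBounded s := hs.isCompact_closure.totallyBounded.subset subset_closure
  obtain ⟨t, hts, htf, hcov⟩ := Metric.finite_approx_of_totallyBounded htb
    (ε / (3 * (C + 1))) (by positivity)
  have h1 : ∀ᶠ n in atTop, ∀ y ∈ t, |u n y - v y| < ε / 3 := by
    rw [eventually_all_finite htf]
    intro y hy
    have := (Metric.tendsto_atTop.1 (h y (hts hy))) (ε / 3) (by positivity)
    obtain ⟨N, hN⟩ := this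
    filter_upwards [eventually_ge_atTop N] with n hn
    have := hN n hn
    rwa [Real.dist_eq] at this
  filter_upwards [h1] with n hn x hx
  obtain ⟨y, hy, hxy⟩ := mem_iUnion₂.1 (hcov hx)
  have hxy' : dist x y < ε / (3 * (C + 1)) := hxy
  have h2 := (hu n).dist_le_mul x hx y (hts hy)
  have h3 := hv.dist_le_mul x hx y (hts hy)
  have h4 : (C : ℝ) * dist x y ≤ ε / 3 := by
    have h5 : dist x y * (3 * (C + 1)) < ε := by rwa [lt_div_iff₀ (by positivity)] at hxy'
    have h6 : 0 ≤ dist x y := dist_nonneg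
    nlinarith [C.2]
  rw [Real.dist_eq] at h2 h3
  have h5 := hn y hy
  have e : u n x - v x = (u n x - u n y) + (u n y - v y) - (v x - v y) := by ring
  rw [e]
  have h6 := abs_sub (u n x - u n y + (u n y - v y)) (v x - v y)
  have h7 := abs_add_le (u n x - u n y) (u n y - v y)
  linarith

/-- extension of a sequence of functions converging uniformly on a set -/
theorem exists_ext_close {s : Set (Euc k)} {C : ℝ≥0} {u : Euc k → ℝ} {v : Euc k → ℝ}
    (hu : LipschitzOnWith C u s) (hv : LipschitzWith C v) {ε : ℝ} (hε : 0 ≤ ε)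
    (h : ∀ x ∈ s, |u x - v x| ≤ ε) :
    ∃ w : Euc k → ℝ, LipschitzWith (C + (C + C)) w ∧ EqOn u w s ∧ ∀ x, |w x - v x| ≤ ε := by
  have h1 : LipschitzOnWith (C + C) (fun x => u x - v x) s := hu.sub hv.lipschitzOnWith
  obtain ⟨g, hg, hgs⟩ := h1.extend_real
  set g' : Euc k → ℝ := fun x => max (-ε) (min ε (g x)) with hg'
  have hg'l : LipschitzWith (C + C) g' := by
    have h2 : LipschitzWith (C + C) (fun x => min ε (g x)) := by
      have := (LipschitzWith.const (α := Euc k) ε).min hg
      simpa using this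
    have h3 := (LipschitzWith.const (α := Euc k) (-ε)).max h2
    simpa using h3
  refine ⟨fun x => v x + g' x, hv.add hg'l, ?_, ?_⟩
  · intro x hx
    have h2 := abs_le.1 (h x hx)
    have h3 : g x = u x - v x := (hgs hx).symm
    show u x = v x + max (-ε) (min ε (g x))
    rw [h3, min_eq_right h2.2, max_eq_right h2.1]
    ring
  · intro x
    show |v x + max (-ε) (min ε (g x)) - v x| ≤ ε
    rw [add_sub_cancel_left, abs_le]
    exact ⟨le_max_left _ _, max_le (by linarith) (min_le_left _ _)⟩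

/-- Continuity of the integral under pointwise convergence of the coordinates, bounded `E`. -/
theorem tendsto_bounded (hE : MeasurableSet E) (hb : Bornology.IsBounded E)
    (hφ : LipschitzOnWith L φ E) {g : Euc k → ℝ} (hg : IntegrableOn g E)
    {π : Fin k → X → ℝ} {πs : ℕ → Fin k → X → ℝ} {C : ℝ≥0} (hπ : ∀ i, LipschitzWith C (π i))
    (hπs : ∀ n i, LipschitzWith C (πs n i))
    (hlim : ∀ i x, Tendsto (fun n => πs n i x) atTop (𝓝 (π i x))) :
    Tendsto (fun n => ∫ z in E, g z * jac E φ (πs n) z) atTop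
      (𝓝 (∫ z in E, g z * jac E φ π z)) := by
  obtain ⟨G, hG1, hG2⟩ := exists_ext_family hφ hπ
  have hcomp : ∀ u : X → ℝ, LipschitzWith C u →
      LipschitzOnWith (C * L) (fun w => u (φ w)) E := fun u hu => hu.comp_lipschitzOnWith hφ
  -- uniform convergence on `E`
  have hunif : ∀ m : ℕ, ∀ᶠ n in atTop, ∀ i, ∀ x ∈ E,
      |πs n i (φ x) - π i (φ x)| ≤ 1 / ((m : ℝ) + 1) := by
    intro m
    rw [eventually_all]
    intro i
    exact tendstoUniformlyOn_of_lipschitz hb (fun n => hcomp _ (hπs n i)) (hcomp _ (hπ i))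
      (fun x _ => hlim i (φ x)) _ (by positivity)
  -- it suffices to consider the sup distance
  set ε : ℕ → ℝ := fun n => ⨆ i : Fin k, ⨆ x : E, |πs n i (φ x) - π i (φ x)| with hεdef
  have hbdd : ∀ n i, BddAbove (range fun x : E => |πs n i (φ x) - π i (φ x)|) := by
    intro n i
    have h1 : LipschitzOnWith (C * L + C * L) (fun w => πs n i (φ w) - π i (φ w)) E :=
      (hcomp _ (hπs n i)).sub (hcomp _ (hπ i))
    obtain ⟨v, hv, hve⟩ := h1.extend_real
    obtain ⟨M, hM⟩ := hb.closure.isCompact_closure.exists_bound_of_continuousOn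
      (f := v) hv.continuous.continuousOn
    refine ⟨M, ?_⟩
    rintro _ ⟨x, rfl⟩
    have h2 : πs n i (φ x) - π i (φ x) = v x := hve x.2
    simp only
    rw [h2]
    exact hM x (subset_closure (subset_closure x.2))
  have hεn : ∀ n i, ∀ x ∈ E, |πs n i (φ x) - π i (φ x)| ≤ ε n := by
    intro n i x hx
    have h1 : |πs n i (φ x) - π i (φ x)| ≤ ⨆ x : E, |πs n i (φ x) - π i (φ x)| :=
      le_ciSup (hbdd n i) (⟨x, hx⟩ : E)
    have h2 : (⨆ x : E, |πs n i (φ x) - π i (φ x)|) ≤ ε n :=
      le_ciSup (f := fun i : Fin k => ⨆ x : E, |πs n i (φ x) - π i (φ x)|)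
        (Set.finite_range _).bddAbove i
    exact h1.trans h2
  have hε0 : ∀ n, 0 ≤ ε n := fun n =>
    Real.iSup_nonneg fun i => Real.iSup_nonneg fun x => abs_nonneg _
  have hεlim : Tendsto ε atTop (𝓝 0) := by
    rw [Metric.tendsto_atTop]
    intro η hη
    obtain ⟨m, hm⟩ := exists_nat_one_div_lt hη
    obtain ⟨N, hN⟩ := eventually_atTop.1 (hunif m)
    refine ⟨N, fun n hn => ?_⟩
    rw [Real.dist_eq, sub_zero, abs_of_nonneg (hε0 n)]
    refine lt_of_le_of_lt ?_ hm
    refine Real.iSup_le (fun i => Real.iSup_le (fun x => hN n hn i x x.2) (by positivity))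
      (by positivity)
  have hGC : ∀ i, LipschitzWith (C * L) (G i) := hG1
  choose F hF1 hF2 hF3 using fun n i => exists_ext_close (hcomp _ (hπs n i)) (hGC i) (hε0 n)
    (fun x hx => by
      have : G i x = π i (φ x) := (hG2 i hx).symm
      rw [this]
      exact hεn n i x hx)
  have hgE : Integrable (E.indicator g) := (integrable_indicator_iff hE).2 hg
  have key := tendsto_integral_mul_det hgE (C := C * L + (C * L + C * L)) (F := F) (G := G)
    (ε := ε) hF1 (fun i => (hGC i).weaken (le_add_of_nonneg_right zero_le)) hεlim hF3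
  have hconv : ∀ (H : Fin k → Euc k → ℝ) (σ : Fin k → X → ℝ),
      (∀ i, ∃ C : ℝ≥0, LipschitzWith C (H i)) → (∀ i, EqOn (fun w => σ i (φ w)) (H i) E) →
      ∫ z, E.indicator g z * (DM H z).det = ∫ z in E, g z * jac E φ σ z := by
    intro H σ hH hHσ
    have h1 : (fun z => E.indicator g z * (DM H z).det) =
        E.indicator (fun z => g z * (DM H z).det) := by
      funext z
      by_cases hz : z ∈ E
      · simp [hz]
      · simp [hz]
    rw [h1, integral_indicator hE]
    refine integral_congr_ae ?_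
    filter_upwards [ae_jac_eq hE hH hHσ] with z hz
    rw [hz]
  rw [← hconv G π (fun i => ⟨_, hGC i⟩) hG2]
  refine key.congr fun n => ?_
  exact hconv (F n) (πs n) (fun i => ⟨_, hF1 n i⟩) (fun i => hF2 n i)

/-- Restricting to a subset does not change `jac` a.e. -/
theorem ae_jac_mono {E' : Set (Euc k)} (hE' : MeasurableSet E') (hsub : E' ⊆ E)
    (hφ : LipschitzOnWith L φ E) {π : Fin k → X → ℝ} (hπ : ∀ i, ∃ C : ℝ≥0, LipschitzWith C (π i)) :
    ∀ᵐ z ∂(volume.restrict E'), jac E' φ π z = jac E φ π z := by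
  have h1 : ∀ᵐ z ∂(volume.restrict E'), ∀ i,
      fderivWithin ℝ (fun w => π i (φ w)) E' z = fderivWithin ℝ (fun w => π i (φ w)) E z := by
    refine ae_all_iff.2 fun i => ?_
    obtain ⟨C, hC⟩ := hπ i
    obtain ⟨v, hv1, hv2⟩ := exists_ext hφ hC
    have hd : ∀ᵐ z ∂(volume.restrict E'),
        DifferentiableWithinAt ℝ (fun w => π i (φ w)) E z := by
      filter_upwards [ae_restrict_of_ae hv1.ae_differentiableAt, ae_restrict_mem hE'] with z h1 h2
      exact (h1.differentiableWithinAt.congr hv2 (hv2 (hsub h2)))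
    exact ae_fderivWithin_mono volume hE' hsub hd
  filter_upwards [h1] with z hz
  rw [jac, jac]
  congr 1
  ext i j
  rw [Matrix.of_apply, Matrix.of_apply, hz i]

/-- Continuity of the integral under pointwise convergence of the coordinates. -/
theorem tendsto_general (hE : MeasurableSet E)
    (hφ : LipschitzOnWith L φ E) {g : Euc k → ℝ} (hg : IntegrableOn g E)
    {π : Fin k → X → ℝ} {πs : ℕ → Fin k → X → ℝ} {C : ℝ≥0} (hπ : ∀ i, LipschitzWith C (π i))
    (hπs : ∀ n i, LipschitzWith C (πs n i))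
    (hlim : ∀ i x, Tendsto (fun n => πs n i x) atTop (𝓝 (π i x))) :
    Tendsto (fun n => ∫ z in E, g z * jac E φ (πs n) z) atTop
      (𝓝 (∫ z in E, g z * jac E φ π z)) := by
  set D : ℝ := (∏ _i : Fin k, (C : ℝ)) * (L : ℝ) ^ k with hD
  have hD0 : 0 ≤ D := by positivity
  -- integrals over `E ∩ B_R` and over the complement
  have hint : ∀ σ : Fin k → X → ℝ, (∀ i, LipschitzWith C (σ i)) →
      IntegrableOn (fun z => g z * jac E φ σ z) E := by
    intro σ hσ
    refine hg.mul_bdd (c := D)
      (aemeasurable_jac hE hφ (fun i => ⟨_, hσ i⟩)).aestronglyMeasurable ?_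
    exact ae_abs_jac_le hE hφ hσ
  set B : ℕ → Set (Euc k) := fun m => closedBall 0 m with hB
  have hBm : ∀ m, MeasurableSet (B m) := fun m => measurableSet_closedBall
  have htail : Tendsto (fun m => ∫ z in E \ B m, |g z|) atTop (𝓝 0) := by
    have h1 : Tendsto (fun m => ∫ z in E \ B m, |g z|) atTop
        (𝓝 (∫ z in ⋂ m, E \ B m, |g z|)) := by
      refine tendsto_setIntegral_of_antitone (fun m => hE.diff (hBm m)) ?_ ⟨0, ?_⟩
      · intro a b hab
        exact sdiff_subset_sdiff_right (closedBall_subset_closedBall (by exact_mod_cast hab))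
      · exact (hg.mono_set sdiff_subset).abs
    have h2 : (⋂ m, E \ B m) = ∅ := by
      rw [eq_empty_iff_forall_notMem]
      intro x hx
      obtain ⟨m, hm⟩ := exists_nat_ge ‖x‖
      have := (mem_iInter.1 hx m).2
      exact this (by simpa [hB] using hm)
    rw [h2] at h1
    simpa using h1
  rw [Metric.tendsto_atTop]
  intro η hη
  have htail' : Tendsto (fun m => D * ∫ z in E \ B m, |g z|) atTop (𝓝 0) := by
    simpa using htail.const_mul D
  obtain ⟨m, hm⟩ := ((Metric.tendsto_atTop.1 htail') (η / 4) (by positivity)).imp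
    fun N h => h N le_rfl
  rw [Real.dist_eq, sub_zero] at hm
  have hm' : D * ∫ z in E \ B m, |g z| < η / 4 := lt_of_abs_lt hm
  have hsplit : ∀ σ : Fin k → X → ℝ, (∀ i, LipschitzWith C (σ i)) →
      |(∫ z in E, g z * jac E φ σ z) - ∫ z in E ∩ B m, g z * jac (E ∩ B m) φ σ z| ≤ η / 4 := by
    intro σ hσ
    have h1 : (∫ z in E, g z * jac E φ σ z) =
        (∫ z in E ∩ B m, g z * jac E φ σ z) + ∫ z in E \ B m, g z * jac E φ σ z := by
      rw [← integral_inter_add_sdiff (hBm m) (hint σ hσ)]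
    have h2 : (∫ z in E ∩ B m, g z * jac (E ∩ B m) φ σ z) =
        ∫ z in E ∩ B m, g z * jac E φ σ z := by
      refine integral_congr_ae ?_
      filter_upwards [ae_jac_mono (hE.inter (hBm m)) inter_subset_left hφ
        (fun i => ⟨_, hσ i⟩)] with z hz
      rw [hz]
    rw [h1, h2, add_sub_cancel_left, ← Real.norm_eq_abs]
    refine (norm_integral_le_integral_norm _).trans (le_trans ?_ hm'.le)
    rw [← integral_const_mul]
    refine integral_mono_ae ((hint σ hσ).mono_set sdiff_subset).norm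
      ((hg.mono_set sdiff_subset).abs.const_mul D) ?_
    have h3 := ae_abs_jac_le hE hφ hσ
    have h4 : ∀ᵐ z ∂(volume.restrict (E \ B m)), |jac E φ σ z| ≤ D :=
      ae_restrict_of_ae_restrict_of_subset sdiff_subset h3
    filter_upwards [h4] with z hz
    rw [norm_mul, Real.norm_eq_abs, Real.norm_eq_abs, mul_comm]
    gcongr
  have hb := tendsto_bounded (hE.inter (hBm m))
    ((isBounded_closedBall (x := (0 : Euc k)) (r := m)).subset inter_subset_right)
    (hφ.mono inter_subset_left) (hg.mono_set inter_subset_left) hπ hπs hlim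
  obtain ⟨N, hN⟩ := (Metric.tendsto_atTop.1 hb) (η / 4) (by positivity)
  refine ⟨N, fun n hn => ?_⟩
  have h1 := abs_le.1 (hsplit (πs n) (hπs n))
  have h2 := abs_le.1 (hsplit π hπ)
  have h3 := hN n hn
  rw [Real.dist_eq, abs_lt] at h3
  rw [Real.dist_eq, abs_lt]
  constructor <;> linarith [h1.1, h1.2, h2.1, h2.2, h3.1, h3.2]

end Continuity

section Current

variable [MeasurableSpace X] [BorelSpace X]

/-- The measure controlling a chart action: push-forward of `L^k |ρ| dz` on `E`. -/
def ctrl (E : Set (Euc k)) (φ : Euc k → X) (L : ℝ≥0) (ρ : Euc k → ℝ) : Measure X :=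
  Measure.map φ ((volume.restrict E).withDensity fun z => ENNReal.ofReal ((L : ℝ) ^ k * |ρ z|))

variable {E : Set (Euc k)} {φ : Euc k → X} {L : ℝ≥0} {ρ : Euc k → ℝ}

theorem aemeasurable_phi (hE : MeasurableSet E) (hφ : LipschitzOnWith L φ E) :
    AEMeasurable φ (volume.restrict E) :=
  hφ.continuousOn.aemeasurable hE

omit [MetricSpace X] [BorelSpace X] in
theorem isFiniteMeasure_ctrl (hρ : IntegrableOn ρ E) :
    IsFiniteMeasure (ctrl E φ L ρ) := by
  have h1 : IsFiniteMeasure ((volume.restrict E).withDensity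
      fun z => ENNReal.ofReal ((L : ℝ) ^ k * |ρ z|)) := by
    refine isFiniteMeasure_withDensity_ofReal ?_
    exact ((hρ.abs).const_mul ((L : ℝ) ^ k)).2
  unfold ctrl
  infer_instance

theorem integral_ctrl (hE : MeasurableSet E) (hφ : LipschitzOnWith L φ E)
    (hρ : IntegrableOn ρ E) {f : X → ℝ} (hf : Continuous f) :
    ∫ x, f x ∂(ctrl E φ L ρ) = ∫ z in E, (L : ℝ) ^ k * |ρ z| * f (φ z) := by
  have hm : AEMeasurable φ ((volume.restrict E).withDensity
      fun z => ENNReal.ofReal ((L : ℝ) ^ k * |ρ z|)) :=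
    (aemeasurable_phi hE hφ).mono_ac (withDensity_absolutelyContinuous _ _)
  unfold ctrl
  rw [integral_map hm hf.measurable.aestronglyMeasurable,
    integral_withDensity_eq_integral_toReal_smul₀]
  · refine integral_congr_ae (Eventually.of_forall fun z => ?_)
    simp only [smul_eq_mul]
    rw [ENNReal.toReal_ofReal (by positivity)]
  · exact ((hρ.abs).const_mul ((L : ℝ) ^ k)).aestronglyMeasurable.aemeasurable.ennreal_ofReal
  · exact Eventually.of_forall fun z => ENNReal.ofReal_lt_top

theorem controls_ctrl (hE : MeasurableSet E) (hφ : LipschitzOnWith L φ E)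
    (hρ : IntegrableOn ρ E) : Controls (chartR E φ ρ) (ctrl E φ L ρ) := by
  intro f π hfπ hπ
  have hf : Continuous f := hfπ.1.choose_spec.continuous
  rw [chartR_of_test hfπ, integral_ctrl hE hφ hρ hf.abs, ← Real.norm_eq_abs]
  refine (norm_integral_le_integral_norm _).trans ?_
  obtain ⟨Cf, hCf⟩ := hfπ.2.1
  have h1 : IntegrableOn (fun z => ρ z * f (φ z)) E :=
    hρ.mul_bdd (c := Cf) (aestronglyMeasurable_comp hE hφ hf)
      (Eventually.of_forall fun z => hCf _)
  have h2 : IntegrableOn (fun z => (L : ℝ) ^ k * |ρ z| * |f (φ z)|) E := by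
    have h3 := h1.abs.const_mul ((L : ℝ) ^ k)
    refine h3.congr (Eventually.of_forall fun z => ?_)
    simp only
    rw [abs_mul]; ring
  refine integral_mono_ae (integrable_integrand hE hφ hρ hfπ).norm h2 ?_
  filter_upwards [ae_abs_jac_le hE hφ (C := fun _ => 1) hπ] with z hz
  simp only [NNReal.coe_one, Finset.prod_const_one, one_mul] at hz
  rw [norm_mul, norm_mul, Real.norm_eq_abs, Real.norm_eq_abs, Real.norm_eq_abs]
  calc |ρ z| * |f (φ z)| * |jac E φ π z| ≤ |ρ z| * |f (φ z)| * (L : ℝ) ^ k := by gcongr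
    _ = (L : ℝ) ^ k * |ρ z| * |f (φ z)| := by ring

/-- **Chart actions with Lipschitz charts and integrable real densities are currents.** -/
theorem isCurrent_chartR (hE : MeasurableSet E) (hφ : LipschitzOnWith L φ E)
    (hρ : IntegrableOn ρ E) : IsCurrent (chartR E φ ρ) where
  eq_zero_of_not_test f π h := chartR_of_not_test h
  add_left f g π hf hg := by
    have hfg : IsTestPair (f + g) π := by
      obtain ⟨⟨K1, h1⟩, ⟨C1, h2⟩, h3⟩ := hf
      obtain ⟨⟨K2, h4⟩, ⟨C2, h5⟩, _⟩ := hg
      refine ⟨⟨K1 + K2, h1.add h4⟩, ⟨C1 + C2, fun x => ?_⟩, h3⟩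
      exact (abs_add_le _ _).trans (add_le_add (h2 x) (h5 x))
    rw [chartR_of_test hfg, chartR_of_test hf, chartR_of_test hg,
      ← integral_add (integrable_integrand hE hφ hρ hf) (integrable_integrand hE hφ hρ hg)]
    refine integral_congr_ae (Eventually.of_forall fun z => ?_)
    simp only [Pi.add_apply]
    ring
  smul_left c f π hf := by
    have hcf : IsTestPair (c • f) π := by
      obtain ⟨⟨K1, h1⟩, ⟨C1, h2⟩, h3⟩ := hf
      refine ⟨⟨‖c‖₊ * K1, (lipschitzWith_smul c).comp h1⟩, ⟨|c| * C1, fun x => ?_⟩, h3⟩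
      rw [Pi.smul_apply, smul_eq_mul, abs_mul]
      exact mul_le_mul_of_nonneg_left (h2 x) (abs_nonneg c)
    rw [chartR_of_test hcf, chartR_of_test hf, ← integral_const_mul]
    refine integral_congr_ae (Eventually.of_forall fun z => ?_)
    simp only [Pi.smul_apply, smul_eq_mul]
    ring
  add_coord f π i g hf hg := by
    have hfg : IsTestPair f (Function.update π i g) := by
      refine ⟨hf.1, hf.2.1, fun j => ?_⟩
      by_cases h : j = i
      · subst h; simpa using hg
      · simpa [h] using hf.2.2 j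
    have hfs : IsTestPair f (Function.update π i (π i + g)) := by
      refine ⟨hf.1, hf.2.1, fun j => ?_⟩
      by_cases h : j = i
      · subst h
        obtain ⟨K1, h1⟩ := hf.2.2 j
        obtain ⟨K2, h2⟩ := hg
        exact ⟨K1 + K2, by rw [Function.update_self]; exact h1.add h2⟩
      · simpa [h] using hf.2.2 j
    rw [chartR_of_test hfs, chartR_of_test hf, chartR_of_test hfg,
      ← integral_add (integrable_integrand hE hφ hρ hf) (integrable_integrand hE hφ hρ hfg)]
    refine integral_congr_ae ?_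
    filter_upwards [ae_good hE hφ (hf.2.2 i), ae_good hE hφ hg] with z h1 h2
    rw [jac_update_add π i h1.1 h1.2 h2.2, Function.update_eq_self]
    ring
  smul_coord f π i c hf := by
    have hfs : IsTestPair f (Function.update π i (c • π i)) := by
      refine ⟨hf.1, hf.2.1, fun j => ?_⟩
      by_cases h : j = i
      · subst h
        obtain ⟨K1, h1⟩ := hf.2.2 j
        exact ⟨‖c‖₊ * K1, by
          rw [Function.update_self]; exact (lipschitzWith_smul c).comp h1⟩
      · simpa [h] using hf.2.2 j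
    rw [chartR_of_test hfs, chartR_of_test hf, ← integral_const_mul]
    refine integral_congr_ae ?_
    filter_upwards [ae_good hE hφ (hf.2.2 i)] with z h1
    rw [jac_update_smul π i c h1.1 h1.2, Function.update_eq_self]
    ring
  continuity f π πs hf hC hlim := by
    obtain ⟨C, hC⟩ := hC
    have hπ : ∀ i, LipschitzWith C (π i) := fun i =>
      LipschitzWith.of_dist_le_mul fun x y => by
        have h1 : Tendsto (fun j => dist (πs j i x) (πs j i y)) atTop
            (𝓝 (dist (π i x) (π i y))) := (hlim i x).dist (hlim i y)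
        exact le_of_tendsto h1 (Eventually.of_forall fun j => (hC j i).dist_le_mul x y)
    have htest : ∀ j, IsTestPair f (πs j) := fun j => ⟨hf.1, hf.2.1, fun i => ⟨C, hC j i⟩⟩
    obtain ⟨Cf, hCf⟩ := hf.2.1
    have hg : IntegrableOn (fun z => ρ z * f (φ z)) E :=
      hρ.mul_bdd (c := Cf) (aestronglyMeasurable_comp hE hφ hf.1.choose_spec.continuous)
        (Eventually.of_forall fun z => hCf _)
    have := tendsto_general hE hφ hg hπ hC hlim
    rw [chartR_of_test hf]
    refine this.congr fun j => ?_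
    rw [chartR_of_test (htest j)]
  locality f π hf hloc := by
    obtain ⟨i, U, c, hU, hsupp, hc⟩ := hloc
    rw [chartR_of_test hf]
    rw [setIntegral_congr_fun hE (g := fun _ => (0 : ℝ)) ?_, integral_zero]
    intro z hz
    simp only
    by_cases h : f (φ z) = 0
    · rw [h]; ring
    · rw [jac_eq_zero hU hc (hφ.continuousOn z hz) (hsupp h), mul_zero]
  finite_mass := ⟨ctrl E φ L ρ, isFiniteMeasure_ctrl hρ, controls_ctrl hE hφ hρ⟩

theorem isCurrent_chartAction (hE : MeasurableSet E) (hφ : LipschitzOnWith L φ E)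
    {θ : Euc k → ℤ} (hθ : IntegrableOn (fun z => (θ z : ℝ)) E) :
    IsCurrent (chartAction E φ θ) := by
  rw [chartAction_eq]
  exact isCurrent_chartR hE hφ hθ

theorem controls_chartAction (hE : MeasurableSet E) (hφ : LipschitzOnWith L φ E)
    {θ : Euc k → ℤ} (hθ : IntegrableOn (fun z => (θ z : ℝ)) E) :
    Controls (chartAction E φ θ) (ctrl E φ L (fun z => (θ z : ℝ))) := by
  rw [chartAction_eq]
  exact controls_ctrl hE hφ hθ

end Current

end

end Crest.Agent.R241.B1Cur
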