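import Crest.Agent.R241.G1b

/-!
R241, block G1c: the extension `ext T f π` of a metric current to bounded Borel `f`,
multilinearity, continuity, strong locality, local Lipschitz mass bound.
-/

set_option autoImplicit false
set_option linter.unusedSectionVars false

open MeasureTheory Filter Topology
open scoped ENNReal NNReal

namespace Crest.Agent.R241.G1

open Crest.GeometryTopology.MetricCurrent

universe u

variable {X : Type u} [MetricSpace X] [MeasurableSpace X] [BorelSpace X]
variable {k : ℕ} {T : Functional X k}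

/-- a chosen finite controlling measure -/
noncomputable def ctrl (T : Functional X k) : Measure X := by
  classical
  exact if h : ∃ μ : Measure X, IsFiniteMeasure μ ∧ Controls T μ then h.choose else 0

instance isFiniteMeasure_ctrl (T : Functional X k) : IsFiniteMeasure (ctrl T) := by
  unfold ctrl
  split_ifs with h
  · exact h.choose_spec.1
  · infer_instance

theorem controls_ctrl (hT : IsCurrent T) : Controls T (ctrl T) := by
  have h := hT.finite_mass
  unfold ctrl
  rw [dif_pos h]
  exact h.choose_spec.2

/-- the density of `f ↦ T f π` with respect to `ctrl T` -/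
noncomputable def dens (T : Functional X k) (π : Fin k → X → ℝ) : X → ℝ := by
  classical
  exact if h : ∃ g : X → ℝ, BM g ∧ ∀ f, BL f → T f π = ∫ x, f x * g x ∂(ctrl T)
    then h.choose else 0

theorem bm_dens (T : Functional X k) (π : Fin k → X → ℝ) : BM (dens T π) := by
  unfold dens
  split_ifs with h
  · exact h.choose_spec.1
  · exact BM.const 0

theorem exists_dens (hT : IsCurrent T) {μ : Measure X} [IsFiniteMeasure μ] (hμ : Controls T μ)
    {π : Fin k → X → ℝ} {K : Fin k → ℝ≥0} (hK : ∀ i, LipschitzWith (K i) (π i)) :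
    ∃ g : X → ℝ, Measurable g ∧ (∀ x, |g x| ≤ ∏ i, (K i : ℝ)) ∧
      ∀ f, BL f → T f π = ∫ x, f x * g x ∂μ := by
  have hπ : LipT π := fun i => ⟨_, hK i⟩
  exact exists_density μ (fun f => T f π)
    (fun f g hf hg => hT.add_left f g π (hf.isTestPair hπ) (hg.isTestPair hπ))
    (fun c f hf => hT.smul_left c f π (hf.isTestPair hπ))
    (Finset.prod_nonneg fun i _ => (K i).coe_nonneg)
    (fun f hf => abs_le_of_controls hT hμ hf hK)

theorem dens_spec (hT : IsCurrent T) {π : Fin k → X → ℝ} (hπ : LipT π) {f : X → ℝ} (hf : BL f) :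
    T f π = ∫ x, f x * dens T π x ∂(ctrl T) := by
  choose K hK using hπ
  obtain ⟨g, hg1, hg2, hg3⟩ := exists_dens hT (controls_ctrl hT) hK
  have h : ∃ g : X → ℝ, BM g ∧ ∀ f, BL f → T f π = ∫ x, f x * g x ∂(ctrl T) :=
    ⟨g, ⟨hg1, _, hg2⟩, hg3⟩
  unfold dens
  rw [dif_pos h]
  exact h.choose_spec.2 f hf

/-- the extension of `T` to bounded Borel functions -/
noncomputable def ext (T : Functional X k) (f : X → ℝ) (π : Fin k → X → ℝ) : ℝ :=
  ∫ x, f x * dens T π x ∂(ctrl T)

theorem ext_eq (hT : IsCurrent T) {π : Fin k → X → ℝ} (hπ : LipT π) {f : X → ℝ} (hf : BL f) :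
    ext T f π = T f π := (dens_spec hT hπ hf).symm

theorem integrable_mul_dens {f : X → ℝ} (hf : BM f) (π : Fin k → X → ℝ) :
    Integrable (fun x => f x * dens T π x) (ctrl T) :=
  (hf.mul (bm_dens T π)).integrable _

theorem ext_add {f g : X → ℝ} (hf : BM f) (hg : BM g) (π : Fin k → X → ℝ) :
    ext T (f + g) π = ext T f π + ext T g π := by
  unfold ext
  rw [← integral_add (integrable_mul_dens hf π) (integrable_mul_dens hg π)]
  apply integral_congr_ae
  exact Eventually.of_forall fun x => by simp only [Pi.add_apply]; ring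

theorem ext_smul (c : ℝ) (f : X → ℝ) (π : Fin k → X → ℝ) :
    ext T (c • f) π = c * ext T f π := by
  unfold ext
  rw [← integral_const_mul]
  apply integral_congr_ae
  exact Eventually.of_forall fun x => by simp only [Pi.smul_apply, smul_eq_mul]; ring

theorem ext_zero (π : Fin k → X → ℝ) : ext T 0 π = 0 := by simp [ext]

theorem ext_neg (f : X → ℝ) (π : Fin k → X → ℝ) : ext T (-f) π = - ext T f π := by
  have := ext_smul (T := T) (-1) f π
  simpa using this

theorem ext_sub {f g : X → ℝ} (hf : BM f) (hg : BM g) (π : Fin k → X → ℝ) :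
    ext T (f - g) π = ext T f π - ext T g π := by
  rw [sub_eq_add_neg, ext_add hf hg.neg, ext_neg, sub_eq_add_neg]



theorem ext_tendsto_L1 {f : X → ℝ} (hf : BM f) {g : ℕ → X → ℝ} (hg : ∀ n, BM (g n))
    (h : Tendsto (fun n => ∫ x, |f x - g n x| ∂(ctrl T)) atTop (𝓝 0)) (π : Fin k → X → ℝ) :
    Tendsto (fun n => ext T (g n) π) atTop (𝓝 (ext T f π)) := by
  obtain ⟨C, hC⟩ := (bm_dens T π).2
  rw [tendsto_iff_dist_tendsto_zero]
  have hC' : ∀ n, dist (ext T (g n) π) (ext T f π) ≤ |C| * ∫ x, |f x - g n x| ∂(ctrl T) := by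
    intro n
    rw [dist_comm, Real.dist_eq, ← ext_sub hf (hg n)]
    unfold ext
    refine (abs_integral_le_integral_abs).trans ?_
    rw [← integral_const_mul]
    apply integral_mono_of_nonneg (Eventually.of_forall fun x => abs_nonneg _)
    · exact ((hf.sub (hg n)).abs.integrable _).const_mul _
    · refine Eventually.of_forall fun x => ?_
      simp only [Pi.sub_apply, abs_mul]
      rw [mul_comm]
      exact mul_le_mul_of_nonneg_right ((hC x).trans (le_abs_self C)) (abs_nonneg _)
  refine squeeze_zero (fun n => dist_nonneg) hC' ?_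
  simpa using h.const_mul |C|

theorem ext_tendsto {f : X → ℝ} (hf : Measurable f) {g : ℕ → X → ℝ} (hg : ∀ n, Measurable (g n))
    {C : ℝ} (hC : ∀ n x, |g n x| ≤ C) (h : ∀ x, Tendsto (fun n => g n x) atTop (𝓝 (f x)))
    (π : Fin k → X → ℝ) :
    Tendsto (fun n => ext T (g n) π) atTop (𝓝 (ext T f π)) := by
  obtain ⟨D, hD⟩ := (bm_dens T π).2
  unfold ext
  apply tendsto_integral_of_dominated_convergence (fun _ => |C| * |D|)
  · exact fun n => ((hg n).mul (bm_dens T π).1).aestronglyMeasurable
  · exact integrable_const _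
  · refine fun n => Eventually.of_forall fun x => ?_
    rw [Real.norm_eq_abs, abs_mul]
    exact mul_le_mul ((hC n x).trans (le_abs_self C)) ((hD x).trans (le_abs_self D))
      (abs_nonneg _) (abs_nonneg _)
  · exact Eventually.of_forall fun x => (h x).mul_const _

/-- the control inequality for bounded Borel functions and any controlling measure -/
theorem abs_ext_le (hT : IsCurrent T) {μ : Measure X} [IsFiniteMeasure μ] (hμ : Controls T μ)
    {f : X → ℝ} (hf : BM f) {π : Fin k → X → ℝ} {K : Fin k → ℝ≥0}
    (hK : ∀ i, LipschitzWith (K i) (π i)) :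
    |ext T f π| ≤ (∏ i, (K i : ℝ)) * ∫ x, |f x| ∂μ := by
  have hπ : LipT π := fun i => ⟨_, hK i⟩
  obtain ⟨C, hC⟩ := hf.2
  obtain ⟨g, hg1, hg2, hg3⟩ := exists_seq_BL (μ + ctrl T) hf.1 hC
  have hgm : ∀ n, BM (g n) := fun n => (hg1 n).bm
  have hint : ∀ n (ν : Measure X) [IsFiniteMeasure ν], Integrable (fun x => |f x - g n x|) ν :=
    fun n ν _ => (hf.sub (hgm n)).abs.integrable ν
  have h1 : Tendsto (fun n => ∫ x, |f x - g n x| ∂(ctrl T)) atTop (𝓝 0) := by
    refine squeeze_zero (fun n => integral_nonneg fun x => abs_nonneg _) (fun n => ?_) hg3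
    rw [integral_add_measure (hint n μ) (hint n (ctrl T))]
    exact le_add_of_nonneg_left (integral_nonneg fun x => abs_nonneg _)
  have h2 : Tendsto (fun n => ∫ x, |f x - g n x| ∂μ) atTop (𝓝 0) := by
    refine squeeze_zero (fun n => integral_nonneg fun x => abs_nonneg _) (fun n => ?_) hg3
    rw [integral_add_measure (hint n μ) (hint n (ctrl T))]
    exact le_add_of_nonneg_right (integral_nonneg fun x => abs_nonneg _)
  have h3 : Tendsto (fun n => ext T (g n) π) atTop (𝓝 (ext T f π)) :=
    ext_tendsto_L1 hf hgm h1 π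
  have h4 : ∀ n, |ext T (g n) π| ≤
      (∏ i, (K i : ℝ)) * (∫ x, |f x| ∂μ + ∫ x, |f x - g n x| ∂μ) := by
    intro n
    rw [ext_eq hT hπ (hg1 n)]
    refine (abs_le_of_controls hT hμ (hg1 n) hK).trans ?_
    apply mul_le_mul_of_nonneg_left _ (Finset.prod_nonneg fun i _ => (K i).coe_nonneg)
    rw [← integral_add (hf.abs.integrable μ) (hint n μ)]
    apply integral_mono ((hgm n).abs.integrable μ) ((hf.abs.integrable μ).add (hint n μ))
    intro x
    simp only [Pi.add_apply]
    have : g n x = f x - (f x - g n x) := by ring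
    calc |g n x| = |f x - (f x - g n x)| := by rw [← this]
      _ ≤ _ := abs_sub _ _
  have h5 : Tendsto (fun n => (∏ i, (K i : ℝ)) * (∫ x, |f x| ∂μ + ∫ x, |f x - g n x| ∂μ)) atTop
      (𝓝 ((∏ i, (K i : ℝ)) * (∫ x, |f x| ∂μ + 0))) := (h2.const_add _).const_mul _
  rw [add_zero] at h5
  exact le_of_tendsto_of_tendsto' h3.abs h5 h4

/-- approximation principle: an identity between finitely many `T · π` holding on bounded
Lipschitz functions extends to bounded Borel functions; stated for a pair of sums -/
theorem ext_identity {ι : Type*} (s : Finset ι) (hT : IsCurrent T) {c : ι → ℝ}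
    {π : ι → Fin k → X → ℝ} (hπ : ∀ i ∈ s, LipT (π i))
    (h : ∀ f, BL f → ∑ i ∈ s, c i * T f (π i) = 0) {f : X → ℝ} (hf : BM f) :
    ∑ i ∈ s, c i * ext T f (π i) = 0 := by
  obtain ⟨C, hC⟩ := hf.2
  obtain ⟨g, hg1, hg2, hg3⟩ := exists_seq_BL (ctrl T) hf.1 hC
  have h1 : Tendsto (fun n => ∑ i ∈ s, c i * ext T (g n) (π i)) atTop
      (𝓝 (∑ i ∈ s, c i * ext T f (π i))) := by
    apply tendsto_finsetSum
    intro i _
    exact (ext_tendsto_L1 hf (fun n => (hg1 n).bm) hg3 (π i)).const_mul (c i)
  have h2 : ∀ n, ∑ i ∈ s, c i * ext T (g n) (π i) = 0 := by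
    intro n
    rw [← h (g n) (hg1 n)]
    exact Finset.sum_congr rfl fun i hi => by rw [ext_eq hT (hπ i hi) (hg1 n)]
  simp only [h2] at h1
  exact (tendsto_nhds_unique h1 tendsto_const_nhds)

theorem ext_add_coord (hT : IsCurrent T) {f : X → ℝ} (hf : BM f) {π : Fin k → X → ℝ}
    (hπ : LipT π) (i : Fin k) {g h : X → ℝ} (hg : ∃ K : ℝ≥0, LipschitzWith K g)
    (hh : ∃ K : ℝ≥0, LipschitzWith K h) :
    ext T f (Function.update π i (g + h)) =
      ext T f (Function.update π i g) + ext T f (Function.update π i h) := by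
  have hgh : ∃ K : ℝ≥0, LipschitzWith K (g + h) := by
    obtain ⟨K, hK⟩ := hg
    obtain ⟨K', hK'⟩ := hh
    exact ⟨_, hK.add hK'⟩
  have key := ext_identity (T := T) (Finset.univ : Finset (Fin 3)) hT
    (c := ![1, -1, -1])
    (π := ![Function.update π i (g + h), Function.update π i g, Function.update π i h])
    (by
      intro j _
      fin_cases j
      · exact hπ.update i hgh
      · exact hπ.update i hg
      · exact hπ.update i hh)
    (by
      intro f hf
      have h1 := hT.add_coord f (Function.update π i g) i h (hf.isTestPair (hπ.update i hg)) hh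
      simp only [Function.update_self, Function.update_idem] at h1
      simp only [Fin.sum_univ_three, Matrix.cons_val_zero, Matrix.cons_val_one, Matrix.cons_val]
      rw [h1]; ring) hf
  simp only [Fin.sum_univ_three, Matrix.cons_val_zero, Matrix.cons_val_one, Matrix.cons_val] at key
  linarith

theorem ext_smul_coord (hT : IsCurrent T) {f : X → ℝ} (hf : BM f) {π : Fin k → X → ℝ}
    (hπ : LipT π) (i : Fin k) (a : ℝ) {g : X → ℝ} (hg : ∃ K : ℝ≥0, LipschitzWith K g) :
    ext T f (Function.update π i (a • g)) = a * ext T f (Function.update π i g) := by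
  have hag : ∃ K : ℝ≥0, LipschitzWith K (a • g) := by
    obtain ⟨K, hK⟩ := hg
    exact ⟨_, lipschitzWith_smul hK a⟩
  have key := ext_identity (T := T) (Finset.univ : Finset (Fin 2)) hT
    (c := ![1, -a])
    (π := ![Function.update π i (a • g), Function.update π i g])
    (by
      intro j _
      fin_cases j
      · exact hπ.update i hag
      · exact hπ.update i hg)
    (by
      intro f hf
      have h1 := hT.smul_coord f (Function.update π i g) i a (hf.isTestPair (hπ.update i hg))
      simp only [Function.update_self, Function.update_idem] at h1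
      simp only [Fin.sum_univ_two, Matrix.cons_val_zero, Matrix.cons_val_one]
      rw [h1]; ring) hf
  simp only [Fin.sum_univ_two, Matrix.cons_val_zero, Matrix.cons_val_one] at key
  linarith

theorem ext_sub_coord (hT : IsCurrent T) {f : X → ℝ} (hf : BM f) {π : Fin k → X → ℝ}
    (hπ : LipT π) (i : Fin k) {g h : X → ℝ} (hg : ∃ K : ℝ≥0, LipschitzWith K g)
    (hh : ∃ K : ℝ≥0, LipschitzWith K h) :
    ext T f (Function.update π i (g - h)) =
      ext T f (Function.update π i g) - ext T f (Function.update π i h) := by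
  have hh' : ∃ K : ℝ≥0, LipschitzWith K ((-1 : ℝ) • h) := by
    obtain ⟨K, hK⟩ := hh
    exact ⟨_, lipschitzWith_smul hK _⟩
  have : g - h = g + (-1 : ℝ) • h := by funext x; simp [sub_eq_add_neg]
  rw [this, ext_add_coord hT hf hπ i hg hh', ext_smul_coord hT hf hπ i (-1) hh]
  ring

theorem lip_sum {ι : Type*} (s : Finset ι) {g : ι → X → ℝ}
    (hg : ∀ j ∈ s, ∃ K : ℝ≥0, LipschitzWith K (g j)) :
    ∃ K : ℝ≥0, LipschitzWith K (∑ j ∈ s, g j) := by
  classical
  induction s using Finset.induction_on with
  | empty => exact ⟨0, by simpa using (LipschitzWith.const (0 : ℝ) : LipschitzWith 0 fun _ : X => (0 : ℝ))⟩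
  | insert a s ha ih =>
    rw [Finset.sum_insert ha]
    obtain ⟨K, hK⟩ := hg a (Finset.mem_insert_self _ _)
    obtain ⟨K', hK'⟩ := ih fun i hi => hg i (Finset.mem_insert_of_mem hi)
    exact ⟨_, hK.add hK'⟩

theorem ext_sum_coord (hT : IsCurrent T) {f : X → ℝ} (hf : BM f) {π : Fin k → X → ℝ}
    (hπ : LipT π) (i : Fin k) {ι : Type*} (s : Finset ι) {g : ι → X → ℝ}
    (hg : ∀ j ∈ s, ∃ K : ℝ≥0, LipschitzWith K (g j)) :
    ext T f (Function.update π i (∑ j ∈ s, g j)) =
      ∑ j ∈ s, ext T f (Function.update π i (g j)) := by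
  classical
  induction s using Finset.induction_on with
  | empty =>
    simp only [Finset.sum_empty]
    have h0 : ∃ K : ℝ≥0, LipschitzWith K (0 : X → ℝ) := ⟨0, LipschitzWith.const 0⟩
    have := ext_smul_coord hT hf hπ i 0 h0
    simpa using this
  | insert a s ha ih =>
    rw [Finset.sum_insert ha, Finset.sum_insert ha, ext_add_coord hT hf hπ i
      (hg a (Finset.mem_insert_self _ _)) (lip_sum s fun j hj => hg j (Finset.mem_insert_of_mem hj)),
      ih fun j hj => hg j (Finset.mem_insert_of_mem hj)]

/-- continuity in the coordinates for bounded Borel `f` -/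
theorem ext_continuity (hT : IsCurrent T) {f : X → ℝ} (hf : BM f) {π : Fin k → X → ℝ}
    {πs : ℕ → Fin k → X → ℝ} {K : Fin k → ℝ≥0} (hK : ∀ i, LipschitzWith (K i) (π i))
    (hKs : ∀ j i, LipschitzWith (K i) (πs j i))
    (h : ∀ i x, Tendsto (fun j => πs j i x) atTop (𝓝 (π i x))) :
    Tendsto (fun j => ext T f (πs j)) atTop (𝓝 (ext T f π)) := by
  obtain ⟨C, hC⟩ := hf.2
  obtain ⟨g, hg1, hg2, hg3⟩ := exists_seq_BL (ctrl T) hf.1 hC
  have hπ : LipT π := fun i => ⟨_, hK i⟩
  have hπs : ∀ j, LipT (πs j) := fun j i => ⟨_, hKs j i⟩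
  set P : ℝ := ∏ i, (K i : ℝ) with hP
  have hP0 : 0 ≤ P := Finset.prod_nonneg fun i _ => (K i).coe_nonneg
  have hdiff : ∀ n (σ : Fin k → X → ℝ), (∀ i, LipschitzWith (K i) (σ i)) →
      |ext T f σ - ext T (g n) σ| ≤ P * ∫ x, |f x - g n x| ∂(ctrl T) := by
    intro n σ hσ
    rw [← ext_sub hf (hg1 n).bm]
    exact abs_ext_le hT (controls_ctrl hT) (hf.sub (hg1 n).bm) hσ
  rw [Metric.tendsto_atTop]
  intro ε hε
  have h1 : ∀ᶠ n in atTop, P * ∫ x, |f x - g n x| ∂(ctrl T) < ε / 3 := by
    have : Tendsto (fun n => P * ∫ x, |f x - g n x| ∂(ctrl T)) atTop (𝓝 (P * 0)) :=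
      hg3.const_mul P
    rw [mul_zero] at this
    exact this.eventually_lt_const (by positivity)
  obtain ⟨n, hn⟩ := h1.exists
  have hcont : Tendsto (fun j => T (g n) (πs j)) atTop (𝓝 (T (g n) π)) := by
    apply hT.continuity _ _ _ ((hg1 n).isTestPair hπ)
    · refine ⟨∑ i, K i, fun j i => (hKs j i).weaken ?_⟩
      exact Finset.single_le_sum (f := K) (fun i _ => zero_le) (Finset.mem_univ i)
    · exact h
  rw [Metric.tendsto_atTop] at hcont
  obtain ⟨N, hN⟩ := hcont (ε / 3) (by positivity)
  refine ⟨N, fun j hj => ?_⟩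
  have e1 := hdiff n (πs j) (hKs j)
  have e2 := hdiff n π hK
  have e3 := hN j hj
  rw [Real.dist_eq] at *
  rw [← ext_eq hT (hπs j) (hg1 n), ← ext_eq hT hπ (hg1 n)] at e3
  have : ext T f (πs j) - ext T f π = (ext T f (πs j) - ext T (g n) (πs j))
      + (ext T (g n) (πs j) - ext T (g n) π) - (ext T f π - ext T (g n) π) := by ring
  rw [this]
  calc |(ext T f (πs j) - ext T (g n) (πs j))
      + (ext T (g n) (πs j) - ext T (g n) π) - (ext T f π - ext T (g n) π)|
      ≤ |(ext T f (πs j) - ext T (g n) (πs j))
      + (ext T (g n) (πs j) - ext T (g n) π)| + |ext T f π - ext T (g n) π| := abs_sub _ _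
    _ ≤ |ext T f (πs j) - ext T (g n) (πs j)|
      + |ext T (g n) (πs j) - ext T (g n) π| + |ext T f π - ext T (g n) π| := by
        gcongr; exact abs_add_le _ _
    _ < ε / 3 + ε / 3 + ε / 3 := by
        have := e1.trans_lt hn
        have := e2.trans_lt hn
        linarith
    _ = ε := by ring

/-- strong locality: `T(f, π) = 0` when `π i` is constant on `{f ≠ 0}` -/
theorem ext_strong_locality (hT : IsCurrent T) {f : X → ℝ} (hf : BM f) {π : Fin k → X → ℝ}
    (hπ : LipT π) (i : Fin k) (c : ℝ) (h : ∀ x, f x ≠ 0 → π i x = c) : ext T f π = 0 := by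
  choose K hK using hπ
  -- truncated coordinate
  let β : ℕ → X → ℝ := fun n x =>
    π i x - max (-(1 / ((n : ℝ) + 1))) (min (1 / ((n : ℝ) + 1)) (π i x - c))
  have hβL : ∀ n, LipschitzWith (K i) (β n) := by
    intro n
    apply LipschitzWith.of_dist_le_mul
    intro x y
    have h1 := (hK i).dist_le_mul x y
    refine le_trans ?_ h1
    simp only [Real.dist_eq, β]
    set e : ℝ := 1 / ((n : ℝ) + 1)
    have he : 0 < e := by positivity
    set a := π i x
    set b := π i y
    -- t ↦ t - clamp (t - c) is monotone and 1-Lipschitz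
    rcases le_total a b with hab | hab
    · have m1 : max (-e) (min e (a - c)) ≤ max (-e) (min e (b - c)) :=
        max_le_max le_rfl (min_le_min le_rfl (by linarith))
      have m2 : max (-e) (min e (b - c)) - max (-e) (min e (a - c)) ≤ b - a := by
        have := abs_max_sub_max_le_abs (min e (b - c)) (min e (a - c)) (-e)
        have h3 := abs_min_sub_min_le_max e (b - c) e (a - c)
        simp only [sub_self, abs_zero] at h3
        rw [max_eq_right (abs_nonneg _)] at h3
        rw [max_comm (-e) (min e (b - c)), max_comm (-e) (min e (a - c))]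
        have h4 : |b - c - (a - c)| = b - a := by
          rw [show b - c - (a - c) = b - a by ring, abs_of_nonneg (by linarith)]
        calc _ ≤ |max (min e (b - c)) (-e) - max (min e (a - c)) (-e)| := le_abs_self _
          _ ≤ _ := this
          _ ≤ _ := h3
          _ = b - a := h4
      rw [abs_of_nonpos (by linarith), abs_of_nonpos (by linarith)]
      linarith
    · have m1 : max (-e) (min e (b - c)) ≤ max (-e) (min e (a - c)) :=
        max_le_max le_rfl (min_le_min le_rfl (by linarith))
      have m2 : max (-e) (min e (a - c)) - max (-e) (min e (b - c)) ≤ a - b := by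
        have := abs_max_sub_max_le_abs (min e (a - c)) (min e (b - c)) (-e)
        have h3 := abs_min_sub_min_le_max e (a - c) e (b - c)
        simp only [sub_self, abs_zero] at h3
        rw [max_eq_right (abs_nonneg _)] at h3
        rw [max_comm (-e) (min e (b - c)), max_comm (-e) (min e (a - c))]
        have h4 : |a - c - (b - c)| = a - b := by
          rw [show a - c - (b - c) = a - b by ring, abs_of_nonneg (by linarith)]
        calc _ ≤ |max (min e (a - c)) (-e) - max (min e (b - c)) (-e)| := le_abs_self _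
          _ ≤ _ := this
          _ ≤ _ := h3
          _ = a - b := h4
      rw [abs_of_nonneg (by linarith), abs_of_nonneg (by linarith)]
      linarith
  -- cutoff
  let χ : ℕ → X → ℝ := fun n x => max 0 (1 - ((n : ℝ) + 1) * |π i x - c|)
  have hχ : ∀ n, BL (χ n) := by
    intro n
    refine ⟨⟨Real.toNNReal ((n : ℝ) + 1) * K i, ?_⟩, 1, fun x => ?_⟩
    · have h1 : LipschitzWith (Real.toNNReal ((n : ℝ) + 1) * K i)
          (fun x => 1 - ((n : ℝ) + 1) * |π i x - c|) := by
        apply LipschitzWith.of_dist_le_mul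
        intro x y
        have h1 := (hK i).dist_le_mul x y
        simp only [Real.dist_eq, NNReal.coe_mul] at *
        rw [Real.coe_toNNReal _ (by positivity)]
        have : 1 - ((n : ℝ) + 1) * |π i x - c| - (1 - ((n : ℝ) + 1) * |π i y - c|)
          = ((n : ℝ) + 1) * (|π i y - c| - |π i x - c|) := by ring
        rw [this, abs_mul, abs_of_nonneg (by positivity : (0 : ℝ) ≤ (n : ℝ) + 1), mul_assoc]
        apply mul_le_mul_of_nonneg_left _ (by positivity)
        refine (abs_abs_sub_abs_le_abs_sub _ _).trans ?_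
        rw [show π i y - c - (π i x - c) = -(π i x - π i y) by ring, abs_neg]
        exact h1
      exact h1.const_max 0
    · have h1 : (0 : ℝ) ≤ ((n : ℝ) + 1) * |π i x - c| := by positivity
      rw [abs_of_nonneg (le_max_left _ _)]
      exact max_le zero_le_one (by linarith)
  have hχ1 : ∀ n x, |χ n x| ≤ 1 := by
    intro n x
    have h1 : (0 : ℝ) ≤ ((n : ℝ) + 1) * |π i x - c| := by positivity
    rw [abs_of_nonneg (le_max_left _ _)]
    exact max_le zero_le_one (by linarith)
  have hfχ : ∀ n, f * χ n = f := by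
    intro n
    funext x
    by_cases hx : f x = 0
    · simp [hx]
    · have := h x hx
      simp [χ, this]
  obtain ⟨C, hC⟩ := hf.2
  obtain ⟨g, hg1, hg2, hg3⟩ := exists_seq_BL (ctrl T) hf.1 hC
  have step : ∀ n, ext T f (Function.update π i (β n)) = 0 := by
    intro n
    have h1 : Tendsto (fun l => ext T (g l * χ n) (Function.update π i (β n))) atTop
        (𝓝 (ext T f (Function.update π i (β n)))) := by
      apply ext_tendsto_L1 hf (fun l => ((hg1 l).mul (hχ n)).bm)
      refine squeeze_zero (fun l => integral_nonneg fun x => abs_nonneg _) (fun l => ?_) hg3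
      apply integral_mono_of_nonneg (Eventually.of_forall fun x => abs_nonneg _)
        ((hf.sub (hg1 l).bm).abs.integrable _)
      refine Eventually.of_forall fun x => ?_
      have e1 : f x = f x * χ n x := by
        have := congrFun (hfχ n) x
        simpa using this.symm
      have e2 : f x - (g l * χ n) x = (f x - g l x) * χ n x := by
        simp only [Pi.mul_apply]
        linear_combination e1
      simp only [e2, abs_mul, Pi.sub_apply]
      exact mul_le_of_le_one_right (abs_nonneg _) (hχ1 n x)
    have h2 : ∀ l, ext T (g l * χ n) (Function.update π i (β n)) = 0 := by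
      intro l
      have hL : LipT (Function.update π i (β n)) :=
        LipT.update (fun i => ⟨_, hK i⟩) i ⟨_, hβL n⟩
      rw [ext_eq hT hL ((hg1 l).mul (hχ n))]
      apply hT.locality _ _ (((hg1 l).mul (hχ n)).isTestPair hL)
      refine ⟨i, {x | |π i x - c| < 1 / ((n : ℝ) + 1)}, c, ?_, ?_, ?_⟩
      · exact isOpen_lt (((hK i).continuous.sub continuous_const).abs) continuous_const
      · intro x hx
        simp only [Set.mem_setOf_eq]
        by_contra hcon
        push Not at hcon
        apply hx
        have : χ n x = 0 := by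
          apply max_eq_left
          rw [div_le_iff₀ (by positivity)] at hcon
          linarith
        simp [this]
      · intro x hx
        simp only [Set.mem_setOf_eq] at hx
        simp only [Function.update_self, β]
        rw [clamp_eq hx.le]
        ring
    simp only [h2] at h1
    exact (tendsto_nhds_unique h1 tendsto_const_nhds)
  have hlim : Tendsto (fun n => ext T f (Function.update π i (β n))) atTop (𝓝 (ext T f π)) := by
    apply ext_continuity hT hf hK
    · intro n j
      by_cases hj : j = i
      · subst hj; simpa using hβL n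
      · simpa [hj] using hK j
    · intro j x
      by_cases hj : j = i
      · subst hj
        simp only [Function.update_self, β]
        have h0 : Tendsto (fun n : ℕ => max (-(1 / ((n : ℝ) + 1)))
            (min (1 / ((n : ℝ) + 1)) (π j x - c))) atTop (𝓝 0) := by
          refine squeeze_zero_norm (fun n => ?_) tendsto_one_div_add_atTop_nhds_zero_nat
          exact abs_clamp_le (by positivity)
        simpa using h0.const_sub (π j x)
      · simp only [Function.update_of_ne hj]
        exact tendsto_const_nhds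
  simp only [step] at hlim
  exact (tendsto_nhds_unique hlim tendsto_const_nhds)

/-- `T(f, π)` only depends on the restriction of `π` to `{f ≠ 0}` -/
theorem ext_congr_coord (hT : IsCurrent T) {f : X → ℝ} (hf : BM f) {π σ : Fin k → X → ℝ}
    (hπ : LipT π) (hσ : LipT σ) (h : ∀ i x, f x ≠ 0 → π i x = σ i x) :
    ext T f π = ext T f σ := by
  classical
  have key : ∀ s : Finset (Fin k), ext T f (fun i => if i ∈ s then σ i else π i) = ext T f π := by
    intro s
    induction s using Finset.induction_on with
    | empty => simp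
    | insert a s ha ih =>
      set τ : Fin k → X → ℝ := fun i => if i ∈ s then σ i else π i with hτ
      have hτL : LipT τ := by
        intro i
        by_cases hi : i ∈ s
        · simpa [hτ, hi] using hσ i
        · simpa [hτ, hi] using hπ i
      have h1 : (fun i => if i ∈ insert a s then σ i else π i) = Function.update τ a (σ a) := by
        funext i
        by_cases hi : i = a
        · subst hi; simp
        · simp [hτ, hi]
      have h2 : τ = Function.update τ a (π a) := by
        funext i
        by_cases hi : i = a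
        · subst hi; simp [hτ, ha]
        · simp [hi]
      have h3 := ext_sub_coord hT hf hτL a (hσ a) (hπ a)
      have hsub : ∃ K : ℝ≥0, LipschitzWith K (σ a - π a) := by
        obtain ⟨K, hK⟩ := hσ a
        obtain ⟨K', hK'⟩ := hπ a
        exact ⟨_, hK.sub hK'⟩
      have h4 : ext T f (Function.update τ a (σ a - π a)) = 0 := by
        apply ext_strong_locality hT hf (hτL.update a hsub) a 0
        intro x hx
        simp [h a x hx]
      rw [h4, ← h2] at h3
      rw [h1, ← ih]
      linarith
  have := key Finset.univ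
  simpa using this.symm

/-- local Lipschitz mass bound -/
theorem abs_ext_le_local (hT : IsCurrent T) {μ : Measure X} [IsFiniteMeasure μ]
    (hμ : Controls T μ) {f : X → ℝ} (hf : BM f) {π : Fin k → X → ℝ} (hπ : LipT π) {B : Set X}
    (hB : ∀ x, f x ≠ 0 → x ∈ B) {K : Fin k → ℝ≥0} (hK : ∀ i, LipschitzOnWith (K i) (π i) B) :
    |ext T f π| ≤ (∏ i, (K i : ℝ)) * ∫ x, |f x| ∂μ := by
  have h : ∀ i, ∃ g : X → ℝ, LipschitzWith (K i) g ∧ Set.EqOn (π i) g B :=
    fun i => (hK i).extend_real
  choose σ hσ1 hσ2 using h
  rw [ext_congr_coord hT hf hπ (fun i => ⟨_, hσ1 i⟩) (fun i x hx => hσ2 i (hB x hx))]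
  exact abs_ext_le hT hμ hf hσ1

end Crest.Agent.R241.G1
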