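import Crest.Agent.R241.G1c

-- ▼ part R241/G1d
section

/-!
R241, block G1d: the chain rule in one coordinate, Leibniz rule, alternation.
-/

set_option autoImplicit false
set_option linter.unusedSectionVars false

open MeasureTheory Filter Topology
open scoped ENNReal NNReal

namespace Crest.Agent.R241.G1

open Crest.GeometryTopology.MetricCurrent

universe u

variable {X : Type u} [MetricSpace X] [MeasurableSpace X] [BorelSpace X]
variable {k : ℕ} {T : Functional X k}

/-- A functional which is small on functions supported in small pieces vanishes. -/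
theorem eq_zero_of_local {N : ℕ} (μ : Measure X) [IsFiniteMeasure μ] {P : X → (Fin N → ℝ)}
    (hP : Continuous P) (Δ : (X → ℝ) → ℝ)
    (hadd : ∀ f g, BM f → BM g → Δ (f + g) = Δ f + Δ g)
    (hlim : ∀ (f : X → ℝ) (g : ℕ → X → ℝ) (C : ℝ), BM f → (∀ n, BM (g n)) →
      (∀ n x, |g n x| ≤ C) → (∀ x, Tendsto (fun n => g n x) atTop (𝓝 (f x))) →
      Tendsto (fun n => Δ (g n)) atTop (𝓝 (Δ f)))
    (hloc : ∀ R : ℝ, 0 < R → ∀ ω : ℝ, 0 < ω → ∃ δ : ℝ, 0 < δ ∧ ∀ (c : Fin N → ℝ) (f : X → ℝ),
      BM f → (∀ x, f x ≠ 0 → ‖P x‖ ≤ R ∧ dist (P x) c < δ) → |Δ f| ≤ ω * ∫ x, |f x| ∂μ)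
    {f : X → ℝ} (hf : BM f) : Δ f = 0 := by
  have hzero : Δ 0 = 0 := by
    have := hadd 0 0 (BM.const 0) (BM.const 0)
    simp only [add_zero] at this
    linarith
  -- step A : bounded case
  have stepA : ∀ R : ℝ, 0 < R → ∀ f : X → ℝ, BM f → (∀ x, f x ≠ 0 → ‖P x‖ ≤ R) → Δ f = 0 := by
    intro R hR f hf hfR
    have key : ∀ ω : ℝ, 0 < ω → |Δ f| ≤ ω * ∫ x, |f x| ∂μ := by
      intro ω hω
      obtain ⟨δ, hδ, hloc'⟩ := hloc R hR ω hω
      let d : ℕ → (Fin N → ℝ) := TopologicalSpace.denseSeq (Fin N → ℝ)
      let A : ℕ → Set X := fun n => P ⁻¹' (Metric.ball (d n) δ)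
      let B : ℕ → Set X := disjointed A
      have hA : ∀ n, MeasurableSet (A n) := fun n => (Metric.isOpen_ball.preimage hP).measurableSet
      have hB : ∀ n, MeasurableSet (B n) := MeasurableSet.disjointed hA
      have hcov : ∀ x, ∃ n, x ∈ A n := by
        intro x
        obtain ⟨n, hn⟩ := (TopologicalSpace.denseRange_denseSeq (Fin N → ℝ)).exists_dist_lt (P x) hδ
        exact ⟨n, hn⟩
      have hcovB : ∀ x, ∃ n, x ∈ B n := by
        intro x
        obtain ⟨n, hn⟩ := hcov x
        have h1 : x ∈ ⋃ n, B n := by
          rw [iUnion_disjointed]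
          exact Set.mem_iUnion.2 ⟨n, hn⟩
        exact Set.mem_iUnion.1 h1
      let F : ℕ → X → ℝ := fun M => ∑ n ∈ Finset.range M, (B n).indicator f
      have hFM : ∀ M, BM (F M) := fun M => BM.sum _ fun n _ => hf.indicator (hB n)
      have hdisj : Pairwise (Function.onFun Disjoint B) := disjoint_disjointed A
      have hFval : ∀ M x, F M x = (⋃ n ∈ Finset.range M, B n).indicator f x := by
        intro M x
        rw [Finset.indicator_biUnion_apply]
        · simp [F]
        · intro i _ j _ hij
          exact hdisj hij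
      have hFabs : ∀ M x, |F M x| ≤ |f x| := by
        intro M x
        rw [hFval]
        by_cases hx : x ∈ ⋃ n ∈ Finset.range M, B n
        · rw [Set.indicator_of_mem hx]
        · rw [Set.indicator_of_notMem hx]; simp
      obtain ⟨C, hC⟩ := hf.2
      have hlimF : Tendsto (fun M => Δ (F M)) atTop (𝓝 (Δ f)) := by
        apply hlim f F C hf hFM (fun M x => (hFabs M x).trans (hC x))
        intro x
        obtain ⟨n, hn⟩ := hcovB x
        apply tendsto_atTop_of_eventually_const (i₀ := n + 1)
        intro M hM
        rw [hFval, Set.indicator_of_mem]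
        simp only [Set.mem_iUnion, Finset.mem_range]
        exact ⟨n, by omega, hn⟩
      have hΔF : ∀ M, Δ (F M) = ∑ n ∈ Finset.range M, Δ ((B n).indicator f) := by
        intro M
        induction M with
        | zero => simp [F, hzero]
        | succ M ih =>
          have : F (M + 1) = F M + (B M).indicator f := by
            simp only [F, Finset.sum_range_succ]
          rw [this, hadd _ _ (hFM M) (hf.indicator (hB M)), ih, Finset.sum_range_succ]
      have hbound : ∀ M, |Δ (F M)| ≤ ω * ∫ x, |f x| ∂μ := by
        intro M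
        rw [hΔF]
        refine (Finset.abs_sum_le_sum_abs _ _).trans ?_
        calc ∑ n ∈ Finset.range M, |Δ ((B n).indicator f)|
            ≤ ∑ n ∈ Finset.range M, ω * ∫ x, |(B n).indicator f x| ∂μ := by
              apply Finset.sum_le_sum
              intro n _
              apply hloc' (d n) _ (hf.indicator (hB n))
              intro x hx
              have hxB : x ∈ B n := by
                by_contra hcon
                exact hx (Set.indicator_of_notMem hcon _)
              have hfx : f x ≠ 0 := by
                rw [Set.indicator_of_mem hxB] at hx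
                exact hx
              exact ⟨hfR x hfx, disjointed_subset A n hxB⟩
          _ = ω * ∑ n ∈ Finset.range M, ∫ x, |(B n).indicator f x| ∂μ := by rw [Finset.mul_sum]
          _ = ω * ∫ x, ∑ n ∈ Finset.range M, |(B n).indicator f x| ∂μ := by
              rw [integral_finsetSum]
              intro n _
              exact (hf.indicator (hB n)).abs.integrable μ
          _ ≤ ω * ∫ x, |f x| ∂μ := by
              apply mul_le_mul_of_nonneg_left _ hω.le
              apply integral_mono_of_nonneg
              · exact Eventually.of_forall fun x => Finset.sum_nonneg fun n _ => abs_nonneg _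
              · exact hf.abs.integrable μ
              · refine Eventually.of_forall fun x => ?_
                have h2 : ∑ n ∈ Finset.range M, |(B n).indicator f x|
                    = |F M x| := by
                  rw [hFval, Finset.indicator_biUnion_apply _ _ (fun i _ j _ hij => hdisj hij)]
                  by_cases hex : ∃ n ∈ Finset.range M, x ∈ B n
                  · obtain ⟨n, hn, hxn⟩ := hex
                    have h0 : ∀ m ∈ Finset.range M, m ≠ n → x ∉ B m := fun m _ hmn hxm =>
                      (Set.disjoint_left.1 (hdisj hmn)) hxm hxn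
                    rw [Finset.sum_eq_single n
                      (fun m hm hmn => by simp [Set.indicator_of_notMem (h0 m hm hmn)])
                      (fun h => absurd hn h)]
                    rw [Finset.sum_eq_single n
                      (fun m hm hmn => by simp [Set.indicator_of_notMem (h0 m hm hmn)])
                      (fun h => absurd hn h)]
                  · push Not at hex
                    rw [Finset.sum_eq_zero (fun m hm => by
                      simp [Set.indicator_of_notMem (hex m hm)])]
                    rw [Finset.sum_eq_zero (fun m hm => by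
                      simp [Set.indicator_of_notMem (hex m hm)])]
                    simp
                simp only [h2]
                exact hFabs M x
      exact le_of_tendsto' hlimF.abs hbound
    have h0 : |Δ f| ≤ 0 := by
      have hI : 0 ≤ ∫ x, |f x| ∂μ := integral_nonneg fun x => abs_nonneg _
      apply le_of_forall_pos_le_add
      intro ε hε
      have := key (ε / ((∫ x, |f x| ∂μ) + 1)) (by positivity)
      refine this.trans ?_
      rw [zero_add, div_mul_eq_mul_div, div_le_iff₀ (by positivity)]
      nlinarith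
    exact abs_eq_zero.1 (le_antisymm h0 (abs_nonneg _))
  -- step B : general case
  obtain ⟨C, hC⟩ := hf.2
  let G : ℕ → X → ℝ := fun n => (P ⁻¹' (Metric.closedBall 0 ((n : ℝ) + 1))).indicator f
  have hGm : ∀ n, MeasurableSet (P ⁻¹' (Metric.closedBall (0 : Fin N → ℝ) ((n : ℝ) + 1))) :=
    fun n => (Metric.isClosed_closedBall.preimage hP).measurableSet
  have hG : ∀ n, BM (G n) := fun n => hf.indicator (hGm n)
  have h1 : ∀ n, Δ (G n) = 0 := by
    intro n
    apply stepA ((n : ℝ) + 1) (by positivity) _ (hG n)
    intro x hx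
    by_contra hcon
    apply hx
    apply Set.indicator_of_notMem
    simpa using hcon
  have h2 : Tendsto (fun n => Δ (G n)) atTop (𝓝 (Δ f)) := by
    apply hlim f G |C| hf hG
    · intro n x
      by_cases hx : x ∈ P ⁻¹' (Metric.closedBall (0 : Fin N → ℝ) ((n : ℝ) + 1))
      · simp only [G, Set.indicator_of_mem hx]
        exact (hC x).trans (le_abs_self C)
      · simp only [G, Set.indicator_of_notMem hx]
        simp
    · intro x
      obtain ⟨n, hn⟩ := exists_nat_ge ‖P x‖
      apply tendsto_atTop_of_eventually_const (i₀ := n)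
      intro M hM
      apply Set.indicator_of_mem
      simp only [Set.mem_preimage, Metric.mem_closedBall, dist_zero_right]
      have : (n : ℝ) ≤ M := by exact_mod_cast hM
      linarith
  simp only [h1] at h2
  exact (tendsto_nhds_unique h2 tendsto_const_nhds)

/-- chain rule in one coordinate, `C¹` function of `N` Lipschitz variables -/
theorem ext_chain (hT : IsCurrent T) {f : X → ℝ} (hf : BM f) {σ : Fin k → X → ℝ} (hσ : LipT σ)
    (j : Fin k) {N : ℕ} {p : Fin N → X → ℝ} (hp : LipT p) {g : (Fin N → ℝ) → ℝ}
    (hg : ContDiff ℝ 1 g) (hgl : ∃ K : ℝ≥0, LipschitzWith K (fun x => g (fun i => p i x)))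
    (hb : ∀ i, ∃ C : ℝ, ∀ x, |fderiv ℝ g (fun l => p l x) (Pi.single i 1)| ≤ C) :
    ext T f (Function.update σ j (fun x => g (fun i => p i x))) =
      ∑ i, ext T (fun x => f x * fderiv ℝ g (fun l => p l x) (Pi.single i 1))
        (Function.update σ j (p i)) := by
  classical
  choose Kσ hKσ using hσ
  choose Kp hKp using hp
  have hσ : LipT σ := fun i => ⟨_, hKσ i⟩
  have hp : LipT p := fun i => ⟨_, hKp i⟩
  set P : X → (Fin N → ℝ) := fun x i => p i x with hPdef
  have hPc : Continuous P := continuous_pi fun i => (hKp i).continuous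
  set L : ℝ≥0 := ∑ i, Kp i with hL
  have hKL : ∀ i, Kp i ≤ L := fun i =>
    Finset.single_le_sum (f := Kp) (fun i _ => zero_le) (Finset.mem_univ i)
  have hPL : ∀ x y, dist (P x) (P y) ≤ L * dist x y := by
    intro x y
    rw [dist_pi_le_iff (by positivity)]
    intro i
    exact ((hKp i).dist_le_mul x y).trans
      (mul_le_mul_of_nonneg_right (NNReal.coe_le_coe.2 (hKL i)) dist_nonneg)
  have hDc : Continuous (fderiv ℝ g) := hg.continuous_fderiv one_ne_zero
  have hDm : ∀ i, BM (fun x => fderiv ℝ g (P x) (Pi.single i 1)) := by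
    intro i
    obtain ⟨C, hC⟩ := hb i
    exact ⟨((hDc.comp hPc).clm_apply continuous_const).measurable, C, hC⟩
  have hfD : ∀ (f : X → ℝ), BM f → ∀ i, BM (fun x => f x * fderiv ℝ g (P x) (Pi.single i 1)) :=
    fun f hf i => hf.mul (hDm i)
  set μ := ctrl T with hμ
  set Q : ℝ := ∏ i ∈ Finset.univ \ {j}, (Kσ i : ℝ) with hQ
  have hQ0 : 0 ≤ Q := Finset.prod_nonneg fun i _ => (Kσ i).coe_nonneg
  -- the difference functional
  let Δ : (X → ℝ) → ℝ := fun f => ext T f (Function.update σ j (fun x => g (P x))) -
    ∑ i, ext T (fun x => f x * fderiv ℝ g (P x) (Pi.single i 1)) (Function.update σ j (p i))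
  suffices h : Δ f = 0 by
    simp only [Δ] at h
    linarith
  apply eq_zero_of_local μ hPc Δ ?_ ?_ ?_ hf
  · intro f f' hf hf'
    simp only [Δ]
    rw [ext_add hf hf']
    have : ∀ i, ext T (fun x => (f + f') x * fderiv ℝ g (P x) (Pi.single i 1))
        (Function.update σ j (p i)) = ext T (fun x => f x * fderiv ℝ g (P x) (Pi.single i 1))
        (Function.update σ j (p i)) + ext T (fun x => f' x * fderiv ℝ g (P x) (Pi.single i 1))
        (Function.update σ j (p i)) := by
      intro i
      rw [← ext_add (hfD f hf i) (hfD f' hf' i)]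
      congr 1
      funext x
      simp only [Pi.add_apply]; ring
    simp only [this, Finset.sum_add_distrib]
    ring
  · intro f G C hf hG hC hlim
    simp only [Δ]
    apply Tendsto.sub
    · exact ext_tendsto hf.1 (fun n => (hG n).1) hC hlim _
    · apply tendsto_finsetSum
      intro i _
      obtain ⟨C', hC'⟩ := (hDm i).2
      apply ext_tendsto (hfD f hf i).1 (fun n => (hfD _ (hG n) i).1) (C := |C| * |C'|)
      · intro n x
        rw [abs_mul]
        exact mul_le_mul ((hC n x).trans (le_abs_self C)) ((hC' x).trans (le_abs_self C'))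
          (abs_nonneg _) (abs_nonneg _)
      · exact fun x => (hlim x).mul_const _
  · intro R hR ω hω
    -- uniform continuity of the derivative on the closed ball
    set ω' : ℝ := ω / (((N : ℝ) + 1) * (Q * (L + 1)) + 1) with hω'
    have hω'0 : 0 < ω' := by positivity
    have huc : UniformContinuousOn (fderiv ℝ g) (Metric.closedBall 0 R) :=
      (isCompact_closedBall 0 R).uniformContinuousOn_of_continuous hDc.continuousOn
    obtain ⟨δ', hδ', hδ''⟩ := Metric.uniformContinuousOn_iff_le.1 huc ω' hω'0
    refine ⟨δ' / 2, by positivity, fun c f hf hfs => ?_⟩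
    have hI : 0 ≤ ∫ x, |f x| ∂μ := integral_nonneg fun x => abs_nonneg _
    by_cases hne : ∃ x0, f x0 ≠ 0
    swap
    · push Not at hne
      have : f = 0 := funext hne
      subst this
      have h0 : ∀ π : Fin k → X → ℝ, ext T (fun x : X => (0 : X → ℝ) x * (0 : ℝ)) π = 0 := by
        intro π; simp [ext]
      simp only [Δ, ext_zero, Pi.zero_apply, zero_mul]
      have h1 : ∀ π : Fin k → X → ℝ, ext T (fun _ : X => (0 : ℝ)) π = 0 := fun π => ext_zero π
      simp [h1]
    obtain ⟨x0, hx0⟩ := hne
    set a := P x0 with ha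
    set S : Set (Fin N → ℝ) := Metric.closedBall 0 R ∩ Metric.ball c (δ' / 2) with hS
    have hSconv : Convex ℝ S := (convex_closedBall 0 R).inter (convex_ball c _)
    have hmemS : ∀ x, f x ≠ 0 → P x ∈ S := by
      intro x hx
      obtain ⟨h1, h2⟩ := hfs x hx
      exact ⟨by simpa using h1, h2⟩
    have haS : a ∈ S := hmemS x0 hx0
    have hder : ∀ y ∈ S, ‖fderiv ℝ g y - fderiv ℝ g a‖ ≤ ω' := by
      intro y hy
      have := hδ'' y hy.1 a haS.1 (by
        have h1 : dist y c < δ' / 2 := hy.2
        have h2 : dist a c < δ' / 2 := haS.2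
        calc dist y a ≤ dist y c + dist a c := dist_triangle_right _ _ _
          _ ≤ δ' := by linarith)
      rwa [dist_eq_norm] at this
    set B : Set X := {x | f x ≠ 0} with hB
    -- the affine approximation
    let A : X → ℝ := ∑ i, (fderiv ℝ g a (Pi.single i 1)) • p i
    have hAL : ∃ K : ℝ≥0, LipschitzWith K A := lip_sum _ fun i _ =>
      ⟨_, lipschitzWith_smul (hKp i) _⟩
    have hAval : ∀ x, A x = fderiv ℝ g a (P x) := by
      intro x
      have h1 : P x = ∑ i, (p i x) • (Pi.single i (1 : ℝ) : Fin N → ℝ) := by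
        have := pi_eq_sum_univ' (P x)
        convert! this using 2
      rw [h1, map_sum]
      simp only [A, Finset.sum_apply, Pi.smul_apply, smul_eq_mul, map_smul]
      exact Finset.sum_congr rfl fun i _ => mul_comm _ _
    have hlin : ∀ x ∈ B, ∀ y ∈ B, |(g (P x) - A x) - (g (P y) - A y)| ≤ ω' * (L * dist x y) := by
      intro x hx y hy
      have h1 := hSconv.norm_image_sub_le_of_norm_fderiv_le' (f := g) (φ := fderiv ℝ g a)
        (C := ω') (fun z _ => (hg.differentiable one_ne_zero) z) hder (hmemS y hy) (hmemS x hx)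
      rw [hAval, hAval]
      have h2 : g (P x) - fderiv ℝ g a (P x) - (g (P y) - fderiv ℝ g a (P y))
          = g (P x) - g (P y) - fderiv ℝ g a (P x - P y) := by
        rw [map_sub]; ring
      rw [h2]
      refine (h1).trans ?_
      rw [← dist_eq_norm]
      exact mul_le_mul_of_nonneg_left (hPL x y) hω'0.le
    have hB1 : LipschitzOnWith (Real.toNNReal ω' * L) ((fun x => g (P x)) - A) B := by
      apply LipschitzOnWith.of_dist_le_mul
      intro x hx y hy
      rw [Real.dist_eq, NNReal.coe_mul, Real.coe_toNNReal _ hω'0.le, mul_assoc]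
      exact hlin x hx y hy
    have hBmem : ∀ x, f x ≠ 0 → x ∈ B := fun x hx => hx
    have hgA : ∃ K : ℝ≥0, LipschitzWith K ((fun x => g (P x)) - A) := by
      obtain ⟨K1, hK1⟩ := hgl
      obtain ⟨K2, hK2⟩ := hAL
      exact ⟨_, hK1.sub hK2⟩
    have E1 : |ext T f (Function.update σ j ((fun x => g (P x)) - A))| ≤
        (ω' * L * Q) * ∫ x, |f x| ∂μ := by
      have h1 := abs_ext_le_local hT (controls_ctrl hT) hf (hσ.update j hgA) hBmem
        (K := Function.update Kσ j (Real.toNNReal ω' * L)) (by
          intro i
          by_cases hi : i = j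
          · subst hi; simpa using hB1
          · simpa [hi] using (hKσ i).lipschitzOnWith)
      refine h1.trans (le_of_eq ?_)
      congr 1
      have : (fun i => ((Function.update Kσ j (Real.toNNReal ω' * L) i : ℝ≥0) : ℝ)) =
          Function.update (fun i => (Kσ i : ℝ)) j (ω' * L) := by
        funext i
        by_cases hi : i = j
        · subst hi; simp [Real.coe_toNNReal _ hω'0.le]
        · simp [hi]
      rw [this, Finset.prod_update_of_mem (Finset.mem_univ j)]
    have E2 : ext T f (Function.update σ j ((fun x => g (P x)) - A)) =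
        ext T f (Function.update σ j (fun x => g (P x))) -
        ∑ i, (fderiv ℝ g a (Pi.single i 1)) * ext T f (Function.update σ j (p i)) := by
      rw [ext_sub_coord hT hf hσ j hgl hAL]
      congr 1
      simp only [A]
      rw [ext_sum_coord hT hf hσ j _ fun i _ => ⟨_, lipschitzWith_smul (hKp i) _⟩]
      exact Finset.sum_congr rfl fun i _ => ext_smul_coord hT hf hσ j _ ⟨_, hKp i⟩
    have E3 : ∀ i, |ext T (fun x => f x * fderiv ℝ g (P x) (Pi.single i 1))
        (Function.update σ j (p i)) -
        (fderiv ℝ g a (Pi.single i 1)) * ext T f (Function.update σ j (p i))| ≤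
        (ω' * L * Q) * ∫ x, |f x| ∂μ := by
      intro i
      rw [← ext_smul, ← ext_sub (hfD f hf i) (hf.smul _)]
      have h1 := abs_ext_le (T := T) hT (controls_ctrl hT) ((hfD f hf i).sub
        (hf.smul (fderiv ℝ g a (Pi.single i 1))))
        (π := Function.update σ j (p i)) (K := Function.update Kσ j L) (by
          intro l
          by_cases hl : l = j
          · subst hl; simpa using (hKp i).weaken (hKL i)
          · simpa [hl] using hKσ l)
      refine h1.trans ?_
      have : (fun i => ((Function.update Kσ j L i : ℝ≥0) : ℝ)) =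
          Function.update (fun i => (Kσ i : ℝ)) j (L : ℝ) := by
        funext i
        by_cases hi : i = j
        · subst hi; simp
        · simp [hi]
      rw [this, Finset.prod_update_of_mem (Finset.mem_univ j)]
      have h2 : ∫ x, |((fun x => f x * fderiv ℝ g (P x) (Pi.single i 1)) -
          (fderiv ℝ g a (Pi.single i 1)) • f) x| ∂μ ≤ ω' * ∫ x, |f x| ∂μ := by
        rw [← integral_const_mul]
        apply integral_mono_of_nonneg (Eventually.of_forall fun x => abs_nonneg _)
          ((hf.abs.integrable μ).const_mul _)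
        refine Eventually.of_forall fun x => ?_
        simp only [Pi.sub_apply, Pi.smul_apply, smul_eq_mul]
        by_cases hx : f x = 0
        · simp [hx]
        · have h3 : f x * fderiv ℝ g (P x) (Pi.single i 1) - fderiv ℝ g a (Pi.single i 1) * f x
              = (fderiv ℝ g (P x) - fderiv ℝ g a) (Pi.single i 1) * f x := by
            simp only [sub_apply]; ring
          rw [h3, abs_mul]
          apply mul_le_mul_of_nonneg_right _ (abs_nonneg _)
          calc |(fderiv ℝ g (P x) - fderiv ℝ g a) (Pi.single i 1)|
              ≤ ‖fderiv ℝ g (P x) - fderiv ℝ g a‖ * ‖(Pi.single i 1 : Fin N → ℝ)‖ := by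
                rw [← Real.norm_eq_abs]
                exact ContinuousLinearMap.le_opNorm _ _
            _ ≤ ω' * 1 := by
                apply mul_le_mul (hder _ (hmemS x hx)) _ (norm_nonneg _) hω'0.le
                rw [Pi.norm_single]; simp
            _ = ω' := mul_one _
      calc (L : ℝ) * Q * ∫ x, |((fun x => f x * fderiv ℝ g (P x) (Pi.single i 1)) -
          (fderiv ℝ g a (Pi.single i 1)) • f) x| ∂μ
          ≤ (L : ℝ) * Q * (ω' * ∫ x, |f x| ∂μ) := mul_le_mul_of_nonneg_left h2 (by positivity)
        _ = _ := by ring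
    have E4 : Δ f = ext T f (Function.update σ j ((fun x => g (P x)) - A)) -
        ∑ i, (ext T (fun x => f x * fderiv ℝ g (P x) (Pi.single i 1))
        (Function.update σ j (p i)) -
        (fderiv ℝ g a (Pi.single i 1)) * ext T f (Function.update σ j (p i))) := by
      rw [E2, Finset.sum_sub_distrib]
      simp only [Δ]
      ring
    rw [E4]
    refine (abs_sub _ _).trans ?_
    have E5 : |∑ i, (ext T (fun x => f x * fderiv ℝ g (P x) (Pi.single i 1))
        (Function.update σ j (p i)) -
        (fderiv ℝ g a (Pi.single i 1)) * ext T f (Function.update σ j (p i)))| ≤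
        N * ((ω' * L * Q) * ∫ x, |f x| ∂μ) := by
      refine (Finset.abs_sum_le_sum_abs _ _).trans ?_
      refine (Finset.sum_le_sum fun i _ => E3 i).trans ?_
      simp
    refine (add_le_add E1 E5).trans ?_
    have E6 : ω' * (((N : ℝ) + 1) * (Q * (L + 1)) + 1) = ω := by
      rw [hω']; field_simp
    have E7 : ω' * L * Q * ((N : ℝ) + 1) ≤ ω := by
      rw [← E6]
      have : (0 : ℝ) ≤ (L : ℝ) := L.coe_nonneg
      have h1 : (L : ℝ) * Q * ((N : ℝ) + 1) ≤ ((N : ℝ) + 1) * (Q * (L + 1)) + 1 := by
        nlinarith [mul_nonneg hQ0 (by positivity : (0 : ℝ) ≤ (N : ℝ) + 1)]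
      calc ω' * L * Q * ((N : ℝ) + 1) = ω' * (L * Q * ((N : ℝ) + 1)) := by ring
        _ ≤ _ := mul_le_mul_of_nonneg_left h1 hω'0.le
    calc ω' * L * Q * (∫ x, |f x| ∂μ) + N * (ω' * L * Q * ∫ x, |f x| ∂μ)
        = (ω' * L * Q * ((N : ℝ) + 1)) * ∫ x, |f x| ∂μ := by ring
      _ ≤ ω * ∫ x, |f x| ∂μ := mul_le_mul_of_nonneg_right E7 hI

end Crest.Agent.R241.G1
end

-- ▼ part R241/G1e

/-!
R241, block G1e: one-variable chain rule, Leibniz rule, alternation, determinant chain rule.
-/

set_option autoImplicit false
set_option linter.unusedSectionVars false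

open MeasureTheory Filter Topology
open scoped ENNReal NNReal

namespace Crest.Agent.R241.G1

open Crest.GeometryTopology.MetricCurrent

universe u

variable {X : Type u} [MetricSpace X] [MeasurableSpace X] [BorelSpace X]
variable {k : ℕ} {T : Functional X k}


theorem lip_mul_of_bdd {u v : X → ℝ} (hu : BL u) (hv : BL v) :
    ∃ K : ℝ≥0, LipschitzWith K (u * v) := (hu.mul hv).1

/-- Leibniz rule in one coordinate -/
theorem ext_leibniz (hT : IsCurrent T) {f : X → ℝ} (hf : BM f) {σ : Fin k → X → ℝ}
    (hσ : LipT σ) (j : Fin k) {u v : X → ℝ} (hu : BL u) (hv : BL v) :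
    ext T f (Function.update σ j (u * v)) =
      ext T (f * u) (Function.update σ j v) + ext T (f * v) (Function.update σ j u) := by
  have hder : ∀ y : Fin 2 → ℝ, HasFDerivAt (fun y : Fin 2 → ℝ => y 0 * y 1)
      (y 0 • ContinuousLinearMap.proj (R := ℝ) (φ := fun _ : Fin 2 => ℝ) 1 +
        y 1 • ContinuousLinearMap.proj (R := ℝ) (φ := fun _ : Fin 2 => ℝ) 0) y := by
    intro y
    have h1 : HasFDerivAt (fun y : Fin 2 → ℝ => y 0)
        (ContinuousLinearMap.proj (R := ℝ) (φ := fun _ : Fin 2 => ℝ) 0) y :=
      (ContinuousLinearMap.proj (R := ℝ) (φ := fun _ : Fin 2 => ℝ) 0).hasFDerivAt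
    have h2 : HasFDerivAt (fun y : Fin 2 → ℝ => y 1)
        (ContinuousLinearMap.proj (R := ℝ) (φ := fun _ : Fin 2 => ℝ) 1) y :=
      (ContinuousLinearMap.proj (R := ℝ) (φ := fun _ : Fin 2 => ℝ) 1).hasFDerivAt
    exact h1.mul h2
  have hg : ContDiff ℝ 1 (fun y : Fin 2 → ℝ => y 0 * y 1) :=
    (contDiff_apply ℝ ℝ 0).mul (contDiff_apply ℝ ℝ 1)
  have hp : LipT (![u, v] : Fin 2 → X → ℝ) := by
    intro i
    fin_cases i
    · exact hu.1
    · exact hv.1
  obtain ⟨Cu, hCu⟩ := hu.2
  obtain ⟨Cv, hCv⟩ := hv.2
  have e0 : ∀ x, fderiv ℝ (fun y : Fin 2 → ℝ => y 0 * y 1) (fun l => (![u, v] : Fin 2 → X → ℝ) l x)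
      (Pi.single 0 1) = v x := by
    intro x
    rw [(hder _).fderiv]
    simp
  have e1 : ∀ x, fderiv ℝ (fun y : Fin 2 → ℝ => y 0 * y 1) (fun l => (![u, v] : Fin 2 → X → ℝ) l x)
      (Pi.single 1 1) = u x := by
    intro x
    rw [(hder _).fderiv]
    simp
  have hl : ∃ K : ℝ≥0, LipschitzWith K (fun x => u x * v x) := lip_mul_of_bdd hu hv
  have h := ext_chain hT hf hσ j (N := 2) (p := ![u, v]) hp
    (g := fun y => y 0 * y 1) hg (by simpa using hl) (by
      intro i
      fin_cases i
      · exact ⟨Cv, fun x => by
          have := e0 x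
          simp only [Fin.zero_eta, Fin.isValue]
          rw [this]; exact hCv x⟩
      · exact ⟨Cu, fun x => by
          have := e1 x
          simp only [Fin.mk_one, Fin.isValue]
          rw [this]; exact hCu x⟩)
  rw [Fin.sum_univ_two] at h
  simp only [e0, e1] at h
  have h1 : (u * v) = fun x => (fun i => (![u, v] : Fin 2 → X → ℝ) i x) 0 *
      (fun i => (![u, v] : Fin 2 → X → ℝ) i x) 1 := by
    funext x; simp
  rw [h1, h]
  simp only [Matrix.cons_val_zero, Matrix.cons_val_one]
  rw [add_comm]
  rfl

/-- strong locality when the coordinate takes countably many values on `{f ≠ 0}` -/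
theorem ext_zero_of_countable (hT : IsCurrent T) {f : X → ℝ} (hf : BM f) {π : Fin k → X → ℝ}
    (hπ : LipT π) (i : Fin k) (h : (π i '' {x | f x ≠ 0}).Countable) : ext T f π = 0 := by
  rcases (π i '' {x | f x ≠ 0}).eq_empty_or_nonempty with he | hne
  · apply ext_strong_locality hT hf hπ i 0
    intro x hx
    exfalso
    have : π i x ∈ π i '' {x | f x ≠ 0} := ⟨x, hx, rfl⟩
    rw [he] at this
    exact this
  obtain ⟨c, hc⟩ := h.exists_eq_range hne
  have hmeas : Measurable (π i) := by
    obtain ⟨K, hK⟩ := hπ i
    exact hK.continuous.measurable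
  -- vanishing for finite sets of values
  have key : ∀ (s : Finset ℝ), ext T ((π i ⁻¹' (s : Set ℝ)).indicator f) π = 0 := by
    intro s
    classical
    induction s using Finset.induction_on with
    | empty =>
      simp only [Finset.coe_empty, Set.preimage_empty, Set.indicator_empty]
      exact ext_zero π
    | insert a s ha ih =>
      have h1 : (π i ⁻¹' ((insert a s : Finset ℝ) : Set ℝ)).indicator f =
          (π i ⁻¹' {a}).indicator f + (π i ⁻¹' (s : Set ℝ)).indicator f := by
        funext x
        by_cases hxa : π i x = a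
        · have n1 : π i x ∉ s := by rw [hxa]; exact ha
          simp [Set.indicator, hxa, ha]
        · simp [Set.indicator, hxa]
      rw [h1, ext_add (hf.indicator (hmeas (measurableSet_singleton a)))
        (hf.indicator (hmeas s.measurableSet)), ih, add_zero]
      apply ext_strong_locality hT (hf.indicator (hmeas (measurableSet_singleton a))) hπ i a
      intro x hx
      by_contra hcon
      exact hx (Set.indicator_of_notMem (by simpa using hcon) _)
  have hlim : Tendsto (fun n : ℕ =>
      ext T ((π i ⁻¹' (((Finset.range n).image c : Finset ℝ) : Set ℝ)).indicator f) π) atTop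
      (𝓝 (ext T f π)) := by
    obtain ⟨C, hC⟩ := hf.2
    apply ext_tendsto hf.1 (C := |C|)
    · intro n
      exact hf.1.indicator (hmeas (Finset.measurableSet _))
    · intro n x
      by_cases hx : x ∈ π i ⁻¹' (((Finset.range n).image c : Finset ℝ) : Set ℝ)
      · rw [Set.indicator_of_mem hx]
        exact (hC x).trans (le_abs_self C)
      · rw [Set.indicator_of_notMem hx]; simp
    · intro x
      by_cases hx : f x = 0
      · have : ∀ n : ℕ, (π i ⁻¹' (((Finset.range n).image c : Finset ℝ) : Set ℝ)).indicator f x
            = f x := by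
          intro n
          by_cases hx' : x ∈ π i ⁻¹' (((Finset.range n).image c : Finset ℝ) : Set ℝ)
          · rw [Set.indicator_of_mem hx']
          · rw [Set.indicator_of_notMem hx', hx]
        simp only [this]
        exact tendsto_const_nhds
      · have hmem : π i x ∈ Set.range c := by
          rw [← hc]
          exact ⟨x, hx, rfl⟩
        obtain ⟨m, hm⟩ := hmem
        apply tendsto_atTop_of_eventually_const (i₀ := m + 1)
        intro n hn
        apply Set.indicator_of_mem
        simp only [Set.mem_preimage, Finset.coe_image, Finset.coe_range, Set.mem_image,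
          Set.mem_Iio]
        exact ⟨m, by omega, hm⟩
  simp only [key] at hlim
  exact (tendsto_nhds_unique hlim tendsto_const_nhds)

/-- the staircase-type function `⌊t⌋ + min 1 (2 fract t)` -/
noncomputable def saw (t : ℝ) : ℝ := ⌊t⌋ + min 1 (2 * Int.fract t)

theorem saw_mono_lip {s t : ℝ} (h : s ≤ t) : 0 ≤ saw t - saw s ∧ saw t - saw s ≤ 2 * (t - s) := by
  unfold saw
  have hs := Int.floor_add_fract s
  have ht := Int.floor_add_fract t
  have hs0 := Int.fract_nonneg s
  have hs1 := Int.fract_lt_one s
  have ht0 := Int.fract_nonneg t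
  have ht1 := Int.fract_lt_one t
  have hfl : ⌊s⌋ ≤ ⌊t⌋ := Int.floor_le_floor h
  rcases hfl.eq_or_lt with heq | hlt
  · have hab : Int.fract s ≤ Int.fract t := by
      have : (⌊s⌋ : ℝ) = ⌊t⌋ := by rw [heq]
      linarith
    rw [heq]
    have h1 : min 1 (2 * Int.fract s) ≤ min 1 (2 * Int.fract t) := min_le_min le_rfl (by linarith)
    refine ⟨by linarith, ?_⟩
    have h2 : t - s = Int.fract t - Int.fract s := by
      have : (⌊s⌋ : ℝ) = ⌊t⌋ := by rw [heq]
      linarith
    rw [h2]
    rcases min_choice 1 (2 * Int.fract s) with h3 | h3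
    · have h4 : min 1 (2 * Int.fract t) ≤ 1 := min_le_left _ _
      rw [h3]
      linarith
    · have h4 : min 1 (2 * Int.fract t) ≤ 2 * Int.fract t := min_le_right _ _
      rw [h3]
      linarith
  · have hm : (1 : ℝ) ≤ (⌊t⌋ : ℝ) - ⌊s⌋ := by
      have : ⌊s⌋ + 1 ≤ ⌊t⌋ := hlt
      have : ((⌊s⌋ + 1 : ℤ) : ℝ) ≤ (⌊t⌋ : ℝ) := by exact_mod_cast this
      push_cast at this
      linarith
    have a1 : 0 ≤ min 1 (2 * Int.fract t) := le_min zero_le_one (by linarith)
    have a2 : min 1 (2 * Int.fract s) ≤ 1 := min_le_left _ _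
    have a3 : min 1 (2 * Int.fract t) ≤ 2 * Int.fract t := min_le_right _ _
    refine ⟨by linarith, ?_⟩
    rcases min_choice 1 (2 * Int.fract s) with h3 | h3
    · rw [h3]; linarith
    · rw [h3]; linarith

theorem saw_close (t : ℝ) : |saw t - t| ≤ 1 := by
  unfold saw
  have ht := Int.floor_add_fract t
  have ht0 := Int.fract_nonneg t
  have ht1 := Int.fract_lt_one t
  have a1 : 0 ≤ min 1 (2 * Int.fract t) := le_min zero_le_one (by linarith)
  have a2 : min 1 (2 * Int.fract t) ≤ 1 := min_le_left _ _
  rw [abs_le]
  constructor <;> linarith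

/-- `T(f, π) = 0` if two coordinates agree -/
theorem ext_zero_of_eq (hT : IsCurrent T) {f : X → ℝ} (hf : BM f) {π : Fin k → X → ℝ}
    (hπ : LipT π) {i j : Fin k} (hij : i ≠ j) (h : π i = π j) : ext T f π = 0 := by
  set p := π i with hp
  have hπL := hπ
  choose K hK using hπ
  have hpK : LipschitzWith (K i) p := hK i
  have hpm : Measurable p := hpK.continuous.measurable
  -- two functions with complementary steps
  let a : ℕ → X → ℝ := fun n x => saw (((n : ℝ) + 1) * p x) / ((n : ℝ) + 1)
  let b : ℕ → X → ℝ := fun n x => (2 * (((n : ℝ) + 1) * p x) - saw (((n : ℝ) + 1) * p x)) / ((n : ℝ) + 1)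
  have hsaw : ∀ s t : ℝ, |saw s - saw t| ≤ 2 * |s - t| := by
    intro s t
    rcases le_total s t with hst | hst
    · obtain ⟨h1, h2⟩ := saw_mono_lip hst
      rw [abs_sub_comm, abs_of_nonneg h1, abs_sub_comm s t, abs_of_nonneg (by linarith)]
      exact h2
    · obtain ⟨h1, h2⟩ := saw_mono_lip hst
      rw [abs_of_nonneg h1, abs_of_nonneg (by linarith)]
      exact h2
  have hsaw' : ∀ s t : ℝ, |(2 * s - saw s) - (2 * t - saw t)| ≤ 2 * |s - t| := by
    intro s t
    rcases le_total s t with hst | hst
    · obtain ⟨h1, h2⟩ := saw_mono_lip hst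
      rw [abs_sub_comm, abs_of_nonneg (by linarith), abs_sub_comm s t,
        abs_of_nonneg (by linarith)]
      linarith
    · obtain ⟨h1, h2⟩ := saw_mono_lip hst
      rw [abs_of_nonneg (by linarith), abs_of_nonneg (by linarith)]
      linarith
  have haL : ∀ n, LipschitzWith (2 * K i) (a n) := by
    intro n
    apply LipschitzWith.of_dist_le_mul
    intro x y
    have hn : (0 : ℝ) < (n : ℝ) + 1 := by positivity
    simp only [a, Real.dist_eq, NNReal.coe_mul, NNReal.coe_ofNat]
    rw [← sub_div, abs_div, abs_of_pos hn, div_le_iff₀ hn]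
    refine (hsaw _ _).trans ?_
    rw [← mul_sub, abs_mul, abs_of_pos hn]
    have := hpK.dist_le_mul x y
    rw [Real.dist_eq] at this
    nlinarith
  have hbL : ∀ n, LipschitzWith (2 * K i) (b n) := by
    intro n
    apply LipschitzWith.of_dist_le_mul
    intro x y
    have hn : (0 : ℝ) < (n : ℝ) + 1 := by positivity
    simp only [b, Real.dist_eq, NNReal.coe_mul, NNReal.coe_ofNat]
    rw [← sub_div, abs_div, abs_of_pos hn, div_le_iff₀ hn]
    refine (hsaw' _ _).trans ?_
    rw [← mul_sub, abs_mul, abs_of_pos hn]
    have := hpK.dist_le_mul x y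
    rw [Real.dist_eq] at this
    nlinarith
  have halim : ∀ x, Tendsto (fun n => a n x) atTop (𝓝 (p x)) := by
    intro x
    rw [tendsto_iff_norm_sub_tendsto_zero]
    refine squeeze_zero (fun n => norm_nonneg _) (fun n => ?_)
      tendsto_one_div_add_atTop_nhds_zero_nat
    have hn : (0 : ℝ) < (n : ℝ) + 1 := by positivity
    simp only [a, Real.norm_eq_abs]
    have : saw (((n : ℝ) + 1) * p x) / ((n : ℝ) + 1) - p x =
        (saw (((n : ℝ) + 1) * p x) - ((n : ℝ) + 1) * p x) / ((n : ℝ) + 1) := by
      field_simp
    rw [this, abs_div, abs_of_pos hn]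
    exact div_le_div_of_nonneg_right (saw_close _) hn.le
  have hblim : ∀ x, Tendsto (fun n => b n x) atTop (𝓝 (p x)) := by
    intro x
    have h1 : ∀ n, b n x = 2 * p x - a n x := by
      intro n
      have hn : (n : ℝ) + 1 ≠ 0 := by positivity
      simp only [a, b]
      field_simp
    simp only [h1]
    have h2 := (halim x).const_sub (2 * p x)
    have h3 : 2 * p x - p x = p x := by ring
    rw [h3] at h2
    exact h2
  let τ : ℕ → Fin k → X → ℝ := fun n => Function.update (Function.update π i (a n)) j (b n)
  have hτL : ∀ n, LipT (τ n) := fun n => (hπL.update i ⟨_, haL n⟩).update j ⟨_, hbL n⟩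
  have hlim : Tendsto (fun n => ext T f (τ n)) atTop (𝓝 (ext T f π)) := by
    apply ext_continuity hT hf (K := fun l => 2 * K i + K l)
    · intro l
      exact (hK l).weaken (le_add_of_nonneg_left zero_le)
    · intro n l
      by_cases hl : l = j
      · subst hl
        simp only [τ, Function.update_self]
        exact (hbL n).weaken (le_add_of_nonneg_right zero_le)
      · by_cases hl' : l = i
        · subst hl'
          simp only [τ, Function.update_of_ne hl, Function.update_self]
          exact (haL n).weaken (le_add_of_nonneg_right zero_le)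
        · simp only [τ, Function.update_of_ne hl, Function.update_of_ne hl']
          exact (hK l).weaken (le_add_of_nonneg_left zero_le)
    · intro l x
      by_cases hl : l = j
      · subst hl
        simp only [τ, Function.update_self]
        rw [← h]
        exact hblim x
      · by_cases hl' : l = i
        · subst hl'
          simp only [τ, Function.update_of_ne hl, Function.update_self]
          exact halim x
        · simp only [τ, Function.update_of_ne hl, Function.update_of_ne hl']
          exact tendsto_const_nhds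
  have hzero : ∀ n, ext T f (τ n) = 0 := by
    intro n
    have hn : (0 : ℝ) < (n : ℝ) + 1 := by positivity
    set A : Set X := {x | 2 * Int.fract (((n : ℝ) + 1) * p x) ≤ 1} with hA
    have hAm : MeasurableSet A :=
      measurableSet_le ((measurable_fract.comp (hpm.const_mul _)).const_mul _) measurable_const
    have hsplit : f = A.indicator f + Aᶜ.indicator f := by
      rw [Set.indicator_self_add_compl]
    rw [hsplit, ext_add (hf.indicator hAm) (hf.indicator hAm.compl)]
    have z1 : ext T (A.indicator f) (τ n) = 0 := by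
      apply ext_zero_of_countable hT (hf.indicator hAm) (hτL n) j
      apply (Set.countable_range (fun m : ℤ => (m : ℝ) / ((n : ℝ) + 1))).mono
      rintro _ ⟨x, hx, rfl⟩
      have hxA : x ∈ A := by
        by_contra hcon
        exact hx (Set.indicator_of_notMem hcon _)
      refine ⟨⌊((n : ℝ) + 1) * p x⌋, ?_⟩
      simp only [τ, Function.update_self, b]
      congr 1
      have h1 : min 1 (2 * Int.fract (((n : ℝ) + 1) * p x)) = 2 * Int.fract (((n : ℝ) + 1) * p x) :=
        min_eq_right hxA
      have h2 := Int.floor_add_fract (((n : ℝ) + 1) * p x)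
      unfold saw
      rw [h1]
      linarith
    have z2 : ext T (Aᶜ.indicator f) (τ n) = 0 := by
      apply ext_zero_of_countable hT (hf.indicator hAm.compl) (hτL n) i
      apply (Set.countable_range (fun m : ℤ => ((m : ℝ) + 1) / ((n : ℝ) + 1))).mono
      rintro _ ⟨x, hx, rfl⟩
      have hxA : x ∈ Aᶜ := by
        by_contra hcon
        exact hx (Set.indicator_of_notMem hcon _)
      refine ⟨⌊((n : ℝ) + 1) * p x⌋, ?_⟩
      simp only [τ, Function.update_of_ne hij, Function.update_self, a]
      congr 1
      have h1 : min 1 (2 * Int.fract (((n : ℝ) + 1) * p x)) = 1 := by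
        apply min_eq_left
        have : ¬ (2 * Int.fract (((n : ℝ) + 1) * p x) ≤ 1) := hxA
        linarith
      unfold saw
      rw [h1]
    rw [z1, z2, add_zero]
  simp only [hzero] at hlim
  exact (tendsto_nhds_unique hlim tendsto_const_nhds)

/-- the space of Lipschitz functions -/
def LipSub (X : Type u) [MetricSpace X] : Submodule ℝ (X → ℝ) where
  carrier := {g | ∃ K : ℝ≥0, LipschitzWith K g}
  add_mem' := by
    rintro f g ⟨K, hK⟩ ⟨K', hK'⟩
    exact ⟨_, hK.add hK'⟩
  zero_mem' := ⟨0, LipschitzWith.const 0⟩
  smul_mem' := by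
    rintro c f ⟨K, hK⟩
    exact ⟨_, lipschitzWith_smul hK c⟩

theorem lipT_coe (v : Fin k → LipSub X) : LipT (fun i => (v i : X → ℝ)) := fun i => (v i).2

theorem coe_update (v : Fin k → LipSub X) (i : Fin k) (w : LipSub X) :
    (fun l => ((Function.update v i w l : LipSub X) : X → ℝ)) =
      Function.update (fun l => (v l : X → ℝ)) i (w : X → ℝ) := by
  funext l
  by_cases h : l = i
  · subst h; simp
  · simp [h]

/-- `T(f, ·)` as an alternating map on Lipschitz functions -/
noncomputable def altT (hT : IsCurrent T) {f : X → ℝ} (hf : BM f) :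
    LipSub X [⋀^Fin k]→ₗ[ℝ] ℝ where
  toFun v := ext T f (fun i => (v i : X → ℝ))
  map_update_add' := by
    intro inst v i a b
    have : inst = instDecidableEqFin k := Subsingleton.elim _ _
    subst this
    rw [coe_update, coe_update, coe_update]
    exact ext_add_coord hT hf (lipT_coe v) i a.2 b.2
  map_update_smul' := by
    intro inst v i c a
    have : inst = instDecidableEqFin k := Subsingleton.elim _ _
    subst this
    rw [coe_update, coe_update]
    exact ext_smul_coord hT hf (lipT_coe v) i c a.2
  map_eq_zero_of_eq' := by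
    intro v i j h hij
    exact ext_zero_of_eq hT hf (lipT_coe v) hij (by rw [h])

theorem altT_apply (hT : IsCurrent T) {f : X → ℝ} (hf : BM f) (v : Fin k → LipSub X) :
    altT hT hf v = ext T f (fun i => (v i : X → ℝ)) := rfl

/-- permuting the coordinates -/
theorem ext_perm (hT : IsCurrent T) {f : X → ℝ} (hf : BM f) {π : Fin k → X → ℝ} (hπ : LipT π)
    (σ : Equiv.Perm (Fin k)) :
    ext T f (fun i => π (σ i)) = (Equiv.Perm.sign σ : ℤ) * ext T f π := by
  let v : Fin k → LipSub X := fun i => ⟨π i, hπ i⟩
  have h := (altT hT hf).map_perm v σ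
  have h1 : altT hT hf (v ∘ σ) = ext T f (fun i => π (σ i)) := rfl
  have h2 : altT hT hf v = ext T f π := rfl
  rw [h1, h2] at h
  rw [h]
  rcases Int.units_eq_one_or (Equiv.Perm.sign σ) with hs | hs <;> simp [hs]


/-- linear substitution: `T(f, (A p)_1, …, (A p)_k) = det A · T(f, p)` -/
theorem ext_linear_subst (hT : IsCurrent T) {f : X → ℝ} (hf : BM f) {p : Fin k → X → ℝ}
    (hp : LipT p) (A : Matrix (Fin k) (Fin k) ℝ) :
    ext T f (fun i => ∑ l, A i l • p l) = A.det * ext T f p := by
  let v : Fin k → LipSub X := fun i => ⟨p i, hp i⟩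
  let Lm : (Fin k → ℝ) →ₗ[ℝ] LipSub X := Fintype.linearCombination ℝ v
  let F : (Fin k → ℝ) [⋀^Fin k]→ₗ[ℝ] ℝ := (altT hT hf).compLinearMap Lm
  have h1 := F.eq_smul_basis_det (Pi.basisFun ℝ (Fin k))
  have h2 : F (fun i => A i) = ext T f (fun i => ∑ l, A i l • p l) := by
    change altT hT hf (fun i => Lm (A i)) = _
    rw [altT_apply]
    congr 1
    funext i
    simp only [Lm, Fintype.linearCombination_apply, Submodule.coe_sum, Submodule.coe_smul]
    rfl
  have h3 : F (Pi.basisFun ℝ (Fin k)) = ext T f p := by
    change altT hT hf (fun i => Lm (Pi.basisFun ℝ (Fin k) i)) = _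
    rw [altT_apply]
    congr 1
    funext i
    simp [Lm, Fintype.linearCombination_apply, Pi.single_apply, v]
  rw [← h2]
  have h4 : F (fun i => A i) = (F (Pi.basisFun ℝ (Fin k)) • (Pi.basisFun ℝ (Fin k)).det) (fun i => A i) := by
    rw [← h1]
  rw [h4, AlternatingMap.smul_apply, h3, Pi.basisFun_det_apply, smul_eq_mul, mul_comm]
  rfl

/-- perturbation of all coordinates on a set -/
theorem abs_ext_sub_le_local (hT : IsCurrent T) {μ : Measure X} [IsFiniteMeasure μ]
    (hμ : Controls T μ) {f : X → ℝ} (hf : BM f) {π σ : Fin k → X → ℝ} (hπ : LipT π)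
    (hσ : LipT σ) {B : Set X} (hB : ∀ x, f x ≠ 0 → x ∈ B) {K ω : ℝ≥0}
    (hK : ∀ i, LipschitzOnWith K (π i) B) (hK' : ∀ i, LipschitzOnWith K (σ i) B)
    (hω : ∀ i, LipschitzOnWith ω (σ i - π i) B) :
    |ext T f σ - ext T f π| ≤ k * (ω * (K : ℝ) ^ (k - 1)) * ∫ x, |f x| ∂μ := by
  classical
  have hI : 0 ≤ ∫ x, |f x| ∂μ := integral_nonneg fun x => abs_nonneg _
  have key : ∀ s : Finset (Fin k), |ext T f (fun i => if i ∈ s then σ i else π i) - ext T f π| ≤
      s.card * (ω * (K : ℝ) ^ (k - 1)) * ∫ x, |f x| ∂μ := by
    intro s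
    induction s using Finset.induction_on with
    | empty => simp
    | insert a s ha ih =>
      set τ : Fin k → X → ℝ := fun i => if i ∈ s then σ i else π i with hτ
      have hτL : LipT τ := by
        intro i
        by_cases hi : i ∈ s
        · simpa [hτ, hi] using hσ i
        · simpa [hτ, hi] using hπ i
      have hτK : ∀ i, LipschitzOnWith K (τ i) B := by
        intro i
        by_cases hi : i ∈ s
        · simpa [hτ, hi] using hK' i
        · simpa [hτ, hi] using hK i
      have h1 : (fun i => if i ∈ insert a s then σ i else π i) = Function.update τ a (σ a) := by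
        funext i
        by_cases hi : i = a
        · subst hi; simp
        · simp [hτ, hi]
      have h2 : τ = Function.update τ a (π a) := by
        funext i
        by_cases hi : i = a
        · subst hi; simp [hτ, ha]
        · simp [hi]
      have hsub : ∃ K : ℝ≥0, LipschitzWith K (σ a - π a) := by
        obtain ⟨K, hK⟩ := hσ a
        obtain ⟨K', hK'⟩ := hπ a
        exact ⟨_, hK.sub hK'⟩
      have h3 := ext_sub_coord hT hf hτL a (hσ a) (hπ a)
      rw [← h2, ← h1] at h3
      have h4 := abs_ext_le_local hT hμ hf (hτL.update a hsub) hB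
        (K := Function.update (fun _ => K) a ω) (by
          intro i
          by_cases hi : i = a
          · subst hi; simpa using hω i
          · simpa [hi] using hτK i)
      have h5 : (∏ i, ((Function.update (fun _ => K) a ω i : ℝ≥0) : ℝ)) = ω * (K : ℝ) ^ (k - 1) := by
        have : (fun i => ((Function.update (fun _ => K) a ω i : ℝ≥0) : ℝ)) =
            Function.update (fun _ => (K : ℝ)) a (ω : ℝ) := by
          funext i
          by_cases hi : i = a
          · subst hi; simp
          · simp [hi]
        rw [this, Finset.prod_update_of_mem (Finset.mem_univ a)]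
        simp [Finset.card_sdiff]
      rw [h5, h3] at h4
      rw [Finset.card_insert_of_notMem ha]
      have h6 : ext T f (fun i => if i ∈ insert a s then σ i else π i) - ext T f π =
          (ext T f (fun i => if i ∈ insert a s then σ i else π i) - ext T f τ) +
          (ext T f τ - ext T f π) := by ring
      rw [h6]
      refine (abs_add_le _ _).trans ((add_le_add h4 ih).trans (le_of_eq ?_))
      push_cast
      ring
  have := key Finset.univ
  simpa using this

end Crest.Agent.R241.G1
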