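import Crest.Agent.R241.B7ZD
import Crest.Agent.R241.G1c
import Mathlib
import Crest.Prelude.Def_MetricCurrent
import Crest.Agent.R241.G1e
import Crest.Agent.R241.G1f
import Crest.Agent.R241.B7Moll2
import Crest.Agent.R241.B6

-- ▼ part R241/B7Slice
section

/-!
R241, block B7: integer densities of superlevel sets from an integer density one dimension up.
Owner: helper191.
-/

set_option autoImplicit false

open MeasureTheory Filter Topology Set
open scoped ENNReal NNReal

universe u

namespace Crest.Agent.R241.B7Slice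

open Crest.GeometryTopology.Submanifold (Euc)
open Crest.Agent.R241.B7ZD

variable {X : Type u} [MeasurableSpace X] {k : ℕ}

/-- `c(s) = ∫_r^{r'} 1_{t < s} dt`. -/
noncomputable def clamp (r r' s : ℝ) : ℝ := max 0 (min (s - r) (r' - r))

lemma clamp_nonneg (r r' s : ℝ) : 0 ≤ clamp r r' s := le_max_left _ _

lemma clamp_le {r r' : ℝ} (h : r ≤ r') (s : ℝ) : clamp r r' s ≤ r' - r :=
  max_le (by linarith) (min_le_right _ _)

lemma clamp_eq_integral {r r' : ℝ} (h : r ≤ r') (s : ℝ) :
    clamp r r' s = ∫ t in Ioc r r', (if t < s then (1 : ℝ) else 0) := by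
  have h1 : ∀ t, (if t < s then (1 : ℝ) else 0) = (Iio s).indicator (fun _ => (1 : ℝ)) t := by
    intro t
    by_cases ht : t < s
    · simp [ht]
    · simp [ht]
  simp_rw [h1]
  rw [setIntegral_indicator measurableSet_Iio]
  rw [setIntegral_const, smul_eq_mul, mul_one]
  have h2 : (volume : Measure ℝ).real (Ioc r r' ∩ Iio s) = clamp r r' s := by
    by_cases hs : s ≤ r'
    · have : Ioc r r' ∩ Iio s = Ioo r s := by
        ext t
        simp only [mem_inter_iff, mem_Ioc, mem_Iio, mem_Ioo]
        constructor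
        · rintro ⟨⟨a, b⟩, c⟩
          exact ⟨a, c⟩
        · rintro ⟨a, b⟩
          exact ⟨⟨a, by linarith⟩, b⟩
      rw [this]
      simp only [Measure.real, Real.volume_Ioo]
      unfold clamp
      rw [min_eq_left (by linarith)]
      by_cases h3 : 0 ≤ s - r
      · rw [ENNReal.toReal_ofReal h3, max_eq_right h3]
      · rw [ENNReal.ofReal_of_nonpos (by linarith), max_eq_left (by linarith)]
        rfl
    · have : Ioc r r' ∩ Iio s = Ioc r r' := by
        ext t
        simp only [mem_inter_iff, mem_Ioc, mem_Iio]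
        constructor
        · rintro ⟨⟨a, b⟩, c⟩
          exact ⟨a, b⟩
        · rintro ⟨a, b⟩
          exact ⟨⟨a, b⟩, by linarith⟩
      rw [this]
      simp only [Measure.real, Real.volume_Ioc]
      rw [ENNReal.toReal_ofReal (by linarith)]
      unfold clamp
      rw [min_eq_right (by linarith), max_eq_right (by linarith)]
  rw [h2]

/-- Two locally integrable functions on `ℝ` with the same integrals over all intervals agree. -/
lemma ae_eq_of_Ioc {f g : ℝ → ℝ} (hf : LocallyIntegrable f volume)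
    (hg : LocallyIntegrable g volume)
    (h : ∀ a b : ℝ, a ≤ b → ∫ t in Ioc a b, f t = ∫ t in Ioc a b, g t) : f =ᵐ[volume] g := by
  have hw : LocallyIntegrable (fun t => f t - g t) volume := hf.sub hg
  have h0 : ∀ c y : ℝ, ∫ t in c..y, (f t - g t) = 0 := by
    intro c y
    have i1 : ∀ a b : ℝ, IntegrableOn f (Ioc a b) volume := fun a b =>
      (hf.integrableOn_isCompact isCompact_Icc).mono_set Ioc_subset_Icc_self
    have i2 : ∀ a b : ℝ, IntegrableOn g (Ioc a b) volume := fun a b =>
      (hg.integrableOn_isCompact isCompact_Icc).mono_set Ioc_subset_Icc_self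
    rcases le_total c y with hc | hc
    · rw [intervalIntegral.integral_of_le hc, integral_sub (i1 _ _) (i2 _ _), h c y hc, sub_self]
    · rw [intervalIntegral.integral_of_ge hc, integral_sub (i1 _ _) (i2 _ _), h y c hc, sub_self,
        neg_zero]
  filter_upwards [LocallyIntegrable.ae_hasDerivAt_integral hw] with x hx
  have h1 := hx 0
  have h2 : (fun y => ∫ t in (0 : ℝ)..y, (f t - g t)) = fun _ => 0 := by
    funext y
    exact h0 0 y
  rw [h2] at h1
  have := h1.unique (hasDerivAt_const x (0 : ℝ))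
  linarith

/-- Checking the density identity on a generating algebra suffices. -/
lemma isDens_of_algebra {μ : Measure X} {p : X → Euc k} (hp : Measurable p) {h : X → ℝ}
    (hh : Integrable h μ) {u : Euc k → ℝ} (hu : Integrable u volume)
    (𝒜 : Set (Set (Euc k))) (h𝒜 : IsPiSystem 𝒜)
    (hgen : (inferInstance : MeasurableSpace (Euc k)) = MeasurableSpace.generateFrom 𝒜)
    (huniv : univ ∈ 𝒜)
    (H : ∀ D ∈ 𝒜, ∫ x in p ⁻¹' D, h x ∂μ = ∫ x in D, u x) : IsDens μ p h u := by
  refine ⟨hu, fun D hD => ?_⟩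
  induction D, hD using MeasurableSpace.induction_on_inter hgen h𝒜 with
  | empty => simp
  | basic D hD => exact H D hD
  | compl D hD ih =>
    have e1 := integral_add_compl (hp hD) hh
    have e2 := integral_add_compl hD hu
    have e3 := H univ huniv
    simp only [preimage_univ, Measure.restrict_univ] at e3
    rw [preimage_compl]
    linarith
  | iUnion f hd hm ih =>
    rw [preimage_iUnion]
    have d' : Pairwise (Function.onFun Disjoint fun i => p ⁻¹' f i) := fun i j hij =>
      (hd hij).preimage p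
    rw [integral_iUnion (fun i => hp (hm i)) d' hh.integrableOn,
      integral_iUnion hm hd hu.integrableOn]
    exact tsum_congr ih

/-- **Slicing lemma.** -/
theorem slice {μ : Measure X} [IsFiniteMeasure μ] {p : X → Euc k} (hp : Measurable p)
    {g : X → ℝ} (hg : Integrable g μ) {F : X → ℝ} (hF : Measurable F)
    {U : ℝ × Euc k → ℝ} (hU : Integrable U ((volume : Measure ℝ).prod volume))
    (hUz : ∀ᵐ z ∂((volume : Measure ℝ).prod (volume : Measure (Euc k))), ∃ n : ℤ, U z = n)
    (H : ∀ r r' : ℝ, r ≤ r' → ∀ D : Set (Euc k), MeasurableSet D →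
      ∫ x in p ⁻¹' D, clamp r r' (F x) * g x ∂μ
        = ∫ z in Ioc r r' ×ˢ D, U z ∂((volume : Measure ℝ).prod volume)) :
    ∀ᵐ t ∂(volume : Measure ℝ), ZD μ p ({x | t < F x}.indicator g) := by
  classical
  -- the generating algebra
  set 𝒜 : Set (Set (Euc k)) :=
    generateSetAlgebra (MeasurableSpace.countableGeneratingSet (Euc k)) with h𝒜
  have h𝒜c : 𝒜.Countable :=
    countable_generateSetAlgebra (MeasurableSpace.countable_countableGeneratingSet)
  have hgen : (inferInstance : MeasurableSpace (Euc k)) = MeasurableSpace.generateFrom 𝒜 := by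
    rw [h𝒜, generateFrom_generateSetAlgebra_eq,
      MeasurableSpace.generateFrom_countableGeneratingSet]
  have hpi : IsPiSystem 𝒜 := fun s hs t ht _ =>
    (isSetAlgebra_generateSetAlgebra).inter_mem hs ht
  have hun : univ ∈ 𝒜 := (isSetAlgebra_generateSetAlgebra).univ_mem
  have hmeas : ∀ D ∈ 𝒜, MeasurableSet D := by
    intro D hD
    have : MeasurableSet[MeasurableSpace.generateFrom 𝒜] D :=
      MeasurableSpace.measurableSet_generateFrom hD
    rw [← hgen] at this
    exact this
  set G : ℝ × X → ℝ := {z : ℝ × X | z.1 < F z.2}.indicator (fun z => g z.2) with hG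
  have hset : MeasurableSet {z : ℝ × X | z.1 < F z.2} :=
    measurableSet_lt measurable_fst (hF.comp measurable_snd)
  have key : ∀ D, MeasurableSet D →
      (fun t => ∫ x in p ⁻¹' D, ({x | t < F x}.indicator g) x ∂μ) =ᵐ[volume]
        fun t => ∫ y in D, U (t, y) := by
    intro D hD
    have hbd : ∀ t, |∫ x in p ⁻¹' D, ({x | t < F x}.indicator g) x ∂μ| ≤ ∫ x, |g x| ∂μ := by
      intro t
      refine abs_integral_le_integral_abs.trans ?_
      refine (setIntegral_le_integral (hg.indicator
        (measurableSet_lt measurable_const hF)).abs (ae_of_all _ fun x => abs_nonneg _)).trans ?_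
      refine integral_mono (hg.indicator (measurableSet_lt measurable_const hF)).abs hg.abs ?_
      intro x
      by_cases hx : t < F x
      · simp [hx]
      · simp [hx]
    have hGi : ∀ a b : ℝ, Integrable G (((volume : Measure ℝ).restrict (Ioc a b)).prod
        (μ.restrict (p ⁻¹' D))) := by
      intro a b
      have : Integrable (fun z : ℝ × X => g z.2) (((volume : Measure ℝ).restrict (Ioc a b)).prod
        (μ.restrict (p ⁻¹' D))) := (hg.restrict (s := p ⁻¹' D)).comp_snd _
      exact this.indicator hset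
    have hswap : ∀ a b : ℝ, a ≤ b →
        ∫ t in Ioc a b, ∫ x in p ⁻¹' D, ({x | t < F x}.indicator g) x ∂μ
          = ∫ x in p ⁻¹' D, clamp a b (F x) * g x ∂μ := by
      intro a b hab
      have h1 := integral_integral_swap (f := fun t x => ({x | t < F x}.indicator g) x)
        (μ := (volume : Measure ℝ).restrict (Ioc a b)) (ν := μ.restrict (p ⁻¹' D)) (by
          refine (hGi a b).congr (ae_of_all _ fun z => ?_)
          by_cases hz : z.1 < F z.2
          · simp [hG, hz, Function.uncurry]
          · simp [hG, hz, Function.uncurry])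
      rw [h1]
      refine integral_congr_ae (ae_of_all _ fun x => ?_)
      simp only
      rw [clamp_eq_integral hab, ← integral_mul_const]
      refine integral_congr_ae (ae_of_all _ fun t => ?_)
      by_cases hx : t < F x
      · simp [hx]
      · simp [hx]
    have hA : Integrable (fun t => ∫ y in D, U (t, y)) volume := by
      have : Integrable U ((volume : Measure ℝ).prod ((volume : Measure (Euc k)).restrict D)) := by
        have h2 : (volume : Measure ℝ).prod ((volume : Measure (Euc k)).restrict D)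
            = ((volume : Measure ℝ).prod (volume : Measure (Euc k))).restrict (univ ×ˢ D) := by
          rw [← Measure.prod_restrict, Measure.restrict_univ]
        rw [h2]
        exact hU.restrict
      exact this.integral_prod_left
    apply ae_eq_of_Ioc
    · -- local integrability of `M`
      rw [locallyIntegrable_iff]
      intro K hK
      obtain ⟨a, b, hab⟩ : ∃ a b : ℝ, K ⊆ Ioc a b := by
        obtain ⟨R, hR⟩ := hK.isBounded.subset_closedBall 0
        refine ⟨-R - 1, R + 1, hR.trans fun x hx => ?_⟩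
        rw [Metric.mem_closedBall, Real.dist_eq, sub_zero, abs_le] at hx
        exact ⟨by linarith [hx.1], by linarith [hx.2]⟩
      refine IntegrableOn.mono_set ?_ hab
      have h3 := (hGi a b).integral_prod_left
      refine h3.congr (ae_of_all _ fun t => ?_)
      refine integral_congr_ae (ae_of_all _ fun x => ?_)
      by_cases hx : t < F x
      · simp [hG, hx]
      · simp [hG, hx]
    · exact hA.locallyIntegrable
    · intro a b hab
      rw [hswap a b hab, H a b hab D hD]
      rw [← Measure.prod_restrict]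
      refine integral_prod _ ?_
      rw [Measure.prod_restrict]
      exact hU.restrict
  have hall : ∀ᵐ t ∂(volume : Measure ℝ), ∀ D ∈ 𝒜,
      ∫ x in p ⁻¹' D, ({x | t < F x}.indicator g) x ∂μ = ∫ y in D, U (t, y) := by
    rw [ae_ball_iff h𝒜c]
    intro D hD
    exact key D (hmeas D hD)
  filter_upwards [hall, hU.prod_right_ae, Measure.ae_ae_of_ae_prod hUz] with t h1 h2 h3
  exact ⟨fun y => U (t, y), isDens_of_algebra hp
    (hg.indicator (measurableSet_lt measurable_const hF)) h2 𝒜 hpi hgen hun h1, h3⟩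

end Crest.Agent.R241.B7Slice
end

-- ▼ part R241/B7a
section

/-!
R241, block B7a: the boundary of a current with integral projections has integral projections
(for all Borel restrictions).  Owner: helper191.
-/

set_option autoImplicit false

open MeasureTheory Filter Topology Set
open scoped ENNReal NNReal

universe u v

namespace Crest.Agent.R241.B7a

open Crest.GeometryTopology.Submanifold (Euc)
open Crest.GeometryTopology.MetricCurrent
open Crest.Agent.R241.B7ZD Crest.Agent.R241.B7Slice Crest.Agent.R241.G1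

/-- The tuple `π` as a map into Euclidean space. -/
noncomputable def tup {X : Type u} {k : ℕ} (π : Fin k → X → ℝ) (x : X) : Euc k :=
  WithLp.toLp 2 (fun i => π i x)

section general

/-- Approximation of closed sets. -/
theorem tendsto_thick {W : Type u} [MeasurableSpace W] {Y : Type v} [MetricSpace Y]
    [MeasurableSpace Y] [BorelSpace Y] {C : Set Y} (hC : IsClosed C)
    {ρ : Measure W} {r : W → Y} (hr : Measurable r) {g : W → ℝ} (hg : Integrable g ρ) :
    Tendsto (fun n : ℕ => ∫ x,
      ((thickenedIndicator (δ := 1 / ((n : ℝ) + 1)) (by positivity) C (r x) : ℝ≥0) : ℝ) * g x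
        ∂ρ) atTop (𝓝 (∫ x in r ⁻¹' C, g x ∂ρ)) := by
  rw [← integral_indicator (hr hC.measurableSet)]
  refine tendsto_integral_of_dominated_convergence (fun x => |g x|) (fun n => ?_) hg.abs
    (fun n => ae_of_all _ fun x => ?_) (ae_of_all _ fun x => ?_)
  · refine AEStronglyMeasurable.mul ?_ hg.1
    have : Measurable (fun y : Y =>
        ((thickenedIndicator (δ := 1 / ((n : ℝ) + 1)) (by positivity) C y : ℝ≥0) : ℝ)) :=
      (NNReal.continuous_coe.comp (thickenedIndicator _ C).continuous).measurable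
    exact (this.comp hr).aestronglyMeasurable
  · rw [norm_mul, Real.norm_eq_abs, Real.norm_eq_abs]
    have h1 : |((thickenedIndicator (δ := 1 / ((n : ℝ) + 1)) (by positivity) C (r x) : ℝ≥0) : ℝ)|
        ≤ 1 := by
      rw [abs_of_nonneg (NNReal.coe_nonneg _)]
      exact_mod_cast thickenedIndicator_le_one _ C (r x)
    calc _ ≤ 1 * |g x| := mul_le_mul_of_nonneg_right h1 (abs_nonneg _)
      _ = |g x| := one_mul _
  · have h1 := thickenedIndicator_tendsto_indicator_closure
      (δseq := fun n : ℕ => 1 / ((n : ℝ) + 1)) (fun n => by positivity)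
      tendsto_one_div_add_atTop_nhds_zero_nat C
    rw [tendsto_pi_nhds] at h1
    have h2 := (NNReal.continuous_coe.tendsto _).comp (h1 (r x))
    have h3 := h2.mul_const (g x)
    have h4 : (r ⁻¹' C).indicator g x
        = ((((closure C).indicator (fun _ => (1 : ℝ≥0)) (r x) : ℝ≥0)) : ℝ) * g x := by
      rw [hC.closure_eq]
      by_cases hx : r x ∈ C
      · have : x ∈ r ⁻¹' C := hx
        simp [indicator_of_mem hx, indicator_of_mem this]
      · have : x ∉ r ⁻¹' C := hx
        simp [indicator_of_notMem hx, indicator_of_notMem this]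
    rw [h4]
    exact h3

/-- Equality of the projections of two signed measures tested against bounded Lipschitz
functions. -/
theorem eq_of_BL {X : Type u} {Z : Type v} [MeasurableSpace X] [MeasurableSpace Z]
    {Y : Type*} [MetricSpace Y] [MeasurableSpace Y] [BorelSpace Y]
    {μ : Measure X} {ν : Measure Z} {p : X → Y} {q : Z → Y} (hp : Measurable p)
    (hq : Measurable q) {h : X → ℝ} {l : Z → ℝ} (hh : Integrable h μ) (hl : Integrable l ν)
    (H : ∀ G : Y → ℝ, BL G → ∫ x, G (p x) * h x ∂μ = ∫ z, G (q z) * l z ∂ν)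
    (D : Set Y) (hD : MeasurableSet D) :
    ∫ x in p ⁻¹' D, h x ∂μ = ∫ z in q ⁻¹' D, l z ∂ν := by
  have huniv : ∫ x, h x ∂μ = ∫ z, l z ∂ν := by
    have := H _ BL.one
    simpa using this
  induction D, hD using MeasurableSpace.induction_on_inter
    (BorelSpace.measurable_eq (α := Y) ▸ borel_eq_generateFrom_isClosed) isPiSystem_isClosed with
  | empty => simp
  | basic C hC =>
    have hC : IsClosed C := hC
    refine tendsto_nhds_unique (tendsto_thick hC hp hh)
      ((tendsto_thick hC hq hl).congr fun n => ?_)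
    refine (H (fun y =>
      ((thickenedIndicator (δ := 1 / ((n : ℝ) + 1)) (by positivity) C y : ℝ≥0) : ℝ)) ?_).symm
    exact BL.thickened _ C
  | compl A hA ih =>
    have e1 := integral_add_compl (hp hA) hh
    have e2 := integral_add_compl (hq hA) hl
    rw [preimage_compl, preimage_compl]
    linarith
  | iUnion f hd hm ih =>
    rw [preimage_iUnion, preimage_iUnion]
    have d1 : Pairwise (Function.onFun Disjoint fun i => p ⁻¹' f i) := fun i j hij =>
      (hd hij).preimage p
    have d2 : Pairwise (Function.onFun Disjoint fun i => q ⁻¹' f i) := fun i j hij =>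
      (hd hij).preimage q
    rw [integral_iUnion (fun i => hp (hm i)) d1 hh.integrableOn,
      integral_iUnion (fun i => hq (hm i)) d2 hl.integrableOn]
    exact tsum_congr ih

end general

section current

variable {X : Type u} [MetricSpace X] [MeasurableSpace X] [BorelSpace X] {k : ℕ}

omit [MeasurableSpace X] [BorelSpace X] in
theorem LipT_cons {F : X → ℝ} (hF : ∃ K : ℝ≥0, LipschitzWith K F) {π : Fin k → X → ℝ}
    (hπ : LipT π) : LipT (Fin.cons F π : Fin (k + 1) → X → ℝ) := by
  intro i
  refine Fin.cases ?_ (fun j => ?_) i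
  · simpa using hF
  · simpa using hπ j

omit [MeasurableSpace X] [BorelSpace X] in
theorem lipschitz_tup {π : Fin k → X → ℝ} (hπ : LipT π) : ∃ K : ℝ≥0, LipschitzWith K (tup π) := by
  choose K hK using hπ
  have h1 : LipschitzWith (∑ i, K i) (fun x => fun i => π i x) := by
    apply LipschitzWith.of_dist_le_mul
    intro x y
    rw [dist_pi_le_iff (by positivity)]
    intro i
    exact ((hK i).weaken (Finset.single_le_sum (f := K) (fun i _ => zero_le)
      (Finset.mem_univ i))).dist_le_mul x y
  have h2 := (PiLp.lipschitzWith_toLp 2 (fun _ : Fin k => ℝ)).comp h1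
  exact ⟨_, h2⟩

theorem measurable_tup {π : Fin k → X → ℝ} (hπ : LipT π) : Measurable (tup π) := by
  obtain ⟨K, hK⟩ := lipschitz_tup hπ
  exact hK.continuous.measurable

/-- The product rule and the degenerate chain rule for a `(k+1)`-current. -/
structure Leib (S : Functional X (k + 1)) : Prop where
  prod : ∀ (a b : X → ℝ) (π : Fin k → X → ℝ), BL a → BL b → LipT π →
    S (fun _ => 1) (Fin.cons (a * b) π) = S a (Fin.cons b π) + S b (Fin.cons a π)
  degen : ∀ (f : X → ℝ) (π : Fin k → X → ℝ) (G : Euc k → ℝ), BL f → LipT π → BL G →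
    S f (Fin.cons (fun x => G (tup π x)) π) = 0

omit [MeasurableSpace X] [BorelSpace X] in
theorem BL_comp_tup {G : Euc k → ℝ} (hG : BL G) {π : Fin k → X → ℝ} (hπ : LipT π) :
    BL (fun x => G (tup π x)) := by
  obtain ⟨K, hK⟩ := lipschitz_tup hπ
  obtain ⟨⟨L, hL⟩, C, hC⟩ := hG
  exact ⟨⟨_, hL.comp hK⟩, C, fun x => hC _⟩

omit [MeasurableSpace X] [BorelSpace X] in
theorem BL_clamp {r r' : ℝ} (h : r ≤ r') {F : X → ℝ} (hF : ∃ K : ℝ≥0, LipschitzWith K F) :
    BL (fun x => clamp r r' (F x)) := by
  obtain ⟨K, hK⟩ := hF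
  refine ⟨⟨K, ?_⟩, r' - r, fun x => ?_⟩
  · unfold clamp
    apply LipschitzWith.of_dist_le_mul
    intro x y
    have h1 := hK.dist_le_mul x y
    refine le_trans ?_ h1
    rw [Real.dist_eq, Real.dist_eq]
    have h2 := abs_max_sub_max_le_abs (min (F x - r) (r' - r)) (min (F y - r) (r' - r)) 0
    rw [max_comm 0, max_comm 0]
    refine h2.trans ?_
    have h3 := abs_min_sub_min_le_max (F x - r) (r' - r) (F y - r) (r' - r)
    refine h3.trans ?_
    simp only [sub_self, abs_zero]
    rw [max_eq_left (abs_nonneg _)]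
    apply le_of_eq
    congr 1
    ring
  · rw [abs_of_nonneg (clamp_nonneg _ _ _)]
    exact clamp_le h _

/-- The key identity relating superlevel sets in `bd S` and slabs in `S`. -/
theorem key_identity {S : Functional X (k + 1)} (hS : IsCurrent S) (hb : IsCurrent (bd S))
    (hL : Leib S) {F : X → ℝ} (hF : ∃ K : ℝ≥0, LipschitzWith K F) {π : Fin k → X → ℝ}
    (hπ : LipT π) {r r' : ℝ} (hr : r ≤ r') {G : Euc k → ℝ} (hG : BL G) :
    ∫ x, G (tup π x) * (clamp r r' (F x) * dens (bd S) π x) ∂(ctrl (bd S))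
      = ∫ x, G (tup π x) * ({x | r < F x ∧ F x ≤ r'}.indicator
          (dens S (Fin.cons F π)) x) ∂(ctrl S) := by
  obtain ⟨KF, hKF⟩ := hF
  have hFm : Measurable F := hKF.continuous.measurable
  have hc : BL (fun x => clamp r r' (F x)) := BL_clamp hr ⟨KF, hKF⟩
  have hG' : BL (fun x => G (tup π x)) := BL_comp_tup hG hπ
  set c : X → ℝ := fun x => clamp r r' (F x) with hcdef
  set g : X → ℝ := fun x => G (tup π x) with hgdef
  have hcL : LipT (Fin.cons c π : Fin (k + 1) → X → ℝ) := LipT_cons hc.1 hπ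
  have hFL : LipT (Fin.cons F π : Fin (k + 1) → X → ℝ) := LipT_cons ⟨KF, hKF⟩ hπ
  set A : Set X := {x | r < F x ∧ F x ≤ r'} with hA
  have hAm : MeasurableSet A :=
    (measurableSet_lt measurable_const hFm).inter (measurableSet_le hFm measurable_const)
  set A₁ : Set X := {x | F x ≤ r} with hA₁
  have hA₁m : MeasurableSet A₁ := measurableSet_le hFm measurable_const
  set A₂ : Set X := {x | r' < F x} with hA₂
  have hA₂m : MeasurableSet A₂ := measurableSet_lt measurable_const hFm
  have e1 : ∫ x, g x * (c x * dens (bd S) π x) ∂(ctrl (bd S)) = (bd S) (g * c) π := by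
    rw [dens_spec hb hπ (hG'.mul hc)]
    refine integral_congr_ae (ae_of_all _ fun x => ?_)
    simp only [Pi.mul_apply]
    ring
  have e2 : (bd S) (g * c) π = S g (Fin.cons c π) := by
    have htp : IsTestPair (g * c) π := (hG'.mul hc).isTestPair hπ
    unfold bd
    rw [if_pos htp, hL.prod g c π hG' hc hπ, hL.degen c π G hc hπ hG, add_zero]
  have e3 : S g (Fin.cons c π) = ext S g (Fin.cons c π) := (ext_eq hS hcL hG').symm
  have hgm : BM g := hG'.bm
  have hsplit : g = (A.indicator g + A₁.indicator g) + A₂.indicator g := by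
    funext x
    simp only [Pi.add_apply, indicator]
    by_cases h1 : F x ≤ r
    · have a1 : x ∈ A₁ := h1
      have a2 : x ∉ A := fun h => absurd h.1 (not_lt.2 h1)
      have a3 : x ∉ A₂ := fun h => absurd (lt_of_le_of_lt hr h) (not_lt.2 h1)
      simp [a1, a2, a3]
    · by_cases h2 : F x ≤ r'
      · have a1 : x ∉ A₁ := h1
        have a2 : x ∈ A := ⟨not_le.1 h1, h2⟩
        have a3 : x ∉ A₂ := fun h => absurd h (not_lt.2 h2)
        simp [a1, a2, a3]
      · have a1 : x ∉ A₁ := h1
        have a2 : x ∉ A := fun h => h2 h.2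
        have a3 : x ∈ A₂ := not_le.1 h2
        simp [a1, a2, a3]
  have e4 : ext S g (Fin.cons c π) = ext S (A.indicator g) (Fin.cons c π) := by
    conv_lhs => rw [hsplit]
    rw [ext_add ((hgm.indicator hAm).add (hgm.indicator hA₁m)) (hgm.indicator hA₂m),
      ext_add (hgm.indicator hAm) (hgm.indicator hA₁m)]
    have z1 : ext S (A₁.indicator g) (Fin.cons c π) = 0 := by
      refine ext_strong_locality hS (hgm.indicator hA₁m) hcL 0 0 fun x hx => ?_
      have hx' : x ∈ A₁ := by
        by_contra h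
        exact hx (indicator_of_notMem h _)
      have : F x ≤ r := hx'
      simp only [Fin.cons_zero, hcdef, clamp]
      rw [max_eq_left]
      exact (min_le_left _ _).trans (by linarith)
    have z2 : ext S (A₂.indicator g) (Fin.cons c π) = 0 := by
      refine ext_strong_locality hS (hgm.indicator hA₂m) hcL 0 (r' - r) fun x hx => ?_
      have hx' : x ∈ A₂ := by
        by_contra h
        exact hx (indicator_of_notMem h _)
      have : r' < F x := hx'
      simp only [Fin.cons_zero, hcdef, clamp]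
      rw [min_eq_right (by linarith), max_eq_right (by linarith)]
    rw [z1, z2, add_zero, add_zero]
  have hFr : ∃ K : ℝ≥0, LipschitzWith K (F - fun _ => r) :=
    ⟨_, hKF.sub (LipschitzWith.const r)⟩
  have e5 : ext S (A.indicator g) (Fin.cons c π)
      = ext S (A.indicator g) (Fin.cons (F - fun _ => r) π) := by
    refine ext_congr_coord hS (hgm.indicator hAm) hcL (LipT_cons hFr hπ) fun i x hx => ?_
    have hx' : x ∈ A := by
      by_contra h
      exact hx (indicator_of_notMem h _)
    refine Fin.cases ?_ (fun j => ?_) i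
    · simp only [Fin.cons_zero, hcdef, clamp, Pi.sub_apply]
      rw [min_eq_left (by linarith [hx'.2]), max_eq_right (by linarith [hx'.1])]
    · simp
  have e6 : ext S (A.indicator g) (Fin.cons (F - fun _ => r) π)
      = ext S (A.indicator g) (Fin.cons F π) := by
    have h := ext_sub_coord hS (hgm.indicator hAm) hFL 0 (g := F) (h := fun _ => r)
      ⟨KF, hKF⟩ ⟨0, LipschitzWith.const r⟩
    simp only [Fin.update_cons_zero] at h
    rw [h]
    have z : ext S (A.indicator g) (Fin.cons (fun _ => r) π) = 0 :=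
      ext_strong_locality hS (hgm.indicator hAm)
        (LipT_cons ⟨0, LipschitzWith.const r⟩ hπ) 0 r fun x _ => by simp
    rw [z, sub_zero]
  rw [e1, e2, e3, e4, e5, e6]
  unfold G1.ext
  refine integral_congr_ae (ae_of_all _ fun x => ?_)
  by_cases hx : x ∈ A
  · simp [indicator_of_mem hx, hgdef]
  · simp [indicator_of_notMem hx]

end current

section split

variable {k : ℕ}

/-- Splitting off the first coordinate. -/
noncomputable def splitE (k : ℕ) : Euc (k + 1) ≃ᵐ ℝ × Euc k where
  toFun z := (z 0, WithLp.toLp 2 (fun i => z i.succ))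
  invFun w := WithLp.toLp 2 (Fin.cons w.1 (fun i => w.2 i))
  left_inv z := by
    ext i
    refine Fin.cases ?_ (fun j => ?_) i
    · simp
    · simp
  right_inv w := by
    ext i
    · simp
    · simp
  measurable_toFun := by
    simp only [Equiv.coe_fn_mk]
    refine Measurable.prodMk ?_ ?_
    · exact (EuclideanSpace.proj (𝕜 := ℝ) (0 : Fin (k + 1))).continuous.measurable
    · refine (PiLp.continuous_toLp 2 (fun _ : Fin k => ℝ)).measurable.comp ?_
      rw [measurable_pi_iff]
      intro i
      exact (EuclideanSpace.proj (𝕜 := ℝ) i.succ).continuous.measurable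
  measurable_invFun := by
    simp only [Equiv.coe_fn_symm_mk]
    refine (PiLp.continuous_toLp 2 (fun _ : Fin (k + 1) => ℝ)).measurable.comp ?_
    rw [measurable_pi_iff]
    intro i
    refine Fin.cases ?_ (fun j => ?_) i
    · simpa using measurable_fst
    · simp only [Fin.cons_succ]
      exact ((EuclideanSpace.proj (𝕜 := ℝ) j).continuous.measurable).comp measurable_snd

theorem mp_splitE (k : ℕ) : MeasurePreserving (splitE k) volume
    ((volume : Measure ℝ).prod (volume : Measure (Euc k))) := by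
  have h1 : MeasurePreserving (@WithLp.ofLp 2 (Fin (k + 1) → ℝ)) volume volume :=
    PiLp.volume_preserving_ofLp (Fin (k + 1))
  have h2 := volume_preserving_piFinSuccAbove (fun _ : Fin (k + 1) => ℝ) 0
  have h3 : MeasurePreserving (@WithLp.toLp 2 (Fin k → ℝ)) volume volume :=
    PiLp.volume_preserving_toLp (Fin k)
  have h4 : MeasurePreserving (Prod.map (id : ℝ → ℝ) (@WithLp.toLp 2 (Fin k → ℝ)))
      ((volume : Measure ℝ).prod volume) ((volume : Measure ℝ).prod volume) :=
    (MeasurePreserving.id volume).prod h3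
  have h5 := h4.comp (h2.comp h1)
  have h6 : ⇑(splitE k) = Prod.map id (@WithLp.toLp 2 (Fin k → ℝ)) ∘
      ⇑(MeasurableEquiv.piFinSuccAbove (fun _ => ℝ) 0) ∘ (@WithLp.ofLp 2 (Fin (k + 1) → ℝ)) := by
    funext z
    rfl
  rw [h6]
  exact h5

end split

section main

variable {X : Type u} [MetricSpace X] [MeasurableSpace X] [BorelSpace X] {k : ℕ}

theorem integrable_dens (T : Functional X k) (π : Fin k → X → ℝ) :
    Integrable (dens T π) (ctrl T) := (bm_dens T π).integrable _

/-- Superlevel sets of Lipschitz functions: almost every one has an integral projection. -/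
theorem ae_zd_superlevel {S : Functional X (k + 1)} (hS : IsCurrent S) (hb : IsCurrent (bd S))
    (hL : Leib S) {F : X → ℝ} (hF : ∃ K : ℝ≥0, LipschitzWith K F) {π : Fin k → X → ℝ}
    (hπ : LipT π) (hI : ZD (ctrl S) (tup (Fin.cons F π : Fin (k + 1) → X → ℝ))
      (dens S (Fin.cons F π))) :
    ∀ᵐ t ∂(volume : Measure ℝ),
      ZD (ctrl (bd S)) (tup π) ({x | t < F x}.indicator (dens (bd S) π)) := by
  obtain ⟨u, ⟨hu, hud⟩, huz⟩ := hI
  have hFm : Measurable F := by
    obtain ⟨K, hK⟩ := hF
    exact hK.continuous.measurable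
  have hpm : Measurable (tup π) := measurable_tup hπ
  refine slice (U := fun w => u ((splitE k).symm w)) hpm (integrable_dens _ _) hFm ?_ ?_ ?_
  · exact ((mp_splitE k).symm (splitE k)).integrable_comp_emb
      (splitE k).symm.measurableEmbedding |>.2 hu
  · exact ((mp_splitE k).symm (splitE k)).quasiMeasurePreserving.ae huz
  · intro r r' hr D hD
    have hAm : MeasurableSet {x | r < F x ∧ F x ≤ r'} :=
      (measurableSet_lt measurable_const hFm).inter (measurableSet_le hFm measurable_const)
    have h1 : Integrable (fun x => clamp r r' (F x) * dens (bd S) π x) (ctrl (bd S)) :=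
      ((BL_clamp hr hF).bm.mul (bm_dens (bd S) π)).integrable _
    have h2 : Integrable ({x | r < F x ∧ F x ≤ r'}.indicator (dens S (Fin.cons F π))) (ctrl S) :=
      (integrable_dens S _).indicator hAm
    have h3 := eq_of_BL hpm hpm h1 h2 (fun G hG => key_identity hS hb hL hF hπ hr hG) D hD
    rw [h3]
    rw [setIntegral_indicator hAm]
    have h4 : (tup π ⁻¹' D ∩ {x | r < F x ∧ F x ≤ r'})
        = tup (Fin.cons F π : Fin (k + 1) → X → ℝ) ⁻¹' ((splitE k) ⁻¹' (Ioc r r' ×ˢ D)) := by
      ext x
      simp only [mem_inter_iff, mem_preimage, mem_prod, mem_Ioc]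
      have : (splitE k) (tup (Fin.cons F π : Fin (k + 1) → X → ℝ) x) = (F x, tup π x) := by
        simp [splitE, tup]
      rw [this]
      exact and_comm
    rw [h4, hud _ ((splitE k).measurable (measurableSet_Ioc.prod hD))]
    rw [← (mp_splitE k).setIntegral_preimage_emb (splitE k).measurableEmbedding]
    simp

/-- **B7a.** -/
theorem zd_bd {S : Functional X (k + 1)} (hS : IsCurrent S) (hb : IsCurrent (bd S))
    (hL : Leib S)
    (hI : ∀ σ : Fin (k + 1) → X → ℝ, LipT σ → ZD (ctrl S) (tup σ) (dens S σ))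
    {π : Fin k → X → ℝ} (hπ : LipT π) {B : Set X} (hB : MeasurableSet B) :
    ZD (ctrl (bd S)) (tup π) (B.indicator (dens (bd S) π)) := by
  have hpm : Measurable (tup π) := measurable_tup hπ
  have hall : ∀ F : X → ℝ, LipschitzWith 1 F → ∀ᵐ t ∂(volume : Measure ℝ),
      ZD (ctrl (bd S)) (tup π) ({x | t < F x}.indicator (dens (bd S) π)) := fun F hF =>
    ae_zd_superlevel hS hb hL ⟨1, hF⟩ hπ (hI _ (LipT_cons ⟨1, hF⟩ hπ))
  have hpos : ∀ a b : ℝ, a < b → ∀ P : ℝ → Prop, (∀ᵐ t ∂(volume : Measure ℝ), P t) →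
      ∃ t ∈ Ioo a b, P t := by
    intro a b hab P hP
    have h1 : (volume : Measure ℝ) (Ioo a b) ≠ 0 := by
      rw [Real.volume_Ioo]
      simp [hab]
    have h2 : ∃ᶠ t in ae (volume : Measure ℝ), t ∈ Ioo a b := frequently_ae_mem_iff.2 h1
    obtain ⟨t, ht, hPt⟩ := (h2.and_eventually hP).exists
    exact ⟨t, ht, hPt⟩
  have h0 : ZD (ctrl (bd S)) (tup π) (dens (bd S) π) := by
    obtain ⟨t, ht, hz⟩ := hpos (-1) 0 (by norm_num) _ (hall (fun _ => 0)
      ((LipschitzWith.const 0).weaken zero_le_one))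
    have : {x : X | t < (fun _ : X => (0 : ℝ)) x} = univ := by
      ext x
      simp [ht.2]
    rw [this, indicator_univ] at hz
    exact hz
  refine ZD.borel hpm (integrable_dens _ _) h0 (fun F hF _ => ?_) B hB
  rw [frequently_iff]
  intro U hU
  obtain ⟨ε, hε, hU'⟩ := mem_nhdsGT_iff_exists_Ioo_subset.1 hU
  obtain ⟨t, ht, hz⟩ := hpos 0 ε hε _ (hall F hF)
  exact ⟨t, hU' ht, hz⟩

end main

end Crest.Agent.R241.B7a
end

-- ▼ part R241/B7Moll
section

/-!
R241, block B7: smooth approximation of Lipschitz functions.  Owner: helper191.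
-/

set_option autoImplicit false

open MeasureTheory Filter Topology Set
open scoped ENNReal NNReal Convolution

namespace Crest.Agent.R241.B7Moll

open Crest.GeometryTopology.Submanifold (Euc)
open ContinuousLinearMap (lsmul)

variable {k : ℕ}

/-- Smooth equi-Lipschitz approximation. -/
theorem exists_smooth_approx {G : Euc k → ℝ} {K : ℝ≥0} (hG : LipschitzWith K G) :
    ∃ Gn : ℕ → Euc k → ℝ, (∀ n, ContDiff ℝ (⊤ : ℕ∞) (Gn n)) ∧ (∀ n, LipschitzWith K (Gn n)) ∧
      ∀ x, Tendsto (fun n => Gn n x) atTop (𝓝 (G x)) := by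
  let φ : ℕ → ContDiffBump (0 : Euc k) := fun n =>
    ⟨(1 / 2) * (1 / ((n : ℝ) + 1)), 1 / ((n : ℝ) + 1), by positivity, by
      have : (0 : ℝ) < 1 / ((n : ℝ) + 1) := by positivity
      linarith⟩
  have hφ : Tendsto (fun n => (φ n).rOut) atTop (𝓝 0) := tendsto_one_div_add_atTop_nhds_zero_nat
  refine ⟨fun n => ((φ n).normed volume ⋆[lsmul ℝ ℝ, volume] G), fun n => ?_, fun n => ?_, fun x =>
    ContDiffBump.convolution_tendsto_right_of_continuous hφ hG.continuous x⟩
  · exact (φ n).hasCompactSupport_normed.contDiff_convolution_left _ (φ n).contDiff_normed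
      hG.continuous.locallyIntegrable
  · apply LipschitzWith.of_dist_le_mul
    intro x y
    have hint : ∀ z : Euc k, Integrable (fun t => (φ n).normed volume t * G (z - t)) volume := by
      intro z
      have hc : Continuous (fun t => (φ n).normed volume t * G (z - t)) :=
        (φ n).continuous_normed.mul (hG.continuous.comp (continuous_const.sub continuous_id))
      exact hc.integrable_of_hasCompactSupport ((φ n).hasCompactSupport_normed.mul_right)
    rw [Real.dist_eq]
    simp only [convolution_def, ContinuousLinearMap.lsmul_apply, smul_eq_mul]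
    rw [← integral_sub (hint x) (hint y)]
    have h1 : |∫ t, ((φ n).normed volume t * G (x - t) - (φ n).normed volume t * G (y - t))|
        ≤ ∫ t, (φ n).normed volume t * (K * dist x y) := by
      refine (abs_integral_le_integral_abs).trans ?_
      refine integral_mono ((hint x).sub (hint y)).abs
        (((φ n).integrable_normed).mul_const _) fun t => ?_
      simp only
      rw [← mul_sub, abs_mul, abs_of_nonneg ((φ n).nonneg_normed t)]
      refine mul_le_mul_of_nonneg_left ?_ ((φ n).nonneg_normed t)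
      have := hG.dist_le_mul (x - t) (y - t)
      rw [Real.dist_eq] at this
      simpa using this
    refine h1.trans ?_
    rw [integral_mul_const, (φ n).integral_normed, one_mul]

end Crest.Agent.R241.B7Moll
end

-- ▼ part R241/B7BV
section

/-!
R241, block B7: the Leibniz facts (`Leib`) and the `BV` bound for slices of cycles.
Owner: helper191.
-/

set_option autoImplicit false

open MeasureTheory Filter Topology Set
open scoped ENNReal NNReal

universe u

namespace Crest.Agent.R241.B7BV

open Crest.GeometryTopology.Submanifold (Euc)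
open Crest.GeometryTopology.MetricCurrent
open Crest.Agent.R241.G1 Crest.Agent.R241.B7a

variable {X : Type u} [MetricSpace X] [MeasurableSpace X] [BorelSpace X] {k : ℕ}

/-- the partial derivative in the coordinates of `Fin k → ℝ` and of `Euc k` -/
theorem fderiv_comp_toLp {G : Euc k → ℝ} (hG : Differentiable ℝ G) (y : Fin k → ℝ) (i : Fin k) :
    fderiv ℝ (fun y : Fin k → ℝ => G (WithLp.toLp 2 y)) y (Pi.single i 1)
      = fderiv ℝ G (WithLp.toLp 2 y) (EuclideanSpace.single i 1) := by
  have h1 : (fun y : Fin k → ℝ => G (WithLp.toLp 2 y))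
      = G ∘ ((EuclideanSpace.equiv (Fin k) ℝ).symm : (Fin k → ℝ) →L[ℝ] Euc k) := by
    funext y
    rfl
  rw [h1, fderiv_comp _ (hG _) (ContinuousLinearMap.differentiableAt _),
    ContinuousLinearMap.fderiv]
  rfl

theorem contDiff_comp_toLp {G : Euc k → ℝ} {n : WithTop ℕ∞} (hG : ContDiff ℝ n G) :
    ContDiff ℝ n (fun y : Fin k → ℝ => G (WithLp.toLp 2 y)) :=
  hG.comp ((EuclideanSpace.equiv (Fin k) ℝ).symm : (Fin k → ℝ) →L[ℝ] Euc k).contDiff

/-- chain rule in one slot for a smooth Lipschitz function of the tuple -/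
theorem ext_chain_tup {m : ℕ} {T : Functional X m} (hT : IsCurrent T) {f : X → ℝ} (hf : BM f)
    {σ : Fin m → X → ℝ} (hσ : LipT σ) (j : Fin m) {π : Fin k → X → ℝ} (hπ : LipT π)
    {G : Euc k → ℝ} (hG : ContDiff ℝ 1 G) {K : ℝ≥0} (hK : LipschitzWith K G) :
    ext T f (Function.update σ j (fun x => G (tup π x))) =
      ∑ i, ext T (fun x => f x * fderiv ℝ G (tup π x) (EuclideanSpace.single i 1))
        (Function.update σ j (π i)) := by
  have hd : Differentiable ℝ G := hG.differentiable one_ne_zero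
  have h := ext_chain hT hf hσ j hπ (g := fun y : Fin k → ℝ => G (WithLp.toLp 2 y))
    (contDiff_comp_toLp hG) (by
      obtain ⟨L, hL⟩ := lipschitz_tup hπ
      exact ⟨_, hK.comp hL⟩) (by
      intro i
      refine ⟨K, fun x => ?_⟩
      rw [fderiv_comp_toLp hd]
      have h1 := (fderiv ℝ G (WithLp.toLp 2 fun l => π l x)).le_opNorm
        (EuclideanSpace.single i (1 : ℝ))
      have h2 : ‖fderiv ℝ G (WithLp.toLp 2 fun l => π l x)‖ ≤ K :=
        norm_fderiv_le_of_lipschitz ℝ hK
      rw [Real.norm_eq_abs] at h1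
      refine h1.trans ?_
      simpa using h2)
  simp only [fderiv_comp_toLp hd] at h
  exact h

theorem bm_fderiv {π : Fin k → X → ℝ} (hπ : LipT π) {G : Euc k → ℝ} (hG : ContDiff ℝ 1 G)
    {K : ℝ≥0} (hK : LipschitzWith K G) (i : Fin k) :
    BM (fun x => fderiv ℝ G (tup π x) (EuclideanSpace.single i 1)) := by
  refine ⟨?_, K, fun x => ?_⟩
  · have h1 : Continuous fun z => fderiv ℝ G z (EuclideanSpace.single i 1) :=
      (hG.continuous_fderiv one_ne_zero).clm_apply continuous_const
    exact h1.measurable.comp (measurable_tup hπ)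
  · have h1 := (fderiv ℝ G (tup π x)).le_opNorm (EuclideanSpace.single i (1 : ℝ))
    have h2 : ‖fderiv ℝ G (tup π x)‖ ≤ K := norm_fderiv_le_of_lipschitz ℝ hK
    rw [Real.norm_eq_abs] at h1
    refine h1.trans ?_
    simpa using h2

/-- degenerate chain rule, smooth case -/
theorem degen_smooth {S : Functional X (k + 1)} (hS : IsCurrent S) {f : X → ℝ} (hf : BM f)
    {π : Fin k → X → ℝ} (hπ : LipT π) {G : Euc k → ℝ} (hG : ContDiff ℝ 1 G) {K : ℝ≥0}
    (hK : LipschitzWith K G) : ext S f (Fin.cons (fun x => G (tup π x)) π) = 0 := by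
  have h0 : LipT (Fin.cons (fun _ => (0 : ℝ)) π : Fin (k + 1) → X → ℝ) :=
    LipT_cons ⟨0, LipschitzWith.const 0⟩ hπ
  have h := ext_chain_tup hS hf h0 0 hπ hG hK
  simp only [Fin.update_cons_zero] at h
  rw [h]
  refine Finset.sum_eq_zero fun i _ => ?_
  refine ext_zero_of_eq hS (hf.mul (bm_fderiv hπ hG hK i)) (LipT_cons (hπ i) hπ)
    (i := 0) (j := i.succ) (Fin.succ_ne_zero i).symm ?_
  simp

/-- degenerate chain rule for Lipschitz functions -/
theorem degen {S : Functional X (k + 1)} (hS : IsCurrent S) {f : X → ℝ} (hf : BM f)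
    {π : Fin k → X → ℝ} (hπ : LipT π) {G : Euc k → ℝ} {K : ℝ≥0}
    (hK : LipschitzWith K G) : ext S f (Fin.cons (fun x => G (tup π x)) π) = 0 := by
  obtain ⟨Gn, h1, h2, h3⟩ := B7Moll.exists_smooth_approx hK
  obtain ⟨L, hL⟩ := lipschitz_tup hπ
  choose Kπ hKπ using hπ
  have hπ : LipT π := fun i => ⟨_, hKπ i⟩
  have key := ext_continuity hS hf (π := Fin.cons (fun x => G (tup π x)) π)
    (πs := fun n => Fin.cons (fun x => Gn n (tup π x)) π)
    (K := Fin.cons (K * L) Kπ) (fun i => by
      refine Fin.cases ?_ (fun j => ?_) i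
      · simpa [Function.comp_def] using hK.comp hL
      · simpa using hKπ j) (fun n i => by
      refine Fin.cases ?_ (fun j => ?_) i
      · simpa [Function.comp_def] using (h2 n).comp hL
      · simpa using hKπ j) (fun i x => by
      refine Fin.cases ?_ (fun j => ?_) i
      · simpa using h3 (tup π x)
      · simp)
  have hz : ∀ n, ext S f (Fin.cons (fun x => Gn n (tup π x)) π) = 0 := fun n =>
    degen_smooth hS hf hπ ((h1 n).of_le (by exact_mod_cast le_top)) (h2 n)
  simp only [hz] at key
  exact (tendsto_nhds_unique key tendsto_const_nhds)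

/-- Leibniz in the first coordinate -/
theorem leibniz_cons {S : Functional X (k + 1)} (hS : IsCurrent S) {f : X → ℝ} (hf : BM f)
    {π : Fin k → X → ℝ} (hπ : LipT π) {a b : X → ℝ} (ha : BL a) (hb : BL b) :
    ext S f (Fin.cons (a * b) π) = ext S (f * a) (Fin.cons b π) + ext S (f * b) (Fin.cons a π) := by
  have h := ext_leibniz hS hf (LipT_cons (F := a) ha.1 hπ) 0 ha hb
  simpa only [Fin.update_cons_zero] using h

/-- **Leib** holds for every current. -/
theorem leib {S : Functional X (k + 1)} (hS : IsCurrent S) : Leib S where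
  prod a b π ha hb hπ := by
    have h := leibniz_cons hS BL.one.bm hπ ha hb
    have hab : BL (a * b) := ha.mul hb
    rw [ext_eq hS (LipT_cons hab.1 hπ) BL.one] at h
    rw [h]
    have e1 : ((fun _ => (1 : ℝ)) * a : X → ℝ) = a := by funext x; simp
    have e2 : ((fun _ => (1 : ℝ)) * b : X → ℝ) = b := by funext x; simp
    rw [e1, e2, ext_eq hS (LipT_cons hb.1 hπ) ha, ext_eq hS (LipT_cons ha.1 hπ) hb]
  degen f π G hf hπ hG := by
    obtain ⟨K, hK⟩ := hG.1
    have h := degen hS hf.bm hπ hK
    rw [ext_eq hS (LipT_cons (BL_comp_tup hG hπ).1 hπ) hf] at h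
    exact h

/-- `T` is a cycle. -/
def IsCyc (T : Functional X (k + 1)) : Prop :=
  ∀ (h : X → ℝ) (σ : Fin k → X → ℝ), BL h → LipT σ → T (fun _ => 1) (Fin.cons h σ) = 0

omit [BorelSpace X] in
theorem isCyc_bd {S : Functional X (k + 2)} (hS : IsCurrent S) : IsCyc (bd S) := by
  intro h σ hh hσ
  have h1 : LipT (Fin.cons h σ : Fin (k + 1) → X → ℝ) := LipT_cons hh.1 hσ
  have h2 : IsTestPair (fun _ : X => (1 : ℝ)) (Fin.cons h σ : Fin (k + 1) → X → ℝ) :=
    BL.one.isTestPair h1
  unfold bd
  rw [if_pos h2]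
  exact T_zero_of_const hS BL.one (LipT_cons BL.one.1 h1) (i := 0) (c := 1) fun x => by simp

/-- moving a slot to the front -/
theorem abs_ext_update {T : Functional X (k + 1)} (hT : IsCurrent T) {f : X → ℝ} (hf : BM f)
    {π : Fin (k + 1) → X → ℝ} (hπ : LipT π) (i : Fin (k + 1)) {h : X → ℝ}
    (hh : ∃ K : ℝ≥0, LipschitzWith K h) :
    |ext T f (Function.update π i h)| = |ext T f (Fin.cons h (fun l => π (i.succAbove l)))| := by
  set σ : Fin k → X → ℝ := fun l => π (i.succAbove l) with hσ
  have hσL : LipT σ := fun l => hπ _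
  have hc : LipT (Fin.cons h σ : Fin (k + 1) → X → ℝ) := LipT_cons hh hσL
  have e : Function.update π i h
      = fun l => (Fin.cons h σ : Fin (k + 1) → X → ℝ) (i.cycleRange l) := by
    funext l
    rcases Fin.eq_self_or_eq_succAbove i l with h1 | ⟨j, h1⟩
    · subst h1
      simp [Fin.cycleRange_self]
    · subst h1
      rw [Fin.cycleRange_succAbove, Function.update_of_ne (Fin.succAbove_ne i j)]
      simp [hσ]
  rw [e, ext_perm hT hf hc]
  rcases Int.units_eq_one_or (Equiv.Perm.sign (i.cycleRange)) with hs | hs <;> simp [hs]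

/-- **BV bound.** -/
theorem bv_bound {T : Functional X (k + 1)} (hT : IsCurrent T) (hcyc : IsCyc T)
    {π : Fin (k + 1) → X → ℝ} (hπ : LipT π) :
    ∃ m : Measure (Euc (k + 1)), IsFiniteMeasure m ∧
      ∀ φ : X → ℝ, LipschitzWith 1 φ → (∀ y, |φ y| ≤ 1) →
        ∀ ψ : Euc (k + 1) → ℝ, ContDiff ℝ (⊤ : ℕ∞) ψ → HasCompactSupport ψ → ∀ i : Fin (k + 1),
          |∫ y, φ y * fderiv ℝ ψ (tup π y) (EuclideanSpace.single i 1) * dens T π y ∂(ctrl T)|
            ≤ ∫ x, |ψ x| ∂m := by
  choose K hK using hπ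
  have hπ : LipT π := fun i => ⟨_, hK i⟩
  have hpm : Measurable (tup π) := measurable_tup hπ
  set C : ℝ≥0 := ∏ l, (1 + K l) with hC
  refine ⟨C • (ctrl T).map (tup π), inferInstance, ?_⟩
  intro φ hφ hφ1 ψ hψ hψc i
  have hφB : BL φ := ⟨⟨1, hφ⟩, 1, hφ1⟩
  obtain ⟨Kψ, hKψ⟩ := hψ.lipschitzWith_of_hasCompactSupport hψc (by simp)
  have hψ1 : ContDiff ℝ 1 ψ := hψ.of_le (by exact_mod_cast le_top)
  obtain ⟨Cψ, hCψ⟩ := hψc.exists_bound_of_continuous hψ.continuous
  have hψB : BL ψ := ⟨⟨Kψ, hKψ⟩, Cψ, fun x => by simpa [Real.norm_eq_abs] using hCψ x⟩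
  set h : X → ℝ := fun x => ψ (tup π x) with hh
  have hhB : BL h := BL_comp_tup hψB hπ
  -- chain rule
  have e1 : ext T φ (Function.update π i h)
      = ext T (fun x => φ x * fderiv ℝ ψ (tup π x) (EuclideanSpace.single i 1)) π := by
    rw [hh, ext_chain_tup hT hφB.bm hπ i hπ hψ1 hKψ]
    rw [Finset.sum_eq_single i]
    · rw [Function.update_eq_self]
    · intro l _ hl
      refine ext_zero_of_eq hT (hφB.bm.mul (bm_fderiv hπ hψ1 hKψ l)) (hπ.update i (hπ l))
        (i := i) (j := l) hl.symm ?_
      simp [Function.update_of_ne hl]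
    · intro h
      exact absurd (Finset.mem_univ i) h
  have e2 : ∫ y, φ y * fderiv ℝ ψ (tup π y) (EuclideanSpace.single i 1) * dens T π y ∂(ctrl T)
      = ext T φ (Function.update π i h) := by
    rw [e1]
    rfl
  rw [e2, abs_ext_update hT hφB.bm hπ i hhB.1]
  set σ : Fin k → X → ℝ := fun l => π (i.succAbove l) with hσ
  have hσL : LipT σ := fun l => hπ _
  -- Leibniz
  have e3 := leibniz_cons hT BL.one.bm hσL hφB hhB
  have hφh : BL (φ * h) := hφB.mul hhB
  have e4 : ext T (fun _ => 1) (Fin.cons (φ * h) σ) = 0 := by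
    rw [ext_eq hT (LipT_cons hφh.1 hσL) BL.one]
    exact hcyc _ _ hφh hσL
  have e5 : ((fun _ => (1 : ℝ)) * φ : X → ℝ) = φ := by funext x; simp
  have e6 : ((fun _ => (1 : ℝ)) * h : X → ℝ) = h := by funext x; simp
  rw [e4, e5, e6] at e3
  have e7 : ext T φ (Fin.cons h σ) = - ext T h (Fin.cons φ σ) := by linarith
  rw [e7, abs_neg]
  have e8 := abs_ext_le hT (controls_ctrl hT) hhB.bm (π := Fin.cons φ σ)
    (K := Fin.cons 1 (fun l => K (i.succAbove l))) (fun l => by
      refine Fin.cases ?_ (fun j => ?_) l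
      · simpa using hφ
      · simpa [hσ] using hK _)
  refine e8.trans ?_
  have e9 : ∫ x, |ψ x| ∂(C • (ctrl T).map (tup π)) = (C : ℝ) * ∫ x, |h x| ∂(ctrl T) := by
    rw [integral_smul_nnreal_measure, integral_map hpm.aemeasurable
      (hψ.continuous.abs.aestronglyMeasurable)]
    rfl
  rw [e9]
  refine mul_le_mul_of_nonneg_right ?_ (integral_nonneg fun x => abs_nonneg _)
  rw [Fin.prod_univ_succ]
  simp only [Fin.cons_zero, Fin.cons_succ, NNReal.coe_one, one_mul]
  have e10 : (C : ℝ) = (1 + (K i : ℝ)) * ∏ l : Fin k, (1 + (K (i.succAbove l) : ℝ)) := by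
    rw [hC]
    push_cast
    rw [Fin.prod_univ_succAbove _ i]
  rw [e10]
  calc ∏ l : Fin k, (K (i.succAbove l) : ℝ) ≤ ∏ l : Fin k, (1 + (K (i.succAbove l) : ℝ)) := by
        refine Finset.prod_le_prod (fun l _ => NNReal.coe_nonneg _) fun l _ => by linarith
    _ ≤ (1 + (K i : ℝ)) * ∏ l : Fin k, (1 + (K (i.succAbove l) : ℝ)) := by
        refine le_mul_of_one_le_left ?_ (by linarith [NNReal.coe_nonneg (K i)])
        exact Finset.prod_nonneg fun l _ => by positivity

end Crest.Agent.R241.B7BV
end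

-- ▼ part R241/B7f
section

/-!
R241, block B7f: the determinant chain rule for Lipschitz functions of a coordinate tuple whose
density does not charge null fibres.  Owner: helper191.
-/

set_option autoImplicit false

open MeasureTheory Filter Topology Set
open scoped ENNReal NNReal

universe u

namespace Crest.Agent.R241.B7f

open Crest.GeometryTopology.Submanifold (Euc)
open Crest.GeometryTopology.MetricCurrent
open Crest.Agent.R241.G1 Crest.Agent.R241.B7a Crest.Agent.R241.B7BV

variable {X : Type u} [MetricSpace X] [MeasurableSpace X] [BorelSpace X] {k : ℕ}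

/-- the Jacobian determinant of a `k`-tuple of functions on `Euc k` -/
noncomputable def jdet (h : Fin k → Euc k → ℝ) (y : Euc k) : ℝ :=
  (Matrix.of fun i j => fderiv ℝ (h i) y (EuclideanSpace.single j 1)).det

theorem abs_partial_le {h : Euc k → ℝ} {K : ℝ≥0} (hh : LipschitzWith K h) (y : Euc k)
    (j : Fin k) : |fderiv ℝ h y (EuclideanSpace.single j 1)| ≤ K := by
  have h1 := (fderiv ℝ h y).le_opNorm (EuclideanSpace.single j (1 : ℝ))
  have h2 : ‖fderiv ℝ h y‖ ≤ K := norm_fderiv_le_of_lipschitz ℝ hh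
  rw [Real.norm_eq_abs] at h1
  refine h1.trans ?_
  simpa using h2

theorem abs_jdet_le {h : Fin k → Euc k → ℝ} {K : ℝ≥0} (hh : ∀ i, LipschitzWith K (h i))
    (y : Euc k) : |jdet h y| ≤ (Fintype.card (Fin k)).factorial • (K : ℝ) ^ Fintype.card (Fin k) := by
  have := Matrix.det_le (A := Matrix.of fun i j => fderiv ℝ (h i) y (EuclideanSpace.single j 1))
    (abv := (IsAbsoluteValue.toAbsoluteValue (abs : ℝ → ℝ))) (x := (K : ℝ))
    (fun i j => abs_partial_le (hh i) y j)
  exact this

theorem measurable_jdet {h : Fin k → Euc k → ℝ} {K : ℝ≥0} (_hh : ∀ i, LipschitzWith K (h i)) :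
    Measurable (jdet h) := by
  unfold jdet
  have h1 : Measurable fun y : Euc k =>
      (fun i j => fderiv ℝ (h i) y (EuclideanSpace.single j 1) : Fin k → Fin k → ℝ) := by
    refine measurable_pi_lambda _ fun i => measurable_pi_lambda _ fun j => ?_
    exact measurable_fderiv_apply_const ℝ (h i) _
  have h2 : Continuous fun A : Fin k → Fin k → ℝ => (Matrix.of A).det :=
    Continuous.matrix_det (continuous_id (X := Matrix (Fin k) (Fin k) ℝ))
  exact h2.measurable.comp h1

theorem bm_jdet_tup {h : Fin k → Euc k → ℝ} {K : ℝ≥0} (hh : ∀ i, LipschitzWith K (h i))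
    {π : Fin k → X → ℝ} (hπ : LipT π) : BM (fun x => jdet h (tup π x)) :=
  ⟨(measurable_jdet hh).comp (measurable_tup hπ), _, fun _ => abs_jdet_le hh _⟩

/-- smooth case -/
theorem ext_chain_smooth {T : Functional X k} (hT : IsCurrent T) {π : Fin k → X → ℝ}
    (hπ : LipT π) {h : Fin k → Euc k → ℝ} {K : ℝ≥0} (hh : ∀ i, LipschitzWith K (h i))
    (hs : ∀ i, ContDiff ℝ (⊤ : ℕ∞) (h i)) {f : X → ℝ} (hf : BM f) :
    ext T f (fun i x => h i (tup π x)) = ∫ x, f x * jdet h (tup π x) * dens T π x ∂(ctrl T) := by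
  have hd : ∀ i, Differentiable ℝ (h i) := fun i => (hs i).differentiable (by simp)
  obtain ⟨L, hL⟩ := lipschitz_tup hπ
  have h1 := ext_chain_det hT hf hπ (G := fun i y => h i (WithLp.toLp 2 y))
    (fun i => (contDiff_comp_toLp ((hs i).of_le (by simp)))) (fun i => ⟨_, (hh i).comp hL⟩)
    ⟨K, fun i l x => by
      rw [fderiv_comp_toLp (hd i)]
      exact abs_partial_le (hh i) _ l⟩
  have h2 : (fun i x => h i (tup π x)) = fun i x => h i (WithLp.toLp 2 fun l => π l x) := rfl
  rw [h2, h1]
  unfold G1.ext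
  refine integral_congr_ae (Eventually.of_forall fun x => ?_)
  simp only [jac, jdet]
  congr 3
  ext i j
  simp only [Matrix.of_apply]
  rw [fderiv_comp_toLp (hd i)]
  rfl

/-- Lipschitz case: the density of `T` in the coordinates `π` does not charge null fibres -/
theorem ext_chain_lip {T : Functional X k} (hT : IsCurrent T) {π : Fin k → X → ℝ}
    (hπ : LipT π)
    (hN : ∀ A : Set (Euc k), MeasurableSet A → volume A = 0 →
      ∀ᵐ x ∂(ctrl T), tup π x ∈ A → dens T π x = 0)
    {h : Fin k → Euc k → ℝ} {K : ℝ≥0} (hh : ∀ i, LipschitzWith K (h i))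
    {f : X → ℝ} (hf : BM f) :
    ext T f (fun i x => h i (tup π x)) = ∫ x, f x * jdet h (tup π x) * dens T π x ∂(ctrl T) := by
  choose Gn hs hl hc hd using fun i => B7Moll2.exists_smooth_approx_ae (hh i)
  obtain ⟨L, hL⟩ := lipschitz_tup hπ
  have h1 : Tendsto (fun n => ext T f (fun i x => Gn i n (tup π x))) atTop
      (𝓝 (ext T f (fun i x => h i (tup π x)))) :=
    ext_continuity hT hf (K := fun _ => K * L) (fun i => (hh i).comp hL)
      (fun n i => (hl i n).comp hL) (fun i x => hc i _)
  have h2 : Tendsto (fun n => ext T f (fun i x => Gn i n (tup π x))) atTop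
      (𝓝 (∫ x, f x * jdet h (tup π x) * dens T π x ∂(ctrl T))) := by
    have h3 : (fun n => ext T f (fun i x => Gn i n (tup π x))) = fun n =>
        ∫ x, f x * jdet (fun i => Gn i n) (tup π x) * dens T π x ∂(ctrl T) := by
      funext n
      exact ext_chain_smooth hT hπ (h := fun i => Gn i n) (fun i => hl i n) (fun i => hs i n) hf
    rw [h3]
    have hall : ∀ᵐ y : Euc k, ∀ i j : Fin k,
        Tendsto (fun n => fderiv ℝ (Gn i n) y (EuclideanSpace.single j 1))
          atTop (𝓝 (fderiv ℝ (h i) y (EuclideanSpace.single j 1))) := by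
      rw [ae_all_iff]
      exact hd
    obtain ⟨A, hA1, hA2, hA3⟩ := exists_measurable_superset_of_null (ae_iff.mp hall)
    obtain ⟨Cf, hCf⟩ := hf.2
    obtain ⟨Cd, hCd⟩ := (bm_dens T π).2
    set M : ℝ := (Fintype.card (Fin k)).factorial • (K : ℝ) ^ Fintype.card (Fin k) with hM
    have hM0 : 0 ≤ M := (abs_nonneg _).trans (abs_jdet_le hh 0)
    refine tendsto_integral_of_dominated_convergence (fun _ => Cf * M * Cd) (fun n => ?_)
      (integrable_const _) (fun n => ?_) ?_
    · exact ((hf.1.mul (bm_jdet_tup (h := fun i => Gn i n) (fun i => hl i n) hπ).1).mul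
        (bm_dens T π).1).aestronglyMeasurable
    · refine Eventually.of_forall fun x => ?_
      rw [Real.norm_eq_abs, abs_mul, abs_mul]
      have e1 := hCf x
      have e2 := hCd x
      have e3 : |jdet (fun i => Gn i n) (tup π x)| ≤ M := abs_jdet_le (fun i => hl i n) _
      have e0 : 0 ≤ Cf := (abs_nonneg _).trans e1
      exact mul_le_mul (mul_le_mul e1 e3 (abs_nonneg _) e0) e2 (abs_nonneg _)
        (mul_nonneg e0 hM0)
    · filter_upwards [hN A hA2 hA3] with x hx
      by_cases hxA : tup π x ∈ A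
      · rw [hx hxA]
        simp
      · have hy : ∀ i j : Fin k,
            Tendsto (fun n => fderiv ℝ (Gn i n) (tup π x) (EuclideanSpace.single j 1))
              atTop (𝓝 (fderiv ℝ (h i) (tup π x) (EuclideanSpace.single j 1))) := by
          by_contra hcon
          exact hxA (hA1 hcon)
        have hdet : Tendsto (fun n => jdet (fun i => Gn i n) (tup π x)) atTop
            (𝓝 (jdet h (tup π x))) := by
          unfold jdet
          have hmat : Tendsto (fun n => (Matrix.of fun i j =>
              fderiv ℝ (Gn i n) (tup π x) (EuclideanSpace.single j 1))) atTop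
              (𝓝 (Matrix.of fun i j => fderiv ℝ (h i) (tup π x) (EuclideanSpace.single j 1))) :=
            tendsto_pi_nhds.2 fun i => tendsto_pi_nhds.2 fun j => hy i j
          exact ((Continuous.matrix_det continuous_id).tendsto _).comp hmat
        exact (tendsto_const_nhds.mul hdet).mul tendsto_const_nhds
  exact tendsto_nhds_unique h1 h2

end Crest.Agent.R241.B7f
end

-- ▼ part R241/B6b
section

/-!
# R241, block B6, part b (helper212): the area formula in the form of `chartAction`.
-/

set_option autoImplicit false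

open MeasureTheory Measure Set Filter Topology
open scoped ENNReal NNReal

namespace Crest.Agent.R241.B6

open Crest.GeometryTopology.Submanifold (Euc)

section general

variable {V : Type*} [NormedAddCommGroup V] [NormedSpace ℝ V] [FiniteDimensional ℝ V]
  [MeasurableSpace V] [BorelSpace V]

/-- `|det A| ≤ ‖A‖^d`. -/
lemma abs_det_le (A : V →L[ℝ] V) : |A.det| ≤ ‖A‖ ^ Module.finrank ℝ V := by
  let μ : Measure V := addHaar
  have h1 : μ (A '' Metric.closedBall 0 1)
      = ENNReal.ofReal |A.det| * μ (Metric.closedBall 0 1) :=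
    addHaar_image_continuousLinearMap μ A _
  have h2 : μ (A '' Metric.closedBall 0 1) ≤ μ (Metric.closedBall 0 ‖A‖) := by
    apply measure_mono
    rintro _ ⟨x, hx, rfl⟩
    rw [mem_closedBall_zero_iff] at hx ⊢
    calc ‖A x‖ ≤ ‖A‖ * ‖x‖ := A.le_opNorm x
      _ ≤ ‖A‖ * 1 := by gcongr
      _ = ‖A‖ := mul_one _
  rw [h1, addHaar_closedBall' μ 0 (norm_nonneg A)] at h2
  have h3 : μ (Metric.closedBall (0 : V) 1) ≠ 0 :=
    (Metric.measure_closedBall_pos μ 0 one_pos).ne'
  have h4 : μ (Metric.closedBall (0 : V) 1) ≠ ∞ := measure_closedBall_lt_top.ne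
  rw [ENNReal.mul_le_mul_iff_left h3 h4] at h2
  exact (ENNReal.ofReal_le_ofReal_iff (by positivity)).1 h2

/-- The derivative within `E` of an `L`-Lipschitz map is a.e. bounded by `L`. -/
lemma ae_norm_le (μ : Measure V) [μ.IsAddHaarMeasure] {E : Set V} (hE : MeasurableSet E)
    {ψ : V → V} {ψ' : V → V →L[ℝ] V} {L : ℝ≥0} (hL : LipschitzOnWith L ψ E)
    (hd : ∀ᵐ z ∂(μ.restrict E), HasFDerivWithinAt ψ (ψ' z) E z) :
    ∀ᵐ z ∂(μ.restrict E), ‖ψ' z‖ ≤ L := by
  obtain ⟨E₁, hE₁E, hE₁m, hE₁0, hder₁, -⟩ := exists_good_set μ hE hd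
  have happ : ApproximatesLinearOn ψ (0 : V →L[ℝ] V) E₁ L := by
    intro x hx y hy
    have := hL.dist_le_mul x (hE₁E hx) y (hE₁E hy)
    rw [dist_eq_norm, dist_eq_norm] at this
    simpa using this
  have h1 := happ.norm_fderiv_sub_le μ hE₁m ψ' hder₁
  rw [ae_restrict_iff' hE₁m] at h1
  rw [ae_restrict_iff' hE]
  have h0 : ∀ᵐ z ∂μ, z ∉ E \ E₁ := measure_eq_zero_iff_ae_notMem.1 hE₁0
  filter_upwards [h0, h1] with z hz hz1 hzE
  have hz2 : z ∈ E₁ := by
    by_contra h
    exact hz ⟨hzE, h⟩
  have := hz1 hz2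
  rw [sub_zero] at this
  exact_mod_cast this

lemma aemeasurable_det (μ : Measure V) [μ.IsAddHaarMeasure] {E : Set V} (hE : MeasurableSet E)
    {ψ : V → V} {ψ' : V → V →L[ℝ] V}
    (hd : ∀ᵐ z ∂(μ.restrict E), HasFDerivWithinAt ψ (ψ' z) E z) :
    AEMeasurable (fun z => (ψ' z).det) (μ.restrict E) := by
  obtain ⟨E₁, hE₁E, hE₁m, hE₁0, hder₁, g, hg, hge⟩ := exists_good_set μ hE hd
  refine ⟨g, hg, ?_⟩
  rw [Filter.EventuallyEq, ae_restrict_iff' hE]
  have h0 : ∀ᵐ z ∂μ, z ∉ E \ E₁ := measure_eq_zero_iff_ae_notMem.1 hE₁0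
  filter_upwards [h0] with z hz hzE
  apply hge
  by_contra h
  exact hz ⟨hzE, h⟩

/-- Integrability of `θ det ψ'` for Lipschitz `ψ`. -/
lemma integrable_det (μ : Measure V) [μ.IsAddHaarMeasure] {E : Set V} (hE : MeasurableSet E)
    {ψ : V → V} {ψ' : V → V →L[ℝ] V} {L : ℝ≥0} (hL : LipschitzOnWith L ψ E)
    (hd : ∀ᵐ z ∂(μ.restrict E), HasFDerivWithinAt ψ (ψ' z) E z) {θ : V → ℝ}
    (hθ : Integrable θ (μ.restrict E)) :
    Integrable (fun z => θ z * (ψ' z).det) (μ.restrict E) := by
  have h1 := ae_norm_le μ hE hL hd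
  refine hθ.mul_bdd (c := (L : ℝ) ^ Module.finrank ℝ V)
    (aemeasurable_det μ hE hd).aestronglyMeasurable ?_
  filter_upwards [h1] with z hz
  refine (abs_det_le (ψ' z)).trans ?_
  gcongr

end general

section chart

variable {k : ℕ}

/-- The linear map with prescribed components. -/
noncomputable def mkL (A : Fin k → (Euc k →L[ℝ] ℝ)) : Euc k →L[ℝ] Euc k :=
  ((EuclideanSpace.equiv (Fin k) ℝ).symm : (Fin k → ℝ) →L[ℝ] Euc k) ∘L
    (ContinuousLinearMap.pi A)


lemma proj_mkL (A : Fin k → (Euc k →L[ℝ] ℝ)) (i : Fin k) :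
    PiLp.proj 2 (fun _ : Fin k => ℝ) i ∘L mkL A = A i := by
  rfl

lemma det_mkL (A : Fin k → (Euc k →L[ℝ] ℝ)) :
    (mkL A).det = (Matrix.of fun i j => A i (EuclideanSpace.single j 1)).det := by
  have h := LinearMap.det_toMatrix (EuclideanSpace.basisFun (Fin k) ℝ).toBasis
    ((mkL A : Euc k →L[ℝ] Euc k) : Euc k →ₗ[ℝ] Euc k)
  rw [ContinuousLinearMap.det, ← h]
  congr 1

/-- The coordinate map `ψ = (u_1, …, u_k)`. -/
noncomputable def mkψ (u : Fin k → Euc k → ℝ) (z : Euc k) : Euc k :=
  (EuclideanSpace.equiv (Fin k) ℝ).symm (fun i => u i z)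


lemma lipschitz_mkψ {u : Fin k → Euc k → ℝ} {E : Set (Euc k)}
    (hu : ∀ i, ∃ L : ℝ≥0, LipschitzOnWith L (u i) E) :
    ∃ L : ℝ≥0, LipschitzOnWith L (mkψ u) E := by
  choose L hL using hu
  have h1 : LipschitzOnWith (∑ i, L i) (fun z i => u i z) E := by
    refine LipschitzOnWith.of_dist_le_mul fun x hx y hy => ?_
    rw [dist_pi_le_iff (by positivity)]
    intro i
    refine ((hL i).dist_le_mul x hx y hy).trans ?_
    gcongr
    exact_mod_cast Finset.single_le_sum (f := L) (fun j _ => zero_le) (Finset.mem_univ i)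
  obtain ⟨K, hK⟩ : ∃ K : ℝ≥0, LipschitzWith K (EuclideanSpace.equiv (Fin k) ℝ).symm :=
    ⟨_, (EuclideanSpace.equiv (Fin k) ℝ).symm.lipschitz⟩
  exact ⟨_, hK.comp_lipschitzOnWith h1⟩

lemma ae_hasFDerivWithinAt_mkψ {u : Fin k → Euc k → ℝ} {E : Set (Euc k)} (hE : MeasurableSet E)
    (hu : ∀ i, ∃ L : ℝ≥0, LipschitzOnWith L (u i) E) :
    ∀ᵐ z ∂(volume.restrict E),
      HasFDerivWithinAt (mkψ u) (mkL fun i => fderivWithin ℝ (u i) E z) E z := by
  have h1 : ∀ i, ∀ᵐ z ∂((volume : Measure (Euc k)).restrict E),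
      DifferentiableWithinAt ℝ (u i) E z := by
    intro i
    obtain ⟨L, hL⟩ := hu i
    exact hL.ae_differentiableWithinAt hE
  rw [← ae_all_iff] at h1
  filter_upwards [h1] with z hz
  rw [hasFDerivWithinAt_euclidean]
  intro i
  rw [proj_mkL]
  exact (hz i).hasFDerivWithinAt

/-- **Area formula in chart form.**  For coordinate functions `u_i` Lipschitz on the Borel set
`E` and an integer density `θ` integrable on `E`, the measure
`G ↦ ∫_{E ∩ B} θ G(ψ) det(∂_j u_i)` has an integer-valued integrable density on `ℝ^k`. -/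
theorem chart_density {E : Set (Euc k)} (hE : MeasurableSet E) {u : Fin k → Euc k → ℝ}
    (hu : ∀ i, ∃ L : ℝ≥0, LipschitzOnWith L (u i) E) {θ : Euc k → ℤ}
    (hθ : Integrable (fun z => (θ z : ℝ)) (volume.restrict E)) {B : Set (Euc k)}
    (hB : MeasurableSet B) :
    ∃ Θ : Euc k → ℤ, Measurable Θ ∧ Integrable (fun x => (Θ x : ℝ)) ∧
      (∀ x, x ∉ mkψ u '' (E ∩ B) → Θ x = 0) ∧
      (∫ x, |(Θ x : ℝ)| ≤ ∫ z in E ∩ B, |(θ z : ℝ)| * |(Matrix.of fun i j =>
          fderivWithin ℝ (u i) E z (EuclideanSpace.single j 1)).det|) ∧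
      ∀ G : Euc k → ℝ, Measurable G → (∃ C, ∀ x, |G x| ≤ C) →
        ∫ z in E ∩ B, (θ z : ℝ) * G (mkψ u z) * (Matrix.of fun i j =>
          fderivWithin ℝ (u i) E z (EuclideanSpace.single j 1)).det = ∫ x, G x * Θ x := by
  obtain ⟨L, hL⟩ := lipschitz_mkψ hu
  have hd := ae_hasFDerivWithinAt_mkψ hE hu
  have hd' : ∀ᵐ z ∂((volume : Measure (Euc k)).restrict (E ∩ B)),
      HasFDerivWithinAt (mkψ u) (mkL fun i => fderivWithin ℝ (u i) E z) (E ∩ B) z := by
    have := ae_mono (Measure.restrict_mono (inter_subset_left (s := E) (t := B)) le_rfl) hd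
    filter_upwards [this] with z hz
    exact hz.mono inter_subset_left
  have hi := integrable_det volume hE hL hd hθ
  obtain ⟨Θ, h1, h2, h3, h4, h5⟩ := degree_int (volume : Measure (Euc k)) (hE.inter hB) hd'
    (θ := θ) (hi.mono_measure (Measure.restrict_mono inter_subset_left le_rfl))
  refine ⟨Θ, h1, h2, h4, ?_, ?_⟩
  · simpa only [det_mkL] using h3
  · simpa only [det_mkL] using h5

end chart

end Crest.Agent.R241.B6
end

-- ▼ part R241/B7Int

/-!
R241, block B7: integer rectifiable currents have integral projections.  Owner: helper191.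
-/

set_option autoImplicit false

open MeasureTheory Filter Topology Set
open scoped ENNReal NNReal

universe u

namespace Crest.Agent.R241.B7Int

open Crest.GeometryTopology.Submanifold (Euc)
open Crest.GeometryTopology.MetricCurrent
open Crest.Agent.R241.B7ZD Crest.Agent.R241.B7Slice Crest.Agent.R241.G1 Crest.Agent.R241.B7a

variable {X : Type u} [MetricSpace X] [MeasurableSpace X] [BorelSpace X] {k : ℕ}

omit [BorelSpace X] in
/-- A controlling measure with almost optimal total mass. -/
theorem exists_controls_lt {T : Functional X k} (hT : IsCurrent T) {ε : ℝ} (hε : 0 < ε) :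
    ∃ μ : Measure X, IsFiniteMeasure μ ∧ Controls T μ ∧ μ.real univ < mass T + ε := by
  obtain ⟨μ₀, h1, h2⟩ := hT.finite_mass
  have hne : {r : ℝ | ∃ μ : Measure X, IsFiniteMeasure μ ∧ Controls T μ ∧
      r = (μ Set.univ).toReal}.Nonempty := ⟨_, μ₀, h1, h2, rfl⟩
  have hlt : sInf {r : ℝ | ∃ μ : Measure X, IsFiniteMeasure μ ∧ Controls T μ ∧
      r = (μ Set.univ).toReal} < mass T + ε := by
    have : mass T = sInf {r : ℝ | ∃ μ : Measure X, IsFiniteMeasure μ ∧ Controls T μ ∧
      r = (μ Set.univ).toReal} := rfl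
    linarith
  obtain ⟨r, ⟨μ, hμ1, hμ2, hμ3⟩, hr⟩ := exists_lt_of_csInf_lt hne hlt
  exact ⟨μ, hμ1, hμ2, by rw [hμ3] at hr; exact hr⟩

/-- Integer rectifiable currents have integral projections. -/
theorem zd_of_rect {S : Functional X k} (hS : IsCurrent S) (hR : IsIntegerRectifiable S)
    {σ : Fin k → X → ℝ} (hσ : LipT σ) : ZD (ctrl S) (tup σ) (dens S σ) := by
  obtain ⟨E, φ, θ, hE, hφ, -, hθ, -, hcur, hsum, hT⟩ := hR
  have hpm : Measurable (tup σ) := measurable_tup hσ
  choose K hK using hσ
  have hσ : LipT σ := fun i => ⟨_, hK i⟩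
  have hu : ∀ i j, ∃ L : ℝ≥0, LipschitzOnWith L (fun z => σ j (φ i z)) (E i) := by
    intro i j
    obtain ⟨L, hL⟩ := hφ i
    exact ⟨_, (hK j).comp_lipschitzOnWith hL⟩
  have hdens := fun i => B6.chart_density (hE i).1 (hu i) (hθ i) MeasurableSet.univ
  choose Θ hΘm hΘi _ _ hΘ using hdens
  -- the identity on bounded Lipschitz functions
  have hid : ∀ i (G : Euc k → ℝ), BL G →
      chartAction (E i) (φ i) (θ i) (fun x => G (tup σ x)) σ = ∫ x, G x * (Θ i x : ℝ) := by
    intro i G hG
    have htp : IsTestPair (fun x => G (tup σ x)) σ := (BL_comp_tup hG hσ).isTestPair hσ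
    unfold chartAction
    rw [if_pos htp]
    rw [← hΘ i G hG.measurable ⟨hG.2.choose, hG.2.choose_spec⟩]
    rw [inter_univ]
    rfl
  -- L¹ bounds
  have hbound : ∀ i, ∫ x, |(Θ i x : ℝ)| ≤
      (∏ j, (K j : ℝ)) * (mass (chartAction (E i) (φ i) (θ i)) + (1 / 2) ^ i) := by
    intro i
    obtain ⟨μ, hμ1, hμ2, hμ3⟩ := exists_controls_lt (hcur i) (ε := (1 / 2) ^ i) (by positivity)
    obtain ⟨g, hg1, hg2, hg3⟩ := exists_dens (hcur i) hμ2 hK
    have hgi : Integrable g μ := by
      have : BM g := ⟨hg1, _, hg2⟩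
      exact this.integrable μ
    have hd : IsDens μ (tup σ) g (fun x => (Θ i x : ℝ)) := by
      refine ⟨hΘi i, fun D hD => ?_⟩
      refine eq_of_BL (p := tup σ) (q := (id : Euc k → Euc k)) hpm measurable_id hgi (hΘi i)
        (fun G hG => ?_) D hD
      have h1 := hg3 _ (BL_comp_tup hG hσ)
      rw [hid i G hG] at h1
      simp only [id]
      exact h1.symm
    refine (hd.integral_abs_le hpm hgi).trans ?_
    have h2 : ∫ x, |g x| ∂μ ≤ ∫ _, (∏ j, (K j : ℝ)) ∂μ :=
      integral_mono hgi.abs (integrable_const _) hg2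
    refine h2.trans ?_
    rw [integral_const, smul_eq_mul, mul_comm]
    exact mul_le_mul_of_nonneg_left hμ3.le (Finset.prod_nonneg fun j _ => (K j).coe_nonneg)
  have hsummable : Summable fun i => ∫ x, |(Θ i x : ℝ)| := by
    refine Summable.of_nonneg_of_le (fun i => integral_nonneg fun x => abs_nonneg _) hbound ?_
    exact (hsum.add (summable_geometric_of_lt_one (by norm_num) (by norm_num))).mul_left _
  obtain ⟨Υ, hΥm, hΥi, -, -, -, hΥG⟩ := B6.sum_int hΘm hΘi hsummable
  refine ⟨fun x => (Υ x : ℝ), ⟨hΥi, fun D hD => ?_⟩, ae_of_all _ fun x => ⟨Υ x, rfl⟩⟩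
  refine eq_of_BL (p := tup σ) (q := (id : Euc k → Euc k)) hpm measurable_id
    (integrable_dens S σ) hΥi (fun G hG => ?_) D hD
  have hBL := BL_comp_tup hG hσ
  have h1 := dens_spec hS hσ hBL
  rw [← h1, hT _ _ (hBL.isTestPair hσ)]
  have h2 := hΥG G hG.measurable ⟨hG.2.choose, hG.2.choose_spec⟩
  simp only [id]
  rw [← h2.tsum_eq]
  exact tsum_congr fun i => hid i G hG

end Crest.Agent.R241.B7Int
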