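import Mathlib
import Crest.Prelude.Def_MetricCurrent
import Crest.Agent.R241.B7ZD
import Crest.Agent.R241.B7Int_Mg
import Crest.Agent.R241.G1m
import Crest.Agent.R241.B1Cur

-- ▼ part R241/B7Targets
section

/-!
R241, block B6/B7 (boundary rectifiability): exact statements of the pure-analysis inputs.
Owner: helper191.
-/
namespace Crest.Agent.R241.B7
end Crest.Agent.R241.B7
end

-- ▼ part R241/B7c
section

/-!
# R241, block B7c (helper734)

Pure measure theory: a finite measure `ν` on a standard Borel space `X`, a measurable map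
`π : X → Y`, such that for every Borel `B ⊆ X` the push-forward `π_#(ν|_B)` has an
integer-valued density with respect to `ρ`.  Then `ν` disintegrates into finite sums of
Dirac masses with integer weights on the fibres of `π`.
-/

set_option autoImplicit false

open MeasureTheory Set Filter Topology ProbabilityTheory
open scoped ENNReal NNReal

namespace Crest.Agent.R241.B7c

/-! ## Natural-number valued measures -/

/-- `c` is a natural number. -/
def IsNatE (c : ℝ≥0∞) : Prop := ∃ n : ℕ, c = n

lemma isNatE_zero : IsNatE 0 := ⟨0, by simp⟩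

lemma isNatE_natCast (n : ℕ) : IsNatE (n : ℝ≥0∞) := ⟨n, rfl⟩

lemma IsNatE.add {a b : ℝ≥0∞} (ha : IsNatE a) (hb : IsNatE b) : IsNatE (a + b) := by
  obtain ⟨n, rfl⟩ := ha
  obtain ⟨m, rfl⟩ := hb
  exact ⟨n + m, by push_cast; rfl⟩

lemma IsNatE.sub {a b : ℝ≥0∞} (ha : IsNatE a) (hb : IsNatE b) : IsNatE (a - b) := by
  obtain ⟨n, rfl⟩ := ha
  obtain ⟨m, rfl⟩ := hb
  exact ⟨n - m, by rw [ENNReal.natCast_sub]⟩

lemma IsNatE.ne_top {a : ℝ≥0∞} (ha : IsNatE a) : a ≠ ∞ := by
  obtain ⟨n, rfl⟩ := ha
  exact ENNReal.natCast_ne_top n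

lemma IsNatE.one_le {a : ℝ≥0∞} (ha : IsNatE a) (h0 : a ≠ 0) : 1 ≤ a := by
  obtain ⟨n, rfl⟩ := ha
  have : n ≠ 0 := by
    rintro rfl
    simp at h0
  exact_mod_cast Nat.one_le_iff_ne_zero.mpr this

lemma isNatE_of_tendsto {c : ℕ → ℝ≥0∞} {a : ℝ≥0∞} (hc : ∀ n, IsNatE (c n)) (ha : a ≠ ∞)
    (h : Tendsto c atTop (𝓝 a)) : IsNatE a := by
  choose f hf using hc
  have h1 : Tendsto (fun n => ((f n : ℕ) : ℝ)) atTop (𝓝 a.toReal) := by
    have := (ENNReal.tendsto_toReal ha).comp h
    refine this.congr fun n => ?_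
    simp [hf n]
  have h2 : a.toReal ∈ range ((↑) : ℕ → ℝ) :=
    Nat.isClosedEmbedding_coe_real.isClosed_range.mem_of_tendsto h1
      (Eventually.of_forall fun n => mem_range_self _)
  obtain ⟨m, hm⟩ := h2
  refine ⟨m, ?_⟩
  rw [← ENNReal.ofReal_toReal ha, ← hm]
  simp

lemma isNatE_finset_sum {ι : Type*} (s : Finset ι) (c : ι → ℝ≥0∞) (h : ∀ i ∈ s, IsNatE (c i)) :
    IsNatE (∑ i ∈ s, c i) := by
  classical
  induction s using Finset.induction_on with
  | empty => simpa using isNatE_zero
  | insert a s has ih =>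
    rw [Finset.sum_insert has]
    exact (h a (Finset.mem_insert_self a s)).add
      (ih fun i hi => h i (Finset.mem_insert_of_mem hi))

/-- The natural number `c` (or junk). -/
noncomputable def natOf (c : ℝ≥0∞) : ℕ := ⌊c.toReal⌋₊

@[simp] lemma natOf_natCast (n : ℕ) : natOf (n : ℝ≥0∞) = n := by simp [natOf]

@[simp] lemma natOf_zero : natOf 0 = 0 := by simp [natOf]

lemma IsNatE.natOf_eq {a : ℝ≥0∞} (ha : IsNatE a) : (natOf a : ℝ≥0∞) = a := by
  obtain ⟨n, rfl⟩ := ha
  simp

lemma measurable_natOf : Measurable natOf :=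
  Nat.measurable_floor.comp ENNReal.measurable_toReal

section Single

variable {X : Type*} [MeasurableSpace X]

/-- If a finite measure is `ℕ`-valued on a generating π-system and on the whole space then it is
`ℕ`-valued. -/
lemma isNatE_of_generate {ν : Measure X} [IsFiniteMeasure ν] {C : Set (Set X)}
    (hC : IsPiSystem C) (hgen : ‹MeasurableSpace X› = MeasurableSpace.generateFrom C)
    (huniv : IsNatE (ν univ)) (h : ∀ s ∈ C, IsNatE (ν s)) (s : Set X) (hs : MeasurableSet s) :
    IsNatE (ν s) := by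
  induction s, hs using MeasurableSpace.induction_on_inter hgen hC with
  | empty => simpa using isNatE_zero
  | basic t ht => exact h t ht
  | compl t ht ih =>
    rw [measure_compl ht (measure_ne_top ν t)]
    exact huniv.sub ih
  | iUnion f hd hm ih =>
    rw [measure_iUnion hd hm]
    have hfin : ∑' i, ν (f i) ≠ ∞ := by
      rw [← measure_iUnion hd hm]
      exact measure_ne_top ν _
    refine isNatE_of_tendsto (c := fun n => ∑ i ∈ Finset.range n, ν (f i)) (fun n => ?_) hfin ?_
    · exact isNatE_finset_sum _ _ fun i _ => ih i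
    · exact ENNReal.tendsto_nat_tsum _

/-- `ν` takes only natural-number values. -/
def NatValued (ν : Measure X) : Prop := ∀ s, MeasurableSet s → IsNatE (ν s)

lemma NatValued.restrict {ν : Measure X} (h : NatValued ν) {t : Set X} (ht : MeasurableSet t) :
    NatValued (ν.restrict t) := by
  intro s hs
  rw [Measure.restrict_apply hs]
  exact h _ (hs.inter ht)

variable [MeasurableSpace.CountablyGenerated X] [MeasurableSingletonClass X]

/-- A non-zero natural-number valued measure has an atom. -/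
lemma NatValued.exists_atom {ν : Measure X} (h : NatValued ν) (hν : ν ≠ 0) :
    ∃ p : X, ν {p} ≠ 0 := by
  classical
  -- choose a measurable set of smallest nonzero measure
  have hex : ∃ n : ℕ, n ≠ 0 ∧ ∃ A : Set X, MeasurableSet A ∧ ν A = n := by
    obtain ⟨n, hn⟩ := h univ MeasurableSet.univ
    refine ⟨n, ?_, univ, MeasurableSet.univ, hn⟩
    rintro rfl
    apply hν
    simpa using hn
  obtain ⟨hN0, A, hA, hAN⟩ := Nat.find_spec hex
  set N := Nat.find hex with hN
  have hmin : ∀ B : Set X, MeasurableSet B → B ⊆ A → ν B ≠ 0 → ν B = ν A := by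
    intro B hB hBA hB0
    obtain ⟨m, hm⟩ := h B hB
    have hm0 : m ≠ 0 := by
      rintro rfl
      simp at hm
      exact hB0 hm
    have h1 : N ≤ m := Nat.find_min' hex ⟨hm0, B, hB, hm⟩
    have h2 : ν B ≤ ν A := measure_mono hBA
    refine le_antisymm h2 ?_
    rw [hAN, hm]
    exact_mod_cast h1
  let t : ℕ → Set X := MeasurableSpace.natGeneratingSequence X
  have ht : ∀ n, MeasurableSet (t n) := fun n =>
    MeasurableSpace.measurableSet_natGeneratingSequence n
  let T : ℕ → Set X := fun n => if ν (A ∩ t n) ≠ 0 then t n else (t n)ᶜ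
  have hT : ∀ n, MeasurableSet (T n) := by
    intro n
    by_cases hn : ν (A ∩ t n) ≠ 0
    · simp only [T, if_pos hn]; exact ht n
    · simp only [T, if_neg hn]; exact (ht n).compl
  have hfinA : ν A ≠ ∞ := (h A hA).ne_top
  have hnull : ∀ n, ν (A \ T n) = 0 := by
    intro n
    by_cases hn : ν (A ∩ t n) ≠ 0
    · simp only [T, if_pos hn]
      have h1 : ν (A ∩ t n) = ν A := hmin _ (hA.inter (ht n)) inter_subset_left hn
      have h2 : ν (A \ t n) + ν (A ∩ t n) = ν A := measure_sdiff_add_inter A (ht n)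
      rw [h1] at h2
      have h3 : ν (A \ t n) + ν A = 0 + ν A := by rw [h2, zero_add]
      exact (ENNReal.add_left_inj hfinA).mp h3
    · simp only [T, if_neg hn, sdiff_compl]
      simpa using hn
  let D : Set X := A ∩ ⋂ n, T n
  have hD : ν D = ν A := by
    have hsub : A \ D ⊆ ⋃ n, A \ T n := by
      intro x hx
      simp only [D, Set.mem_sdiff, mem_inter_iff, mem_iInter, not_and, not_forall] at hx
      obtain ⟨n, hn⟩ := hx.2 hx.1
      exact mem_iUnion.mpr ⟨n, hx.1, hn⟩
    have h0 : ν (A \ D) = 0 := measure_mono_null hsub (measure_iUnion_null hnull)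
    have hDA : D ⊆ A := inter_subset_left
    refine le_antisymm (measure_mono hDA) ?_
    calc ν A = ν (D ∪ A \ D) := by rw [union_sdiff_cancel hDA]
      _ ≤ ν D + ν (A \ D) := measure_union_le _ _
      _ = ν D := by rw [h0, add_zero]
  have hD0 : ν D ≠ 0 := by
    rw [hD, hAN]
    exact_mod_cast hN0
  obtain ⟨p, hp⟩ := nonempty_of_measure_ne_zero hD0
  have hDp : D ⊆ {p} := by
    intro q hq
    have hsep : ∀ s ∈ range t, q ∈ s ↔ p ∈ s := by
      rintro s ⟨n, rfl⟩
      have h1 : q ∈ T n := (mem_iInter.mp hq.2) n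
      have h2 : p ∈ T n := (mem_iInter.mp hp.2) n
      by_cases hn : ν (A ∩ t n) ≠ 0
      · simp only [T, if_pos hn] at h1 h2
        exact ⟨fun _ => h2, fun _ => h1⟩
      · simp only [T, if_neg hn] at h1 h2
        exact ⟨fun h => absurd h h1, fun h => absurd h h2⟩
    have hinst : @MeasurableSpace.SeparatesPoints X (MeasurableSpace.generateFrom (range t)) := by
      have : MeasurableSpace.generateFrom (range t) = ‹MeasurableSpace X› :=
        MeasurableSpace.generateFrom_natGeneratingSequence X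
      rw [this]
      infer_instance
    exact MeasurableSpace.separating_of_generateFrom (range t) (h := hinst) q p hsep
  refine ⟨p, fun h0 => hD0 (measure_mono_null hDp h0)⟩

/-- The measure `∑ f p • δ_p` of a finitely supported function. -/
noncomputable def dsum (f : X →₀ ℕ) : Measure X :=
  ∑ p ∈ f.support, (f p : ℝ≥0∞) • Measure.dirac p

omit [MeasurableSpace.CountablyGenerated X] [MeasurableSingletonClass X] in
lemma lintegral_dsum (f : X →₀ ℕ) {F : X → ℝ≥0∞} (hF : Measurable F) :
    ∫⁻ p, F p ∂(dsum f) = ∑ p ∈ f.support, F p * f p := by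
  rw [dsum, lintegral_finsetSum_measure]
  refine Finset.sum_congr rfl fun p _ => ?_
  rw [lintegral_smul_measure, lintegral_dirac' p hF, smul_eq_mul, mul_comm]

omit [MeasurableSpace.CountablyGenerated X] [MeasurableSingletonClass X] in
lemma dsum_apply (f : X →₀ ℕ) {s : Set X} (hs : MeasurableSet s) :
    dsum f s = ∑ p ∈ f.support, s.indicator (fun _ => (f p : ℝ≥0∞)) p := by
  rw [dsum, Measure.finsetSum_apply]
  refine Finset.sum_congr rfl fun p _ => ?_
  rw [Measure.smul_apply, Measure.dirac_apply' p hs, smul_eq_mul]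
  by_cases hp : p ∈ s <;> simp [hp]

open Classical in
/-- The atoms of a measure, as a finitely supported function (junk `0` if infinitely many). -/
noncomputable def atomsF (ν : Measure X) : X →₀ ℕ :=
  if h : (Function.support fun p => natOf (ν {p})).Finite then
    Finsupp.ofSupportFinite _ h else 0

omit [MeasurableSpace.CountablyGenerated X] in
lemma NatValued.finite_atoms {ν : Measure X} [IsFiniteMeasure ν] (h : NatValued ν) :
    (Function.support fun p => natOf (ν {p})).Finite := by
  have h1 : Set.Finite {p : X | 1 ≤ ν {p}} :=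
    Measure.finite_const_le_meas_of_disjoint_iUnion ν one_pos
      (fun p => measurableSet_singleton p)
      (fun p q hpq => by simpa using hpq) (measure_ne_top ν _)
  refine h1.subset fun p hp => ?_
  have h2 : ν {p} ≠ 0 := by
    intro h0
    apply hp
    simp [h0]
  exact (h _ (measurableSet_singleton p)).one_le h2

lemma NatValued.atomsF_apply {ν : Measure X} [IsFiniteMeasure ν] (h : NatValued ν) (p : X) :
    (atomsF ν p : ℝ≥0∞) = ν {p} := by
  rw [atomsF, dif_pos h.finite_atoms, Finsupp.ofSupportFinite_coe,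
    (h _ (measurableSet_singleton p)).natOf_eq]

lemma NatValued.dsum_atomsF {ν : Measure X} [IsFiniteMeasure ν] (h : NatValued ν) :
    dsum (atomsF ν) = ν := by
  classical
  set f := atomsF ν with hf
  have hfp : ∀ p, (f p : ℝ≥0∞) = ν {p} := fun p => h.atomsF_apply p
  have hmeasF : MeasurableSet (f.support : Set X) := f.support.measurableSet
  have h0 : ν.restrict (f.support : Set X)ᶜ = 0 := by
    by_contra hne
    obtain ⟨p, hp⟩ := (h.restrict hmeasF.compl).exists_atom hne
    rw [Measure.restrict_apply (measurableSet_singleton p)] at hp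
    by_cases hpf : p ∈ f.support
    · apply hp
      have : ({p} : Set X) ∩ (f.support : Set X)ᶜ = ∅ := by
        ext q
        simp only [mem_inter_iff, mem_singleton_iff, mem_compl_iff, Finset.mem_coe,
          mem_empty_iff_false, iff_false, not_and, not_not]
        rintro rfl
        exact hpf
      rw [this, measure_empty]
    · have h1 : f p = 0 := by simpa using hpf
      have h2 : ν {p} = 0 := by rw [← hfp p, h1]; simp
      exact hp (measure_mono_null inter_subset_left h2)
  refine Measure.ext fun s hs => ?_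
  have h1 : ν s = ν (s ∩ f.support) + ν (s ∩ (f.support : Set X)ᶜ) :=
    (measure_inter_add_sdiff s hmeasF).symm
  have h2 : ν (s ∩ (f.support : Set X)ᶜ) = 0 := by
    rw [← Measure.restrict_apply hs, h0]; simp
  have h3 : s ∩ f.support = ((f.support.filter (· ∈ s) : Finset X) : Set X) := by
    ext p
    simp [and_comm]
  rw [dsum_apply f hs, h1, h2, add_zero, h3, ← sum_measure_singleton, Finset.sum_filter]
  refine Finset.sum_congr rfl fun p _ => ?_
  by_cases hp : p ∈ s <;> simp [hp, hfp p]

end Single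

section Disint

variable {X Y : Type*} [MeasurableSpace X] [StandardBorelSpace X] [MeasurableSpace Y]

/-- The countable π-system of all cells of the countable partitions, together with `∅`. -/
def cells (X : Type*) [MeasurableSpace X] [MeasurableSpace.CountablyGenerated X] :
    Set (Set X) := insert ∅ (⋃ n, MeasurableSpace.countablePartition X n)

lemma countable_cells : (cells X).Countable :=
  (countable_iUnion fun n =>
    (MeasurableSpace.finite_countablePartition X n).countable).insert ∅

lemma measurableSet_cells {s : Set X} (hs : s ∈ cells X) : MeasurableSet s := by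
  rcases hs with rfl | hs
  · exact MeasurableSet.empty
  · obtain ⟨n, hn⟩ := mem_iUnion.mp hs
    exact MeasurableSpace.measurableSet_countablePartition n hn

lemma generateFrom_cells : MeasurableSpace.generateFrom (cells X) = ‹MeasurableSpace X› := by
  refine le_antisymm (MeasurableSpace.generateFrom_le fun s hs => measurableSet_cells hs) ?_
  conv_lhs => rw [← MeasurableSpace.generateFrom_iUnion_countablePartition X]
  exact MeasurableSpace.generateFrom_mono (subset_insert _ _)

/-- Cells of a finer partition are contained in or disjoint from cells of a coarser one. -/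
lemma cell_le {n m : ℕ} (hnm : n ≤ m) {s t : Set X}
    (hs : s ∈ MeasurableSpace.countablePartition X n)
    (ht : t ∈ MeasurableSpace.countablePartition X m) : t ⊆ s ∨ Disjoint t s := by
  have hmeas : ∀ k, n ≤ k → MeasurableSet[MeasurableSpace.generateFrom
      (MeasurableSpace.countablePartition X k)] s := by
    intro k hk
    induction k, hk using Nat.le_induction with
    | base => exact MeasurableSpace.measurableSet_generateFrom hs
    | succ k hk ih =>
      exact (MeasurableSpace.generateFrom_countablePartition_le_succ X k) _ ih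
  obtain ⟨S, hS, hSs⟩ := (MeasurableSpace.measurableSet_generateFrom_countablePartition_iff m s).mp
    (hmeas m hnm)
  by_cases htS : t ∈ S
  · left
    rw [hSs]
    exact subset_sUnion_of_mem (by exact_mod_cast htS)
  · right
    rw [hSs]
    refine disjoint_sUnion_right.mpr fun r hr => ?_
    have hr' : r ∈ (S : Set (Set X)) := hr
    refine MeasurableSpace.disjoint_countablePartition ht (hS hr') ?_
    rintro rfl
    exact htS (by exact_mod_cast hr')

lemma isPiSystem_cells : IsPiSystem (cells X) := by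
  intro s hs t ht hst
  rcases hs with rfl | hs
  · simp at hst
  rcases ht with rfl | ht
  · simp at hst
  have hs0 := hs
  have ht0 := ht
  obtain ⟨n, hn⟩ := mem_iUnion.mp hs
  obtain ⟨m, hm⟩ := mem_iUnion.mp ht
  rcases le_total n m with h | h
  · rcases cell_le h hn hm with h1 | h1
    · rw [inter_eq_self_of_subset_right h1]
      exact Or.inr ht0
    · exact absurd hst (by rw [h1.symm.inter_eq]; simp)
  · rcases cell_le h hm hn with h1 | h1
    · rw [inter_eq_self_of_subset_left h1]
      exact Or.inr hs0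
    · exact absurd hst (by rw [h1.inter_eq]; simp)

/-- **Disintegration into finite sums of Dirac masses**, positive version. -/
theorem exists_disint [MeasurableEq Y] (ρ : Measure Y) [SigmaFinite ρ] (ν : Measure X)
    [IsFiniteMeasure ν] {π : X → Y} (hπ : Measurable π)
    (hInt : ∀ B : Set X, MeasurableSet B → ∃ θ : Y → ℕ, Measurable θ ∧
      ∀ A : Set Y, MeasurableSet A → ν (B ∩ π ⁻¹' A) = ∫⁻ y in A, (θ y : ℝ≥0∞) ∂ρ) :
    ∃ u : Y → X →₀ ℕ,
      (∀ y, ∀ p ∈ (u y).support, π p = y) ∧
      (∀ B : Set X, MeasurableSet B → Measurable fun y => dsum (u y) B) ∧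
      (∀ B : Set X, MeasurableSet B → ν B = ∫⁻ y, dsum (u y) B ∂ρ) := by
  classical
  rcases isEmpty_or_nonempty X with hX | hX
  · refine ⟨fun _ => 0, fun y p _ => (hX.false p).elim, fun B _ => ?_, fun B _ => ?_⟩
    · simp [dsum]
    · have : B = ∅ := eq_empty_of_isEmpty B
      simp [this]
  choose! θ hθm hθ using hInt
  -- the joint measure
  let j : X → Y × X := fun p => (π p, p)
  have hj : Measurable j := hπ.prodMk measurable_id
  let lam : Measure (Y × X) := ν.map j
  have hlamfin : IsFiniteMeasure lam := Measure.isFiniteMeasure_map ν j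
  have hfst : lam.fst = ρ.withDensity (fun y => (θ univ y : ℝ≥0∞)) := by
    refine Measure.ext fun A hA => ?_
    rw [Measure.fst_apply hA, Measure.map_apply hj (measurable_fst hA),
      withDensity_apply _ hA, ← hθ univ MeasurableSet.univ A hA, univ_inter]
    rfl
  have hθtop : Measurable fun y => (θ univ y : ℝ≥0∞) :=
    measurable_from_top.comp (hθm univ MeasurableSet.univ)
  let κ : Kernel Y X := lam.condKernel
  let K : Y → Measure X := fun y => (θ univ y : ℝ≥0∞) • κ y
  have hKfin : ∀ y, IsFiniteMeasure (K y) := by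
    intro y
    refine ⟨?_⟩
    simp only [K, Measure.smul_apply, smul_eq_mul, measure_univ, mul_one]
    exact ENNReal.natCast_lt_top _
  have hKmeas : ∀ B : Set X, MeasurableSet B → Measurable fun y => K y B := by
    intro B hB
    simp only [K, Measure.smul_apply, smul_eq_mul]
    exact hθtop.mul (κ.measurable_coe hB)
  -- integral formula for sets in the product
  have hprod : ∀ s : Set (Y × X), MeasurableSet s →
      lam s = ∫⁻ y, K y (Prod.mk y ⁻¹' s) ∂ρ := by
    intro s hs
    conv_lhs => rw [← lam.disintegrate lam.condKernel]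
    rw [Measure.compProd_apply hs, hfst, lintegral_withDensity_eq_lintegral_mul _ hθtop
      (Kernel.measurable_kernel_prodMk_left hs)]
    rfl
  have hAB : ∀ (A : Set Y) (B : Set X), MeasurableSet A → MeasurableSet B →
      ν (B ∩ π ⁻¹' A) = ∫⁻ y in A, K y B ∂ρ := by
    intro A B hA hB
    have h1 := hprod (A ×ˢ B) (hA.prod hB)
    have h2 : lam (A ×ˢ B) = ν (B ∩ π ⁻¹' A) := by
      rw [Measure.map_apply hj (hA.prod hB)]
      congr 1
      ext p
      simp [j, and_comm]
    rw [← h2, h1, ← lintegral_indicator hA]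
    refine lintegral_congr fun y => ?_
    by_cases hy : y ∈ A <;> simp [hy]
  -- a.e. identification with θ
  have haeθ : ∀ B : Set X, MeasurableSet B → ∀ᵐ y ∂ρ, K y B = θ B y := by
    intro B hB
    refine ae_eq_of_forall_setLIntegral_eq_of_sigmaFinite (hKmeas B hB)
      (measurable_from_top.comp (hθm B hB)) fun A hA _ => ?_
    rw [← hAB A B hA hB, hθ B hB A hA]
  have hae1 : ∀ᵐ y ∂ρ, NatValued (K y) := by
    have h1 : ∀ᵐ y ∂ρ, ∀ B ∈ insert univ (cells X), K y B = θ B y := by
      rw [ae_ball_iff (countable_cells.insert _)]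
      intro B hB
      refine haeθ B ?_
      rcases hB with rfl | hB
      · exact MeasurableSet.univ
      · exact measurableSet_cells hB
    filter_upwards [h1] with y hy s hs
    have := hKfin y
    refine isNatE_of_generate isPiSystem_cells generateFrom_cells.symm ?_ ?_ s hs
    · rw [hy univ (mem_insert _ _)]
      exact isNatE_natCast _
    · intro t ht
      rw [hy t (mem_insert_of_mem _ ht)]
      exact isNatE_natCast _
  -- concentration on fibres
  have hae2 : ∀ᵐ y ∂ρ, K y {p | π p ≠ y} = 0 := by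
    have hs : MeasurableSet {q : Y × X | π q.2 ≠ q.1} :=
      (measurableSet_eq_fun (hπ.comp measurable_snd) measurable_fst).compl
    have h1 := hprod _ hs
    have h2 : lam {q : Y × X | π q.2 ≠ q.1} = 0 := by
      rw [Measure.map_apply hj hs]
      have : j ⁻¹' {q : Y × X | π q.2 ≠ q.1} = ∅ := by
        ext p
        simp [j]
      rw [this, measure_empty]
    rw [h2] at h1
    have hm : Measurable fun y => K y (Prod.mk y ⁻¹' {q : Y × X | π q.2 ≠ q.1}) := by
      simp only [K, Measure.smul_apply, smul_eq_mul]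
      exact hθtop.mul (Kernel.measurable_kernel_prodMk_left hs)
    have h3 := (lintegral_eq_zero_iff hm).mp h1.symm
    filter_upwards [h3] with y hy
    simpa using hy
  -- a measurable good set
  let bad : Set Y := toMeasurable ρ {y | ¬ (NatValued (K y) ∧ K y {p | π p ≠ y} = 0)}
  have hbadm : MeasurableSet bad := measurableSet_toMeasurable _ _
  have hbad0 : ρ bad = 0 := by
    rw [measure_toMeasurable]
    exact (hae1.and hae2)
  have hgood : ∀ y, y ∉ bad → NatValued (K y) ∧ K y {p | π p ≠ y} = 0 := by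
    intro y hy
    by_contra hcon
    exact hy (subset_toMeasurable _ _ hcon)
  let u : Y → X →₀ ℕ := fun y => if y ∈ bad then 0 else atomsF (K y)
  have hu : ∀ y, y ∉ bad → dsum (u y) = K y := by
    intro y hy
    have := hKfin y
    simp only [u, if_neg hy]
    exact (hgood y hy).1.dsum_atomsF
  refine ⟨u, ?_, ?_, ?_⟩
  · intro y p hp
    by_cases hy : y ∈ bad
    · simp [u, hy] at hp
    · have := hKfin y
      by_contra hne
      have h1 : K y {p} = 0 := measure_mono_null (by simpa using hne) (hgood y hy).2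
      have h2 := (hgood y hy).1.atomsF_apply p
      rw [h1] at h2
      have h3 : u y p = 0 := by
        simp only [u, if_neg hy]
        exact_mod_cast h2
      exact (Finsupp.mem_support_iff.mp hp) h3
  · intro B hB
    have h1 : (fun y => dsum (u y) B) = (badᶜ).indicator fun y => K y B := by
      funext y
      by_cases hy : y ∈ bad
      · simp [u, hy, dsum]
      · rw [indicator_of_mem (by simpa using hy), hu y hy]
    rw [h1]
    exact (hKmeas B hB).indicator hbadm.compl
  · intro B hB
    have h1 := hAB univ B MeasurableSet.univ hB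
    rw [preimage_univ, inter_univ, Measure.restrict_univ] at h1
    rw [h1]
    refine lintegral_congr_ae ?_
    have h2 : ∀ᵐ y ∂ρ, y ∉ bad := by
      rw [ae_iff]
      simpa using hbad0
    filter_upwards [h2] with y hy
    rw [hu y hy]


/-- The kernel attached to a measurable family of finite sums of Dirac masses. -/
noncomputable def kernelOf (u : Y → X →₀ ℕ)
    (hu : ∀ B : Set X, MeasurableSet B → Measurable fun y => dsum (u y) B) : Kernel Y X where
  toFun y := dsum (u y)
  measurable' := Measure.measurable_of_measurable_coe _ hu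

@[simp] lemma kernelOf_apply (u : Y → X →₀ ℕ)
    (hu : ∀ B : Set X, MeasurableSet B → Measurable fun y => dsum (u y) B) (y : Y) :
    kernelOf u hu y = dsum (u y) := rfl


/-- Integration formula. -/
lemma lintegral_of_disint {ρ : Measure Y} {ν : Measure X} {u : Y → X →₀ ℕ}
    (hu : ∀ B : Set X, MeasurableSet B → Measurable fun y => dsum (u y) B)
    (h : ∀ B : Set X, MeasurableSet B → ν B = ∫⁻ y, dsum (u y) B ∂ρ)
    {F : X → ℝ≥0∞} (hF : Measurable F) :
    ∫⁻ p, F p ∂ν = ∫⁻ y, ∫⁻ p, F p ∂(dsum (u y)) ∂ρ := by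
  have hν : ν = ρ.bind (kernelOf u hu) := by
    refine Measure.ext fun B hB => ?_
    rw [Measure.bind_apply hB (kernelOf u hu).measurable.aemeasurable, h B hB]
    rfl
  rw [hν, Measure.lintegral_bind (kernelOf u hu).measurable.aemeasurable hF.aemeasurable]
  rfl

end Disint

section Target

open Crest.Agent.R241.B7
open Crest.GeometryTopology.Submanifold (Euc)

universe v


end Target

end Crest.Agent.R241.B7c
end

-- ▼ part R241/B7e
section

/-!
# R241, block B7e (helper734), pure form

From two measurable families `up`, `um` of finite sums of Dirac masses (with disjoint supports,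
concentrated on the fibres of `p : X → Y`) which satisfy the flat-norm Lipschitz estimate on
countably many good sets covering almost all of `Y`, we produce countably many bi-Lipschitz
pieces (sections of `p`) with pairwise disjoint Borel images carrying all the atoms.
-/

set_option autoImplicit false

open MeasureTheory Set Filter Topology ProbabilityTheory
open scoped ENNReal NNReal

namespace Crest.Agent.R241.B7e

open Crest.Agent.R241.B7c

section Aux

variable {X : Type*} [MeasurableSpace X]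

lemma dsum_ne_zero_iff (f : X →₀ ℕ) {S : Set X} (hS : MeasurableSet S) :
    dsum f S ≠ 0 ↔ ∃ q ∈ f.support, q ∈ S := by
  rw [dsum_apply f hS]
  constructor
  · intro h
    obtain ⟨q, hq, hq0⟩ := Finset.exists_ne_zero_of_sum_ne_zero h
    refine ⟨q, hq, ?_⟩
    by_contra hqS
    exact hq0 (by simp [hqS])
  · rintro ⟨q, hq, hqS⟩ h
    rw [Finset.sum_eq_zero_iff] at h
    have := h q hq
    rw [indicator_of_mem hqS] at this
    exact (Finsupp.mem_support_iff.mp hq) (by exact_mod_cast this)

lemma dsum_add (f g : X →₀ ℕ) : dsum (f + g) = dsum f + dsum g := by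
  classical
  have key : ∀ (h : X →₀ ℕ) (t : Finset X), h.support ⊆ t →
      dsum h = ∑ p ∈ t, (h p : ℝ≥0∞) • Measure.dirac p := by
    intro h t ht
    rw [dsum]
    refine Finset.sum_subset ht fun p _ hp => ?_
    have : h p = 0 := by simpa using hp
    simp [this]
  rw [key (f + g) (f.support ∪ g.support) Finsupp.support_add,
    key f (f.support ∪ g.support) Finset.subset_union_left,
    key g (f.support ∪ g.support) Finset.subset_union_right, ← Finset.sum_add_distrib]
  refine Finset.sum_congr rfl fun p _ => ?_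
  rw [← add_smul]
  congr 1
  push_cast [Finsupp.add_apply]
  rfl

end Aux

/-- The evaluation of the signed finite sum `∑ (up x) - ∑ (um x)` at `g`. -/
noncomputable def ev {X Y : Type*} (up um : Y → X →₀ ℕ) (g : X → ℝ) (x : Y) : ℝ :=
  ∑ q ∈ (up x).support, (up x q : ℝ) * g q - ∑ q ∈ (um x).support, (um x q : ℝ) * g q

/-- The input data of the piece construction. -/
structure Input {X Y : Type*} [MetricSpace X] [MeasurableSpace X] [MetricSpace Y]
    [MeasurableSpace Y] (p : X → Y) (up um : Y → X →₀ ℕ) (Gd : ℕ → Set Y) (C : ℝ) : Prop where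
  proj_p : ∀ y, ∀ q ∈ (up y).support, p q = y
  proj_m : ∀ y, ∀ q ∈ (um y).support, p q = y
  meas_p : ∀ B : Set X, MeasurableSet B → Measurable fun y => dsum (up y) B
  meas_m : ∀ B : Set X, MeasurableSet B → Measurable fun y => dsum (um y) B
  disj : ∀ y, Disjoint (up y).support (um y).support
  meas_G : ∀ L, MeasurableSet (Gd L)
  lip : ∀ L : ℕ, ∀ x ∈ Gd L, ∀ x' ∈ Gd L, ∀ g : X → ℝ, LipschitzWith 1 g → (∀ q, |g q| ≤ 1) →
    |ev up um g x - ev up um g x'| ≤ C * L * dist x x'

section Main

variable {X Y : Type*} [MetricSpace X] [SecondCountableTopology X] [MeasurableSpace X]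
  [BorelSpace X] [MetricSpace Y] [MeasurableSpace Y] [BorelSpace Y]
  {p : X → Y} {up um : Y → X →₀ ℕ} {Gd : ℕ → Set Y} {C : ℝ}

/-- all atoms -/
noncomputable def tot (up um : Y → X →₀ ℕ) (y : Y) : X →₀ ℕ := up y + um y

omit [SecondCountableTopology X] [MetricSpace X] [MeasurableSpace X] [BorelSpace X]
  [MetricSpace Y] [MeasurableSpace Y] [BorelSpace Y] in
lemma mem_tot_support {y : Y} {q : X} :
    q ∈ (tot up um y).support ↔ q ∈ (up y).support ∨ q ∈ (um y).support := by
  simp only [tot, Finsupp.mem_support_iff, Finsupp.add_apply]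
  omega

omit [SecondCountableTopology X] [BorelSpace X] [BorelSpace Y] in
lemma Input.proj (h : Input p up um Gd C) {y : Y} {q : X} (hq : q ∈ (tot up um y).support) :
    p q = y := by
  rcases mem_tot_support.mp hq with hq | hq
  · exact h.proj_p y q hq
  · exact h.proj_m y q hq

omit [SecondCountableTopology X] [BorelSpace X] [BorelSpace Y] in
lemma Input.meas_tot (h : Input p up um Gd C) {B : Set X} (hB : MeasurableSet B) :
    Measurable fun y => dsum (tot up um y) B := by
  have : (fun y => dsum (tot up um y) B) = fun y => dsum (up y) B + dsum (um y) B := by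
    funext y
    rw [tot, dsum_add]
    rfl
  rw [this]
  exact (h.meas_p B hB).add (h.meas_m B hB)

omit [SecondCountableTopology X] [BorelSpace X] [BorelSpace Y] in
lemma Input.measurableSet_hit (h : Input p up um Gd C) {S : Set X} (hS : MeasurableSet S) :
    MeasurableSet {y | ∃ q ∈ (tot up um y).support, q ∈ S} := by
  have : {y | ∃ q ∈ (tot up um y).support, q ∈ S} = {y | dsum (tot up um y) S = 0}ᶜ := by
    ext y
    simp only [mem_ofPred_eq, mem_compl_iff]
    rw [← dsum_ne_zero_iff _ hS]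
  rw [this]
  exact ((h.meas_tot hS) (measurableSet_singleton 0)).compl

/-- points over which there is exactly one atom in `S` -/
def oneAt (up um : Y → X →₀ ℕ) (S : Set X) : Set Y :=
  {y | (∃ q ∈ (tot up um y).support, q ∈ S) ∧
    ∀ q ∈ (tot up um y).support, ∀ q' ∈ (tot up um y).support, q ∈ S → q' ∈ S → q = q'}

omit [BorelSpace Y] in
lemma Input.measurableSet_oneAt [Nonempty X] (h : Input p up um Gd C) {S : Set X}
    (hS : MeasurableSet S) : MeasurableSet (oneAt up um S) := by
  let D : ℕ → X := TopologicalSpace.denseSeq X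
  let r : ℕ → ℝ := fun j => (1 / 2 : ℝ) ^ j
  let hit : Set X → Set Y := fun S => {y | ∃ q ∈ (tot up um y).support, q ∈ S}
  have key : oneAt up um S = hit S ∩ ⋂ (j : ℕ) (i : ℕ) (i' : ℕ)
      (_ : Disjoint (Metric.ball (D i) (r j)) (Metric.ball (D i') (r j))),
      ((hit (Metric.ball (D i) (r j) ∩ S))ᶜ ∪ (hit (Metric.ball (D i') (r j) ∩ S))ᶜ) := by
    ext y
    simp only [oneAt, mem_inter_iff, mem_iInter, mem_union, mem_compl_iff, hit, mem_ofPred_eq]
    refine and_congr_right fun _ => ⟨?_, ?_⟩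
    · intro huniq j i i' hd
      by_contra hcon
      push Not at hcon
      obtain ⟨⟨q, hq, hqi⟩, ⟨q', hq', hqi'⟩⟩ := hcon
      have := huniq q hq q' hq' hqi.2 hqi'.2
      subst this
      exact (disjoint_left.mp hd hqi.1) hqi'.1
    · intro hall q hq q' hq' hqS hqS'
      by_contra hne
      have hd : 0 < dist q q' := dist_pos.mpr hne
      obtain ⟨j, hj⟩ := exists_pow_lt_of_lt_one (show 0 < dist q q' / 4 by positivity)
        (show (1 / 2 : ℝ) < 1 by norm_num)
      have hrj : 0 < r j := by positivity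
      obtain ⟨i, hi⟩ := (TopologicalSpace.denseRange_denseSeq X).exists_dist_lt q hrj
      obtain ⟨i', hi'⟩ := (TopologicalSpace.denseRange_denseSeq X).exists_dist_lt q' hrj
      have hdisj : Disjoint (Metric.ball (D i) (r j)) (Metric.ball (D i') (r j)) := by
        refine Metric.ball_disjoint_ball ?_
        have h1 : dist q q' ≤ dist q (D i) + dist (D i) (D i') + dist q' (D i') := by
          have := dist_triangle4 q (D i) (D i') q'
          rwa [dist_comm (D i') q'] at this
        have h2 : r j < dist q q' / 4 := hj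
        linarith
      rcases hall j i i' hdisj with h1 | h1
      · exact h1 ⟨q, hq, Metric.mem_ball.mpr hi, hqS⟩
      · exact h1 ⟨q', hq', Metric.mem_ball.mpr hi', hqS'⟩
  rw [key]
  refine (h.measurableSet_hit hS).inter ?_
  refine MeasurableSet.iInter fun j => MeasurableSet.iInter fun i => MeasurableSet.iInter fun i' =>
    MeasurableSet.iInter fun _ => ?_
  exact ((h.measurableSet_hit (measurableSet_ball.inter hS)).compl).union
    ((h.measurableSet_hit (measurableSet_ball.inter hS)).compl)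

/-- The index set of the pieces: radius, centre, growth constant, bound. -/
abbrev Idx := ℕ × ℕ × ℕ × ℕ

/-- small radii `≤ 1/2` -/
noncomputable def rad (j : ℕ) : ℝ := (1 / 2 : ℝ) ^ (j + 1)

lemma rad_pos (j : ℕ) : 0 < rad j := by unfold rad; positivity

lemma rad_le (j : ℕ) : rad j ≤ 1 / 2 := by
  unfold rad
  rw [pow_succ]
  have : (1 / 2 : ℝ) ^ j ≤ 1 := pow_le_one₀ (by norm_num) (by norm_num)
  linarith

lemma exists_rad_lt {ε : ℝ} (hε : 0 < ε) : ∃ j, rad j < ε := by
  obtain ⟨j, hj⟩ := exists_pow_lt_of_lt_one hε (show (1 / 2 : ℝ) < 1 by norm_num)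
  refine ⟨j, lt_of_le_of_lt ?_ hj⟩
  unfold rad
  rw [pow_succ]
  have : (0 : ℝ) < (1 / 2 : ℝ) ^ j := by positivity
  linarith

section Pieces

variable [Nonempty X] [Nonempty Y]

/-- big ball -/
noncomputable def bigB (X : Type*) [MetricSpace X] [SecondCountableTopology X] [Nonempty X]
    (t : Idx) : Set X := Metric.ball (TopologicalSpace.denseSeq X t.2.1) (8 * rad t.1)

/-- small ball -/
noncomputable def smallB (X : Type*) [MetricSpace X] [SecondCountableTopology X] [Nonempty X]
    (t : Idx) : Set X := Metric.ball (TopologicalSpace.denseSeq X t.2.1) (rad t.1)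

omit [MeasurableSpace X] [BorelSpace X] in
lemma smallB_subset (t : Idx) : smallB X t ⊆ bigB X t :=
  Metric.ball_subset_ball (by linarith [rad_pos t.1])

/-- The Borel set over which the piece `t` lives. -/
noncomputable def HH (up um : Y → X →₀ ℕ) (Gd : ℕ → Set Y) (t : Idx) : Set Y :=
  Gd t.2.2.1 ∩ oneAt up um (bigB X t) ∩ {y | ∃ q ∈ (tot up um y).support, q ∈ smallB X t} ∩
    Metric.closedBall (Classical.arbitrary Y) t.2.2.2

open Classical in
/-- The section of `p` over the piece `t`. -/
noncomputable def yy (up um : Y → X →₀ ℕ) (Gd : ℕ → Set Y) (t : Idx) (y : Y) : X :=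
  if h : y ∈ HH up um Gd t then h.1.2.choose else Classical.arbitrary X

omit [MeasurableSpace X] [BorelSpace X] [MeasurableSpace Y] [BorelSpace Y] in
lemma yy_mem {t : Idx} {y : Y} (h : y ∈ HH up um Gd t) :
    yy up um Gd t y ∈ (tot up um y).support ∧ yy up um Gd t y ∈ smallB X t := by
  rw [yy, dif_pos h]
  exact h.1.2.choose_spec

omit [MeasurableSpace X] [BorelSpace X] [MeasurableSpace Y] [BorelSpace Y] in
lemma yy_unique {t : Idx} {y : Y} (h : y ∈ HH up um Gd t) {q : X}
    (hq : q ∈ (tot up um y).support) (hqB : q ∈ bigB X t) : q = yy up um Gd t y :=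
  h.1.1.2.2 q hq _ (yy_mem h).1 hqB (smallB_subset t (yy_mem h).2)

lemma Input.measurableSet_HH (h : Input p up um Gd C) (t : Idx) :
    MeasurableSet (HH up um Gd t) :=
  (((h.meas_G _).inter (h.measurableSet_oneAt measurableSet_ball)).inter
    (h.measurableSet_hit measurableSet_ball)).inter Metric.isClosed_closedBall.measurableSet

lemma Input.measurable_yy (h : Input p up um Gd C) (t : Idx) :
    Measurable (yy up um Gd t) := by
  intro B hB
  have : yy up um Gd t ⁻¹' B =
      (HH up um Gd t ∩ {y | ∃ q ∈ (tot up um y).support, q ∈ B ∩ bigB X t}) ∪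
      ((HH up um Gd t)ᶜ ∩ {_y | Classical.arbitrary X ∈ B}) := by
    ext y
    by_cases hy : y ∈ HH up um Gd t
    · simp only [mem_preimage, mem_union, mem_inter_iff, hy, true_and, mem_compl_iff,
        not_true_eq_false, false_and, or_false, mem_ofPred_eq]
      constructor
      · intro hB'
        exact ⟨_, (yy_mem hy).1, hB', smallB_subset t (yy_mem hy).2⟩
      · rintro ⟨q, hq, hqB, hqb⟩
        rwa [← yy_unique hy hq hqb]
    · simp only [mem_preimage, mem_union, mem_inter_iff, hy, false_and, mem_compl_iff,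
        not_false_eq_true, true_and, false_or, mem_ofPred_eq]
      rw [yy, dif_neg hy]
  rw [this]
  exact ((h.measurableSet_HH t).inter
    (h.measurableSet_hit (hB.inter measurableSet_ball))).union
    ((h.measurableSet_HH t).compl.inter (MeasurableSet.const _))

omit [BorelSpace X] [BorelSpace Y] in
lemma Input.proj_yy (h : Input p up um Gd C) {t : Idx} {y : Y} (hy : y ∈ HH up um Gd t) :
    p (yy up um Gd t y) = y :=
  h.proj (yy_mem hy).1

omit [BorelSpace X] [BorelSpace Y] in
/-- The key estimate: over a piece the atom depends Lipschitz continuously on the base point. -/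
lemma Input.dist_yy_le (h : Input p up um Gd C) {t : Idx} {y y' : Y}
    (hy : y ∈ HH up um Gd t) (hy' : y' ∈ HH up um Gd t) :
    dist (yy up um Gd t y) (yy up um Gd t y') ≤ C * t.2.2.1 * dist y y' := by
  classical
  set a := yy up um Gd t y with ha
  set a' := yy up um Gd t y' with ha'
  set c := TopologicalSpace.denseSeq X t.2.1 with hc
  set R := rad t.1 with hR
  set δ := dist a a' with hδ
  have hRpos : 0 < R := rad_pos _
  have hRle : R ≤ 1 / 2 := rad_le _
  have haS : dist a c < R := Metric.mem_ball.mp (yy_mem hy).2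
  have haS' : dist a' c < R := Metric.mem_ball.mp (yy_mem hy').2
  have hδlt : δ < 2 * R := by
    have := dist_triangle_right a a' c
    linarith
  -- test function
  let g : X → ℝ := fun q => max 0 (δ - dist q a)
  have hgL : LipschitzWith 1 g := by
    have h1 : LipschitzWith 1 fun q => δ - dist q a := by
      refine LipschitzWith.of_dist_le_mul fun q q' => ?_
      rw [Real.dist_eq, NNReal.coe_one, one_mul]
      have := abs_dist_sub_le q' q a
      rw [dist_comm q q']
      calc |δ - dist q a - (δ - dist q' a)| = |dist q' a - dist q a| := by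
            congr 1; ring
        _ ≤ dist q' q := this
    exact (LipschitzWith.const_max h1 0)
  have hgb : ∀ q, |g q| ≤ 1 := by
    intro q
    have h0 : 0 ≤ g q := le_max_left _ _
    rw [abs_of_nonneg h0]
    refine max_le (by norm_num) ?_
    have := dist_nonneg (x := q) (y := a)
    linarith
  have hfar : ∀ q, q ∉ bigB X t → g q = 0 := by
    intro q hq
    have h1 : 8 * R ≤ dist q c := by
      by_contra hcon
      push Not at hcon
      exact hq (Metric.mem_ball.mpr hcon)
    have h2 : dist q c ≤ dist q a + dist a c := dist_triangle _ _ _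
    exact max_eq_left (by linarith)
  have hga : g a = δ := by
    simp only [g, dist_self, sub_zero]
    exact max_eq_right dist_nonneg
  have hga' : g a' = 0 := by
    simp only [g]
    rw [dist_comm a' a]
    simp [hδ]
  have hz : ∀ {x : Y}, x ∈ HH up um Gd t → ∀ q ∈ (tot up um x).support,
      q ≠ yy up um Gd t x → g q = 0 := by
    intro x hx q hq hne
    refine hfar q fun hqb => hne (yy_unique hx hq hqb)
  -- evaluation of a family at g
  have hev' : ev up um g y' = 0 := by
    have h1 : ∀ q ∈ (tot up um y').support, g q = 0 := by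
      intro q hq
      by_cases hqa : q = a'
      · rw [hqa, hga']
      · exact hz hy' q hq hqa
    unfold ev
    rw [Finset.sum_eq_zero, Finset.sum_eq_zero, sub_zero]
    · intro q hq
      rw [h1 q (mem_tot_support.mpr (Or.inr hq)), mul_zero]
    · intro q hq
      rw [h1 q (mem_tot_support.mpr (Or.inl hq)), mul_zero]
  have hev : δ ≤ |ev up um g y| := by
    have hcase := mem_tot_support.mp (yy_mem hy).1
    have h0 : ∀ q ∈ (tot up um y).support, q ≠ a → g q = 0 := fun q hq hne => hz hy q hq hne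
    rcases hcase with hp | hm
    · have hnm : a ∉ (um y).support := Finset.disjoint_left.mp (h.disj y) hp
      have hs1 : ∑ q ∈ (up y).support, (up y q : ℝ) * g q = (up y a : ℝ) * δ := by
        rw [Finset.sum_eq_single a, hga]
        · intro q hq hne
          rw [h0 q (mem_tot_support.mpr (Or.inl hq)) hne, mul_zero]
        · intro hn
          exact absurd hp hn
      have hs2 : ∑ q ∈ (um y).support, (um y q : ℝ) * g q = 0 := by
        refine Finset.sum_eq_zero fun q hq => ?_
        have hne : q ≠ a := by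
          rintro rfl
          exact hnm hq
        rw [h0 q (mem_tot_support.mpr (Or.inr hq)) hne, mul_zero]
      have h1 : (1 : ℝ) ≤ up y a := by
        exact_mod_cast Nat.one_le_iff_ne_zero.mpr (Finsupp.mem_support_iff.mp hp)
      rw [ev, hs1, hs2, sub_zero, abs_of_nonneg (by positivity)]
      nlinarith [dist_nonneg (x := a) (y := a')]
    · have hnp : a ∉ (up y).support := Finset.disjoint_right.mp (h.disj y) hm
      have hs1 : ∑ q ∈ (um y).support, (um y q : ℝ) * g q = (um y a : ℝ) * δ := by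
        rw [Finset.sum_eq_single a, hga]
        · intro q hq hne
          rw [h0 q (mem_tot_support.mpr (Or.inr hq)) hne, mul_zero]
        · intro hn
          exact absurd hm hn
      have hs2 : ∑ q ∈ (up y).support, (up y q : ℝ) * g q = 0 := by
        refine Finset.sum_eq_zero fun q hq => ?_
        have hne : q ≠ a := by
          rintro rfl
          exact hnp hq
        rw [h0 q (mem_tot_support.mpr (Or.inl hq)) hne, mul_zero]
      have h1 : (1 : ℝ) ≤ um y a := by
        exact_mod_cast Nat.one_le_iff_ne_zero.mpr (Finsupp.mem_support_iff.mp hm)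
      rw [ev, hs1, hs2, zero_sub, abs_neg, abs_of_nonneg (by positivity)]
      nlinarith [dist_nonneg (x := a) (y := a')]
  have hfin := h.lip t.2.2.1 y hy.1.1.1 y' hy'.1.1.1 g hgL hgb
  rw [hev', sub_zero] at hfin
  exact hev.trans hfin

omit [MeasurableSpace X] [BorelSpace X] [MeasurableSpace Y] [BorelSpace Y] in
/-- Every atom over a good point lies on some piece. -/
lemma exists_idx {y : Y} (hy : y ∈ ⋃ L, Gd L) {q : X} (hq : q ∈ (tot up um y).support) :
    ∃ t : Idx, y ∈ HH up um Gd t ∧ yy up um Gd t y = q := by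
  classical
  obtain ⟨L, hL⟩ := mem_iUnion.mp hy
  -- separation of `q` from the other atoms
  obtain ⟨ε, hε, hsep⟩ : ∃ ε : ℝ, 0 < ε ∧ ∀ q' ∈ (tot up um y).support, dist q' q < ε →
      q' = q := by
    let F := (tot up um y).support.erase q
    rcases F.eq_empty_or_nonempty with hF | hF
    · refine ⟨1, one_pos, fun q' hq' _ => ?_⟩
      by_contra hne
      have : q' ∈ F := Finset.mem_erase.mpr ⟨hne, hq'⟩
      rw [hF] at this
      simp at this
    · obtain ⟨q0, hq0, hmin⟩ := F.exists_min_image (fun q' => dist q' q) hF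
      refine ⟨dist q0 q, dist_pos.mpr (Finset.mem_erase.mp hq0).1, fun q' hq' hlt => ?_⟩
      by_contra hne
      exact absurd (hmin q' (Finset.mem_erase.mpr ⟨hne, hq'⟩)) (not_le.mpr hlt)
  obtain ⟨j, hj⟩ := exists_rad_lt (show 0 < ε / 9 by positivity)
  obtain ⟨i, hi⟩ := (TopologicalSpace.denseRange_denseSeq X).exists_dist_lt q (rad_pos j)
  obtain ⟨M, hM⟩ := exists_nat_ge (dist y (Classical.arbitrary Y))
  let t : Idx := (j, i, L, M)
  have hqs : q ∈ smallB X t := Metric.mem_ball.mpr hi
  have hnear : ∀ q' ∈ (tot up um y).support, q' ∈ bigB X t → q' = q := by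
    intro q' hq' hqb
    refine hsep q' hq' ?_
    have h1 : dist q' (TopologicalSpace.denseSeq X i) < 8 * rad j := Metric.mem_ball.mp hqb
    have h2 := dist_triangle_right q' q (TopologicalSpace.denseSeq X i)
    linarith
  have hyH : y ∈ HH up um Gd t := by
    refine ⟨⟨⟨hL, ⟨q, hq, smallB_subset t hqs⟩, ?_⟩, ⟨q, hq, hqs⟩⟩, Metric.mem_closedBall.mpr hM⟩
    intro q1 hq1 q2 hq2 h1 h2
    rw [hnear q1 hq1 h1, hnear q2 hq2 h2]
  exact ⟨t, hyH, (yy_unique hyH hq (smallB_subset t hqs)).symm⟩

/-- enumeration of the index set -/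
noncomputable def en : ℕ ≃ Idx := (Denumerable.eqv Idx).symm

/-- The disjointified base sets. -/
noncomputable def Hn (up um : Y → X →₀ ℕ) (Gd : ℕ → Set Y) (n : ℕ) : Set Y :=
  HH up um Gd (en n) \ ⋃ m ∈ Finset.range n,
    (HH up um Gd (en m) ∩ {y | yy up um Gd (en m) y = yy up um Gd (en n) y})

/-- The multiplicity. -/
noncomputable def thn (up um : Y → X →₀ ℕ) (n : ℕ) (y : Y) : ℤ :=
  (natOf (dsum (up y) (bigB X (en n))) : ℤ) - natOf (dsum (um y) (bigB X (en n)))

omit [BorelSpace X] [SecondCountableTopology X] [MetricSpace X] [Nonempty X] [MetricSpace Y]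
  [MeasurableSpace Y] [BorelSpace Y] [Nonempty Y] in
lemma dsum_single_atom {f : X →₀ ℕ} {S : Set X} (hS : MeasurableSet S) {a : X} (ha : a ∈ S)
    (h : ∀ q ∈ f.support, q ∈ S → q = a) : dsum f S = f a := by
  rw [dsum_apply f hS]
  by_cases haf : a ∈ f.support
  · rw [Finset.sum_eq_single a, indicator_of_mem ha]
    · intro q hq hne
      by_cases hqS : q ∈ S
      · exact absurd (h q hq hqS) hne
      · simp [hqS]
    · intro hn
      exact absurd haf hn
  · have h0 : f a = 0 := by simpa using haf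
    rw [h0]
    simp only [Nat.cast_zero]
    refine Finset.sum_eq_zero fun q hq => ?_
    by_cases hqS : q ∈ S
    · rw [h q hq hqS] at hq
      exact absurd hq haf
    · simp [hqS]

omit [MeasurableSpace Y] [BorelSpace Y] in
lemma thn_eq {n : ℕ} {y : Y} (hy : y ∈ HH up um Gd (en n)) :
    thn up um n y = (up y (yy up um Gd (en n) y) : ℤ) - um y (yy up um Gd (en n) y) := by
  have hS : MeasurableSet (bigB X (en n)) := measurableSet_ball
  have ha := smallB_subset _ (yy_mem hy).2
  rw [thn, dsum_single_atom hS ha, dsum_single_atom hS ha, natOf_natCast, natOf_natCast]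
  · intro q hq hqS
    exact yy_unique hy (mem_tot_support.mpr (Or.inr hq)) hqS
  · intro q hq hqS
    exact yy_unique hy (mem_tot_support.mpr (Or.inl hq)) hqS

/-- **B7e**, pure form. -/
theorem pieces (h : Input p up um Gd C) :
    ∃ (H : ℕ → Set Y) (yn : ℕ → Y → X) (th : ℕ → Y → ℤ),
      (∀ n, MeasurableSet (H n)) ∧ (∀ n, Bornology.IsBounded (H n)) ∧
      (∀ n, Measurable (yn n)) ∧ (∀ n, ∃ L : ℝ≥0, LipschitzOnWith L (yn n) (H n)) ∧
      (∀ n, ∀ y ∈ H n, p (yn n y) = y) ∧
      (∀ n, Measurable (th n)) ∧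
      (∀ n, ∀ y ∈ H n, yn n y ∈ (up y).support ∨ yn n y ∈ (um y).support) ∧
      (∀ n, ∀ y ∈ H n, th n y = (up y (yn n y) : ℤ) - um y (yn n y)) ∧
      (∀ n, ∀ y ∈ H n, th n y ≠ 0) ∧
      (∀ n m, n ≠ m → Disjoint (yn n '' H n) (yn m '' H m)) ∧
      (∀ y ∈ ⋃ L, Gd L, ∀ q, q ∈ (up y).support ∨ q ∈ (um y).support →
        ∃! n, y ∈ H n ∧ yn n y = q) := by
  classical
  have hpm : ∀ n, ∀ y ∈ Hn up um Gd n, y ∈ HH up um Gd (en n) := fun n y hy => hy.1
  have hdisj : ∀ n m, n < m → ∀ y ∈ Hn up um Gd n, y ∈ Hn up um Gd m →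
      yy up um Gd (en n) y ≠ yy up um Gd (en m) y := by
    intro n m hnm y hy hy' heq
    apply hy'.2
    exact mem_biUnion (x := n) (by simpa using hnm) ⟨hy.1, heq⟩
  refine ⟨Hn up um Gd, fun n => yy up um Gd (en n), thn up um, ?_, ?_, ?_, ?_, ?_, ?_, ?_, ?_,
    ?_, ?_, ?_⟩
  · intro n
    refine (h.measurableSet_HH _).diff (Finset.measurableSet_biUnion _ fun m _ => ?_)
    exact (h.measurableSet_HH _).inter
      (measurableSet_eq_fun (h.measurable_yy _) (h.measurable_yy _))
  · intro n
    refine (Metric.isBounded_closedBall (x := Classical.arbitrary Y)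
      (r := ((en n).2.2.2 : ℝ))).subset fun y hy => hy.1.2
  · exact fun n => h.measurable_yy _
  · intro n
    refine ⟨Real.toNNReal (C * (en n).2.2.1), LipschitzOnWith.of_dist_le_mul fun y hy y' hy' => ?_⟩
    refine (h.dist_yy_le hy.1 hy'.1).trans ?_
    exact mul_le_mul_of_nonneg_right (Real.le_coe_toNNReal _) dist_nonneg
  · exact fun n y hy => h.proj_yy hy.1
  · intro n
    have hS : MeasurableSet (bigB X (en n)) := measurableSet_ball
    have h1 : Measurable fun y => (natOf (dsum (up y) (bigB X (en n))) : ℤ) :=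
      measurable_from_top.comp (measurable_natOf.comp (h.meas_p _ hS))
    have h2 : Measurable fun y => (natOf (dsum (um y) (bigB X (en n))) : ℤ) :=
      measurable_from_top.comp (measurable_natOf.comp (h.meas_m _ hS))
    exact h1.sub h2
  · exact fun n y hy => mem_tot_support.mp (yy_mem hy.1).1
  · exact fun n y hy => thn_eq hy.1
  · intro n y hy
    rw [thn_eq hy.1]
    rcases mem_tot_support.mp (yy_mem hy.1).1 with hq | hq
    · have h1 := Finset.disjoint_left.mp (h.disj y) hq
      have h2 : um y (yy up um Gd (en n) y) = 0 := by simpa using h1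
      have h3 := Finsupp.mem_support_iff.mp hq
      rw [h2]
      simpa using h3
    · have h1 := Finset.disjoint_right.mp (h.disj y) hq
      have h2 : up y (yy up um Gd (en n) y) = 0 := by simpa using h1
      have h3 := Finsupp.mem_support_iff.mp hq
      rw [h2]
      simpa using h3
  · intro n m hnm
    rw [disjoint_left]
    rintro _ ⟨y, hy, rfl⟩ ⟨y', hy', heq⟩
    have heq' : yy up um Gd (en m) y' = yy up um Gd (en n) y := heq
    have h1 : y' = y := by
      rw [← h.proj_yy hy'.1, heq', h.proj_yy hy.1]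
    subst h1
    rcases lt_or_gt_of_ne hnm with hlt | hlt
    · exact hdisj n m hlt y' hy hy' heq'.symm
    · exact hdisj m n hlt y' hy' hy heq'
  · intro y hy q hq
    have hex : ∃ n, y ∈ HH up um Gd (en n) ∧ yy up um Gd (en n) y = q := by
      obtain ⟨t, ht, htq⟩ := exists_idx hy (mem_tot_support.mpr hq)
      refine ⟨en.symm t, ?_⟩
      rw [Equiv.apply_symm_apply]
      exact ⟨ht, htq⟩
    have hspec := Nat.find_spec hex
    have hmin : ∀ m, m < Nat.find hex → ¬ (y ∈ HH up um Gd (en m) ∧ yy up um Gd (en m) y = q) :=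
      fun m hm => Nat.find_min hex hm
    refine ⟨Nat.find hex, ⟨⟨hspec.1, ?_⟩, hspec.2⟩, ?_⟩
    · intro hmem
      simp only [mem_iUnion, Finset.mem_range, exists_prop] at hmem
      obtain ⟨m, hm, hmH, hmeq⟩ := hmem
      exact hmin m hm ⟨hmH, (hmeq : yy up um Gd (en m) y = _).trans hspec.2⟩
    · rintro n ⟨hn, hnq⟩
      by_contra hne
      have hlt : Nat.find hex < n := lt_of_le_of_ne
        (Nat.find_min' hex ⟨hn.1, hnq⟩) (Ne.symm hne)
      apply hn.2
      exact mem_biUnion (x := Nat.find hex) (by simpa using hlt)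
        ⟨hspec.1, hspec.2.trans hnq.symm⟩

end Pieces

end Main

end Crest.Agent.R241.B7e
end

-- ▼ part R241/B7d
section

/-!
R241 / B7d: pointwise Lipschitz estimate for functions of bounded variation on `ℝ^k`.

If `u ∈ L¹(ℝ^k)` and `|∫ u ∂_i φ| ≤ ∫ |φ| dm` for all `φ ∈ C_c^∞` and all `i`, with `m` a finite
measure, then for almost every pair of points `x, y` with `m (ball z r) ≤ L r^k` for all `r > 0`,
`z = x, y`, we have `|u x - u y| ≤ C_k L |x - y|`.
-/

set_option autoImplicit false

open MeasureTheory Filter Topology Metric Set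

namespace Crest.Agent.R241.B7d

abbrev E (k : ℕ) := EuclideanSpace ℝ (Fin k)

variable {k : ℕ}

/-- The weak derivatives of `u` are controlled by the measure `m`. -/
def BVBound (u : E k → ℝ) (m : Measure (E k)) : Prop :=
  ∀ φ : E k → ℝ, ContDiff ℝ (⊤ : ℕ∞) φ → HasCompactSupport φ → ∀ i : Fin k,
    |∫ x, u x * fderiv ℝ φ x (EuclideanSpace.single i 1)| ≤ ∫ x, |φ x| ∂m

/-- `m (closedBall x r) ≤ L r ^ k` for all `r > 0`. -/
def Growth (m : Measure (E k)) (L : ℝ) (x : E k) : Prop :=
  ∀ r : ℝ, 0 < r → m.real (closedBall x r) ≤ L * r ^ k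

/-- Rescaled kernel. -/
noncomputable def psi (η : E k → ℝ) (t : ℝ) (w : E k) : ℝ := (t ^ k)⁻¹ * η (t⁻¹ • w)

/-- Its time derivative. -/
noncomputable def dpsi (η : E k → ℝ) (t : ℝ) (w : E k) : ℝ :=
  -(k * t⁻¹ * (t ^ k)⁻¹ * η (t⁻¹ • w)) - (t ^ k)⁻¹ * t⁻¹ * (fderiv ℝ η (t⁻¹ • w) (t⁻¹ • w))

/-- The vector field whose divergence is `-dpsi`. -/
noncomputable def vf (η : E k → ℝ) (t : ℝ) (i : Fin k) (w : E k) : ℝ :=
  (w i * t⁻¹) * psi η t w

theorem hasDerivAt_psi {η : E k → ℝ} (hη : ContDiff ℝ (⊤ : ℕ∞) η) {t : ℝ} (ht : 0 < t) (w : E k) :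
    HasDerivAt (fun t => psi η t w) (dpsi η t w) t := by
  have h1 : HasDerivAt (fun t : ℝ => (t ^ k)⁻¹) (-(k * t⁻¹ * (t ^ k)⁻¹)) t := by
    have h := (hasDerivAt_pow k t).inv (pow_ne_zero k ht.ne')
    refine h.congr_deriv ?_
    have : t ≠ 0 := ht.ne'
    rcases Nat.eq_zero_or_pos k with hk | hk
    · have : (k : ℝ) = 0 := by exact_mod_cast hk
      rw [this]; simp
    · have hk' : t ^ k = t ^ (k - 1) * t := by
        rw [← pow_succ, Nat.sub_add_cancel hk]
      rw [hk']
      field_simp
  have h2 : HasDerivAt (fun t : ℝ => t⁻¹ • w) (-(t ^ 2)⁻¹ • w) t := by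
    have h := (hasDerivAt_inv ht.ne').smul_const w
    exact h
  have hd : DifferentiableAt ℝ η (t⁻¹ • w) :=
    (hη.differentiable (by simp)).differentiableAt
  have h3 : HasDerivAt (fun t : ℝ => η (t⁻¹ • w)) (fderiv ℝ η (t⁻¹ • w) (-(t ^ 2)⁻¹ • w)) t :=
    hd.hasFDerivAt.comp_hasDerivAt t h2
  have h4 := h1.mul h3
  refine h4.congr_deriv ?_
  unfold dpsi
  rw [map_smul, map_smul]
  simp only [smul_eq_mul]
  have : t ≠ 0 := ht.ne'
  field_simp
  ring

theorem contDiff_psi {η : E k → ℝ} (hη : ContDiff ℝ (⊤ : ℕ∞) η) (t : ℝ) :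
    ContDiff ℝ (⊤ : ℕ∞) (psi η t) := by
  unfold psi
  exact contDiff_const.mul (hη.comp (contDiff_const_smul _))

theorem contDiff_vf {η : E k → ℝ} (hη : ContDiff ℝ (⊤ : ℕ∞) η) (t : ℝ) (i : Fin k) :
    ContDiff ℝ (⊤ : ℕ∞) (vf η t i) := by
  unfold vf
  refine ContDiff.mul (ContDiff.mul ?_ contDiff_const) (contDiff_psi hη t)
  exact (EuclideanSpace.proj i : E k →L[ℝ] ℝ).contDiff

theorem div_vf {η : E k → ℝ} (hη : ContDiff ℝ (⊤ : ℕ∞) η) {t : ℝ} (_ht : 0 < t) (w : E k) :
    ∑ i, fderiv ℝ (vf η t i) w (EuclideanSpace.single i 1) = - dpsi η t w := by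
  have hd : DifferentiableAt ℝ η (t⁻¹ • w) :=
    (hη.differentiable (by simp)).differentiableAt
  have hpsi : HasFDerivAt (psi η t)
      ((t ^ k)⁻¹ • ((fderiv ℝ η (t⁻¹ • w)).comp (t⁻¹ • ContinuousLinearMap.id ℝ (E k)))) w := by
    have h1 : HasFDerivAt (fun w : E k => t⁻¹ • w) (t⁻¹ • ContinuousLinearMap.id ℝ (E k)) w :=
      (hasFDerivAt_id w).const_smul t⁻¹
    have h2 := hd.hasFDerivAt.comp w h1
    exact h2.const_mul _
  have hi : ∀ i, fderiv ℝ (vf η t i) w (EuclideanSpace.single i 1)
      = t⁻¹ * psi η t w + (w i * t⁻¹) * ((t ^ k)⁻¹ * (t⁻¹ * fderiv ℝ η (t⁻¹ • w)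
          (EuclideanSpace.single i 1))) := by
    intro i
    have h1 : HasFDerivAt (fun w : E k => w i * t⁻¹)
        (t⁻¹ • (EuclideanSpace.proj i : E k →L[ℝ] ℝ)) w := by
      exact ((EuclideanSpace.proj i : E k →L[ℝ] ℝ).hasFDerivAt (x := w)).mul_const t⁻¹
    have h2 := h1.mul hpsi
    have h3 : fderiv ℝ (vf η t i) w = _ := h2.fderiv
    rw [h3]
    simp
    ring
  rw [Finset.sum_congr rfl (fun i _ => hi i), Finset.sum_add_distrib]
  have hw : w = ∑ i, w i • (EuclideanSpace.single i (1 : ℝ) : E k) := by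
    ext j
    simp [Finset.sum_apply, Pi.single_apply]
  have hsum : fderiv ℝ η (t⁻¹ • w) w
      = ∑ i, w i * fderiv ℝ η (t⁻¹ • w) (EuclideanSpace.single i 1) := by
    conv_lhs => rw [show fderiv ℝ η (t⁻¹ • w) w = fderiv ℝ η (t⁻¹ • w) (∑ i, w i • (EuclideanSpace.single i (1 : ℝ) : E k)) by rw [← hw]]
    rw [map_sum]
    simp
  unfold dpsi
  rw [map_smul, hsum]
  simp only [Finset.sum_const, Finset.card_univ, Fintype.card_fin, nsmul_eq_mul, smul_eq_mul]
  unfold psi
  rw [Finset.mul_sum, Finset.mul_sum, sub_eq_add_neg, neg_add, neg_neg, neg_neg]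
  congr 1
  · ring
  · refine Finset.sum_congr rfl (fun i _ => ?_)
    ring

/-- The kernel data: a smooth function supported in `closedBall 0 ρ`, bounded by `M`. -/
structure Kern (η : E k → ℝ) (ρ M : ℝ) : Prop where
  smooth : ContDiff ℝ (⊤ : ℕ∞) η
  zero_of : ∀ w, ρ < ‖w‖ → η w = 0
  bound : ∀ w, |η w| ≤ M
  rho_pos : 0 < ρ
  int_eq : ∫ w, η w = 1

theorem Kern.compact {η : E k → ℝ} {ρ M : ℝ} (h : Kern η ρ M) : HasCompactSupport η := by
  refine HasCompactSupport.of_support_subset_isCompact (isCompact_closedBall (0 : E k) ρ) ?_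
  intro w hw
  by_contra hn
  exact hw (h.zero_of w (by simpa using hn))

theorem Kern.M_nonneg {η : E k → ℝ} {ρ M : ℝ} (h : Kern η ρ M) : 0 ≤ M :=
  (abs_nonneg _).trans (h.bound 0)

theorem psi_zero_of {η : E k → ℝ} {ρ M : ℝ} (h : Kern η ρ M) {t : ℝ} (ht : 0 < t) {w : E k}
    (hw : ρ * t < ‖w‖) : psi η t w = 0 := by
  unfold psi
  rw [h.zero_of, mul_zero]
  rw [norm_smul, norm_inv, Real.norm_of_nonneg ht.le, inv_mul_eq_div, lt_div_iff₀ ht]
  exact hw

theorem abs_psi_le {η : E k → ℝ} {ρ M : ℝ} (h : Kern η ρ M) {t : ℝ} (ht : 0 < t) (w : E k) :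
    |psi η t w| ≤ (t ^ k)⁻¹ * M := by
  unfold psi
  rw [abs_mul, abs_of_nonneg (inv_nonneg.2 (pow_nonneg ht.le k))]
  exact mul_le_mul_of_nonneg_left (h.bound _) (inv_nonneg.2 (pow_nonneg ht.le k))

theorem abs_vf_le {η : E k → ℝ} {ρ M : ℝ} (h : Kern η ρ M) {t : ℝ} (ht : 0 < t) (i : Fin k)
    (w : E k) :
    |vf η t i w| ≤ (closedBall (0 : E k) (ρ * t)).indicator (fun _ => ρ * ((t ^ k)⁻¹ * M)) w := by
  by_cases hw : w ∈ closedBall (0 : E k) (ρ * t)
  · rw [indicator_of_mem hw]
    have hw' : ‖w‖ ≤ ρ * t := by simpa using hw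
    unfold vf
    rw [abs_mul, abs_mul, abs_of_nonneg (inv_nonneg.2 ht.le)]
    refine mul_le_mul ?_ (abs_psi_le h ht w) (abs_nonneg _) h.rho_pos.le
    have h1 : |w i| ≤ ‖w‖ := by
      have := EuclideanSpace.norm_eq w
      have h2 := PiLp.norm_apply_le w i
      simpa using h2
    calc |w i| * t⁻¹ ≤ (ρ * t) * t⁻¹ :=
          mul_le_mul_of_nonneg_right (h1.trans hw') (inv_nonneg.2 ht.le)
      _ = ρ := by field_simp
  · rw [indicator_of_notMem hw]
    have hw' : ρ * t < ‖w‖ := by simpa using hw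
    unfold vf
    rw [psi_zero_of h ht hw']
    simp

/-- The averaged function. -/
noncomputable def avg (η : E k → ℝ) (u : E k → ℝ) (x : E k) (t : ℝ) : ℝ :=
  ∫ z, u z * psi η t (z - x)

theorem continuous_dpsi {η : E k → ℝ} (hη : ContDiff ℝ (⊤ : ℕ∞) η) (t : ℝ) :
    Continuous (dpsi η t) := by
  unfold dpsi
  have h1 : Continuous fun w : E k => t⁻¹ • w := continuous_const_smul _
  have h2 : Continuous (fderiv ℝ η) := hη.continuous_fderiv (by simp)
  have h3 : Continuous fun w : E k => fderiv ℝ η (t⁻¹ • w) (t⁻¹ • w) :=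
    (h2.comp h1).clm_apply h1
  have h4 : Continuous fun w : E k => η (t⁻¹ • w) := hη.continuous.comp h1
  fun_prop

theorem exists_dpsi_bound {η : E k → ℝ} {ρ M : ℝ} (h : Kern η ρ M) {t₀ : ℝ} (ht₀ : 0 < t₀) :
    ∃ C : ℝ, ∀ t, t₀ ≤ t → ∀ w : E k, |dpsi η t w| ≤ C := by
  have hc : Continuous fun v : E k => fderiv ℝ η v v :=
    (h.smooth.continuous_fderiv (by simp)).clm_apply continuous_id
  have hcs : HasCompactSupport fun v : E k => fderiv ℝ η v v := by
    refine (h.compact.fderiv (𝕜 := ℝ)).mono ?_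
    intro v hv
    simp only [Function.mem_support] at hv ⊢
    intro h0
    exact hv (by rw [h0]; simp)
  obtain ⟨M1, hM1⟩ := hcs.exists_bound_of_continuous hc
  have hM1' : 0 ≤ M1 := (norm_nonneg _).trans (hM1 0)
  have hM := h.M_nonneg
  refine ⟨k * t₀⁻¹ * (t₀ ^ k)⁻¹ * M + (t₀ ^ k)⁻¹ * t₀⁻¹ * M1, fun t ht w => ?_⟩
  have ht0 : 0 < t := ht₀.trans_le ht
  have h1 : t⁻¹ ≤ t₀⁻¹ := inv_anti₀ ht₀ ht
  have h2 : (t ^ k)⁻¹ ≤ (t₀ ^ k)⁻¹ := inv_anti₀ (pow_pos ht₀ k) (pow_le_pow_left₀ ht₀.le ht k)
  have h1' : 0 ≤ t⁻¹ := inv_nonneg.2 ht0.le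
  have h2' : 0 ≤ (t ^ k)⁻¹ := inv_nonneg.2 (pow_nonneg ht0.le k)
  have h1'' : 0 ≤ t₀⁻¹ := inv_nonneg.2 ht₀.le
  have h2'' : 0 ≤ (t₀ ^ k)⁻¹ := inv_nonneg.2 (pow_nonneg ht₀.le k)
  have hk : (0:ℝ) ≤ k := Nat.cast_nonneg k
  unfold dpsi
  have e1 : |k * t⁻¹ * (t ^ k)⁻¹ * η (t⁻¹ • w)| ≤ k * t₀⁻¹ * (t₀ ^ k)⁻¹ * M := by
    rw [abs_mul, abs_of_nonneg (by positivity)]
    exact mul_le_mul (mul_le_mul (mul_le_mul_of_nonneg_left h1 hk) h2 h2' (by positivity))
      (h.bound _) (abs_nonneg _) (by positivity)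
  have e2 : |(t ^ k)⁻¹ * t⁻¹ * (fderiv ℝ η (t⁻¹ • w) (t⁻¹ • w))| ≤ (t₀ ^ k)⁻¹ * t₀⁻¹ * M1 := by
    rw [abs_mul, abs_of_nonneg (by positivity)]
    exact mul_le_mul (mul_le_mul h2 h1 h1' h2'') (hM1 (t⁻¹ • w)) (abs_nonneg _) (by positivity)
  calc |-(k * t⁻¹ * (t ^ k)⁻¹ * η (t⁻¹ • w)) - (t ^ k)⁻¹ * t⁻¹ * (fderiv ℝ η (t⁻¹ • w) (t⁻¹ • w))|
      ≤ |-(k * t⁻¹ * (t ^ k)⁻¹ * η (t⁻¹ • w))|
        + |(t ^ k)⁻¹ * t⁻¹ * (fderiv ℝ η (t⁻¹ • w) (t⁻¹ • w))| := abs_sub _ _
    _ ≤ _ := by rw [abs_neg]; exact add_le_add e1 e2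

theorem hasDerivAt_avg {η : E k → ℝ} {ρ M : ℝ} (h : Kern η ρ M) {u : E k → ℝ}
    (hu : Integrable u) (x : E k) {t : ℝ} (ht : 0 < t) :
    HasDerivAt (avg η u x) (∫ z, u z * dpsi η t (z - x)) t := by
  obtain ⟨C, hC⟩ := exists_dpsi_bound h (half_pos ht)
  have hcont : ∀ s, Continuous fun z => psi η s (z - x) := fun s =>
    (contDiff_psi h.smooth s).continuous.comp (continuous_id.sub continuous_const)
  have hcont' : ∀ s, Continuous fun z => dpsi η s (z - x) := fun s =>
    (continuous_dpsi h.smooth s).comp (continuous_id.sub continuous_const)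
  have hs : Ioi (t / 2) ∈ 𝓝 t := Ioi_mem_nhds (by linarith)
  have := hasDerivAt_integral_of_dominated_loc_of_deriv_le (μ := (volume : Measure (E k)))
    (F := fun s z => u z * psi η s (z - x)) (F' := fun s z => u z * dpsi η s (z - x)) (x₀ := t)
    (bound := fun z => |u z| * C) (s := Ioi (t / 2)) hs
    (Eventually.of_forall fun s => hu.aestronglyMeasurable.mul (hcont s).aestronglyMeasurable)
    (hu.mul_bdd (c := (t ^ k)⁻¹ * M) (hcont t).aestronglyMeasurable
      (Eventually.of_forall fun z => abs_psi_le h ht _))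
    (hu.aestronglyMeasurable.mul (hcont' t).aestronglyMeasurable)
    (Eventually.of_forall fun z s hs => by
      rw [norm_mul]
      exact mul_le_mul_of_nonneg_left (hC s (le_of_lt hs) _) (norm_nonneg _))
    (hu.abs.mul_const C)
    (Eventually.of_forall fun z s hs =>
      (hasDerivAt_psi h.smooth ((half_pos ht).trans hs) (z - x)).const_mul (u z))
  exact this.2

theorem abs_integral_dpsi_le {η : E k → ℝ} {ρ M : ℝ} (h : Kern η ρ M) {u : E k → ℝ}
    (hu : Integrable u) {m : Measure (E k)} [IsFiniteMeasure m] (hm : BVBound u m) {x : E k} {L : ℝ}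
    (hL : Growth m L x) {t : ℝ} (ht : 0 < t) :
    |∫ z, u z * dpsi η t (z - x)| ≤ k * (M * ρ ^ (k + 1) * L) := by
  have hsm : ∀ i, ContDiff ℝ (⊤ : ℕ∞) fun z => vf η t i (z - x) := fun i =>
    (contDiff_vf h.smooth t i).comp (contDiff_id.sub contDiff_const)
  have hcs : ∀ i, HasCompactSupport fun z => vf η t i (z - x) := by
    intro i
    refine HasCompactSupport.of_support_subset_isCompact (isCompact_closedBall x (ρ * t)) ?_
    intro z hz
    by_contra hn
    apply hz
    have : ρ * t < ‖z - x‖ := by simpa [dist_eq_norm] using hn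
    simp only [vf, psi_zero_of h ht this, mul_zero]
  have hfd : ∀ i z, fderiv ℝ (fun z => vf η t i (z - x)) z (EuclideanSpace.single i 1)
      = fderiv ℝ (vf η t i) (z - x) (EuclideanSpace.single i 1) := by
    intro i z
    rw [fderiv_comp_sub]
  have hint : ∀ i, Integrable fun z =>
      u z * fderiv ℝ (fun z => vf η t i (z - x)) z (EuclideanSpace.single i 1) := by
    intro i
    have hc : Continuous fun z =>
        fderiv ℝ (fun z => vf η t i (z - x)) z (EuclideanSpace.single i 1) :=
      ((hsm i).continuous_fderiv (by simp)).clm_apply continuous_const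
    have hcs' : HasCompactSupport fun z =>
        fderiv ℝ (fun z => vf η t i (z - x)) z (EuclideanSpace.single i 1) := by
      refine ((hcs i).fderiv (𝕜 := ℝ)).mono ?_
      intro v hv
      simp only [Function.mem_support] at hv ⊢
      intro h0
      exact hv (by rw [h0]; simp)
    obtain ⟨C, hC⟩ := hcs'.exists_bound_of_continuous hc
    exact hu.mul_bdd (c := C) hc.aestronglyMeasurable (Eventually.of_forall hC)
  have key : ∫ z, u z * dpsi η t (z - x)
      = - ∑ i, ∫ z, u z * fderiv ℝ (fun z => vf η t i (z - x)) z (EuclideanSpace.single i 1) := by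
    rw [← integral_finsetSum _ (fun i _ => hint i), ← integral_neg]
    refine integral_congr_ae (Eventually.of_forall fun z => ?_)
    simp only [hfd]
    rw [← Finset.mul_sum, div_vf h.smooth ht]
    ring
  rw [key, abs_neg]
  have hone : ∀ i : Fin k,
      |∫ z, u z * fderiv ℝ (fun z => vf η t i (z - x)) z (EuclideanSpace.single i 1)|
        ≤ M * ρ ^ (k + 1) * L := by
    intro i
    refine (hm _ (hsm i) (hcs i) i).trans ?_
    have hle : ∫ z, |vf η t i (z - x)| ∂m
        ≤ ∫ z, (closedBall x (ρ * t)).indicator (fun _ => ρ * ((t ^ k)⁻¹ * M)) z ∂m := by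
      refine integral_mono_of_nonneg (Eventually.of_forall fun z => abs_nonneg _)
        ((integrable_const _).indicator measurableSet_closedBall)
        (Eventually.of_forall fun z => ?_)
      refine (abs_vf_le h ht i (z - x)).trans (le_of_eq ?_)
      simp only [indicator, mem_closedBall, dist_eq_norm, sub_zero]
    refine hle.trans ?_
    rw [integral_indicator measurableSet_closedBall, setIntegral_const, smul_eq_mul]
    have hg := hL (ρ * t) (mul_pos h.rho_pos ht)
    have hM := h.M_nonneg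
    have hρ := h.rho_pos
    calc m.real (closedBall x (ρ * t)) * (ρ * ((t ^ k)⁻¹ * M))
        ≤ (L * (ρ * t) ^ k) * (ρ * ((t ^ k)⁻¹ * M)) :=
          mul_le_mul_of_nonneg_right hg (by positivity)
      _ = M * ρ ^ (k + 1) * L := by
          rw [mul_pow]
          field_simp
          ring
  calc |∑ i, ∫ z, u z * fderiv ℝ (fun z => vf η t i (z - x)) z (EuclideanSpace.single i 1)|
      ≤ ∑ i, |∫ z, u z * fderiv ℝ (fun z => vf η t i (z - x)) z (EuclideanSpace.single i 1)| :=
        Finset.abs_sum_le_sum_abs _ _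
    _ ≤ ∑ _i : Fin k, M * ρ ^ (k + 1) * L := Finset.sum_le_sum fun i _ => hone i
    _ = k * (M * ρ ^ (k + 1) * L) := by simp

theorem abs_avg_sub_le {η : E k → ℝ} {ρ M : ℝ} (h : Kern η ρ M) {u : E k → ℝ}
    (hu : Integrable u) {m : Measure (E k)} [IsFiniteMeasure m] (hm : BVBound u m) {x : E k} {L : ℝ}
    (hL : Growth m L x) {s t : ℝ} (hs : 0 < s) (ht : 0 < t) :
    |avg η u x t - avg η u x s| ≤ k * (M * ρ ^ (k + 1) * L) * |t - s| := by
  have := Convex.norm_image_sub_le_of_norm_hasDerivWithin_le (𝕜 := ℝ) (s := Ioi (0:ℝ))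
    (f := avg η u x) (f' := fun t => ∫ z, u z * dpsi η t (z - x))
    (C := k * (M * ρ ^ (k + 1) * L)) (x := s) (y := t)
    (fun r hr => (hasDerivAt_avg h hu x hr).hasDerivWithinAt)
    (fun r hr => abs_integral_dpsi_le h hu hm hL hr) (convex_Ioi 0) hs ht
  simpa using this

/-- Lebesgue points. -/
def LebPt (u : E k → ℝ) (x : E k) : Prop :=
  Tendsto (fun r : ℝ => ⨍ y in closedBall x r, |u y - u x|) (𝓝[>] 0) (𝓝 0)

theorem ae_lebPt {u : E k → ℝ} (hu : LocallyIntegrable u) : ∀ᵐ x, LebPt u x := by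
  filter_upwards [IsUnifLocDoublingMeasure.ae_tendsto_average_norm_sub
    (volume : Measure (E k)) hu 1] with x hx
  exact hx (fun _ => x) (fun r => r) tendsto_id
    (by filter_upwards [self_mem_nhdsWithin] with r hr
        exact mem_closedBall_self (by simpa using le_of_lt hr))

theorem integral_psi {η : E k → ℝ} {ρ M : ℝ} (h : Kern η ρ M) {t : ℝ} (ht : 0 < t) (x : E k) :
    ∫ z, psi η t (z - x) = 1 := by
  rw [integral_sub_right_eq_self (fun z => psi η t z) x]
  unfold psi
  rw [integral_const_mul, Measure.integral_comp_inv_smul_of_nonneg _ _ ht.le, h.int_eq]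
  simp only [finrank_euclideanSpace, Fintype.card_fin, smul_eq_mul, mul_one]
  exact inv_mul_cancel₀ (pow_ne_zero k ht.ne')

theorem tendsto_avg {η : E k → ℝ} {ρ M : ℝ} (h : Kern η ρ M) {u : E k → ℝ}
    (hu : Integrable u) {x : E k} (hx : LebPt u x) :
    Tendsto (avg η u x) (𝓝[>] 0) (𝓝 (u x)) := by
  have hρ := h.rho_pos
  have hM := h.M_nonneg
  set ω : ℝ := volume.real (closedBall (0 : E k) 1) with hω
  have hlim : Tendsto (fun t : ℝ => (M * ρ ^ k * ω) * ⨍ y in closedBall x (ρ * t), |u y - u x|)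
      (𝓝[>] 0) (𝓝 0) := by
    have h1 : Tendsto (fun t : ℝ => ρ * t) (𝓝[>] 0) (𝓝[>] 0) := by
      refine tendsto_nhdsWithin_iff.2 ⟨?_, ?_⟩
      · have : Tendsto (fun t : ℝ => ρ * t) (𝓝 0) (𝓝 (ρ * 0)) := tendsto_id.const_mul ρ
        rw [mul_zero] at this
        exact this.mono_left nhdsWithin_le_nhds
      · filter_upwards [self_mem_nhdsWithin] with t ht
        exact mul_pos hρ ht
    have h2 := (hx.comp h1).const_mul (M * ρ ^ k * ω)
    simpa using h2
  rw [tendsto_iff_norm_sub_tendsto_zero]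
  refine squeeze_zero' (Eventually.of_forall fun t => norm_nonneg _) ?_ hlim
  filter_upwards [self_mem_nhdsWithin] with t ht
  have ht : 0 < t := ht
  have hcont : Continuous fun z => psi η t (z - x) :=
    (contDiff_psi h.smooth t).continuous.comp (continuous_id.sub continuous_const)
  have hpcs : HasCompactSupport fun z => psi η t (z - x) := by
    refine HasCompactSupport.of_support_subset_isCompact (isCompact_closedBall x (ρ * t)) ?_
    intro z hz
    by_contra hn
    apply hz
    have : ρ * t < ‖z - x‖ := by simpa [dist_eq_norm] using hn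
    exact psi_zero_of h ht this
  have hpi : Integrable fun z => psi η t (z - x) := hcont.integrable_of_hasCompactSupport hpcs
  have hui : Integrable fun z => u z * psi η t (z - x) :=
    hu.mul_bdd (c := (t ^ k)⁻¹ * M) hcont.aestronglyMeasurable
      (Eventually.of_forall fun z => abs_psi_le h ht _)
  have e1 : avg η u x t - u x = ∫ z, (u z - u x) * psi η t (z - x) := by
    have : u x = ∫ z, u x * psi η t (z - x) := by
      rw [integral_const_mul, integral_psi h ht, mul_one]
    unfold avg
    conv_lhs => rw [this]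
    rw [← integral_sub hui (hpi.const_mul _)]
    refine integral_congr_ae (Eventually.of_forall fun z => ?_)
    simp only
    ring
  rw [e1]
  have hvol : volume.real (closedBall x (ρ * t)) = (ρ * t) ^ k * ω := by
    rw [Measure.addHaar_real_closedBall' _ _ (by positivity)]
    simp [hω]
  have hvpos : 0 < volume.real (closedBall x (ρ * t)) := by
    rw [measureReal_def]
    exact ENNReal.toReal_pos (measure_closedBall_pos _ _ (by positivity)).ne'
      measure_closedBall_lt_top.ne
  have hIon : IntegrableOn (fun z => |u z - u x|) (closedBall x (ρ * t)) := by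
    refine Integrable.abs ?_
    exact hu.integrableOn.sub (integrableOn_const measure_closedBall_lt_top.ne)
  calc ‖∫ z, (u z - u x) * psi η t (z - x)‖
      ≤ ∫ z, ‖(u z - u x) * psi η t (z - x)‖ := norm_integral_le_integral_norm _
    _ ≤ ∫ z, (closedBall x (ρ * t)).indicator
          (fun z => |u z - u x| * ((t ^ k)⁻¹ * M)) z := by
        refine integral_mono_of_nonneg (Eventually.of_forall fun z => norm_nonneg _)
          ((integrable_indicator_iff measurableSet_closedBall).2 (Integrable.mul_const hIon _))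
          (Eventually.of_forall fun z => ?_)
        by_cases hz : z ∈ closedBall x (ρ * t)
        · rw [indicator_of_mem hz]
          simp only [norm_mul, Real.norm_eq_abs]
          exact mul_le_mul_of_nonneg_left (abs_psi_le h ht _) (abs_nonneg _)
        · rw [indicator_of_notMem hz]
          have : ρ * t < ‖z - x‖ := by simpa [dist_eq_norm] using hz
          simp [psi_zero_of h ht this]
    _ = (∫ z in closedBall x (ρ * t), |u z - u x|) * ((t ^ k)⁻¹ * M) := by
        rw [integral_indicator measurableSet_closedBall, integral_mul_const]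
    _ = (M * ρ ^ k * ω) * ⨍ y in closedBall x (ρ * t), |u y - u x| := by
        rw [setAverage_eq, hvol, smul_eq_mul]
        rw [hvol] at hvpos
        have hωp : ω ≠ 0 := by
          intro h0; rw [h0] at hvpos; simp at hvpos
        have : (ρ * t) ^ k ≠ 0 := pow_ne_zero _ (by positivity)
        field_simp
        rw [mul_pow]
        ring

theorem abs_avg_sub_self_le {η : E k → ℝ} {ρ M : ℝ} (h : Kern η ρ M) {u : E k → ℝ}
    (hu : Integrable u) {m : Measure (E k)} [IsFiniteMeasure m] (hm : BVBound u m) {x : E k} {L : ℝ}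
    (hL : Growth m L x) (hx : LebPt u x) {t : ℝ} (ht : 0 < t) :
    |avg η u x t - u x| ≤ k * (M * ρ ^ (k + 1) * L) * t := by
  have h1 : Tendsto (fun s => |avg η u x t - avg η u x s|) (𝓝[>] 0) (𝓝 |avg η u x t - u x|) :=
    (tendsto_const_nhds.sub (tendsto_avg h hu hx)).abs
  have h2 : Tendsto (fun s => k * (M * ρ ^ (k + 1) * L) * |t - s|) (𝓝[>] 0)
      (𝓝 (k * (M * ρ ^ (k + 1) * L) * |t - 0|)) := by
    refine Tendsto.mono_left ?_ nhdsWithin_le_nhds
    exact ((tendsto_const_nhds.sub tendsto_id).abs).const_mul _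
  rw [sub_zero, abs_of_pos ht] at h2
  refine le_of_tendsto_of_tendsto h1 h2 ?_
  filter_upwards [self_mem_nhdsWithin] with s hs
  exact abs_avg_sub_le h hu hm hL hs ht

/-- The standard bump. -/
noncomputable def bump (k : ℕ) : ContDiffBump (0 : E k) := ⟨1 / 2, 1, by norm_num, by norm_num⟩

noncomputable def eta (k : ℕ) : E k → ℝ := (bump k).normed volume

noncomputable def etaM (k : ℕ) : ℝ := 1 / volume.real (closedBall (0 : E k) (1 / 2))

theorem kern_eta (k : ℕ) : Kern (eta k) 1 (etaM k) where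
  smooth := (bump k).contDiff_normed
  zero_of := by
    intro w hw
    by_contra h
    have : w ∈ Function.support ((bump k).normed volume) := h
    rw [ContDiffBump.support_normed_eq] at this
    have h2 : ‖w‖ < 1 := by simpa [bump] using this
    linarith
  bound := by
    intro w
    have h1 : |(bump k).normed volume w| ≤ 1 / volume.real (closedBall (0 : E k) (bump k).rIn) := by
      rw [abs_of_nonneg ((bump k).nonneg_normed w)]
      exact (bump k).normed_le_div_measure_closedBall_rIn volume w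
    exact h1
  rho_pos := one_pos
  int_eq := (bump k).integral_normed

/-- The constant in the estimate. -/
noncomputable def Ck (k : ℕ) : ℝ := k * etaM k * 2 ^ (k + 1)


/-- shifted kernel -/
theorem kern_shift {h : E k} (hh : h ≠ 0) :
    Kern (fun v => (‖h‖ ^ k)⁻¹ * eta k (‖h‖⁻¹ • (v - h))) (2 * ‖h‖) ((‖h‖ ^ k)⁻¹ * etaM k) where
  smooth := by
    refine contDiff_const.mul ((kern_eta k).smooth.comp ?_)
    exact (contDiff_id.sub contDiff_const).const_smul _
  zero_of := by
    intro w hw
    have hp : 0 < ‖h‖ := norm_pos_iff.2 hh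
    rw [(kern_eta k).zero_of, mul_zero]
    rw [norm_smul, norm_inv, norm_norm, inv_mul_eq_div, lt_div_iff₀ hp]
    have := norm_sub_norm_le w h
    linarith
  bound := by
    intro w
    rw [abs_mul, abs_of_nonneg (by positivity)]
    exact mul_le_mul_of_nonneg_left ((kern_eta k).bound _) (by positivity)
  rho_pos := by
    have hp : 0 < ‖h‖ := norm_pos_iff.2 hh
    positivity
  int_eq := by
    have hp : 0 < ‖h‖ := norm_pos_iff.2 hh
    exact integral_psi (kern_eta k) hp h

/-- **Main estimate**: pointwise Lipschitz bound for a function of bounded variation. -/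
theorem abs_sub_le {u : E k → ℝ} (hu : Integrable u) {m : Measure (E k)} [IsFiniteMeasure m]
    (hm : BVBound u m) {x y : E k} (hx : LebPt u x) (hy : LebPt u y) {L : ℝ}
    (hLx : Growth m L x) (hLy : Growth m L y) :
    |u x - u y| ≤ Ck k * L * dist x y := by
  rcases eq_or_ne x y with rfl | hxy
  · simp
  set h : E k := y - x with hh
  have hh0 : h ≠ 0 := sub_ne_zero.2 hxy.symm
  have hp : 0 < ‖h‖ := norm_pos_iff.2 hh0
  have hneg : -h ≠ 0 := neg_ne_zero.2 hh0
  have h1 := abs_avg_sub_self_le (kern_shift hh0) hu hm hLx hx (t := 1 / 2) (by norm_num)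
  have h2 := abs_avg_sub_self_le (kern_shift hneg) hu hm hLy hy (t := 1 / 2) (by norm_num)
  have heq : avg (fun v => (‖h‖ ^ k)⁻¹ * eta k (‖h‖⁻¹ • (v - h))) u x (1 / 2)
      = avg (fun v => (‖-h‖ ^ k)⁻¹ * eta k (‖-h‖⁻¹ • (v - -h))) u y (1 / 2) := by
    unfold avg psi
    refine integral_congr_ae (Eventually.of_forall fun z => ?_)
    simp only [norm_neg]
    have : (1 / 2 : ℝ)⁻¹ • (z - x) - h = (1 / 2 : ℝ)⁻¹ • (z - y) - -h := by
      rw [hh]
      norm_num
      module
    rw [this]
  rw [← heq] at h2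
  rw [norm_neg] at h2
  have hval : (k : ℝ) * ((‖h‖ ^ k)⁻¹ * etaM k * (2 * ‖h‖) ^ (k + 1) * L) * (1 / 2)
      = (Ck k * L * dist x y) / 2 := by
    rw [dist_comm, dist_eq_norm, ← hh]
    unfold Ck
    rw [mul_pow, pow_succ ‖h‖ k]
    field_simp
  rw [hval] at h1 h2
  have h3 := abs_sub_comm (avg (fun v => (‖h‖ ^ k)⁻¹ * eta k (‖h‖⁻¹ • (v - h))) u x (1 / 2)) (u x)
  rw [h3] at h1
  calc |u x - u y| ≤ |u x - avg (fun v => (‖h‖ ^ k)⁻¹ * eta k (‖h‖⁻¹ • (v - h))) u x (1 / 2)|
        + |avg (fun v => (‖h‖ ^ k)⁻¹ * eta k (‖h‖⁻¹ • (v - h))) u x (1 / 2) - u y| :=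
        _root_.abs_sub_le _ _ _
    _ ≤ _ := by linarith

/-- Almost every point has finite growth constant. -/
theorem ae_growth (m : Measure (E k)) [IsFiniteMeasure m] :
    ∀ᵐ x, ∃ L : ℕ, Growth m L x := by
  filter_upwards [Besicovitch.ae_tendsto_rnDeriv m (volume : Measure (E k)),
    Measure.rnDeriv_lt_top m (volume : Measure (E k))] with x hx hfin
  set D := m.rnDeriv volume x with hD
  have hev : ∀ᶠ r in 𝓝[>] (0:ℝ), m (closedBall x r) / volume (closedBall x r) < D + 1 :=
    hx.eventually_lt_const (by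
      exact ENNReal.lt_add_right hfin.ne one_ne_zero)
  obtain ⟨δ, hδ, hδr⟩ := (mem_nhdsGT_iff_exists_Ioc_subset).1 hev
  have hδ : 0 < δ := hδ
  set ω : ℝ := volume.real (closedBall (0 : E k) 1) with hω
  obtain ⟨N, hN⟩ := exists_nat_ge (max ((D + 1).toReal * ω) (m.real univ / δ ^ k))
  refine ⟨N, fun r hr => ?_⟩
  rcases le_or_gt r δ with hrδ | hrδ
  · have h1 := hδr ⟨hr, hrδ⟩
    simp only [mem_ofPred_eq] at h1
    have hv0 : volume (closedBall x r) ≠ 0 := (measure_closedBall_pos _ _ hr).ne'
    have hvt : volume (closedBall x r) ≠ ⊤ := measure_closedBall_lt_top.ne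
    have h2 : m (closedBall x r) ≤ (D + 1) * volume (closedBall x r) := by
      rw [ENNReal.div_lt_iff (Or.inl hv0) (Or.inl hvt)] at h1
      exact h1.le
    have h3 : m.real (closedBall x r) ≤ (D + 1).toReal * volume.real (closedBall x r) := by
      rw [measureReal_def, measureReal_def, ← ENNReal.toReal_mul]
      refine ENNReal.toReal_mono ?_ h2
      exact ENNReal.mul_ne_top (ENNReal.add_lt_top.2 ⟨hfin, ENNReal.one_lt_top⟩).ne hvt
    have hvol : volume.real (closedBall x r) = r ^ k * ω := by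
      rw [Measure.addHaar_real_closedBall' _ _ hr.le]
      simp [hω]
    rw [hvol] at h3
    calc m.real (closedBall x r) ≤ (D + 1).toReal * (r ^ k * ω) := h3
      _ = ((D + 1).toReal * ω) * r ^ k := by ring
      _ ≤ N * r ^ k := mul_le_mul_of_nonneg_right ((le_max_left _ _).trans hN) (by positivity)
  · have hδk : 0 < δ ^ k := pow_pos hδ k
    calc m.real (closedBall x r) ≤ m.real univ := measureReal_mono (subset_univ _)
      _ = (m.real univ / δ ^ k) * δ ^ k := by field_simp
      _ ≤ N * r ^ k := mul_le_mul ((le_max_right _ _).trans hN)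
          (pow_le_pow_left₀ hδ.le hrδ.le k) hδk.le (Nat.cast_nonneg N)

theorem Growth.mono {m : Measure (E k)} {L L' : ℝ} {x : E k} (h : Growth m L x) (hL : L ≤ L') :
    Growth m L' x := fun r hr =>
  (h r hr).trans (mul_le_mul_of_nonneg_right hL (by positivity))

/-- **Packaged version** for a countable family with one controlling measure: there is a null set
outside of which every `u j` satisfies the Lipschitz estimate, and almost every point has a finite
growth constant. -/
theorem exists_null {ι : Type*} [Countable ι] (u : ι → E k → ℝ) (hu : ∀ j, Integrable (u j))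
    (m : Measure (E k)) [IsFiniteMeasure m] (hm : ∀ j, BVBound (u j) m) :
    ∃ N : Set (E k), MeasurableSet N ∧ volume N = 0 ∧
      (∀ x ∉ N, ∃ L : ℕ, Growth m L x) ∧
      ∀ x ∉ N, ∀ y ∉ N, ∀ L : ℝ, Growth m L x → Growth m L y →
        ∀ j, |u j x - u j y| ≤ Ck k * L * dist x y := by
  have h1 : ∀ᵐ x, (∃ L : ℕ, Growth m L x) ∧ ∀ j, LebPt (u j) x := by
    filter_upwards [ae_growth m, ae_all_iff.2 fun j => ae_lebPt (hu j).locallyIntegrable]
      with x h1 h2 using ⟨h1, h2⟩
  obtain ⟨N, hN, hNm, hN0⟩ := exists_measurable_superset_of_null (ae_iff.1 h1)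
  refine ⟨N, hNm, hN0, fun x hx => ?_, fun x hx y hy L hLx hLy j => ?_⟩
  · by_contra hc
    exact hx (hN fun h => hc h.1)
  · have hx' : (∃ L : ℕ, Growth m L x) ∧ ∀ j, LebPt (u j) x := by
      by_contra hc; exact hx (hN hc)
    have hy' : (∃ L : ℕ, Growth m L y) ∧ ∀ j, LebPt (u j) y := by
      by_contra hc; exact hy (hN hc)
    exact abs_sub_le (hu j) (hm j) (hx'.2 j) (hy'.2 j) hLx hLy

end Crest.Agent.R241.B7d
end

-- ▼ part R241/B7e2
section

/-!
# R241, block B7e, part 2 (helper734)

Signed version of the disintegration and the combined statement: an integrand `lam` on `X` all of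
whose localised projections have integer densities, together with the `BV` bounds, yields
countably many bi-Lipschitz pieces representing `lam • μ`.
-/

set_option autoImplicit false

open MeasureTheory Set Filter Topology ProbabilityTheory
open scoped ENNReal NNReal

namespace Crest.Agent.R241.B7e2

open Crest.Agent.R241.B7c Crest.Agent.R241.B7e

section Signed

variable {X Y : Type*} [MeasurableSpace X] [StandardBorelSpace X] [MeasurableSpace Y]
  [MeasurableEq Y]

/-- All localised projections of `lam • μ` have integer-valued integrable densities. -/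
def IntDens (ρ : Measure Y) (μ : Measure X) (lam : X → ℝ) (p : X → Y) : Prop :=
  ∀ B : Set X, MeasurableSet B → ∃ θ : Y → ℤ, Measurable θ ∧
    Integrable (fun y => (θ y : ℝ)) ρ ∧
    ∀ A : Set Y, MeasurableSet A → ∫ q in B ∩ p ⁻¹' A, lam q ∂μ = ∫ y in A, (θ y : ℝ) ∂ρ

omit [StandardBorelSpace X] [MeasurableEq Y] in
lemma IntDens.neg {ρ : Measure Y} {μ : Measure X} {lam : X → ℝ} {p : X → Y}
    (h : IntDens ρ μ lam p) : IntDens ρ μ (fun q => - lam q) p := by
  intro B hB
  obtain ⟨θ, hθm, hθi, hθ⟩ := h B hB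
  refine ⟨fun y => - θ y, hθm.neg, ?_, fun A hA => ?_⟩
  · have : (fun y => ((- θ y : ℤ) : ℝ)) = fun y => - (θ y : ℝ) := by
      funext y; push_cast; rfl
    rw [this]
    exact hθi.neg
  · have : (fun y => ((- θ y : ℤ) : ℝ)) = fun y => - (θ y : ℝ) := by
      funext y; push_cast; rfl
    rw [integral_neg, hθ A hA, this, integral_neg]

/-- Disintegration of the positive part. -/
theorem posPart_disint (ρ : Measure Y) [SigmaFinite ρ] (μ : Measure X) [IsFiniteMeasure μ]
    {lam : X → ℝ} (hlm : Measurable lam) (hli : Integrable lam μ) {p : X → Y}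
    (hp : Measurable p) (h : IntDens ρ μ lam p) :
    ∃ u : Y → X →₀ ℕ,
      (∀ y, ∀ q ∈ (u y).support, p q = y) ∧
      (∀ B : Set X, MeasurableSet B → Measurable fun y => dsum (u y) B) ∧
      (∀ B : Set X, MeasurableSet B →
        (μ.withDensity fun q => ENNReal.ofReal (lam q)) B = ∫⁻ y, dsum (u y) B ∂ρ) := by
  have hfin : IsFiniteMeasure (μ.withDensity fun q => ENNReal.ofReal (lam q)) :=
    isFiniteMeasure_withDensity_ofReal hli.2
  refine exists_disint ρ _ hp fun B hB => ?_
  set P : Set X := {q | 0 < lam q} with hP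
  have hPm : MeasurableSet P := measurableSet_lt measurable_const hlm
  obtain ⟨θ, hθm, hθi, hθ⟩ := h (B ∩ P) (hB.inter hPm)
  have hnn : 0 ≤ᵐ[ρ] fun y => (θ y : ℝ) := by
    refine ae_nonneg_of_forall_setIntegral_nonneg hθi fun A hA _ => ?_
    rw [← hθ A hA]
    refine setIntegral_nonneg ((hB.inter hPm).inter (hp hA)) fun q hq => ?_
    exact le_of_lt hq.1.2
  refine ⟨fun y => (θ y).toNat, (measurable_from_top (f := Int.toNat)).comp hθm,
    fun A hA => ?_⟩
  have hBA : MeasurableSet (B ∩ p ⁻¹' A) := hB.inter (hp hA)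
  have hset : (B ∩ P) ∩ p ⁻¹' A = (B ∩ p ⁻¹' A) ∩ P := by
    ext q; simp only [mem_inter_iff]; tauto
  rw [withDensity_apply _ hBA]
  have h1 : ∫⁻ q in B ∩ p ⁻¹' A, ENNReal.ofReal (lam q) ∂μ
      = ∫⁻ q in (B ∩ P) ∩ p ⁻¹' A, ENNReal.ofReal (lam q) ∂μ := by
    rw [hset, ← lintegral_indicator hBA, ← lintegral_indicator (hBA.inter hPm)]
    refine lintegral_congr fun q => ?_
    by_cases hq : q ∈ B ∩ p ⁻¹' A
    · by_cases hqP : q ∈ P
      · have hq2 : q ∈ B ∩ p ⁻¹' A ∩ P := ⟨hq, hqP⟩
        rw [indicator_of_mem hq, indicator_of_mem hq2]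
      · rw [indicator_of_mem hq, indicator_of_notMem (fun hc => hqP hc.2)]
        exact ENNReal.ofReal_eq_zero.mpr (not_lt.mp hqP)
    · rw [indicator_of_notMem hq, indicator_of_notMem (fun hc => hq hc.1)]
  have h2 : ∫⁻ q in (B ∩ P) ∩ p ⁻¹' A, ENNReal.ofReal (lam q) ∂μ
      = ENNReal.ofReal (∫ q in (B ∩ P) ∩ p ⁻¹' A, lam q ∂μ) := by
    rw [ofReal_integral_eq_lintegral_ofReal hli.integrableOn]
    refine (ae_restrict_iff' ((hB.inter hPm).inter (hp hA))).mpr
      (Eventually.of_forall fun q hq => ?_)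
    exact le_of_lt hq.1.2
  rw [h1, h2, hθ A hA, ofReal_integral_eq_lintegral_ofReal hθi.integrableOn
    (ae_restrict_of_ae hnn)]
  refine lintegral_congr_ae (ae_restrict_of_ae ?_)
  filter_upwards [hnn] with y hy
  have hy0 : (0 : ℝ) ≤ θ y := hy
  have hy' : 0 ≤ θ y := by exact_mod_cast hy0
  have h3 : ((θ y).toNat : ℤ) = θ y := Int.toNat_of_nonneg hy'
  have h4 : (θ y : ℝ) = ((θ y).toNat : ℝ) := by exact_mod_cast h3.symm
  rw [h4, ENNReal.ofReal_natCast]

/-- **Signed disintegration into finite integer combinations of Dirac masses.** -/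
theorem signed_disint (ρ : Measure Y) [SigmaFinite ρ] (μ : Measure X) [IsFiniteMeasure μ]
    {lam : X → ℝ} (hlm : Measurable lam) (hli : Integrable lam μ) {p : X → Y}
    (hp : Measurable p) (h : IntDens ρ μ lam p) :
    ∃ up um : Y → X →₀ ℕ,
      (∀ y, ∀ q ∈ (up y).support, p q = y) ∧ (∀ y, ∀ q ∈ (um y).support, p q = y) ∧
      (∀ B : Set X, MeasurableSet B → Measurable fun y => dsum (up y) B) ∧
      (∀ B : Set X, MeasurableSet B → Measurable fun y => dsum (um y) B) ∧
      (∀ y, Disjoint (up y).support (um y).support) ∧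
      (∀ B : Set X, MeasurableSet B →
        (μ.withDensity fun q => ENNReal.ofReal (lam q)) B = ∫⁻ y, dsum (up y) B ∂ρ) ∧
      (∀ B : Set X, MeasurableSet B →
        (μ.withDensity fun q => ENNReal.ofReal (- lam q)) B = ∫⁻ y, dsum (um y) B ∂ρ) := by
  classical
  obtain ⟨u, hu1, hu2, hu3⟩ := posPart_disint ρ μ hlm hli hp h
  obtain ⟨v, hv1, hv2, hv3⟩ := posPart_disint ρ μ (lam := fun q => - lam q) hlm.neg hli.neg hp
    h.neg
  set P : Set X := {q | 0 < lam q} with hP
  have hPm : MeasurableSet P := measurableSet_lt measurable_const hlm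
  have hu0 : ∀ᵐ y ∂ρ, dsum (u y) Pᶜ = 0 := by
    have h1 : (μ.withDensity fun q => ENNReal.ofReal (lam q)) Pᶜ = 0 := by
      rw [withDensity_apply _ hPm.compl]
      refine (setLIntegral_congr_fun hPm.compl fun q hq => ?_).trans lintegral_zero
      exact ENNReal.ofReal_eq_zero.mpr (not_lt.mp hq)
    rw [hu3 _ hPm.compl] at h1
    exact (lintegral_eq_zero_iff (hu2 _ hPm.compl)).mp h1
  have hv0 : ∀ᵐ y ∂ρ, dsum (v y) P = 0 := by
    have h1 : (μ.withDensity fun q => ENNReal.ofReal (- lam q)) P = 0 := by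
      rw [withDensity_apply _ hPm]
      refine (setLIntegral_congr_fun hPm fun q hq => ?_).trans lintegral_zero
      refine ENNReal.ofReal_eq_zero.mpr ?_
      have : 0 < lam q := hq
      linarith
    rw [hv3 _ hPm] at h1
    exact (lintegral_eq_zero_iff (hv2 _ hPm)).mp h1
  let bad : Set Y := {y | dsum (u y) Pᶜ = 0 ∧ dsum (v y) P = 0}ᶜ
  have hbadm : MeasurableSet bad :=
    (((hu2 _ hPm.compl) (measurableSet_singleton 0)).inter
      ((hv2 _ hPm) (measurableSet_singleton 0))).compl
  have hgood : ∀ᵐ y ∂ρ, y ∉ bad := by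
    filter_upwards [hu0, hv0] with y h1 h2
    simp only [bad, mem_compl_iff, mem_ofPred_eq, not_not]
    exact ⟨h1, h2⟩
  let cut : (Y → X →₀ ℕ) → Y → X →₀ ℕ := fun w y => if y ∈ bad then 0 else w y
  have hcut0 : ∀ (w : Y → X →₀ ℕ) y, y ∈ bad → cut w y = 0 := fun w y hy => if_pos hy
  have hcut1 : ∀ (w : Y → X →₀ ℕ) y, y ∉ bad → cut w y = w y := fun w y hy => if_neg hy
  have hcutm : ∀ w : Y → X →₀ ℕ, (∀ B : Set X, MeasurableSet B → Measurable fun y => dsum (w y) B) →
      ∀ B : Set X, MeasurableSet B → Measurable fun y => dsum (cut w y) B := by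
    intro w hw B hB
    have : (fun y => dsum (cut w y) B) = (badᶜ).indicator fun y => dsum (w y) B := by
      funext y
      by_cases hy : y ∈ bad
      · rw [hcut0 w y hy, indicator_of_notMem (by simpa using hy)]
        simp [dsum]
      · rw [hcut1 w y hy, indicator_of_mem (by simpa using hy)]
    rw [this]
    exact (hw B hB).indicator hbadm.compl
  have hcutp : ∀ w : Y → X →₀ ℕ, (∀ y, ∀ q ∈ (w y).support, p q = y) →
      ∀ y, ∀ q ∈ (cut w y).support, p q = y := by
    intro w hw y q hq
    by_cases hy : y ∈ bad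
    · rw [hcut0 w y hy] at hq
      simp at hq
    · rw [hcut1 w y hy] at hq
      exact hw y q hq
  have hcuti : ∀ (w : Y → X →₀ ℕ) (B : Set X), ∫⁻ y, dsum (w y) B ∂ρ
      = ∫⁻ y, dsum (cut w y) B ∂ρ := by
    intro w B
    refine lintegral_congr_ae ?_
    filter_upwards [hgood] with y hy
    rw [hcut1 w y hy]
  refine ⟨cut u, cut v, hcutp u hu1, hcutp v hv1, hcutm u hu2, hcutm v hv2, ?_, ?_, ?_⟩
  · intro y
    by_cases hy : y ∈ bad
    · rw [hcut0 u y hy]
      simp
    · rw [hcut1 u y hy, hcut1 v y hy]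
      have hy' : dsum (u y) Pᶜ = 0 ∧ dsum (v y) P = 0 := by
        simpa only [bad, mem_compl_iff, mem_ofPred_eq, not_not] using hy
      rw [Finset.disjoint_left]
      intro q hq hq'
      by_cases hqP : q ∈ P
      · exact (dsum_ne_zero_iff (v y) hPm).mpr ⟨q, hq', hqP⟩ hy'.2
      · exact (dsum_ne_zero_iff (u y) hPm.compl).mpr ⟨q, hq, hqP⟩ hy'.1
  · intro B hB
    rw [hu3 B hB, hcuti]
  · intro B hB
    rw [← hcuti]
    exact hv3 B hB

end Signed

section Integrals

variable {X Y : Type*} [MeasurableSpace X] [StandardBorelSpace X] [MeasurableSpace Y]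

/-- Finite sum of a real function against the atoms. -/
noncomputable def SS (u : Y → X →₀ ℕ) (F : X → ℝ) (y : Y) : ℝ :=
  ∑ q ∈ (u y).support, (u y q : ℝ) * F q

omit [MeasurableSpace X] [StandardBorelSpace X] [MeasurableSpace Y] in
lemma SS_sub (u : Y → X →₀ ℕ) (F G : X → ℝ) (y : Y) :
    SS u (fun q => F q - G q) y = SS u F y - SS u G y := by
  simp only [SS]
  rw [← Finset.sum_sub_distrib]
  exact Finset.sum_congr rfl fun q _ => by ring

omit [MeasurableSpace X] [StandardBorelSpace X] [MeasurableSpace Y] in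
lemma SS_nonneg (u : Y → X →₀ ℕ) {F : X → ℝ} (hF : ∀ q, 0 ≤ F q) (y : Y) : 0 ≤ SS u F y :=
  Finset.sum_nonneg fun q _ => mul_nonneg (Nat.cast_nonneg _) (hF q)

omit [StandardBorelSpace X] [MeasurableSpace Y] in
lemma lintegral_dsum_ofReal (u : Y → X →₀ ℕ) {F : X → ℝ} (hFm : Measurable F)
    (hF : ∀ q, 0 ≤ F q) (y : Y) :
    ∫⁻ q, ENNReal.ofReal (F q) ∂(dsum (u y)) = ENNReal.ofReal (SS u F y) := by
  rw [lintegral_dsum _ hFm.ennreal_ofReal, SS, ENNReal.ofReal_sum_of_nonneg
    fun q _ => mul_nonneg (Nat.cast_nonneg _) (hF q)]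
  refine Finset.sum_congr rfl fun q _ => ?_
  rw [ENNReal.ofReal_mul (Nat.cast_nonneg _), ENNReal.ofReal_natCast, mul_comm]

omit [StandardBorelSpace X] in
lemma measurable_SS_nonneg {u : Y → X →₀ ℕ}
    (hu : ∀ B : Set X, MeasurableSet B → Measurable fun y => dsum (u y) B)
    {F : X → ℝ} (hFm : Measurable F) (hF : ∀ q, 0 ≤ F q) : Measurable (SS u F) := by
  have h1 : SS u F = fun y => (∫⁻ q, ENNReal.ofReal (F q) ∂(dsum (u y))).toReal := by
    funext y
    rw [lintegral_dsum_ofReal u hFm hF, ENNReal.toReal_ofReal (SS_nonneg u hF y)]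
  rw [h1]
  exact (hFm.ennreal_ofReal.lintegral_kernel (κ := kernelOf u hu)).ennreal_toReal

lemma integral_SS_nonneg {ρ : Measure Y} {ν : Measure X} [IsFiniteMeasure ν] {u : Y → X →₀ ℕ}
    (hu : ∀ B : Set X, MeasurableSet B → Measurable fun y => dsum (u y) B)
    (h : ∀ B : Set X, MeasurableSet B → ν B = ∫⁻ y, dsum (u y) B ∂ρ)
    {F : X → ℝ} (hFm : Measurable F) (hF : ∀ q, 0 ≤ F q) {C : ℝ} (hC : ∀ q, F q ≤ C) :
    Integrable (SS u F) ρ ∧ ∫ q, F q ∂ν = ∫ y, SS u F y ∂ρ := by
  have h1 : ∫⁻ q, ENNReal.ofReal (F q) ∂ν = ∫⁻ y, ENNReal.ofReal (SS u F y) ∂ρ := by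
    rw [lintegral_of_disint hu h hFm.ennreal_ofReal]
    exact lintegral_congr fun y => lintegral_dsum_ofReal u hFm hF y
  have hfin : ∫⁻ q, ENNReal.ofReal (F q) ∂ν ≠ ∞ := by
    have : ∫⁻ q, ENNReal.ofReal (F q) ∂ν ≤ ∫⁻ _, ENNReal.ofReal C ∂ν :=
      lintegral_mono fun q => ENNReal.ofReal_le_ofReal (hC q)
    refine ne_top_of_le_ne_top ?_ this
    rw [lintegral_const]
    exact ENNReal.mul_ne_top ENNReal.ofReal_ne_top (measure_ne_top ν _)
  have hmeas := measurable_SS_nonneg hu hFm hF
  constructor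
  · refine ⟨hmeas.aestronglyMeasurable, ?_⟩
    rw [hasFiniteIntegral_iff_ofReal (Eventually.of_forall fun y => SS_nonneg u hF y), ← h1]
    exact hfin.lt_top
  · rw [integral_eq_lintegral_of_nonneg_ae (Eventually.of_forall hF) hFm.aestronglyMeasurable,
      integral_eq_lintegral_of_nonneg_ae (Eventually.of_forall fun y => SS_nonneg u hF y)
        hmeas.aestronglyMeasurable, h1]

/-- Fubini for bounded measurable functions. -/
lemma integral_SS {ρ : Measure Y} {ν : Measure X} [IsFiniteMeasure ν] {u : Y → X →₀ ℕ}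
    (hu : ∀ B : Set X, MeasurableSet B → Measurable fun y => dsum (u y) B)
    (h : ∀ B : Set X, MeasurableSet B → ν B = ∫⁻ y, dsum (u y) B ∂ρ)
    {F : X → ℝ} (hFm : Measurable F) {C : ℝ} (hC : ∀ q, |F q| ≤ C) :
    Measurable (SS u F) ∧ Integrable (SS u F) ρ ∧ ∫ q, F q ∂ν = ∫ y, SS u F y ∂ρ := by
  have hC0 : ∀ q : X, 0 ≤ C := fun q => (abs_nonneg _).trans (hC q)
  have hp0 : ∀ q, 0 ≤ max (F q) 0 := fun q => le_max_right _ _
  have hm0 : ∀ q, 0 ≤ max (-F q) 0 := fun q => le_max_right _ _
  have hpm : Measurable fun q => max (F q) 0 := hFm.max measurable_const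
  have hmm : Measurable fun q => max (-F q) 0 := hFm.neg.max measurable_const
  have hpC : ∀ q, max (F q) 0 ≤ C := fun q => max_le ((le_abs_self _).trans (hC q)) (hC0 q)
  have hmC : ∀ q, max (-F q) 0 ≤ C := fun q => max_le ((neg_le_abs _).trans (hC q)) (hC0 q)
  have hdec : F = fun q => max (F q) 0 - max (-F q) 0 := by
    funext q
    rcases le_total 0 (F q) with hq | hq
    · rw [max_eq_left hq, max_eq_right (by linarith), sub_zero]
    · rw [max_eq_right hq, max_eq_left (by linarith)]; ring
  obtain ⟨hi1, he1⟩ := integral_SS_nonneg hu h hpm hp0 hpC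
  obtain ⟨hi2, he2⟩ := integral_SS_nonneg hu h hmm hm0 hmC
  have hSS : SS u F = fun y => SS u (fun q => max (F q) 0) y - SS u (fun q => max (-F q) 0) y := by
    funext y
    conv_lhs => rw [hdec]
    exact SS_sub u _ _ y
  have hbd : ∀ {G : X → ℝ}, Measurable G → (∀ q, 0 ≤ G q) → (∀ q, G q ≤ C) → Integrable G ν := by
    intro G hG h0 h1
    refine (integrable_const C).mono' hG.aestronglyMeasurable (Eventually.of_forall fun q => ?_)
    rw [Real.norm_of_nonneg (h0 q)]
    exact h1 q
  refine ⟨?_, ?_, ?_⟩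
  · rw [hSS]
    exact (measurable_SS_nonneg hu hpm hp0).sub (measurable_SS_nonneg hu hmm hm0)
  · rw [hSS]
    exact hi1.sub hi2
  · rw [hSS, integral_sub hi1 hi2, ← he1, ← he2]
    conv_lhs => rw [hdec]
    exact integral_sub (hbd hpm hp0 hpC) (hbd hmm hm0 hmC)

end Integrals

section Formula

variable {X Y : Type*} [MeasurableSpace X] [StandardBorelSpace X] [MeasurableSpace Y]
  {ρ : Measure Y} {μ : Measure X} {lam : X → ℝ} {up um : Y → X →₀ ℕ}

/-- `∫ F lam dμ = ∫ ev F dρ`. -/
lemma integral_ev (hlm : Measurable lam) (hli : Integrable lam μ)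
    (hup : ∀ B : Set X, MeasurableSet B → Measurable fun y => dsum (up y) B)
    (hum : ∀ B : Set X, MeasurableSet B → Measurable fun y => dsum (um y) B)
    (h1 : ∀ B : Set X, MeasurableSet B →
        (μ.withDensity fun q => ENNReal.ofReal (lam q)) B = ∫⁻ y, dsum (up y) B ∂ρ)
    (h2 : ∀ B : Set X, MeasurableSet B →
        (μ.withDensity fun q => ENNReal.ofReal (- lam q)) B = ∫⁻ y, dsum (um y) B ∂ρ)
    {F : X → ℝ} (hFm : Measurable F) {C : ℝ} (hC : ∀ q, |F q| ≤ C) :
    Measurable (ev up um F) ∧ Integrable (ev up um F) ρ ∧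
      ∫ q, F q * lam q ∂μ = ∫ y, ev up um F y ∂ρ := by
  have hf1 : IsFiniteMeasure (μ.withDensity fun q => ENNReal.ofReal (lam q)) :=
    isFiniteMeasure_withDensity_ofReal hli.2
  have hf2 : IsFiniteMeasure (μ.withDensity fun q => ENNReal.ofReal (- lam q)) :=
    isFiniteMeasure_withDensity_ofReal hli.neg.2
  have hlm' : Measurable fun q => - lam q := hlm.neg
  obtain ⟨a1, a2, a3⟩ := integral_SS hup h1 hFm hC
  obtain ⟨b1, b2, b3⟩ := integral_SS hum h2 hFm hC
  have hev : ev up um F = fun y => SS up F y - SS um F y := rfl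
  refine ⟨?_, ?_, ?_⟩
  · rw [hev]; exact a1.sub b1
  · rw [hev]; exact a2.sub b2
  · rw [hev, integral_sub a2 b2, ← a3, ← b3,
      integral_withDensity_eq_integral_toReal_smul hlm.ennreal_ofReal
        (Eventually.of_forall fun _ => ENNReal.ofReal_lt_top),
      integral_withDensity_eq_integral_toReal_smul hlm'.ennreal_ofReal
        (Eventually.of_forall fun _ => ENNReal.ofReal_lt_top)]
    have hint : ∀ {G : X → ℝ}, Measurable G → (∀ q, |G q| ≤ |lam q|) →
        Integrable (fun q => G q * F q) μ := by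
      intro G hG hGl
      have hb : Integrable (fun q => |lam q| * C) μ := hli.abs.mul_const C
      refine hb.mono' (hG.mul hFm).aestronglyMeasurable (Eventually.of_forall fun q => ?_)
      rw [Real.norm_eq_abs, abs_mul]
      exact mul_le_mul (hGl q) (hC q) (abs_nonneg _) (abs_nonneg _)
    have e1 : ∀ q, (ENNReal.ofReal (lam q)).toReal = max (lam q) 0 := fun q =>
      ENNReal.toReal_ofReal' ..
    have e2 : ∀ q, (ENNReal.ofReal (- lam q)).toReal = max (- lam q) 0 := fun q =>
      ENNReal.toReal_ofReal' ..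
    simp only [e1, e2, smul_eq_mul]
    rw [← integral_sub]
    · refine integral_congr_ae (Eventually.of_forall fun q => ?_)
      simp only
      rcases le_total 0 (lam q) with hq | hq
      · rw [max_eq_left hq, max_eq_right (by linarith)]; ring
      · rw [max_eq_right hq, max_eq_left (by linarith)]; ring
    · refine hint (hlm.max measurable_const) fun q => ?_
      rw [abs_of_nonneg (le_max_right _ _)]
      exact max_le (le_abs_self _) (abs_nonneg _)
    · refine hint (hlm.neg.max measurable_const) fun q => ?_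
      rw [abs_of_nonneg (le_max_right _ _)]
      exact max_le (neg_le_abs _) (abs_nonneg _)

/-- Total-variation form. -/
lemma lintegral_tot (hlm : Measurable lam)
    (hup : ∀ B : Set X, MeasurableSet B → Measurable fun y => dsum (up y) B)
    (hum : ∀ B : Set X, MeasurableSet B → Measurable fun y => dsum (um y) B)
    (h1 : ∀ B : Set X, MeasurableSet B →
        (μ.withDensity fun q => ENNReal.ofReal (lam q)) B = ∫⁻ y, dsum (up y) B ∂ρ)
    (h2 : ∀ B : Set X, MeasurableSet B →
        (μ.withDensity fun q => ENNReal.ofReal (- lam q)) B = ∫⁻ y, dsum (um y) B ∂ρ)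
    {F : X → ℝ≥0∞} (hFm : Measurable F) :
    ∫⁻ q, F q * ‖lam q‖ₑ ∂μ = ∫⁻ y, ∫⁻ q, F q ∂(dsum (tot up um y)) ∂ρ := by
  have e1 := lintegral_of_disint hup h1 hFm
  have e2 := lintegral_of_disint hum h2 hFm
  rw [lintegral_withDensity_eq_lintegral_mul _ hlm.ennreal_ofReal hFm] at e1
  have hlm' : Measurable fun q => - lam q := hlm.neg
  rw [lintegral_withDensity_eq_lintegral_mul _ hlm'.ennreal_ofReal hFm] at e2
  have e3 : ∀ q, F q * ‖lam q‖ₑ =
      ((fun q => ENNReal.ofReal (lam q)) * F) q + ((fun q => ENNReal.ofReal (- lam q)) * F) q := by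
    intro q
    have : ‖lam q‖ₑ = ENNReal.ofReal (lam q) + ENNReal.ofReal (- lam q) := by
      rw [← ofReal_norm, Real.norm_eq_abs]
      rcases le_total 0 (lam q) with hq | hq
      · rw [abs_of_nonneg hq, ENNReal.ofReal_of_nonpos (by linarith : - lam q ≤ 0), add_zero]
      · rw [abs_of_nonpos hq, ENNReal.ofReal_of_nonpos hq, zero_add]
    rw [this]
    simp only [Pi.mul_apply]
    ring
  simp_rw [e3]
  rw [lintegral_add_left (hlm.ennreal_ofReal.mul hFm), e1, e2, ← lintegral_add_left]
  · refine lintegral_congr fun y => ?_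
    rw [tot, dsum_add, lintegral_add_measure]
  · exact hFm.lintegral_kernel (κ := kernelOf up hup)

end Formula

section Dense

/-- 1-Lipschitz functions bounded by 1. -/
def L1 (X : Type*) [MetricSpace X] : Set (X → ℝ) := {g | LipschitzWith 1 g ∧ ∀ q, |g q| ≤ 1}

lemma exists_dense (X : Type*) [MetricSpace X] [SecondCountableTopology X] [Nonempty X] :
    ∃ g : ℕ → X → ℝ, (∀ j, g j ∈ L1 X) ∧ ∀ f ∈ L1 X, ∀ (F : Finset X) (ε : ℝ), 0 < ε →
      ∃ j, ∀ q ∈ F, |g j q - f q| ≤ ε := by
  classical
  let D : ℕ → X := TopologicalSpace.denseSeq X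
  let R : (X → ℝ) → (ℕ → ℝ) := fun g i => g (D i)
  let S : Set (ℕ → ℝ) := R '' L1 X
  have hS : Nonempty S := ⟨⟨R (fun _ => 0), fun _ => 0, ⟨LipschitzWith.const' 0, by simp⟩, rfl⟩⟩
  let s : ℕ → S := TopologicalSpace.denseSeq S
  have hs : DenseRange s := TopologicalSpace.denseRange_denseSeq S
  choose g hg hgs using fun j => (s j).2
  refine ⟨g, hg, fun f hf F ε hε => ?_⟩
  have hD : ∀ q : X, ∃ i, dist q (D i) < ε / 3 := fun q =>
    (TopologicalSpace.denseRange_denseSeq X).exists_dist_lt q (by positivity)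
  choose ι hι using hD
  let f' : S := ⟨R f, f, hf, rfl⟩
  let U : Set S := {t | ∀ q ∈ F, |(t : ℕ → ℝ) (ι q) - R f (ι q)| < ε / 3}
  have hU : IsOpen U := by
    have : U = ⋂ q ∈ F, {t : S | |(t : ℕ → ℝ) (ι q) - R f (ι q)| < ε / 3} := by
      ext t
      simp [U]
    rw [this]
    refine isOpen_biInter_finset fun q _ => ?_
    refine isOpen_lt ?_ continuous_const
    exact (((continuous_apply (ι q)).comp continuous_subtype_val).sub continuous_const).abs
  have hfU : f' ∈ U := by
    intro q _
    simp only [f', sub_self, abs_zero]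
    positivity
  obtain ⟨j, hj⟩ := hs.exists_mem_open hU ⟨f', hfU⟩
  refine ⟨j, fun q hq => ?_⟩
  have h1 : |g j (D (ι q)) - f (D (ι q))| < ε / 3 := by
    have := hj q hq
    rwa [← hgs j] at this
  have h2 : |g j q - g j (D (ι q))| ≤ ε / 3 := by
    have := (hg j).1.dist_le_mul q (D (ι q))
    rw [Real.dist_eq, NNReal.coe_one, one_mul] at this
    exact this.trans (hι q).le
  have h3 : |f q - f (D (ι q))| ≤ ε / 3 := by
    have := hf.1.dist_le_mul q (D (ι q))
    rw [Real.dist_eq, NNReal.coe_one, one_mul] at this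
    exact this.trans (hι q).le
  have h4 : g j q - f q = (g j q - g j (D (ι q))) + (g j (D (ι q)) - f (D (ι q)))
      - (f q - f (D (ι q))) := by ring
  rw [h4]
  calc |(g j q - g j (D (ι q))) + (g j (D (ι q)) - f (D (ι q))) - (f q - f (D (ι q)))|
      ≤ |(g j q - g j (D (ι q))) + (g j (D (ι q)) - f (D (ι q)))| + |f q - f (D (ι q))| :=
        abs_sub _ _
    _ ≤ |g j q - g j (D (ι q))| + |g j (D (ι q)) - f (D (ι q))| + |f q - f (D (ι q))| := by
        gcongr
        exact abs_add_le _ _
    _ ≤ ε := by linarith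

/-- The total multiplicity at a point. -/
noncomputable def totM {X Y : Type*} (up um : Y → X →₀ ℕ) (y : Y) : ℝ :=
  ∑ q ∈ (up y).support, (up y q : ℝ) + ∑ q ∈ (um y).support, (um y q : ℝ)

lemma totM_nonneg {X Y : Type*} (up um : Y → X →₀ ℕ) (y : Y) : 0 ≤ totM up um y := by
  unfold totM
  positivity

lemma abs_ev_sub_le {X Y : Type*} (up um : Y → X →₀ ℕ) (y : Y) {f g : X → ℝ} {ε : ℝ}
    (h : ∀ q, q ∈ (up y).support ∨ q ∈ (um y).support → |g q - f q| ≤ ε) :
    |ev up um g y - ev up um f y| ≤ totM up um y * ε := by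
  have e1 : ev up um g y - ev up um f y =
      ∑ q ∈ (up y).support, (up y q : ℝ) * (g q - f q) -
        ∑ q ∈ (um y).support, (um y q : ℝ) * (g q - f q) := by
    simp only [ev, mul_sub, Finset.sum_sub_distrib]
    ring
  rw [e1, totM, add_mul, Finset.sum_mul, Finset.sum_mul]
  refine (abs_sub _ _).trans (add_le_add ?_ ?_)
  · refine (Finset.abs_sum_le_sum_abs _ _).trans (Finset.sum_le_sum fun q hq => ?_)
    rw [abs_mul, Nat.abs_cast]
    exact mul_le_mul_of_nonneg_left (h q (Or.inl hq)) (Nat.cast_nonneg _)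
  · refine (Finset.abs_sum_le_sum_abs _ _).trans (Finset.sum_le_sum fun q hq => ?_)
    rw [abs_mul, Nat.abs_cast]
    exact mul_le_mul_of_nonneg_left (h q (Or.inr hq)) (Nat.cast_nonneg _)

/-- Passing from the dense family to all 1-Lipschitz functions. -/
lemma lip_of_dense {X Y : Type*} [MetricSpace X] {up um : Y → X →₀ ℕ} {g : ℕ → X → ℝ}
    (hg : ∀ f ∈ L1 X, ∀ (F : Finset X) (ε : ℝ), 0 < ε → ∃ j, ∀ q ∈ F, |g j q - f q| ≤ ε)
    {x x' : Y} {K : ℝ} (h : ∀ j, |ev up um (g j) x - ev up um (g j) x'| ≤ K)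
    {f : X → ℝ} (hf : f ∈ L1 X) : |ev up um f x - ev up um f x'| ≤ K := by
  classical
  refine le_of_forall_pos_le_add fun δ hδ => ?_
  set M := totM up um x + totM up um x' + 1 with hM
  have hMpos : 0 < M := by
    have := totM_nonneg up um x
    have := totM_nonneg up um x'
    positivity
  obtain ⟨j, hj⟩ := hg f hf ((up x).support ∪ (um x).support ∪ ((up x').support ∪ (um x').support))
    (δ / M) (by positivity)
  have h1 : |ev up um (g j) x - ev up um f x| ≤ totM up um x * (δ / M) :=
    abs_ev_sub_le up um x fun q hq => hj q (by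
      simp only [Finset.mem_union]; tauto)
  have h2 : |ev up um (g j) x' - ev up um f x'| ≤ totM up um x' * (δ / M) :=
    abs_ev_sub_le up um x' fun q hq => hj q (by
      simp only [Finset.mem_union]; tauto)
  have h3 := h j
  have h4 : ev up um f x - ev up um f x' = (ev up um (g j) x - ev up um (g j) x')
      - (ev up um (g j) x - ev up um f x) + (ev up um (g j) x' - ev up um f x') := by ring
  have h5 : (totM up um x + totM up um x') * (δ / M) ≤ δ := by
    rw [← mul_div_assoc, div_le_iff₀ hMpos]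
    nlinarith
  rw [h4]
  calc _ ≤ |(ev up um (g j) x - ev up um (g j) x') - (ev up um (g j) x - ev up um f x)|
        + |ev up um (g j) x' - ev up um f x'| := abs_add_le _ _
    _ ≤ |ev up um (g j) x - ev up um (g j) x'| + |ev up um (g j) x - ev up um f x|
        + |ev up um (g j) x' - ev up um f x'| := by
        gcongr
        exact abs_sub _ _
    _ ≤ K + δ := by linarith

end Dense

section Growth

open Crest.Agent.R241.B7d

lemma isClosed_growth {k : ℕ} (m : Measure (E k)) [IsFiniteMeasure m] (L : ℝ) :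
    IsClosed {x | Growth m L x} := by
  refine isClosed_of_closure_subset fun x hx r hr => ?_
  have hev : ∀ δ : ℝ, 0 < δ → m.real (Metric.closedBall x r) ≤ L * (r + δ) ^ k := by
    intro δ hδ
    obtain ⟨y, hy, hxy⟩ := Metric.mem_closure_iff.mp hx δ hδ
    have hsub : Metric.closedBall x r ⊆ Metric.closedBall y (r + δ) :=
      Metric.closedBall_subset_closedBall' (by linarith)
    exact (measureReal_mono hsub).trans (hy (r + δ) (by positivity))
  have hcont : Tendsto (fun δ : ℝ => L * (r + δ) ^ k) (𝓝[>] 0) (𝓝 (L * (r + 0) ^ k)) := by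
    have : Continuous fun δ : ℝ => L * (r + δ) ^ k := by fun_prop
    exact this.continuousAt.tendsto.mono_left nhdsWithin_le_nhds
  rw [add_zero] at hcont
  refine ge_of_tendsto hcont ?_
  filter_upwards [self_mem_nhdsWithin] with δ hδ using hev δ hδ

end Growth

section Final

open Crest.Agent.R241.B7d

/-- Reindexing the atoms over one base point by the pieces. -/
lemma hasSum_atoms {X M : Type*} [AddCommMonoid M] [TopologicalSpace M] {s : Finset X}
    {P : ℕ → Prop} [DecidablePred P] {y : ℕ → X}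
    (h1 : ∀ n, P n → y n ∈ s) (h2 : ∀ q ∈ s, ∃! n, P n ∧ y n = q) (G : X → M) :
    HasSum (fun n => if P n then G (y n) else 0) (∑ q ∈ s, G q) := by
  classical
  choose! ν hν hνu using h2
  have hinj : Set.InjOn ν s := by
    intro q hq q' hq' heq
    rw [← (hν q hq).2, ← (hν q' hq').2, heq]
  have hsum : ∑ n ∈ s.image ν, (if P n then G (y n) else 0) = ∑ q ∈ s, G q := by
    rw [Finset.sum_image hinj]
    refine Finset.sum_congr rfl fun q hq => ?_
    rw [if_pos (hν q hq).1, (hν q hq).2]
  rw [← hsum]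
  refine hasSum_sum_of_ne_finset_zero fun n hn => ?_
  by_contra hne
  have hP : P n := by
    by_contra hP
    exact hne (if_neg hP)
  apply hn
  have : n = ν (y n) := hνu (y n) (h1 n hP) n ⟨hP, rfl⟩
  rw [this]
  exact Finset.mem_image_of_mem ν (h1 n hP)

/-- **B7e, final form.**  `lam • μ` has integer localised projections along `p` and satisfies the
`BV` bounds: then it is carried by countably many bi-Lipschitz sections of `p` with integer
multiplicities. -/
theorem pieces_of_int {k : ℕ} {X : Type*} [MetricSpace X] [CompleteSpace X]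
    [SecondCountableTopology X] [MeasurableSpace X] [BorelSpace X] [Nonempty X]
    (μ : Measure X) [IsFiniteMeasure μ] {lam : X → ℝ} (hlm : Measurable lam)
    (hli : Integrable lam μ) {p : X → E k} (hp : Measurable p)
    (hInt : IntDens (volume : Measure (E k)) μ lam p)
    (m : Measure (E k)) [IsFiniteMeasure m]
    (hBV : ∀ g : X → ℝ, LipschitzWith 1 g → (∀ q, |g q| ≤ 1) → ∀ φ : E k → ℝ,
      ContDiff ℝ (⊤ : ℕ∞) φ → HasCompactSupport φ → ∀ i : Fin k,
      |∫ q, (g q * fderiv ℝ φ (p q) (EuclideanSpace.single i 1)) * lam q ∂μ|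
        ≤ ∫ x, |φ x| ∂m) :
    ∃ (H : ℕ → Set (E k)) (yn : ℕ → E k → X) (th : ℕ → E k → ℤ),
      (∀ n, MeasurableSet (H n)) ∧ (∀ n, Bornology.IsBounded (H n)) ∧
      (∀ n, Measurable (yn n)) ∧ (∀ n, ∃ L : ℝ≥0, LipschitzOnWith L (yn n) (H n)) ∧
      (∀ n, ∀ y ∈ H n, p (yn n y) = y) ∧
      (∀ n, Measurable (th n)) ∧ (∀ n, ∀ y ∈ H n, th n y ≠ 0) ∧
      (∀ n k, n ≠ k → Disjoint (yn n '' H n) (yn k '' H k)) ∧
      (∀ n, MeasurableSet (yn n '' H n)) ∧
      (∀ F : X → ℝ≥0∞, Measurable F → ∫⁻ q, F q * ‖lam q‖ₑ ∂μ =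
        ∑' n, ∫⁻ y in H n, F (yn n y) * ‖(th n y : ℝ)‖ₑ) ∧
      (∀ F : X → ℝ, Measurable F → (∃ C, ∀ q, |F q| ≤ C) →
        (∀ n, IntegrableOn (fun y => F (yn n y) * (th n y : ℝ)) (H n)) ∧
        Summable (fun n => ∫ y in H n, |F (yn n y) * (th n y : ℝ)|) ∧
        HasSum (fun n => ∫ y in H n, F (yn n y) * (th n y : ℝ)) (∫ q, F q * lam q ∂μ)) := by
  classical
  obtain ⟨up, um, hpp, hpm, hmp, hmm, hdis, h1, h2⟩ :=
    signed_disint (volume : Measure (E k)) μ hlm hli hp hInt
  obtain ⟨g, hg1, hgd⟩ := exists_dense X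
  -- BV bounds for the dense family
  have hev : ∀ {F : X → ℝ}, Measurable F → ∀ {C : ℝ}, (∀ q, |F q| ≤ C) →
      Measurable (ev up um F) ∧ Integrable (ev up um F) volume ∧
      ∫ q, F q * lam q ∂μ = ∫ y, ev up um F y := by
    intro F hF C hC
    exact integral_ev hlm hli hmp hmm h1 h2 hF hC
  have hgm : ∀ j, Measurable (g j) := fun j => (hg1 j).1.continuous.measurable
  have hbv : ∀ j, BVBound (ev up um (g j)) m := by
    intro j φ hφ hφc i
    have hc : Continuous fun x => fderiv ℝ φ x (EuclideanSpace.single i 1) := by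
      have := hφ.continuous_fderiv (by simp)
      fun_prop
    obtain ⟨Cφ, hCφ⟩ : ∃ Cφ, ∀ x, ‖fderiv ℝ φ x (EuclideanSpace.single i 1)‖ ≤ Cφ := by
      refine hc.bounded_above_of_compact_support ?_
      exact (hφc.fderiv (𝕜 := ℝ)).comp_left (g := fun A : E k →L[ℝ] ℝ =>
        A (EuclideanSpace.single i 1)) (by simp)
    have hFm : Measurable fun q => g j q * fderiv ℝ φ (p q) (EuclideanSpace.single i 1) :=
      (hgm j).mul (hc.measurable.comp hp)
    have hFb : ∀ q, |g j q * fderiv ℝ φ (p q) (EuclideanSpace.single i 1)| ≤ 1 * Cφ := by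
      intro q
      rw [abs_mul]
      exact mul_le_mul ((hg1 j).2 q) (hCφ (p q)) (abs_nonneg _) zero_le_one
    have e1 := (hev hFm hFb).2.2
    have e2 : ∀ y, ev up um (fun q => g j q * fderiv ℝ φ (p q) (EuclideanSpace.single i 1)) y
        = ev up um (g j) y * fderiv ℝ φ y (EuclideanSpace.single i 1) := by
      intro y
      simp only [ev, sub_mul, Finset.sum_mul]
      congr 1
      · refine Finset.sum_congr rfl fun q hq => ?_
        rw [hpp y q hq]; ring
      · refine Finset.sum_congr rfl fun q hq => ?_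
        rw [hpm y q hq]; ring
    rw [integral_congr_ae (Eventually.of_forall e2)] at e1
    rw [← e1]
    exact hBV (g j) (hg1 j).1 (hg1 j).2 φ hφ hφc i
  obtain ⟨N, hNm, hN0, hNg, hNl⟩ := exists_null (fun j => ev up um (g j))
    (fun j => (hev (hgm j) (hg1 j).2).2.1) m hbv
  let Gd : ℕ → Set (E k) := fun L => Nᶜ ∩ {x | Growth m (L : ℝ) x}
  have hin : Input p up um Gd (Ck k) :=
    { proj_p := hpp
      proj_m := hpm
      meas_p := hmp
      meas_m := hmm
      disj := hdis
      meas_G := fun L => hNm.compl.inter (isClosed_growth m _).measurableSet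
      lip := by
        intro L x hx x' hx' f hf hfb
        refine lip_of_dense hgd (fun j => ?_) ⟨hf, hfb⟩
        exact hNl x hx.1 x' hx'.1 L hx.2 hx'.2 j }
  obtain ⟨H, yn, th, c1, c2, c3, c4, c5, c6, c7, c8, c9, c10, c11⟩ := pieces hin
  have hgoodae : ∀ᵐ y ∂(volume : Measure (E k)), y ∈ ⋃ L, Gd L := by
    have : ∀ᵐ y ∂(volume : Measure (E k)), y ∉ N := by
      rw [ae_iff]; simpa using hN0
    filter_upwards [this] with y hy
    obtain ⟨L, hL⟩ := hNg y hy
    exact mem_iUnion.mpr ⟨L, hy, hL⟩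
  -- pointwise reindexing
  have key : ∀ {M : Type} [AddCommMonoid M] [TopologicalSpace M] (y : E k), y ∈ ⋃ L, Gd L →
      ∀ G : X → M, HasSum (fun n => if y ∈ H n then G (yn n y) else 0)
        (∑ q ∈ (tot up um y).support, G q) := by
    intro M _ _ y hy G
    refine hasSum_atoms (P := fun n => y ∈ H n) (y := fun n => yn n y) ?_ ?_ G
    · intro n hn
      exact mem_tot_support.mpr (c7 n y hn)
    · intro q hq
      exact c11 y hy q (mem_tot_support.mp hq)
  have hthabs : ∀ n, ∀ y ∈ H n, ‖(th n y : ℝ)‖ₑ = (tot up um y (yn n y) : ℝ≥0∞) := by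
    intro n y hy
    rw [c8 n y hy, tot, Finsupp.add_apply]
    rcases c7 n y hy with hq | hq
    · have h0 : um y (yn n y) = 0 := by
        simpa using Finset.disjoint_left.mp (hdis y) hq
      rw [h0]
      simp only [Nat.cast_zero, sub_zero, Int.cast_natCast, add_zero]
      rw [← ofReal_norm, Real.norm_of_nonneg (Nat.cast_nonneg _), ENNReal.ofReal_natCast]
    · have h0 : up y (yn n y) = 0 := by
        simpa using Finset.disjoint_right.mp (hdis y) hq
      rw [h0]
      simp only [Nat.cast_zero, zero_sub, Int.cast_neg, Int.cast_natCast, zero_add]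
      rw [← ofReal_norm, norm_neg, Real.norm_of_nonneg (Nat.cast_nonneg _),
        ENNReal.ofReal_natCast]
  have hlint : ∀ F : X → ℝ≥0∞, Measurable F → ∫⁻ q, F q * ‖lam q‖ₑ ∂μ =
      ∑' n, ∫⁻ y in H n, F (yn n y) * ‖(th n y : ℝ)‖ₑ := by
    intro F hF
    rw [lintegral_tot hlm hmp hmm h1 h2 hF]
    have e1 : ∀ᵐ y ∂(volume : Measure (E k)), ∫⁻ q, F q ∂(dsum (tot up um y)) =
        ∑' n, (H n).indicator (fun y => F (yn n y) * ‖(th n y : ℝ)‖ₑ) y := by
      filter_upwards [hgoodae] with y hy
      rw [lintegral_dsum _ hF, ← (key y hy fun q => F q * (tot up um y q : ℝ≥0∞)).tsum_eq]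
      refine tsum_congr fun n => ?_
      by_cases hyn : y ∈ H n
      · rw [if_pos hyn, indicator_of_mem hyn, hthabs n y hyn]
      · rw [if_neg hyn, indicator_of_notMem hyn]
    rw [lintegral_congr_ae e1, lintegral_tsum]
    · refine tsum_congr fun n => ?_
      rw [lintegral_indicator (c1 n)]
    · intro n
      refine (Measurable.indicator ?_ (c1 n)).aemeasurable
      exact (hF.comp (c3 n)).mul
        ((measurable_from_top (f := fun z : ℤ => (z : ℝ))).comp (c6 n)).enorm
  refine ⟨H, yn, th, c1, c2, c3, c4, c5, c6, c9, c10, ?_, hlint, ?_⟩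
  · intro n
    have : yn n '' H n = {q | p q ∈ H n ∧ yn n (p q) = q} := by
      ext q
      constructor
      · rintro ⟨y, hy, rfl⟩
        refine ⟨?_, ?_⟩
        · rw [c5 n y hy]; exact hy
        · rw [c5 n y hy]
      · rintro ⟨h3, h4⟩
        exact ⟨p q, h3, h4⟩
    rw [this]
    exact (hp (c1 n)).inter (measurableSet_eq_fun ((c3 n).comp hp) measurable_id)
  · rintro F hF ⟨C, hC⟩
    have hthm : ∀ n, Measurable fun y => (th n y : ℝ) := fun n =>
      (measurable_from_top (f := fun z : ℤ => (z : ℝ))).comp (c6 n)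
    have hfm : ∀ n, Measurable fun y => F (yn n y) * (th n y : ℝ) := fun n =>
      (hF.comp (c3 n)).mul (hthm n)
    have htot : ∑' n, ∫⁻ y in H n, ‖F (yn n y) * (th n y : ℝ)‖ₑ ≠ ∞ := by
      have e1 := hlint (fun q => ‖F q‖ₑ) hF.enorm
      have e2 : ∑' n, ∫⁻ y in H n, ‖F (yn n y) * (th n y : ℝ)‖ₑ
          = ∑' n, ∫⁻ y in H n, ‖F (yn n y)‖ₑ * ‖(th n y : ℝ)‖ₑ := by
        refine tsum_congr fun n => lintegral_congr fun y => ?_
        rw [enorm_mul]
      rw [e2, ← e1]
      have e3 : ∫⁻ q, ‖F q‖ₑ * ‖lam q‖ₑ ∂μ ≤ ∫⁻ q, ENNReal.ofReal C * ‖lam q‖ₑ ∂μ := by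
        refine lintegral_mono fun q => ?_
        gcongr
        rw [← ofReal_norm, Real.norm_eq_abs]
        exact ENNReal.ofReal_le_ofReal (hC q)
      refine ne_top_of_le_ne_top ?_ e3
      rw [lintegral_const_mul _ hlm.enorm]
      exact ENNReal.mul_ne_top ENNReal.ofReal_ne_top hli.2.ne
    have hn : ∀ n, ∫⁻ y in H n, ‖F (yn n y) * (th n y : ℝ)‖ₑ ≠ ∞ := fun n =>
      ENNReal.ne_top_of_tsum_ne_top htot n
    have hion : ∀ n, IntegrableOn (fun y => F (yn n y) * (th n y : ℝ)) (H n) := fun n =>
      ⟨(hfm n).aestronglyMeasurable, (hn n).lt_top⟩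
    have habs : ∀ n, ∫ y in H n, |F (yn n y) * (th n y : ℝ)| =
        (∫⁻ y in H n, ‖F (yn n y) * (th n y : ℝ)‖ₑ).toReal := by
      intro n
      rw [← integral_norm_eq_lintegral_enorm (hfm n).aestronglyMeasurable]
      rfl
    have hsummable : Summable (fun n => ∫ y in H n, |F (yn n y) * (th n y : ℝ)|) := by
      simp_rw [habs]
      exact ENNReal.summable_toReal htot
    refine ⟨hion, hsummable, ?_⟩
    have e0 := (hev hF hC).2.2
    rw [e0]
    have hF' : ∀ n, Integrable ((H n).indicator fun y => F (yn n y) * (th n y : ℝ)) volume :=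
      fun n => (integrable_indicator_iff (c1 n)).mpr (hion n)
    have hsum' : Summable fun n => ∫ y, ‖(H n).indicator
        (fun y => F (yn n y) * (th n y : ℝ)) y‖ := by
      refine hsummable.congr fun n => ?_
      rw [← integral_indicator (c1 n)]
      refine integral_congr_ae (Eventually.of_forall fun y => ?_)
      by_cases hy : y ∈ H n
      · simp [hy]
      · simp [hy]
    have hhs := hasSum_integral_of_summable_integral_norm hF' hsum'
    have e2 : ∀ᵐ y ∂(volume : Measure (E k)), ∑' n, (H n).indicator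
        (fun y => F (yn n y) * (th n y : ℝ)) y = ev up um F y := by
      filter_upwards [hgoodae] with y hy
      have e3 : ev up um F y = ∑ q ∈ (tot up um y).support,
          F q * ((up y q : ℝ) - (um y q : ℝ)) := by
        have hsub1 : (up y).support ⊆ (tot up um y).support := fun q hq =>
          mem_tot_support.mpr (Or.inl hq)
        have hsub2 : (um y).support ⊆ (tot up um y).support := fun q hq =>
          mem_tot_support.mpr (Or.inr hq)
        rw [ev, Finset.sum_subset hsub1, Finset.sum_subset hsub2, ← Finset.sum_sub_distrib]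
        · exact Finset.sum_congr rfl fun q _ => by ring
        · intro q _ hq
          have : um y q = 0 := by simpa using hq
          rw [this]; simp
        · intro q _ hq
          have : up y q = 0 := by simpa using hq
          rw [this]; simp
      rw [e3, ← (key y hy fun q => F q * ((up y q : ℝ) - (um y q : ℝ))).tsum_eq]
      refine tsum_congr fun n => ?_
      by_cases hyn : y ∈ H n
      · rw [if_pos hyn, indicator_of_mem hyn, c8 n y hyn]
        push_cast
        rfl
      · rw [if_neg hyn, indicator_of_notMem hyn]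
    rw [integral_congr_ae e2] at hhs
    have e4 : (fun n => ∫ y in H n, F (yn n y) * (th n y : ℝ)) =
        fun n => ∫ y, (H n).indicator (fun y => F (yn n y) * (th n y : ℝ)) y := by
      funext n
      rw [integral_indicator (c1 n)]
    rw [e4]
    exact hhs

end Final

end Crest.Agent.R241.B7e2
end

-- ▼ part R241/B7e3
section

/-!
# R241, block B7e, part 3 (helper734): the form consumed by B7f/B7g.
-/

set_option autoImplicit false

open MeasureTheory Set Filter Topology ProbabilityTheory
open scoped ENNReal NNReal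

universe u

namespace Crest.Agent.R241.B7e3

open Crest.Agent.R241.B7e2 Crest.Agent.R241.B7ZD
open Crest.GeometryTopology.Submanifold (Euc)

/-- From helper191's `ZD` to `IntDens`. -/
lemma intDens_of_ZD {X : Type u} [MeasurableSpace X] {k : ℕ} {μ : Measure X} {p : X → Euc k}
    {g : X → ℝ}
    (hZ : ∀ B : Set X, MeasurableSet B → ZD μ p (B.indicator g)) :
    IntDens (volume : Measure (Euc k)) μ g p := by
  intro B hB
  obtain ⟨u, ⟨hui, huD⟩, hu⟩ := hZ B hB
  set v := hui.aestronglyMeasurable.mk u with hv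
  have hvm : Measurable v := hui.aestronglyMeasurable.stronglyMeasurable_mk.measurable
  have huv : u =ᵐ[volume] v := hui.aestronglyMeasurable.ae_eq_mk
  have hθ : u =ᵐ[volume] fun y => ((⌊v y⌋ : ℤ) : ℝ) := by
    filter_upwards [huv, hu] with y hy hn
    obtain ⟨n, hn⟩ := hn
    rw [← hy, hn, Int.floor_intCast]
  refine ⟨fun y => ⌊v y⌋, Int.measurable_floor.comp hvm, hui.congr hθ, fun A hA => ?_⟩
  have h1 := huD A hA
  rw [setIntegral_indicator hB] at h1
  rw [inter_comm, h1]
  exact integral_congr_ae (ae_restrict_of_ae hθ)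

/-- **B7e**, as consumed by B7f/B7g. -/
theorem pieces_ZD {k : ℕ} {X : Type u} [MetricSpace X] [CompleteSpace X]
    [SecondCountableTopology X] [MeasurableSpace X] [BorelSpace X] [Nonempty X]
    (μ : Measure X) [IsFiniteMeasure μ] {g : X → ℝ} (hgm : Measurable g)
    (hgi : Integrable g μ) {p : X → Euc k} (hp : Measurable p)
    (hZ : ∀ B : Set X, MeasurableSet B → ZD μ p (B.indicator g))
    (m : Measure (Euc k)) [IsFiniteMeasure m]
    (hBV : ∀ φ : X → ℝ, LipschitzWith 1 φ → (∀ y, |φ y| ≤ 1) → ∀ ψ : Euc k → ℝ,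
      ContDiff ℝ (⊤ : ℕ∞) ψ → HasCompactSupport ψ → ∀ i : Fin k,
      |∫ y, φ y * fderiv ℝ ψ (p y) (EuclideanSpace.single i 1) * g y ∂μ| ≤ ∫ x, |ψ x| ∂m) :
    ∃ (H : ℕ → Set (Euc k)) (yn : ℕ → Euc k → X) (th : ℕ → Euc k → ℤ),
      (∀ n, MeasurableSet (H n)) ∧ (∀ n, Bornology.IsBounded (H n)) ∧
      (∀ n, Measurable (yn n)) ∧ (∀ n, ∃ L : ℝ≥0, LipschitzOnWith L (yn n) (H n)) ∧
      (∀ n, ∀ y ∈ H n, p (yn n y) = y) ∧
      (∀ n, Measurable (th n)) ∧ (∀ n, ∀ y ∈ H n, th n y ≠ 0) ∧
      (∀ n k, n ≠ k → Disjoint (yn n '' H n) (yn k '' H k)) ∧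
      (∀ n, MeasurableSet (yn n '' H n)) ∧
      (∀ F : X → ℝ≥0∞, Measurable F → ∫⁻ q, F q * ‖g q‖ₑ ∂μ =
        ∑' n, ∫⁻ y in H n, F (yn n y) * ‖(th n y : ℝ)‖ₑ) ∧
      (∀ n, IntegrableOn (fun y => (th n y : ℝ)) (H n)) ∧
      Summable (fun n => ∫ y in H n, |(th n y : ℝ)|) ∧
      (∀ F : X → ℝ, Measurable F → (∃ C, ∀ q, |F q| ≤ C) →
        (∀ n, IntegrableOn (fun y => F (yn n y) * (th n y : ℝ)) (H n)) ∧
        Summable (fun n => ∫ y in H n, |F (yn n y) * (th n y : ℝ)|) ∧
        HasSum (fun n => ∫ y in H n, F (yn n y) * (th n y : ℝ)) (∫ q, F q * g q ∂μ)) ∧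
      (∀ᵐ q ∂μ, g q ≠ 0 → q ∈ ⋃ n, yn n '' H n) ∧
      (∀ n, ∀ F : X → ℝ, Measurable F → (∃ C, ∀ q, |F q| ≤ C) →
        ∫ q in yn n '' H n, F q * g q ∂μ = ∫ y in H n, F (yn n y) * (th n y : ℝ)) := by
  obtain ⟨H, yn, th, c1, c2, c3, c4, c5, c6, c7, c8, c9, c10, c11⟩ :=
    pieces_of_int μ hgm hgi hp (intDens_of_ZD hZ) m
      (fun φ h1 h2 ψ h3 h4 i => hBV φ h1 h2 ψ h3 h4 i)
  have hone := c11 (fun _ => 1) measurable_const ⟨1, fun q => by simp⟩
  simp only [one_mul] at hone
  refine ⟨H, yn, th, c1, c2, c3, c4, c5, c6, c7, c8, c9, c10, hone.1, hone.2.1, c11, ?_, ?_⟩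
  · set U : Set X := ⋃ n, yn n '' H n with hU
    have hUm : MeasurableSet U := MeasurableSet.iUnion c9
    have e1 := c10 (Uᶜ.indicator fun _ => 1) (measurable_const.indicator hUm.compl)
    have e2 : ∑' n, ∫⁻ y in H n, (Uᶜ.indicator (fun _ => (1 : ℝ≥0∞)) (yn n y)) *
        ‖(th n y : ℝ)‖ₑ = 0 := by
      rw [ENNReal.tsum_eq_zero]
      intro n
      rw [← lintegral_zero (μ := volume.restrict (H n))]
      refine setLIntegral_congr_fun (c1 n) fun y hy => ?_
      have : yn n y ∉ Uᶜ := by
        simp only [mem_compl_iff, not_not]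
        exact mem_iUnion.mpr ⟨n, y, hy, rfl⟩
      simp only [indicator_of_notMem this, zero_mul]
    rw [e2] at e1
    have hmm : Measurable fun q => Uᶜ.indicator (fun _ => (1 : ℝ≥0∞)) q * ‖g q‖ₑ :=
      (measurable_const.indicator hUm.compl).mul hgm.enorm
    have e3 := (lintegral_eq_zero_iff hmm).mp e1
    filter_upwards [e3] with q hq hg0
    by_contra hqU
    have hmem : q ∈ Uᶜ := hqU
    simp only [Pi.zero_apply, indicator_of_mem hmem, one_mul] at hq
    exact hg0 (by simpa using hq)
  · intro n F hF hFb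
    obtain ⟨C, hC⟩ := hFb
    have hIm := c9 n
    have hF' : Measurable ((yn n '' H n).indicator F) := hF.indicator hIm
    have hb' : ∀ q, |(yn n '' H n).indicator F q| ≤ C := by
      intro q
      by_cases hq : q ∈ yn n '' H n
      · rw [indicator_of_mem hq]; exact hC q
      · rw [indicator_of_notMem hq, abs_zero]
        exact (abs_nonneg _).trans (hC q)
    have h1 := (c11 _ hF' ⟨C, hb'⟩).2.2
    have h2 : (fun j => ∫ y in H j, (yn n '' H n).indicator F (yn j y) * (th j y : ℝ)) =
        fun j => if j = n then ∫ y in H n, F (yn n y) * (th n y : ℝ) else 0 := by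
      funext j
      by_cases hj : j = n
      · subst hj
        rw [if_pos rfl]
        refine setIntegral_congr_fun (c1 j) fun y hy => ?_
        have : yn j y ∈ yn j '' H j := ⟨y, hy, rfl⟩
        simp only [indicator_of_mem this]
      · rw [if_neg hj, ← integral_zero (Euc k) ℝ (μ := volume.restrict (H j))]
        refine setIntegral_congr_fun (c1 j) fun y hy => ?_
        have : yn j y ∉ yn n '' H n := fun hc =>
          disjoint_left.mp (c8 j n hj) ⟨y, hy, rfl⟩ hc
        simp only [indicator_of_notMem this, zero_mul]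
    rw [h2] at h1
    have h3 := h1.unique (hasSum_ite_eq n _)
    rw [← h3, ← integral_indicator hIm]
    refine integral_congr_ae (Eventually.of_forall fun q => ?_)
    by_cases hq : q ∈ yn n '' H n
    · simp [hq]
    · simp [hq]

end Crest.Agent.R241.B7e3
end

-- ▼ part R241/B7g

/-!
R241, block B7g: identification of a metric current on the rectifiable pieces, assembly, and the
boundary rectifiability theorem.  Owner: helper191.
-/

set_option autoImplicit false

open MeasureTheory Filter Topology Set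
open scoped ENNReal NNReal

universe u

namespace Crest.Agent.R241.B7g

open Crest.GeometryTopology.Submanifold (Euc)
open Crest.GeometryTopology.MetricCurrent
open Crest.Agent.R241.G1 Crest.Agent.R241.B7a Crest.Agent.R241.B7BV Crest.Agent.R241.B7f
open Crest.Agent.R241.B7ZD

variable {X : Type u} [MetricSpace X] [MeasurableSpace X] [BorelSpace X] {k : ℕ}

/-- the density does not charge null fibres -/
def NoNull (T : Functional X k) (π : Fin k → X → ℝ) : Prop :=
  ∀ A : Set (Euc k), MeasurableSet A → volume A = 0 →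
    ∀ᵐ x ∂(ctrl T), tup π x ∈ A → dens T π x = 0

theorem noNull_of_zd {T : Functional X k} {π : Fin k → X → ℝ} (hπ : LipT π)
    (hZ : ∀ B : Set X, MeasurableSet B → ZD (ctrl T) (tup π) (B.indicator (dens T π))) :
    NoNull T π := by
  intro A hA hA0
  have hpm : Measurable (tup π) := measurable_tup hπ
  have hd := bm_dens T π
  have hint : Integrable (dens T π) (ctrl T) := hd.integrable _
  have h1 : ∀ B : Set X, MeasurableSet B → ∫ x in B, (tup π ⁻¹' A).indicator (dens T π) x ∂(ctrl T)
      = 0 := by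
    intro B hB
    obtain ⟨u, hu, -⟩ := hZ B hB
    have h2 := hu.2 A hA
    rw [Measure.restrict_eq_zero.2 hA0, integral_zero_measure] at h2
    rw [setIntegral_indicator (hpm hA), ← h2, setIntegral_indicator hB, inter_comm]
  have h3 : (tup π ⁻¹' A).indicator (dens T π) =ᵐ[ctrl T] 0 := by
    refine Integrable.ae_eq_zero_of_forall_setIntegral_eq_zero (hint.indicator (hpm hA)) ?_
    intro B hB _
    exact h1 B hB
  filter_upwards [h3] with x hx hxA
  have : x ∈ tup π ⁻¹' A := hxA
  simpa [indicator_of_mem this] using hx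

/-- **B7f.**  Identification of `T` on a piece. -/
theorem ext_piece {T : Functional X k} (hT : IsCurrent T) {σ : Fin k → X → ℝ} (hσ : LipT σ)
    (hN : NoNull T σ) {H : Set (Euc k)} (hH : MeasurableSet H) {y : Euc k → X}
    (hyL : ∃ L : ℝ≥0, LipschitzOnWith L y H) (hp : ∀ z ∈ H, tup σ (y z) = z)
    (hI : MeasurableSet (y '' H)) {th : Euc k → ℤ}
    (hloc : ∀ F : X → ℝ, BM F → ∫ q in y '' H, F q * dens T σ q ∂(ctrl T)
      = ∫ z in H, F (y z) * (th z : ℝ))
    {ω : Fin k → X → ℝ} (hω : LipT ω) {f : X → ℝ} (hf : BM f) :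
    ext T ((y '' H).indicator f) ω = ∫ z in H, (th z : ℝ) * f (y z) *
      (Matrix.of fun i j =>
        fderivWithin ℝ (fun w => ω i (y w)) H z (EuclideanSpace.single j 1)).det := by
  obtain ⟨L, hL⟩ := hyL
  choose K hK using hω
  have hω : LipT ω := fun i => ⟨_, hK i⟩
  obtain ⟨F, hF1, hF2⟩ := B1Cur.exists_ext_family hL hK
  set K' : ℝ≥0 := ∑ i, K i * L with hK'
  have hFK : ∀ i, LipschitzWith K' (F i) := fun i => (hF1 i).weaken
    (Finset.single_le_sum (f := fun i => K i * L) (fun i _ => zero_le) (Finset.mem_univ i))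
  obtain ⟨Lt, hLt⟩ := lipschitz_tup hσ
  have e1 : ext T ((y '' H).indicator f) ω
      = ext T ((y '' H).indicator f) (fun i x => F i (tup σ x)) := by
    refine ext_congr_coord hT (hf.indicator hI) hω (fun i => ⟨_, (hFK i).comp hLt⟩) ?_
    intro i x hx
    have hxI : x ∈ y '' H := by
      by_contra hc
      exact hx (indicator_of_notMem hc f)
    obtain ⟨z, hz, rfl⟩ := hxI
    rw [hp z hz]
    exact hF2 i hz
  rw [e1, ext_chain_lip hT hσ hN hFK (hf.indicator hI)]
  have e2 : ∫ x, (y '' H).indicator f x * jdet F (tup σ x) * dens T σ x ∂(ctrl T)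
      = ∫ x in y '' H, (f x * jdet F (tup σ x)) * dens T σ x ∂(ctrl T) := by
    rw [← integral_indicator hI]
    congr 1
    funext x
    by_cases hx : x ∈ y '' H
    · simp [hx]
    · simp [hx]
  have e4 := hloc _ (hf.mul (bm_jdet_tup hFK hσ))
  simp only [Pi.mul_apply] at e4
  rw [e2, e4]
  have hjac := B1Cur.ae_jac_eq (φ := y) (π := ω) hH (fun i => ⟨_, hFK i⟩) hF2
  refine integral_congr_ae ?_
  filter_upwards [hjac, ae_restrict_mem hH] with z hz hzH
  have e3 : (Matrix.of fun i j =>
      fderivWithin ℝ (fun w => ω i (y w)) H z (EuclideanSpace.single j 1)).det = jdet F z := hz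
  rw [e3, hp z hzH]
  ring

/-- **Assembly.** -/
theorem rect_of_pieces [TopologicalSpace.SeparableSpace X] {T : Functional X k}
    (hT : IsCurrent T) {H : ℕ → Set (Euc k)} {y : ℕ → Euc k → X} {th : ℕ → Euc k → ℤ}
    {σ : ℕ → Fin k → X → ℝ} (hσ : ∀ j, LipT (σ j)) (hN : ∀ j, NoNull T (σ j))
    (hH : ∀ j, MeasurableSet (H j)) (hb : ∀ j, Bornology.IsBounded (H j))
    (hy : ∀ j, Measurable (y j)) (hyL : ∀ j, ∃ L : ℝ≥0, LipschitzOnWith L (y j) (H j))
    (hp : ∀ j, ∀ z ∈ H j, tup (σ j) (y j z) = z)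
    (hI : ∀ j, MeasurableSet (y j '' H j))
    (hth : ∀ j, IntegrableOn (fun z => (th j z : ℝ)) (H j))
    (hloc : ∀ j, ∀ F : X → ℝ, BM F → ∫ q in y j '' H j, F q * dens T (σ j) q ∂(ctrl T)
      = ∫ z in H j, F (y j z) * (th j z : ℝ))
    (hcov : ∀ c : Fin k → HIdx X, ∀ᵐ x ∂(ctrl T), x ∉ ⋃ j, y j '' H j → dens T (htup c) x = 0) :
    IsIntegerRectifiable T := by
  classical
  -- disjoint pieces
  set P : ℕ → Set X := disjointed fun j => y j '' H j with hP
  have hPm : ∀ j, MeasurableSet (P j) := fun j => MeasurableSet.disjointed hI j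
  have hPsub : ∀ j, P j ⊆ y j '' H j := fun j => disjointed_subset _ j
  have hPd : Pairwise (Function.onFun Disjoint P) := disjoint_disjointed _
  have hPU : ⋃ j, P j = ⋃ j, y j '' H j := iUnion_disjointed
  set E : ℕ → Set (Euc k) := fun j => H j ∩ y j ⁻¹' P j with hE
  have hEm : ∀ j, MeasurableSet (E j) := fun j => (hH j).inter (hy j (hPm j))
  have hEH : ∀ j, E j ⊆ H j := fun j => inter_subset_left
  have himg : ∀ j, y j '' E j = P j := by
    intro j
    ext x
    constructor
    · rintro ⟨z, hz, rfl⟩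
      exact hz.2
    · intro hx
      obtain ⟨z, hz, rfl⟩ := hPsub j hx
      exact ⟨z, ⟨hz, hx⟩, rfl⟩
  have hpE : ∀ j, ∀ z ∈ E j, tup (σ j) (y j z) = z := fun j z hz => hp j z (hEH j hz)
  have hyLE : ∀ j, ∃ L : ℝ≥0, LipschitzOnWith L (y j) (E j) := fun j => by
    obtain ⟨L, hL⟩ := hyL j
    exact ⟨L, hL.mono (hEH j)⟩
  have hIE : ∀ j, MeasurableSet (y j '' E j) := fun j => by rw [himg]; exact hPm j
  have hthE : ∀ j, IntegrableOn (fun z => (th j z : ℝ)) (E j) := fun j => (hth j).mono_set (hEH j)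
  have hlocE : ∀ j, ∀ F : X → ℝ, BM F → ∫ q in y j '' E j, F q * dens T (σ j) q ∂(ctrl T)
      = ∫ z in E j, F (y j z) * (th j z : ℝ) := by
    intro j F hF
    have h1 := hloc j _ (hF.indicator (hPm j))
    have h2 : ∫ q in y j '' H j, (P j).indicator F q * dens T (σ j) q ∂(ctrl T)
        = ∫ q in y j '' E j, F q * dens T (σ j) q ∂(ctrl T) := by
      rw [himg, ← integral_indicator (hI j), ← integral_indicator (hPm j)]
      congr 1
      funext x
      by_cases hx : x ∈ P j
      · simp [hx, hPsub j hx]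
      · simp [hx, indicator]
    have h3 : ∫ z in H j, (P j).indicator F (y j z) * (th j z : ℝ)
        = ∫ z in E j, F (y j z) * (th j z : ℝ) := by
      rw [← integral_indicator (hH j), ← integral_indicator (hEm j)]
      congr 1
      funext z
      by_cases hz : z ∈ H j
      · by_cases hz' : y j z ∈ P j
        · have : z ∈ E j := ⟨hz, hz'⟩
          simp [hz, hz', this]
        · have : z ∉ E j := fun h => hz' h.2
          simp [hz', this, indicator]
      · have : z ∉ E j := fun h => hz h.1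
        simp [hz, this]
    rw [← h2, ← h3, h1]
  -- identification
  have hid : ∀ j, ∀ f π, IsTestPair f π →
      chartAction (E j) (y j) (th j) f π = ext T ((P j).indicator f) π := by
    intro j f π hfπ
    obtain ⟨hf, hπ⟩ := isTestPair_iff.1 hfπ
    have h := ext_piece hT (hσ j) (hN j) (hEm j) (hyLE j) (hpE j) (hIE j) (hlocE j) hπ hf.bm
    rw [himg] at h
    rw [h]
    unfold chartAction
    rw [if_pos hfπ]
  have hcur : ∀ j, IsCurrent (chartAction (E j) (y j) (th j)) := by
    intro j
    obtain ⟨L, hL⟩ := hyLE j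
    exact B1Cur.isCurrent_chartAction (hEm j) hL (hthE j)
  have hfinM : IsFiniteMeasure (massM T) := isFiniteMeasure_massM hT
  have hctl : ∀ j, Controls (chartAction (E j) (y j) (th j)) ((massM T).restrict (P j)) := by
    intro j f π hfπ hπ
    obtain ⟨hf, hπ'⟩ := isTestPair_iff.1 hfπ
    rw [hid j f π hfπ]
    have h1 := abs_ext_le_massM hT (hf.bm.indicator (hPm j)) hπ
    refine h1.trans (le_of_eq ?_)
    rw [← integral_indicator (hPm j)]
    simp only [NNReal.coe_one, Finset.prod_const_one, one_mul]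
    congr 1
    funext x
    by_cases hx : x ∈ P j
    · simp [hx]
    · simp [hx]
  have hmass : ∀ j, mass (chartAction (E j) (y j) (th j)) ≤ (massM T).real (P j) := by
    intro j
    rw [mass_eq (hcur j)]
    have h1 := massM_le (hcur j) (hctl j)
    have h2 := h1 univ
    rw [Measure.restrict_apply_univ] at h2
    exact ENNReal.toReal_mono (measure_ne_top _ _) h2
  -- the rest has no mass
  set U : Set X := ⋃ j, P j with hU
  have hUm : MeasurableSet U := MeasurableSet.iUnion hPm
  have hnull : massM T Uᶜ = 0 := by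
    refine massM_eq_zero_of hT hUm.compl fun c f hf => ?_
    unfold G1.ext
    have : (fun x => Uᶜ.indicator f x * dens T (htup c) x) =ᵐ[ctrl T] 0 := by
      filter_upwards [hcov c] with x hx
      by_cases hxU : x ∈ U
      · simp [hxU]
      · rw [hPU] at hxU
        simp [hx hxU]
    rw [integral_congr_ae this]
    simp
  refine ⟨E, y, th, fun j => ⟨hEm j, (hb j).subset (hEH j)⟩, hyLE, ?_, hthE, ?_, hcur, ?_, ?_⟩
  · intro j
    obtain ⟨L, hL⟩ := lipschitz_tup (hσ j)
    refine ⟨L, fun z hz w hw => ?_⟩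
    have := hL.dist_le_mul (y j z) (y j w)
    rwa [hpE j z hz, hpE j w hw] at this
  · intro i j hij
    rw [himg, himg]
    exact hPd hij
  · refine Summable.of_nonneg_of_le (fun j => mass_nonneg _) hmass ?_
    have h1 : ∑' j, massM T (P j) ≠ ∞ := by
      rw [← measure_iUnion hPd hPm]
      exact measure_ne_top _ _
    exact ENNReal.summable_toReal h1
  · intro f π hfπ
    obtain ⟨hf, hπ⟩ := isTestPair_iff.1 hfπ
    simp only [hid _ f π hfπ]
    rw [← ext_eq hT hπ hf]
    have hsplit : f = U.indicator f + Uᶜ.indicator f := (indicator_self_add_compl U f).symm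
    have h1 : ext T f π = ext T (U.indicator f) π := by
      conv_lhs => rw [hsplit]
      rw [ext_add (hf.bm.indicator hUm) (hf.bm.indicator hUm.compl),
        ext_indicator_eq_zero_of_massM hT hnull hf.bm hUm.compl hπ, add_zero]
    rw [h1]
    have hint : IntegrableOn (fun x => f x * dens T π x) (⋃ j, P j) (ctrl T) :=
      (integrable_mul_dens hf.bm π).integrableOn
    have h2 := hasSum_integral_iUnion hPm hPd hint
    have h3 : ∀ A : Set X, MeasurableSet A →
        ∫ x in A, f x * dens T π x ∂(ctrl T) = ext T (A.indicator f) π := by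
      intro A hA
      unfold G1.ext
      rw [← integral_indicator hA]
      congr 1
      funext x
      by_cases hx : x ∈ A
      · simp [hx]
      · simp [hx]
    rw [h3 _ (MeasurableSet.iUnion hPm)] at h2
    simp only [h3 _ (hPm _)] at h2
    exact h2.tsum_eq.symm

/-- **Boundary rectifiability**, abstract form: a cycle with integer projections. -/
theorem rect_of_cycle [CompleteSpace X] [SecondCountableTopology X] [Nonempty X]
    {T : Functional X (k + 1)} (hT : IsCurrent T) (hcyc : IsCyc T)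
    (hZ : ∀ π : Fin (k + 1) → X → ℝ, LipT π → ∀ B : Set X, MeasurableSet B →
      ZD (ctrl T) (tup π) (B.indicator (dens T π))) : IsIntegerRectifiable T := by
  choose m hm hBV using fun c : Fin (k + 1) → HIdx X => bv_bound hT hcyc (lipT_htup c)
  choose H y th c1 c2 c3 c4 c5 c6 c7 c8 c9 c10 c11 c12 c13 c14 c15 using
    fun c : Fin (k + 1) → HIdx X =>
      B7e3.pieces_ZD (ctrl T) (bm_dens T (htup c)).1 (integrable_dens T (htup c))
        (measurable_tup (lipT_htup c)) (hZ _ (lipT_htup c)) (m c) (hBV c)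
  have hne : Nonempty (HIdx X) := by
    obtain ⟨l, -⟩ := exists_seq_hfun (X := X) (p := fun _ => 0)
      ((LipschitzWith.const 0).weaken zero_le_one)
    exact ⟨l 0⟩
  obtain ⟨e, he⟩ := exists_surjective_nat ((Fin (k + 1) → HIdx X) × ℕ)
  refine rect_of_pieces hT (H := fun j => H (e j).1 (e j).2) (y := fun j => y (e j).1 (e j).2)
    (th := fun j => th (e j).1 (e j).2) (σ := fun j => htup (e j).1)
    (fun j => lipT_htup _) (fun j => noNull_of_zd (lipT_htup _) (hZ _ (lipT_htup _)))
    (fun j => c1 _ _) (fun j => c2 _ _) (fun j => c3 _ _) (fun j => c4 _ _) (fun j => c5 _ _)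
    (fun j => c9 _ _) (fun j => c11 _ _) (fun j F hF => c15 _ _ F hF.1 hF.2) ?_
  intro c
  filter_upwards [c14 c] with x hx hxU
  by_contra hne0
  obtain ⟨n, hn⟩ := mem_iUnion.1 (hx hne0)
  obtain ⟨j, hj⟩ := he (c, n)
  refine hxU (mem_iUnion.2 ⟨j, ?_⟩)
  rw [hj]
  exact hn

/-- **Boundary rectifiability.** -/
theorem rect_bd [CompleteSpace X] [SecondCountableTopology X] [Nonempty X]
    {S : Functional X (k + 2)} (hS : IsCurrent S) (hR : IsIntegerRectifiable S)
    (hb : IsCurrent (bd S)) : IsIntegerRectifiable (bd S) :=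
  rect_of_cycle hb (isCyc_bd hS) fun _ hπ _ hB =>
    zd_bd hS hb (leib hS) (fun _ hσ => B7Int.zd_of_rect hS hR hσ) hπ hB

end Crest.Agent.R241.B7g
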