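import Mathlib
import Crest.Prelude.Def_MetricCurrent
import Crest.Agent.R241.Defs

-- ▼ part R241/Cat1
section

/-!
# R241, block CAT, file 1

Metric geometry of the space class `CATk k X` of `R241/Defs.lean`: `ofIsCATZero`, uniqueness of
geodesics, two-point comparison, convexity of the metric, convexity of balls, the quadrilateral
inequality.
-/

set_option autoImplicit false

open Set

namespace Crest.Agent.R241.Cat1

open Crest.GeometryTopology.MetricCurrent

universe u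

variable {X : Type u} [MetricSpace X]

/-- Midpoint convex + continuous implies below the chord. -/
theorem le_of_midpoint {F : ℝ → ℝ} (hF : ContinuousOn F (Icc 0 1))
    (hmid : ∀ s ∈ Icc (0 : ℝ) 1, ∀ t ∈ Icc (0 : ℝ) 1, F ((s + t) / 2) ≤ (F s + F t) / 2)
    {s : ℝ} (hs : s ∈ Icc (0 : ℝ) 1) : F s ≤ (1 - s) * F 0 + s * F 1 := by
  -- subtract the chord
  set G : ℝ → ℝ := fun s => F s - ((1 - s) * F 0 + s * F 1) with hG
  have hGc : ContinuousOn G (Icc 0 1) := by
    apply hF.sub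
    fun_prop
  have hGmid : ∀ s ∈ Icc (0 : ℝ) 1, ∀ t ∈ Icc (0 : ℝ) 1, G ((s + t) / 2) ≤ (G s + G t) / 2 := by
    intro s hs t ht
    have := hmid s hs t ht
    simp only [hG]
    linarith
  have hG0 : G 0 = 0 := by simp [hG]
  have hG1 : G 1 = 0 := by simp [hG]
  suffices h : G s ≤ 0 by
    simp only [hG] at h
    linarith
  -- maximum
  obtain ⟨a, ha, hamax⟩ := isCompact_Icc.exists_isMaxOn (nonempty_Icc.2 zero_le_one) hGc
  by_contra hcon
  push Not at hcon
  have hMpos : 0 < G a := lt_of_lt_of_le hcon (hamax hs)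
  -- the set of maximisers
  set A : Set ℝ := {t | t ∈ Icc (0 : ℝ) 1 ∧ G t = G a} with hA
  have hAcl : IsClosed A := by
    have : A = Icc (0 : ℝ) 1 ∩ G ⁻¹' {G a} := by
      ext t; simp [hA]
    rw [this]
    exact hGc.preimage_isClosed_of_isClosed isClosed_Icc isClosed_singleton
  have hAne : A.Nonempty := ⟨a, ha, rfl⟩
  have hAbdd : BddBelow A := ⟨0, fun t ht => ht.1.1⟩
  have hb := hAcl.csInf_mem hAne hAbdd
  set b := sInf A with hbdef
  obtain ⟨⟨hb0, hb1⟩, hGb⟩ := hb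
  have hb0' : 0 < b := by
    rcases hb0.lt_or_eq with h | h
    · exact h
    · rw [← h, hG0] at hGb; linarith
  have hb1' : b < 1 := by
    rcases hb1.lt_or_eq with h | h
    · exact h
    · rw [h, hG1] at hGb; linarith
  set d := min b (1 - b) with hd
  have hdpos : 0 < d := lt_min hb0' (by linarith)
  have h1 : b - d ∈ Icc (0 : ℝ) 1 := ⟨by linarith [min_le_left b (1 - b)], by linarith⟩
  have h2 : b + d ∈ Icc (0 : ℝ) 1 := ⟨by linarith, by linarith [min_le_right b (1 - b)]⟩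
  have h3 := hGmid _ h1 _ h2
  rw [show (b - d + (b + d)) / 2 = b by ring, hGb] at h3
  have h4 : G (b + d) ≤ G a := hamax h2
  have h5 : G (b - d) ≤ G a := hamax h1
  have h6 : G (b - d) = G a := by linarith
  have h7 : b ≤ b - d := csInf_le hAbdd ⟨h1, h6⟩
  linarith

/-- Points dividing a constant speed segment satisfy the Bruhat–Tits inequality. -/
theorem bruhatTits_of_segment
    (hmidp : ∀ p x y m : X, dist x m = dist x y / 2 → dist y m = dist x y / 2 →
      dist p m ^ 2 ≤ (dist p x ^ 2 + dist p y ^ 2) / 2 - dist x y ^ 2 / 4)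
    {x y : X} {γ : ℝ → X} (h0 : γ 0 = x) (h1 : γ 1 = y)
    (hγ : ∀ s ∈ Icc (0 : ℝ) 1, ∀ t ∈ Icc (0 : ℝ) 1, dist (γ s) (γ t) = |s - t| * dist x y)
    (p : X) {s : ℝ} (hs : s ∈ Icc (0 : ℝ) 1) :
    dist p (γ s) ^ 2 ≤ (1 - s) * dist p x ^ 2 + s * dist p y ^ 2 - s * (1 - s) * dist x y ^ 2 := by
  set D := dist x y with hD
  have hcont : ContinuousOn γ (Icc 0 1) := by
    have hL : LipschitzOnWith (Real.toNNReal D) γ (Icc 0 1) := by
      apply LipschitzOnWith.of_dist_le_mul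
      intro s hs t ht
      rw [hγ s hs t ht, Real.coe_toNNReal _ dist_nonneg, Real.dist_eq, mul_comm]
    exact hL.continuousOn
  have key := le_of_midpoint (F := fun s => dist p (γ s) ^ 2 - s ^ 2 * D ^ 2) ?_ ?_ hs
  · simp only [h0, h1] at key
    nlinarith [key]
  · apply ContinuousOn.sub
    · exact (((continuous_const.dist continuous_id).comp_continuousOn hcont)).pow 2
    · fun_prop
  · intro s hs t ht
    have hm : (s + t) / 2 ∈ Icc (0 : ℝ) 1 := ⟨by linarith [hs.1, ht.1], by linarith [hs.2, ht.2]⟩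
    have e1 : dist (γ s) (γ ((s + t) / 2)) = dist (γ s) (γ t) / 2 := by
      rw [hγ s hs _ hm, hγ s hs t ht, show s - (s + t) / 2 = (s - t) / 2 by ring, abs_div,
        abs_of_pos (by norm_num : (0 : ℝ) < 2)]
      ring
    have e2 : dist (γ t) (γ ((s + t) / 2)) = dist (γ s) (γ t) / 2 := by
      rw [hγ t ht _ hm, hγ s hs t ht, show t - (s + t) / 2 = -((s - t) / 2) by ring, abs_neg,
        abs_div, abs_of_pos (by norm_num : (0 : ℝ) < 2)]
      ring
    have := hmidp p (γ s) (γ t) (γ ((s + t) / 2)) e1 e2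
    rw [hγ s hs t ht, mul_pow, sq_abs] at this
    nlinarith [this]

/-- The prelude's `IsCATZero` gives the structure with `k = 0`. -/
noncomputable def ofIsCATZero {X : Type u} [MetricSpace X] (hX : IsCATZero X) : CATk 0 X where
  geo x y := Classical.choose (hX.1 x y)
  geo_zero x y := (Classical.choose_spec (hX.1 x y)).1
  geo_one x y := (Classical.choose_spec (hX.1 x y)).2.1
  dist_geo x y := (Classical.choose_spec (hX.1 x y)).2.2
  cat0 p x y _ hs := bruhatTits_of_segment hX.2 (Classical.choose_spec (hX.1 x y)).1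
    (Classical.choose_spec (hX.1 x y)).2.1 (Classical.choose_spec (hX.1 x y)).2.2 p hs
  catk p x y s _ := by simp

section

variable {k : ℝ} (C : CATk k X)

include C

theorem dist_left {x y : X} {s : ℝ} (hs : s ∈ Icc (0 : ℝ) 1) :
    dist x (C.geo x y s) = s * dist x y := by
  have := C.dist_geo x y 0 (by simp) s hs
  rw [C.geo_zero, zero_sub, abs_neg, abs_of_nonneg hs.1] at this
  exact this

theorem dist_right {x y : X} {s : ℝ} (hs : s ∈ Icc (0 : ℝ) 1) :
    dist (C.geo x y s) y = (1 - s) * dist x y := by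
  have := C.dist_geo x y s hs 1 (by simp)
  rw [C.geo_one, abs_sub_comm, abs_of_nonneg (by linarith [hs.2])] at this
  exact this

/-- Uniqueness of the point at fraction `s`. -/
theorem eq_geo {x y m : X} {s : ℝ} (hs : s ∈ Icc (0 : ℝ) 1)
    (h1 : dist x m ≤ s * dist x y) (h2 : dist m y ≤ (1 - s) * dist x y) : m = C.geo x y s := by
  have h := C.cat0 m x y s hs
  rw [dist_comm m x] at h
  have h1' : dist x m ^ 2 ≤ (s * dist x y) ^ 2 := pow_le_pow_left₀ dist_nonneg h1 2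
  have h2' : dist m y ^ 2 ≤ ((1 - s) * dist x y) ^ 2 := pow_le_pow_left₀ dist_nonneg h2 2
  have h3 : dist m (C.geo x y s) ^ 2 ≤ 0 := by
    have e1 : (1 - s) * dist x m ^ 2 ≤ (1 - s) * (s * dist x y) ^ 2 :=
      mul_le_mul_of_nonneg_left h1' (by linarith [hs.2])
    have e2 : s * dist m y ^ 2 ≤ s * ((1 - s) * dist x y) ^ 2 :=
      mul_le_mul_of_nonneg_left h2' hs.1
    nlinarith [h, e1, e2]
  have h4 : dist m (C.geo x y s) = 0 := by
    have := sq_nonneg (dist m (C.geo x y s))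
    exact pow_eq_zero_iff (two_ne_zero) |>.1 (le_antisymm h3 this)
  exact dist_eq_zero.1 h4

theorem geo_symm (x y : X) {s : ℝ} (hs : s ∈ Icc (0 : ℝ) 1) :
    C.geo x y s = C.geo y x (1 - s) := by
  have hs' : 1 - s ∈ Icc (0 : ℝ) 1 := ⟨by linarith [hs.2], by linarith [hs.1]⟩
  apply eq_geo C hs'
  · rw [dist_comm, dist_right C hs, dist_comm x y]
  · rw [dist_comm, dist_left C hs, dist_comm x y]; linarith



/-- Two-point comparison in its CAT(0) form: two points on two segments issuing from `x`. -/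
theorem two_point (x y y' : X) {s s' : ℝ} (hs : s ∈ Icc (0 : ℝ) 1) (hs' : s' ∈ Icc (0 : ℝ) 1) :
    dist (C.geo x y s) (C.geo x y' s') ^ 2 ≤
      s * s' * dist y y' ^ 2 + (s - s') * (s * dist x y ^ 2 - s' * dist x y' ^ 2) := by
  have h1 := C.cat0 (C.geo x y s) x y' s' hs'
  have h2 := C.cat0 y' x y s hs
  rw [dist_comm (C.geo x y s) x, dist_left C hs] at h1
  rw [dist_comm y' x, dist_comm y' y, dist_comm y' (C.geo x y s)] at h2
  have h3 : s' * dist (C.geo x y s) y' ^ 2 ≤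
      s' * ((1 - s) * dist x y' ^ 2 + s * dist y y' ^ 2 - s * (1 - s) * dist x y ^ 2) :=
    mul_le_mul_of_nonneg_left h2 hs'.1
  nlinarith [h1, h3]

/-- Contraction towards `x` at the same fraction. -/
theorem dist_geo_geo_left (x y y' : X) {s : ℝ} (hs : s ∈ Icc (0 : ℝ) 1) :
    dist (C.geo x y s) (C.geo x y' s) ≤ s * dist y y' := by
  have h := two_point C x y y' hs hs
  rw [sub_self, zero_mul, add_zero] at h
  have : dist (C.geo x y s) (C.geo x y' s) ^ 2 ≤ (s * dist y y') ^ 2 := by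
    rw [mul_pow]; nlinarith [h]
  exact le_of_sq_le_sq this (mul_nonneg hs.1 dist_nonneg)

theorem dist_geo_geo_right (x x' y : X) {s : ℝ} (hs : s ∈ Icc (0 : ℝ) 1) :
    dist (C.geo x y s) (C.geo x' y s) ≤ (1 - s) * dist x x' := by
  have hs' : 1 - s ∈ Icc (0 : ℝ) 1 := ⟨by linarith [hs.2], by linarith [hs.1]⟩
  rw [geo_symm C x y hs, geo_symm C x' y hs]
  exact dist_geo_geo_left C y x x' hs'

/-- Joint convexity of the metric (Busemann). -/
theorem dist_geo_geo (x x' y y' : X) {s : ℝ} (hs : s ∈ Icc (0 : ℝ) 1) :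
    dist (C.geo x y s) (C.geo x' y' s) ≤ (1 - s) * dist x x' + s * dist y y' := by
  calc dist (C.geo x y s) (C.geo x' y' s)
      ≤ dist (C.geo x y s) (C.geo x' y s) + dist (C.geo x' y s) (C.geo x' y' s) :=
        dist_triangle _ _ _
    _ ≤ _ := add_le_add (dist_geo_geo_right C x x' y hs) (dist_geo_geo_left C x' y y' hs)

/-- General modulus of continuity of `geo`. -/
theorem dist_geo_geo' (x x' y y' : X) {s s' : ℝ} (hs : s ∈ Icc (0 : ℝ) 1)
    (hs' : s' ∈ Icc (0 : ℝ) 1) :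
    dist (C.geo x y s) (C.geo x' y' s') ≤
      (1 - s) * dist x x' + s * dist y y' + |s - s'| * dist x' y' := by
  calc dist (C.geo x y s) (C.geo x' y' s')
      ≤ dist (C.geo x y s) (C.geo x' y' s) + dist (C.geo x' y' s) (C.geo x' y' s') :=
        dist_triangle _ _ _
    _ ≤ _ := add_le_add (dist_geo_geo C x x' y y' hs) (C.dist_geo x' y' s hs s' hs').le


/-- Closed balls are geodesically convex. -/
theorem geo_mem_closedBall {p x y : X} {R s : ℝ} (hs : s ∈ Icc (0 : ℝ) 1)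
    (hx : x ∈ Metric.closedBall p R) (hy : y ∈ Metric.closedBall p R) :
    C.geo x y s ∈ Metric.closedBall p R := by
  rw [Metric.mem_closedBall, dist_comm] at hx hy ⊢
  have hR : 0 ≤ R := dist_nonneg.trans hx
  have h := C.cat0 p x y s hs
  have h1 : dist p x ^ 2 ≤ R ^ 2 := pow_le_pow_left₀ dist_nonneg hx 2
  have h2 : dist p y ^ 2 ≤ R ^ 2 := pow_le_pow_left₀ dist_nonneg hy 2
  have h3 : 0 ≤ s * (1 - s) * dist x y ^ 2 :=
    mul_nonneg (mul_nonneg hs.1 (by linarith [hs.2])) (sq_nonneg _)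
  have h4 : dist p (C.geo x y s) ^ 2 ≤ R ^ 2 := by
    nlinarith [mul_le_mul_of_nonneg_left h1 (by linarith [hs.2] : (0 : ℝ) ≤ 1 - s),
      mul_le_mul_of_nonneg_left h2 hs.1]
  exact le_of_sq_le_sq h4 hR

/-- Reshetnyak's quadrilateral inequality. -/
theorem quadrilateral (a b c d : X) :
    dist a c ^ 2 + dist b d ^ 2 ≤
      dist a d ^ 2 + dist b c ^ 2 + 2 * dist a b * dist c d := by
  rcases eq_or_ne a b with rfl | hab
  · simp [add_comm]
  rcases eq_or_ne c d with rfl | hcd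
  · simp
  have hab' : 0 < dist a b := dist_pos.2 hab
  have hcd' : 0 < dist c d := dist_pos.2 hcd
  set P := dist a b with hP
  set Q := dist c d with hQ
  -- t = P / (P + Q) is the fraction on [b, d]
  set t := P / (P + Q) with ht
  have hPQ : 0 < P + Q := by linarith
  have ht0 : 0 < t := div_pos hab' hPQ
  have ht1 : t < 1 := by rw [ht, div_lt_one hPQ]; linarith
  have htI : t ∈ Icc (0 : ℝ) 1 := ⟨ht0.le, ht1.le⟩
  have h1t : 1 - t = Q / (P + Q) := by rw [ht]; field_simp; ring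
  set m := C.geo b d t with hm
  have h1 := C.cat0 a b d t htI
  have h2 := C.cat0 c b d t htI
  rw [← hm] at h1 h2
  have htri : dist a c ≤ dist a m + dist c m := by
    rw [dist_comm c m]; exact dist_triangle _ _ _
  -- (u + v)^2 ≤ u^2 / t + v^2 / (1 - t)
  have hcs : dist a c ^ 2 * (t * (1 - t)) ≤ (1 - t) * dist a m ^ 2 + t * dist c m ^ 2 := by
    have hu : dist a c ^ 2 ≤ (dist a m + dist c m) ^ 2 := pow_le_pow_left₀ dist_nonneg htri 2
    have h0 : 0 < 1 - t := by linarith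
    have hmul : dist a c ^ 2 * (t * (1 - t)) ≤ (dist a m + dist c m) ^ 2 * (t * (1 - t)) :=
      mul_le_mul_of_nonneg_right hu (mul_pos ht0 h0).le
    nlinarith [sq_nonneg ((1 - t) * dist a m - t * dist c m), hmul]
  have h3 : dist a c ^ 2 * (t * (1 - t)) ≤
      (1 - t) * ((1 - t) * P ^ 2 + t * dist a d ^ 2 - t * (1 - t) * dist b d ^ 2) +
      t * ((1 - t) * dist b c ^ 2 + t * Q ^ 2 - t * (1 - t) * dist b d ^ 2) := by
    have a1 := mul_le_mul_of_nonneg_left h1 (by linarith : (0 : ℝ) ≤ 1 - t)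
    have a2 := mul_le_mul_of_nonneg_left h2 ht0.le
    rw [dist_comm c b] at a2
    linarith [hcs]
  have h4 : (t * (1 - t)) * (dist a c ^ 2 + dist b d ^ 2) ≤
      (t * (1 - t)) * (dist a d ^ 2 + dist b c ^ 2 + 2 * P * Q) := by
    have e : (1 - t) ^ 2 * P ^ 2 + t ^ 2 * Q ^ 2 = (t * (1 - t)) * (2 * P * Q) := by
      rw [h1t, ht]; field_simp; ring
    nlinarith [h3, e]
  exact le_of_mul_le_mul_left h4 (mul_pos ht0 (by linarith))

end

end Crest.Agent.R241.Cat1
end

-- ▼ part R241/Cat2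

/-!
# R241, block CAT, file 2

Two-point contraction in `CATk k X`, all `k ≥ 0`, in terms of `zk`, `sn`; Lipschitz bounds;
infinitesimal form along charts.
-/

set_option autoImplicit false

open Set Filter Topology

namespace Crest.Agent.R241.Cat2

open Crest.Agent.R241.Cat1

universe u

variable {X : Type u} [MetricSpace X]

/-! ### `sn` and `zk` -/

theorem sn_zero_left (r : ℝ) : sn 0 r = r := by simp [sn]

theorem zk_zero_left (r : ℝ) : zk 0 r = r ^ 2 / 2 := by simp [zk]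


theorem sn_nonneg {k r : ℝ} (hk : 0 ≤ k) (hr : 0 ≤ r) : 0 ≤ sn k r := by
  unfold sn
  split_ifs with h
  · exact hr
  · exact div_nonneg (Real.sinh_nonneg_iff.2 (mul_nonneg hk hr)) hk

theorem self_le_sn {k r : ℝ} (hk : 0 ≤ k) (hr : 0 ≤ r) : r ≤ sn k r := by
  unfold sn
  split_ifs with h
  · exact le_rfl
  · have hk' : 0 < k := lt_of_le_of_ne hk (Ne.symm h)
    rw [le_div_iff₀ hk', mul_comm]
    exact Real.self_le_sinh_iff.2 (mul_nonneg hk hr)

theorem sn_pos {k r : ℝ} (hk : 0 ≤ k) (hr : 0 < r) : 0 < sn k r :=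
  lt_of_lt_of_le hr (self_le_sn hk hr.le)

theorem sn_mono {k r s : ℝ} (hk : 0 ≤ k) (hrs : r ≤ s) : sn k r ≤ sn k s := by
  unfold sn
  split_ifs with h
  · exact hrs
  · have hk' : 0 < k := lt_of_le_of_ne hk (Ne.symm h)
    exact div_le_div_of_nonneg_right (Real.sinh_le_sinh.2 (mul_le_mul_of_nonneg_left hrs hk)) hk

theorem sn_neg (k r : ℝ) : sn k (-r) = -sn k r := by
  unfold sn
  split_ifs with h
  · rfl
  · rw [mul_neg, Real.sinh_neg, neg_div]

theorem zk_eq (k r : ℝ) : zk k r = 2 * sn k (r / 2) ^ 2 := by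
  unfold sn zk
  split_ifs with h
  · ring
  · have h1 : Real.cosh (k * r) = 1 + 2 * Real.sinh (k * (r / 2)) ^ 2 := by
      have := Real.cosh_two_mul (k * (r / 2))
      rw [show 2 * (k * (r / 2)) = k * r by ring, Real.cosh_sq] at this
      linarith
    rw [h1]
    field_simp
    ring

theorem zk_nonneg (k r : ℝ) : 0 ≤ zk k r := by rw [zk_eq]; positivity


theorem zk_neg (k r : ℝ) : zk k (-r) = zk k r := by
  rw [zk_eq, zk_eq, neg_div, sn_neg]; ring

theorem zk_abs (k r : ℝ) : zk k |r| = zk k r := by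
  rcases abs_cases r with ⟨h, _⟩ | ⟨h, _⟩ <;> rw [h]
  exact zk_neg k r

theorem half_sq_le_zk {k : ℝ} (hk : 0 ≤ k) (r : ℝ) : r ^ 2 / 2 ≤ zk k r := by
  rw [← zk_abs, ← sq_abs, zk_eq]
  have h1 : |r| / 2 ≤ sn k (|r| / 2) := self_le_sn hk (by positivity)
  have h2 : (|r| / 2) ^ 2 ≤ sn k (|r| / 2) ^ 2 := pow_le_pow_left₀ (by positivity) h1 2
  nlinarith


/-- `sn² = 2 z + k² z²`. -/
theorem sn_sq (k r : ℝ) : sn k r ^ 2 = 2 * zk k r + k ^ 2 * zk k r ^ 2 := by
  unfold sn zk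
  split_ifs with h
  · subst h; ring
  · have h1 : Real.sinh (k * r) ^ 2 = Real.cosh (k * r) ^ 2 - 1 := by
      rw [Real.cosh_sq]; ring
    rw [div_pow, h1]
    field_simp
    ring

theorem hasDerivAt_zk (k r : ℝ) : HasDerivAt (zk k) (sn k r) r := by
  unfold zk sn
  by_cases h : k = 0
  · simp only [h, if_true]
    have := ((hasDerivAt_id r).pow 2).div_const 2
    simpa using this
  · simp only [h, if_false]
    have h1 : HasDerivAt (fun r => Real.cosh (k * r)) (Real.sinh (k * r) * (k * 1)) r :=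
      ((hasDerivAt_id r).const_mul k).cosh
    have h2 := (h1.sub_const 1).div_const (k ^ 2)
    refine h2.congr_deriv ?_
    field_simp

theorem hasDerivAt_sn (k r : ℝ) : HasDerivAt (sn k) (1 + k ^ 2 * zk k r) r := by
  unfold zk sn
  by_cases h : k = 0
  · simp only [h, if_true]
    refine (hasDerivAt_id' r).congr_deriv ?_
    simp
  · simp only [h, if_false]
    have h1 : HasDerivAt (fun r => Real.sinh (k * r)) (Real.cosh (k * r) * (k * 1)) r :=
      ((hasDerivAt_id r).const_mul k).sinh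
    have h2 := h1.div_const k
    refine h2.congr_deriv ?_
    field_simp
    ring


theorem continuous_sn (k : ℝ) : Continuous (sn k) :=
  continuous_iff_continuousAt.2 fun r => (hasDerivAt_sn k r).continuousAt

/-- Upper bound for small radii. -/
theorem zk_le_of_small {k : ℝ} {r : ℝ} (hr : k ^ 2 * r ^ 2 ≤ 2) :
    zk k r ≤ r ^ 2 / 2 + k ^ 2 * r ^ 4 / 4 := by
  unfold zk
  split_ifs with h
  · subst h; simp
  · have hk2 : 0 < k ^ 2 := by positivity
    rw [div_le_iff₀ hk2]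
    have h1 := Real.cosh_le_exp_half_sq (k * r)
    set t := (k * r) ^ 2 / 2 with ht
    have ht0 : 0 ≤ t := by positivity
    have ht1 : t ≤ 1 := by rw [ht, mul_pow]; linarith
    have h2 : Real.exp t ≤ 1 + t + t ^ 2 := by
      have := Real.abs_exp_sub_one_sub_id_le (x := t) (by rw [abs_of_nonneg ht0]; exact ht1)
      have := (abs_le.1 this).2
      linarith
    have h3 : t + t ^ 2 = (r ^ 2 / 2 + k ^ 2 * r ^ 4 / 4) * k ^ 2 := by
      rw [ht]; ring
    linarith

/-! ### The two-point inequality -/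

/-- Hyperbolic two-point comparison, `k > 0` or `k = 0`, in the multiplied form. -/
theorem two_point_sn {k : ℝ} (hk : 0 ≤ k) (C : CATk k X) (x y y' : X) {s s' : ℝ}
    (hs : s ∈ Icc (0 : ℝ) 1) (hs' : s' ∈ Icc (0 : ℝ) 1) :
    sn k (dist x y) * sn k (dist x y') *
        (zk k (dist (C.geo x y s) (C.geo x y' s')) - zk k (s * dist x y - s' * dist x y')) ≤
      sn k (s * dist x y) * sn k (s' * dist x y') *
        (zk k (dist y y') - zk k (dist x y - dist x y')) := by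
  set D := dist x y with hD
  set D' := dist x y' with hD'
  have hD0 : 0 ≤ D := dist_nonneg
  have hD0' : 0 ≤ D' := dist_nonneg
  rcases hk.eq_or_lt with h | hk'
  · subst h
    simp only [sn_zero_left, zk_zero_left]
    have h1 := two_point C x y y' hs hs'
    have h2 := mul_le_mul_of_nonneg_left h1 (mul_nonneg hD0 hD0')
    nlinarith [h2]
  · have hk0 : k ≠ 0 := hk'.ne'
    have c1 := C.catk (C.geo x y s) x y' s' hs'
    have c2 := C.catk y' x y s hs
    rw [dist_comm (C.geo x y s) x, dist_left C hs] at c1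
    rw [dist_comm y' x, dist_comm y' y, dist_comm y' (C.geo x y s)] at c2
    rw [← hD, ← hD'] at c1 c2
    set P := Real.cosh (k * dist (C.geo x y s) (C.geo x y' s')) with hP
    set M := Real.cosh (k * dist (C.geo x y s) y') with hM
    set Y := Real.cosh (k * dist y y') with hY
    have hsa : 0 ≤ Real.sinh (k * D) := Real.sinh_nonneg_iff.2 (mul_nonneg hk hD0)
    have hss' : 0 ≤ Real.sinh (s' * (k * D')) :=
      Real.sinh_nonneg_iff.2 (mul_nonneg hs'.1 (mul_nonneg hk hD0'))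
    have key : Real.sinh (k * D) * Real.sinh (k * D') *
        (P - Real.cosh (k * (s * D - s' * D'))) ≤
        Real.sinh (k * (s * D)) * Real.sinh (k * (s' * D')) *
          (Y - Real.cosh (k * (D - D'))) := by
      have a1 := mul_le_mul_of_nonneg_left c1 hsa
      have a2 := mul_le_mul_of_nonneg_left c2 hss'
      -- expansions
      have e1 : Real.sinh ((1 - s') * (k * D')) =
          Real.sinh (k * D') * Real.cosh (s' * (k * D'))
            - Real.cosh (k * D') * Real.sinh (s' * (k * D')) := by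
        rw [show (1 - s') * (k * D') = k * D' - s' * (k * D') by ring, Real.sinh_sub]
      have e2 : Real.sinh ((1 - s) * (k * D)) =
          Real.sinh (k * D) * Real.cosh (s * (k * D))
            - Real.cosh (k * D) * Real.sinh (s * (k * D)) := by
        rw [show (1 - s) * (k * D) = k * D - s * (k * D) by ring, Real.sinh_sub]
      have e3 : Real.cosh (k * (s * D - s' * D')) =
          Real.cosh (s * (k * D)) * Real.cosh (s' * (k * D'))
            - Real.sinh (s * (k * D)) * Real.sinh (s' * (k * D')) := by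
        rw [show k * (s * D - s' * D') = s * (k * D) - s' * (k * D') by ring, Real.cosh_sub]
      have e4 : Real.cosh (k * (D - D')) =
          Real.cosh (k * D) * Real.cosh (k * D') - Real.sinh (k * D) * Real.sinh (k * D') := by
        rw [show k * (D - D') = k * D - k * D' by ring, Real.cosh_sub]
      rw [e3, e4, show k * (s * D) = s * (k * D) by ring, show k * (s' * D') = s' * (k * D') by ring]
      rw [show k * (s * D) = s * (k * D) by ring] at a1
      rw [e1] at a1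
      rw [e2] at a2
      linear_combination a1 + a2
    have hk2 : 0 < k ^ 2 := by positivity
    unfold sn zk
    simp only [if_neg hk0]
    have key2 := mul_le_mul_of_nonneg_left key (by positivity : (0 : ℝ) ≤ 1 / (k ^ 2 * k ^ 2))
    calc Real.sinh (k * D) / k * (Real.sinh (k * D') / k) *
          ((P - 1) / k ^ 2 - (Real.cosh (k * (s * D - s' * D')) - 1) / k ^ 2)
        = 1 / (k ^ 2 * k ^ 2) * (Real.sinh (k * D) * Real.sinh (k * D') *
            (P - Real.cosh (k * (s * D - s' * D')))) := by field_simp; ring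
      _ ≤ _ := key2
      _ = Real.sinh (k * (s * D)) / k * (Real.sinh (k * (s' * D')) / k) *
          ((Y - 1) / k ^ 2 - (Real.cosh (k * (D - D')) - 1) / k ^ 2) := by field_simp; ring

/-! ### The point of the segment `[x,y]` at distance `ρ` from `x` -/

/-- the point of `[x,y]` at distance `ρ` from `x` (for `0 ≤ ρ ≤ dist x y`) -/
noncomputable def pt {k : ℝ} (C : CATk k X) (x y : X) (ρ : ℝ) : X := C.geo x y (ρ / dist x y)

theorem div_mem {D ρ : ℝ} (h0 : 0 ≤ ρ) (h1 : ρ ≤ D) : ρ / D ∈ Icc (0 : ℝ) 1 := by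
  have hD : 0 ≤ D := h0.trans h1
  exact ⟨div_nonneg h0 hD, div_le_one_of_le₀ h1 hD⟩

theorem div_mul_self' {D ρ : ℝ} (h0 : 0 ≤ ρ) (h1 : ρ ≤ D) : ρ / D * D = ρ := by
  rcases eq_or_ne D 0 with h | h
  · subst h; have : ρ = 0 := le_antisymm h1 h0; simp [this]
  · exact div_mul_cancel₀ ρ h


theorem pt_dist {k : ℝ} (C : CATk k X) (x y : X) : pt C x y (dist x y) = y := by
  unfold pt
  rcases eq_or_ne (dist x y) 0 with h | h
  · rw [h, zero_div, C.geo_zero]; exact dist_eq_zero.1 h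
  · rw [div_self h, C.geo_one]

theorem dist_pt {k : ℝ} (C : CATk k X) {x y : X} {ρ : ℝ} (h0 : 0 ≤ ρ) (h1 : ρ ≤ dist x y) :
    dist x (pt C x y ρ) = ρ := by
  unfold pt
  rw [dist_left C (div_mem h0 h1), div_mul_self' h0 h1]


theorem pt_two_point_sn {k : ℝ} (hk : 0 ≤ k) (C : CATk k X) {x y y' : X} {ρ ρ' : ℝ}
    (h0 : 0 ≤ ρ) (h1 : ρ ≤ dist x y) (h0' : 0 ≤ ρ') (h1' : ρ' ≤ dist x y') :
    sn k (dist x y) * sn k (dist x y') *
        (zk k (dist (pt C x y ρ) (pt C x y' ρ')) - zk k (ρ - ρ')) ≤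
      sn k ρ * sn k ρ' * (zk k (dist y y') - zk k (dist x y - dist x y')) := by
  have := two_point_sn hk C x y y' (div_mem h0 h1) (div_mem h0' h1')
  rw [div_mul_self' h0 h1, div_mul_self' h0' h1'] at this
  exact this

/-- CAT(0) form, without division. -/
theorem pt_two_point {k : ℝ} (C : CATk k X) {x y y' : X} {ρ ρ' : ℝ}
    (h0 : 0 ≤ ρ) (h1 : ρ ≤ dist x y) (h0' : 0 ≤ ρ') (h1' : ρ' ≤ dist x y') :
    dist (pt C x y ρ) (pt C x y' ρ') ^ 2 ≤
      (ρ - ρ') ^ 2 + (dist y y' ^ 2 - (dist x y - dist x y') ^ 2) := by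
  have h := two_point C x y y' (div_mem h0 h1) (div_mem h0' h1')
  have e1 := div_mul_self' h0 h1
  have e1' := div_mul_self' h0' h1'
  have m1 := div_mem h0 h1
  have m1' := div_mem h0' h1'
  set s := ρ / dist x y with hs
  set s' := ρ' / dist x y' with hs'
  set D := dist x y with hD
  set D' := dist x y' with hD'
  have hpos : 0 ≤ dist y y' ^ 2 - (D - D') ^ 2 := by
    have : |D - D'| ≤ dist y y' := by
      rw [hD, hD', dist_comm x y, dist_comm x y']
      exact abs_dist_sub_le y y' x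
    have h3 := pow_le_pow_left₀ (abs_nonneg _) this 2
    rw [sq_abs] at h3
    linarith
  have hss : s * s' ≤ 1 := mul_le_one₀ m1.2 m1'.1 m1'.2
  have h4 : s * s' * (dist y y' ^ 2 - (D - D') ^ 2) ≤ 1 * (dist y y' ^ 2 - (D - D') ^ 2) :=
    mul_le_mul_of_nonneg_right hss hpos
  have e : s * s' * dist y y' ^ 2 + (s - s') * (s * D ^ 2 - s' * D' ^ 2) =
      (s * D - s' * D') ^ 2 + s * s' * (dist y y' ^ 2 - (D - D') ^ 2) := by ring
  have h' : dist (pt C x y ρ) (pt C x y' ρ') ^ 2 ≤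
      (s * D - s' * D') ^ 2 + s * s' * (dist y y' ^ 2 - (D - D') ^ 2) := by
    rw [← e]; exact h
  rw [e1, e1'] at h'
  linarith


/-- If `|ρ - ρ'| ≤ |dist x y - dist x y'|` the map is 1-Lipschitz. -/
theorem dist_pt_pt_le_one {k : ℝ} (C : CATk k X) {x y y' : X} {ρ ρ' : ℝ}
    (h0 : 0 ≤ ρ) (h1 : ρ ≤ dist x y) (h0' : 0 ≤ ρ') (h1' : ρ' ≤ dist x y')
    (hL : |ρ - ρ'| ≤ |dist x y - dist x y'|) :
    dist (pt C x y ρ) (pt C x y' ρ') ≤ dist y y' := by
  have h := pt_two_point C h0 h1 h0' h1'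
  have h2 : (ρ - ρ') ^ 2 ≤ (dist x y - dist x y') ^ 2 := by
    rw [← sq_abs (ρ - ρ'), ← sq_abs (dist x y - dist x y')]
    exact pow_le_pow_left₀ (abs_nonneg _) hL 2
  exact le_of_sq_le_sq (by linarith) dist_nonneg

/-- The radial 1-Lipschitz retraction onto `closedBall x R`. -/
noncomputable def retr {k : ℝ} (C : CATk k X) (x : X) (R : ℝ) (y : X) : X :=
  pt C x y (min R (dist x y))

theorem retr_lipschitz {k : ℝ} (C : CATk k X) (x : X) {R : ℝ} (hR : 0 ≤ R) :
    LipschitzWith 1 (retr C x R) := by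
  apply LipschitzWith.of_dist_le_mul
  intro y y'
  rw [NNReal.coe_one, one_mul]
  apply dist_pt_pt_le_one C (le_min hR dist_nonneg) (min_le_right _ _) (le_min hR dist_nonneg)
    (min_le_right _ _)
  exact (abs_min_sub_min_le_max R (dist x y) R (dist x y')).trans (by simp)

theorem retr_mem {k : ℝ} (C : CATk k X) (x : X) {R : ℝ} (hR : 0 ≤ R) (y : X) :
    retr C x R y ∈ Metric.closedBall x R := by
  rw [Metric.mem_closedBall, dist_comm]
  unfold retr
  rw [dist_pt C (le_min hR dist_nonneg) (min_le_right _ _)]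
  exact min_le_left _ _

theorem retr_eq {k : ℝ} (C : CATk k X) (x : X) {R : ℝ} {y : X}
    (hy : y ∈ Metric.closedBall x R) : retr C x R y = y := by
  rw [Metric.mem_closedBall, dist_comm] at hy
  unfold retr
  rw [min_eq_right hy, pt_dist]

/-! ### Infinitesimal form along a chart -/

section infinitesimal

variable {V : Type*} [NormedAddCommGroup V] [NormedSpace ℝ V]

theorem sq_sub_sq_small {E : Set V} {z : V} {u : V → ℝ} {u' : V →L[ℝ] ℝ}
    (hu : HasFDerivWithinAt u u' E z) {δ : ℝ} (hδ : 0 < δ) :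
    ∀ᶠ w in 𝓝[E] z, |(u w - u z) ^ 2 - (u' (w - z)) ^ 2| ≤ δ * ‖w - z‖ ^ 2 := by
  set B : ℝ := 2 * ‖u'‖ + 1 with hB
  have hBpos : 0 < B := by positivity
  set η : ℝ := min 1 (δ / B) with hη
  have hηpos : 0 < η := lt_min one_pos (div_pos hδ hBpos)
  have h1 : ∀ᶠ w in 𝓝[E] z, ‖u w - u z - u' (w - z)‖ ≤ η * ‖w - z‖ :=
    hu.isLittleO.bound hηpos
  filter_upwards [h1] with w hw
  have h2 : ‖u' (w - z)‖ ≤ ‖u'‖ * ‖w - z‖ := u'.le_opNorm _
  set a := u w - u z with ha
  set b := u' (w - z) with hb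
  set N := ‖w - z‖ with hN
  have hN0 : 0 ≤ N := norm_nonneg _
  rw [Real.norm_eq_abs] at hw h2
  have h3 : |a + b| ≤ B * N := by
    have : a + b = (a - b) + 2 * b := by ring
    rw [this]
    calc |a - b + 2 * b| ≤ |a - b| + |2 * b| := abs_add_le _ _
      _ ≤ η * N + 2 * (‖u'‖ * N) := by
          rw [abs_mul, abs_two]; linarith
      _ ≤ 1 * N + 2 * (‖u'‖ * N) := by
          have := mul_le_mul_of_nonneg_right (min_le_left 1 (δ / B)) hN0
          linarith
      _ = B * N := by rw [hB]; ring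
  have h4 : a ^ 2 - b ^ 2 = (a - b) * (a + b) := by ring
  rw [h4, abs_mul]
  calc |a - b| * |a + b| ≤ (η * N) * (B * N) :=
        mul_le_mul hw h3 (abs_nonneg _) (mul_nonneg hηpos.le hN0)
    _ = η * B * N ^ 2 := by ring
    _ ≤ δ * N ^ 2 := by
        apply mul_le_mul_of_nonneg_right _ (sq_nonneg _)
        calc η * B ≤ δ / B * B := mul_le_mul_of_nonneg_right (min_le_right _ _) hBpos.le
          _ = δ := div_mul_cancel₀ _ hBpos.ne'

theorem quart_aux {k M N δ a : ℝ} (hM0 : 0 < M) (hN0 : 0 ≤ N) (hδpos : 0 < δ) (hδ1 : δ ≤ 1)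
    (w7 : (k ^ 2 + 1) * (M + 1) ^ 2 * N < δ) (ha : a ^ 2 ≤ M * N) :
    k ^ 2 * a ^ 2 ≤ 2 ∧ k ^ 2 * a ^ 4 / 4 ≤ δ * N := by
  have hMM : M ≤ (M + 1) ^ 2 := by nlinarith
  have h1 : k ^ 2 * a ^ 2 ≤ δ := by
    calc k ^ 2 * a ^ 2 ≤ k ^ 2 * (M * N) := mul_le_mul_of_nonneg_left ha (sq_nonneg _)
      _ ≤ (k ^ 2 + 1) * ((M + 1) ^ 2 * N) := by
          apply mul_le_mul (by linarith) (mul_le_mul_of_nonneg_right hMM hN0)
            (mul_nonneg hM0.le hN0) (by positivity)
      _ = (k ^ 2 + 1) * (M + 1) ^ 2 * N := by ring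
      _ ≤ δ := w7.le
  refine ⟨by linarith, ?_⟩
  have hMM2 : M ^ 2 ≤ (M + 1) ^ 2 := by nlinarith
  have h2 : k ^ 2 * (M * (M * N)) ≤ δ := by
    calc k ^ 2 * (M * (M * N)) = k ^ 2 * (M ^ 2 * N) := by ring
      _ ≤ (k ^ 2 + 1) * ((M + 1) ^ 2 * N) := by
          apply mul_le_mul (by linarith) (mul_le_mul_of_nonneg_right hMM2 hN0)
            (mul_nonneg (sq_nonneg _) hN0) (by positivity)
      _ = (k ^ 2 + 1) * (M + 1) ^ 2 * N := by ring
      _ ≤ δ := w7.le
  have h3 : a ^ 4 ≤ (M * N) ^ 2 := by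
    have := pow_le_pow_left₀ (sq_nonneg a) ha 2
    calc a ^ 4 = (a ^ 2) ^ 2 := by ring
      _ ≤ _ := this
  calc k ^ 2 * a ^ 4 / 4 ≤ k ^ 2 * (M * N) ^ 2 / 4 := by
        have := mul_le_mul_of_nonneg_left h3 (sq_nonneg k); linarith
    _ = (k ^ 2 * (M * (M * N))) * N / 4 := by ring
    _ ≤ δ * N / 4 := by
        have := mul_le_mul_of_nonneg_right h2 hN0; linarith
    _ ≤ δ * N := by
        have := mul_nonneg hδpos.le hN0; linarith

set_option maxHeartbeats 1000000 in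
/-- **Infinitesimal contraction.**  If `dist (φ w) (φ z)² ≤ g (w - z) + o(|w-z|²)` along `E` and
`ψ w` is the point of `[x, φ w]` at distance `ρ w` from `x`, then
`dist (ψ w) (ψ z)² ≤ (ρ'(w-z))² + (sn ρ / sn r)² (g (w-z) - (r'(w-z))²) + o(|w-z|²)`. -/
theorem infinitesimal {k : ℝ} (hk : 0 ≤ k) (C : CATk k X) (x : X) {E : Set V} {z : V}
    {φ : V → X} {g : V → ℝ} {B : ℝ} (hB : ∀ v, |g v| ≤ B * ‖v‖ ^ 2)
    (hφ : ∀ ε > 0, ∀ᶠ w in 𝓝[E] z, dist (φ w) (φ z) ^ 2 ≤ g (w - z) + ε * ‖w - z‖ ^ 2)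
    {ρ : V → ℝ} {ρ' r' : V →L[ℝ] ℝ} (hρ : HasFDerivWithinAt ρ ρ' E z)
    (hr : HasFDerivWithinAt (fun w => dist x (φ w)) r' E z)
    (hρ0 : ∀ᶠ w in 𝓝[E] z, 0 ≤ ρ w ∧ ρ w ≤ dist x (φ w))
    (hρz : 0 ≤ ρ z ∧ ρ z ≤ dist x (φ z)) (hxz : x ≠ φ z) {ε : ℝ} (hε : 0 < ε) :
    ∀ᶠ w in 𝓝[E] z, dist (pt C x (φ w) (ρ w)) (pt C x (φ z) (ρ z)) ^ 2 ≤
      (ρ' (w - z)) ^ 2 + (sn k (ρ z) / sn k (dist x (φ z))) ^ 2 * (g (w - z) - (r' (w - z)) ^ 2)
        + ε * ‖w - z‖ ^ 2 := by
  set B' : ℝ := |B| + ‖r'‖ ^ 2 with hB'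
  have hB'0 : 0 ≤ B' := by positivity
  set δ : ℝ := min 1 (ε / (7 + B')) with hδ
  have hδpos : 0 < δ := lt_min one_pos (div_pos hε (by positivity))
  have hδ1 : δ ≤ 1 := min_le_left _ _
  have hδε : (7 + B') * δ ≤ ε := by
    calc (7 + B') * δ ≤ (7 + B') * (ε / (7 + B')) :=
          mul_le_mul_of_nonneg_left (min_le_right _ _) (by positivity)
      _ = ε := mul_div_cancel₀ _ (by positivity)
  set D := dist x (φ z) with hD
  have hDpos : 0 < D := dist_pos.2 hxz
  set c0 : ℝ := (sn k (ρ z) / sn k D) ^ 2 with hc0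
  have hsnD : 0 < sn k D := sn_pos hk hDpos
  -- continuity statements
  have hDw : Tendsto (fun w => dist x (φ w)) (𝓝[E] z) (𝓝 D) := hr.continuousWithinAt
  have hρw : Tendsto ρ (𝓝[E] z) (𝓝 (ρ z)) := hρ.continuousWithinAt
  have hDwpos : ∀ᶠ w in 𝓝[E] z, 0 < dist x (φ w) := hDw.eventually (lt_mem_nhds hDpos)
  have hc : Tendsto (fun w => sn k (ρ w) * sn k (ρ z) / (sn k (dist x (φ w)) * sn k D))
      (𝓝[E] z) (𝓝 c0) := by
    have h1 : Tendsto (fun w => sn k (ρ w) * sn k (ρ z)) (𝓝[E] z)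
        (𝓝 (sn k (ρ z) * sn k (ρ z))) :=
      (((continuous_sn k).tendsto _).comp hρw).mul tendsto_const_nhds
    have h2 : Tendsto (fun w => sn k (dist x (φ w)) * sn k D) (𝓝[E] z)
        (𝓝 (sn k D * sn k D)) :=
      (((continuous_sn k).tendsto _).comp hDw).mul tendsto_const_nhds
    have h3 := h1.div h2 (mul_pos hsnD hsnD).ne'
    have : c0 = sn k (ρ z) * sn k (ρ z) / (sn k D * sn k D) := by
      rw [hc0, div_pow]; ring
    rw [this]
    exact h3
  have hc' : ∀ᶠ w in 𝓝[E] z,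
      |sn k (ρ w) * sn k (ρ z) / (sn k (dist x (φ w)) * sn k D) - c0| < δ := by
    have := hc.eventually (Metric.ball_mem_nhds c0 hδpos)
    simpa [Metric.mem_ball, Real.dist_eq] using this
  have hsmall : Tendsto (fun w => ‖w - z‖) (𝓝[E] z) (𝓝 0) := by
    have : Tendsto (fun w => ‖w - z‖) (𝓝 z) (𝓝 ‖z - z‖) := by
      exact (continuous_norm.comp (continuous_id.sub continuous_const)).tendsto z
    rw [sub_self, norm_zero] at this
    exact this.mono_left nhdsWithin_le_nhds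
  -- quantities controlled by a multiple of ‖w - z‖²
  set M : ℝ := |B| + 1 + (‖ρ'‖ ^ 2 + 1) with hM
  have hM0 : 0 < M := by positivity
  have hN1 : ∀ᶠ w in 𝓝[E] z, (k ^ 2 + 1) * (M + 1) ^ 2 * ‖w - z‖ ^ 2 < δ := by
    have h1 : Tendsto (fun w => (k ^ 2 + 1) * (M + 1) ^ 2 * ‖w - z‖ ^ 2) (𝓝[E] z)
        (𝓝 ((k ^ 2 + 1) * (M + 1) ^ 2 * 0 ^ 2)) :=
      (hsmall.pow 2).const_mul _
    have h2 : (k ^ 2 + 1) * (M + 1) ^ 2 * (0 : ℝ) ^ 2 < δ := by simpa using hδpos
    exact h1.eventually (gt_mem_nhds h2)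
  filter_upwards [hφ δ hδpos, sq_sub_sq_small hρ hδpos, sq_sub_sq_small hr hδpos, hρ0, hDwpos,
    hc', hN1] with w w1 w2 w3 w4 w5 w6 w7
  set N := ‖w - z‖ ^ 2 with hN
  have hN0 : 0 ≤ N := sq_nonneg _
  set G := g (w - z) with hG
  have hGB : |G| ≤ |B| * N := (hB _).trans (mul_le_mul_of_nonneg_right (le_abs_self _) hN0)
  set Dw := dist x (φ w) with hDw'
  set Y := dist (φ w) (φ z) with hY
  set P := dist (pt C x (φ w) (ρ w)) (pt C x (φ z) (ρ z)) with hP
  have hY0 : 0 ≤ Y := dist_nonneg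
  have hr'N : (r' (w - z)) ^ 2 ≤ ‖r'‖ ^ 2 * N := by
    rw [← sq_abs, ← Real.norm_eq_abs, hN, ← mul_pow]
    exact pow_le_pow_left₀ (norm_nonneg _) (r'.le_opNorm _) 2
  have hρ'N : (ρ' (w - z)) ^ 2 ≤ ‖ρ'‖ ^ 2 * N := by
    rw [← sq_abs, ← Real.norm_eq_abs, hN, ← mul_pow]
    exact pow_le_pow_left₀ (norm_nonneg _) (ρ'.le_opNorm _) 2
  -- the two point inequality
  have tp := pt_two_point_sn hk C w4.1 w4.2 hρz.1 hρz.2
  rw [← hD, ← hDw', ← hY, ← hP] at tp
  have hsnDw : 0 < sn k Dw := sn_pos hk w5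
  set c := sn k (ρ w) * sn k (ρ z) / (sn k Dw * sn k D) with hcdef
  have hden : 0 < sn k Dw * sn k D := mul_pos hsnDw hsnD
  have hc_nonneg : 0 ≤ c := div_nonneg (mul_nonneg (sn_nonneg hk w4.1) (sn_nonneg hk hρz.1)) hden.le
  have hc_le : c ≤ 1 := by
    rw [hcdef, div_le_one hden]
    exact mul_le_mul (sn_mono hk w4.2) (sn_mono hk hρz.2) (sn_nonneg hk hρz.1) hsnDw.le
  have tp2 : zk k P ≤ zk k (ρ w - ρ z) + c * (zk k Y - zk k (Dw - D)) := by
    have h1 : (sn k Dw * sn k D) * (zk k P - zk k (ρ w - ρ z)) ≤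
        (sn k Dw * sn k D) * (c * (zk k Y - zk k (Dw - D))) := by
      have : (sn k Dw * sn k D) * (c * (zk k Y - zk k (Dw - D))) =
          sn k (ρ w) * sn k (ρ z) * (zk k Y - zk k (Dw - D)) := by
        rw [hcdef]; field_simp
      rw [this]; exact tp
    have := le_of_mul_le_mul_left h1 hden
    linarith
  -- bounds of the individual terms
  have hY2 : Y ^ 2 ≤ (|B| + 1) * N := by
    have := (abs_le.1 hGB).2
    have h2 : δ * N ≤ 1 * N := mul_le_mul_of_nonneg_right hδ1 hN0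
    linarith
  have hR2 : (ρ w - ρ z) ^ 2 ≤ (‖ρ'‖ ^ 2 + 1) * N := by
    have := (abs_le.1 w2).2
    have h2 : δ * N ≤ 1 * N := mul_le_mul_of_nonneg_right hδ1 hN0
    linarith
  have quart : ∀ a : ℝ, a ^ 2 ≤ M * N → k ^ 2 * a ^ 2 ≤ 2 ∧ k ^ 2 * a ^ 4 / 4 ≤ δ * N :=
    fun a ha => quart_aux hM0 hN0 hδpos hδ1 w7 ha
  have hBB : (|B| + 1) * N ≤ M * N := mul_le_mul_of_nonneg_right (by rw [hM]; nlinarith [sq_nonneg ‖ρ'‖]) hN0
  have hBB' : (‖ρ'‖ ^ 2 + 1) * N ≤ M * N :=
    mul_le_mul_of_nonneg_right (by rw [hM]; nlinarith [abs_nonneg B]) hN0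
  obtain ⟨qY1, qY2⟩ := quart Y (hY2.trans hBB)
  obtain ⟨qR1, qR2⟩ := quart (ρ w - ρ z) (hR2.trans hBB')
  have zY : zk k Y ≤ Y ^ 2 / 2 + δ * N := (zk_le_of_small qY1).trans (by linarith)
  have zR : zk k (ρ w - ρ z) ≤ (ρ w - ρ z) ^ 2 / 2 + δ * N := (zk_le_of_small qR1).trans (by linarith)
  have zD : (Dw - D) ^ 2 / 2 ≤ zk k (Dw - D) := half_sq_le_zk hk _
  have zP : P ^ 2 / 2 ≤ zk k P := half_sq_le_zk hk _
  have w2' := abs_le.1 w2
  have w3' := abs_le.1 w3
  have hb : zk k Y - zk k (Dw - D) ≤ (G - (r' (w - z)) ^ 2) / 2 + 2 * (δ * N) := by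
    have h1 : (r' (w - z)) ^ 2 - δ * N ≤ (Dw - D) ^ 2 := by linarith [w3'.1]
    linarith
  have hcb : c * (zk k Y - zk k (Dw - D)) ≤
      c0 * ((G - (r' (w - z)) ^ 2) / 2) + δ * (B' * N) / 2 + 2 * (δ * N) := by
    have h1 : c * (zk k Y - zk k (Dw - D)) ≤
        c * ((G - (r' (w - z)) ^ 2) / 2 + 2 * (δ * N)) :=
      mul_le_mul_of_nonneg_left hb hc_nonneg
    have h2 : c * (2 * (δ * N)) ≤ 1 * (2 * (δ * N)) :=
      mul_le_mul_of_nonneg_right hc_le (by positivity)
    have h3 : (c - c0) * (G - (r' (w - z)) ^ 2) ≤ δ * (B' * N) := by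
      have h4 : |G - (r' (w - z)) ^ 2| ≤ B' * N := by
        calc |G - (r' (w - z)) ^ 2| ≤ |G| + |(r' (w - z)) ^ 2| := abs_sub _ _
          _ ≤ |B| * N + ‖r'‖ ^ 2 * N := by
              rw [abs_of_nonneg (sq_nonneg (r' (w - z)))]; linarith
          _ = B' * N := by rw [hB']; ring
      calc (c - c0) * (G - (r' (w - z)) ^ 2) ≤ |(c - c0) * (G - (r' (w - z)) ^ 2)| := le_abs_self _
        _ = |c - c0| * |G - (r' (w - z)) ^ 2| := abs_mul _ _
        _ ≤ δ * (B' * N) := mul_le_mul w6.le h4 (abs_nonneg _) hδpos.le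
    linarith [h1, h2, h3]
  have hfin : P ^ 2 ≤ (ρ' (w - z)) ^ 2 + c0 * (G - (r' (w - z)) ^ 2) + (7 + B') * δ * N := by
    linarith [tp2, hcb, zR, zP, w2'.2]
  calc P ^ 2 ≤ _ := hfin
    _ ≤ (ρ' (w - z)) ^ 2 + c0 * (G - (r' (w - z)) ^ 2) + ε * N := by
        have := mul_le_mul_of_nonneg_right hδε hN0
        linarith

end infinitesimal

end Crest.Agent.R241.Cat2
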