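import Mathlib
import Crest.Agent.R241.Cat2

/-!
# R241, block CAT, file 3

`CATk` on a geodesically convex subset; closed balls.
-/

set_option autoImplicit false

open Set Filter Topology

namespace Crest.Agent.R241.Cat3

open Crest.Agent.R241.Cat1 Crest.Agent.R241.Cat2

universe u

variable {X : Type u} [MetricSpace X]

theorem isConv_closedBall {k : ℝ} (C : CATk k X) (p : X) (R : ℝ) :
    C.IsConv (Metric.closedBall p R) :=
  fun _ hx _ hy _ hs => geo_mem_closedBall C hs hx hy


theorem pt_mem {k : ℝ} (C : CATk k X) {K : Set X} (hK : C.IsConv K) {x y : X} (hx : x ∈ K)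
    (hy : y ∈ K) {ρ : ℝ} (h0 : 0 ≤ ρ) (h1 : ρ ≤ dist x y) : pt C x y ρ ∈ K :=
  hK x hx y hy _ (div_mem h0 h1)

open Classical in
/-- The induced structure on a convex subset. -/
noncomputable def restrict {k : ℝ} (C : CATk k X) {K : Set X} (hK : C.IsConv K) : CATk k K where
  geo x y s := if hs : s ∈ Icc (0 : ℝ) 1 then ⟨C.geo x y s, hK x x.2 y y.2 s hs⟩ else x
  geo_zero x y := by
    rw [dif_pos (by simp)]
    exact Subtype.ext (C.geo_zero x y)
  geo_one x y := by
    rw [dif_pos (by simp)]
    exact Subtype.ext (C.geo_one x y)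
  dist_geo x y s hs t ht := by
    rw [dif_pos hs, dif_pos ht]
    exact C.dist_geo x y s hs t ht
  cat0 p x y s hs := by
    rw [dif_pos hs]
    exact C.cat0 p x y s hs
  catk p x y s hs := by
    rw [dif_pos hs]
    exact C.catk p x y s hs



end Crest.Agent.R241.Cat3
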