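import Crest.Agent.R241.B4Ops_Mg
import Crest.Agent.R241.B7g
import Mathlib
import Crest.Agent.R241.A5
import Crest.Agent.R241.Cat3

-- ▼ part R241/B10Final191
section

/-!
R241: the targets `AddTarget` and `ClosureTarget` (helper502's reductions, helper638's normal form,
boundary rectifiability).  Owner: helper191.
-/

set_option autoImplicit false

open MeasureTheory Filter Topology Set
open scoped ENNReal NNReal

universe u

namespace Crest.Agent.R241.B10Final

open Crest.GeometryTopology.MetricCurrent
open Crest.Agent.R241.B4Norm Crest.Agent.R241.B4Ops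

variable {X : Type u} [MetricSpace X] [MeasurableSpace X] [BorelSpace X]
  [CompleteSpace X] [SecondCountableTopology X] [Nonempty X]

/-- **ADD.** -/
theorem addTarget (K : Set X) : AddTarget X K :=
  B10.addTarget (fun _ _ _ hS hS' => rect_add hS.cur hS'.cur hS.rect hS'.rect)
    (fun _ _ hS => rect_neg hS.rect)
    (fun _ _ hS => B7g.rect_bd hS.cur hS.rect hS.bdcur)

/-- **CLOSURE.** -/
theorem closureTarget {K : Set X} (hK : IsCompact K) (m : ℕ) : ClosureTarget X K m :=
  B10.closureTarget hK (addTarget K) m fun _ _ hT hm hs _ =>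
    rect_of_hasSum (fun i => (hT i).cur) (fun i => (hT i).rect) hm hs

end Crest.Agent.R241.B10Final
end

-- ▼ part R241/A5Cat

/-!
R241, block A5 (glue): `CATk k X` and compactness imply `A.CatD k X` and `HasContr k X`;
the same for compact convex subsets.
-/

set_option autoImplicit false

universe u

namespace Crest.Agent.R241.A5

open MeasureTheory Set Filter Topology
open scoped NNReal ENNReal RealInnerProductSpace

/-- `CATk` and compact give the derivative form `CatD`. -/
theorem catD_of_CATk {k : ℝ} (hk : 0 ≤ k) {X : Type u} [MetricSpace X] [CompactSpace X]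
    (C : CATk k X) : A.CatD k X := by
  letI : MeasurableSpace X := borel X
  haveI : BorelSpace X := ⟨rfl⟩
  obtain ⟨M, -, hM⟩ := exists_bound (K := X) k
  refine catD_of_cat k hk M hM (fun x p s hs => ⟨C.geo x p s, fun y => ⟨?_, ?_⟩⟩)
  · exact C.cat0 y x p s hs
  · exact C.catk y x p s hs



/-- Compact convex subsets. -/
theorem catD_of_isConv {k : ℝ} (hk : 0 ≤ k) {X : Type u} [MetricSpace X] (C : CATk k X)
    {K : Set X} [CompactSpace K] (hK : C.IsConv K) : A.CatD k K :=
  catD_of_CATk hk (Cat3.restrict C hK)



end Crest.Agent.R241.A5
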