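import Crest.Agent.R241.ABasic

-- ▼ part R241/A6Form
section

/-!
R241, Theorem A, block A6: finite sums in the form `⟨f,g⟩ = ∫ G f g + b f g`; the "free Ekeland"
inequality.
-/

set_option autoImplicit false

namespace Crest.Agent.R241.A6

open Crest.Agent.R241.A
open MeasureTheory Set Filter Topology
open scoped NNReal ENNReal

section
variable {K : Type*} [MetricSpace K]

theorem lip_sum {ι : Type*} (s : Finset ι) {f : ι → K → ℝ} (hf : ∀ i ∈ s, Lip (f i)) :
    Lip (fun y => ∑ i ∈ s, f i y) := by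
  classical
  induction s using Finset.induction_on with
  | empty => simpa using Lip.const (K := K) 0
  | insert a s ha ih =>
    simp_rw [Finset.sum_insert ha]
    exact (hf a (Finset.mem_insert_self a s)).add
      (ih fun i hi => hf i (Finset.mem_insert_of_mem hi))
end

section Form
variable {n : ℕ} {k : ℝ} {K : Type*} [MetricSpace K] [CompactSpace K]
  [MeasurableSpace K] [BorelSpace K] (P : PreData n k K)

theorem form_sum_left {ι : Type*} (b : ℝ) (s : Finset ι) {f : ι → K → ℝ} {e : K → ℝ}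
    (hf : ∀ i ∈ s, Lip (f i)) (he : Lip e) :
    P.form b (fun y => ∑ i ∈ s, f i y) e = ∑ i ∈ s, P.form b (f i) e := by
  classical
  induction s using Finset.induction_on with
  | empty =>
    simp only [Finset.sum_empty]
    have := P.form_smul_left b 0 (f := fun _ => (0 : ℝ)) (u := e) (Lip.const 0) he
    simpa using this
  | insert a s ha ih =>
    simp_rw [Finset.sum_insert ha]
    rw [P.form_add_left b (hf a (Finset.mem_insert_self a s))
      (lip_sum s fun i hi => hf i (Finset.mem_insert_of_mem hi)) he,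
      ih fun i hi => hf i (Finset.mem_insert_of_mem hi)]

theorem form_sum_right {ι : Type*} (b : ℝ) (s : Finset ι) {f : ι → K → ℝ} {e : K → ℝ}
    (hf : ∀ i ∈ s, Lip (f i)) (he : Lip e) :
    P.form b e (fun y => ∑ i ∈ s, f i y) = ∑ i ∈ s, P.form b e (f i) := by
  rw [P.form_comm b he (lip_sum s hf), form_sum_left P b s hf he]
  exact Finset.sum_congr rfl fun i hi => P.form_comm b (hf i hi) he

theorem energy_smul (b c : ℝ) {u : K → ℝ} (hu : Lip u) :
    P.energy b (fun y => c * u y) = c ^ 2 * P.energy b u := by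
  unfold PreData.energy
  rw [P.form_smul_left b c hu (hu.const_mul c), P.form_smul_right b c hu hu]
  ring

/-- Subgradient of `|v|_q^2` at a positive function of norm one. -/
theorem norm_sq_subgradient (τ : Measure K) [IsFiniteMeasure τ] {q : ℝ} (hq : 1 < q)
    {u v : K → ℝ} (hu : Continuous u) (hv : Continuous v) (hpos : ∀ y, 0 < u y)
    (hu1 : ∫ y, u y ^ q ∂τ = 1) :
    2 * ∫ y, u y ^ (q - 1) * v y ∂τ - 1 ≤ (∫ y, |v y| ^ q ∂τ) ^ (2 / q) := by
  have hq0 : 0 < q := by linarith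
  have hq1 : 0 < q - 1 := by linarith
  have hconj : (q / (q - 1)).HolderConjugate q := by
    rw [Real.holderConjugate_iff]
    constructor
    · rw [lt_div_iff₀ hq1]; linarith
    · field_simp; ring
  have hcont1 : Continuous fun y => u y ^ (q - 1) :=
    hu.rpow_const fun y => Or.inl (hpos y).ne'
  have hL1 : MemLp (fun y => u y ^ (q - 1)) (ENNReal.ofReal (q / (q - 1))) τ :=
    hcont1.memLp_of_hasCompactSupport (HasCompactSupport.of_compactSpace _)
  have hL2 : MemLp (fun y => |v y|) (ENNReal.ofReal q) τ :=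
    (continuous_abs.comp hv).memLp_of_hasCompactSupport (HasCompactSupport.of_compactSpace _)
  have hH := integral_mul_le_Lp_mul_Lq_of_nonneg (μ := τ) hconj
    (f := fun y => u y ^ (q - 1)) (g := fun y => |v y|)
    (Eventually.of_forall fun y => (Real.rpow_pos_of_pos (hpos y) _).le)
    (Eventually.of_forall fun y => abs_nonneg _) hL1 hL2
  have e1 : ∫ y, (u y ^ (q - 1)) ^ (q / (q - 1)) ∂τ = 1 := by
    refine Eq.trans (integral_congr_ae (Eventually.of_forall fun y => ?_)) hu1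
    simp only
    rw [← Real.rpow_mul (hpos y).le]
    congr 1
    field_simp
  rw [e1, Real.one_rpow, one_mul] at hH
  have h2 : ∫ y, u y ^ (q - 1) * v y ∂τ ≤ ∫ y, u y ^ (q - 1) * |v y| ∂τ := by
    refine integral_mono ?_ ?_ fun y => ?_
    · exact (hcont1.mul hv).integrable_of_hasCompactSupport (HasCompactSupport.of_compactSpace _)
    · exact (hcont1.mul (continuous_abs.comp hv)).integrable_of_hasCompactSupport
        (HasCompactSupport.of_compactSpace _)
    · exact mul_le_mul_of_nonneg_left (le_abs_self _) (Real.rpow_pos_of_pos (hpos y) _).le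
  set I : ℝ := ∫ y, |v y| ^ q ∂τ with hI
  have hI0 : 0 ≤ I := integral_nonneg fun y => Real.rpow_nonneg (abs_nonneg _) _
  have h3 : I ^ (2 / q) = (I ^ (1 / q)) ^ 2 := by
    rw [← Real.rpow_natCast, ← Real.rpow_mul hI0]
    congr 1
    push_cast
    ring
  rw [h3]
  have h4 : ∫ y, u y ^ (q - 1) * v y ∂τ ≤ I ^ (1 / q) := h2.trans hH
  nlinarith [sq_nonneg (I ^ (1 / q) - 1)]

/-- (EK), "free Ekeland": for an `ε`-near-minimiser of `E(v)/|v|_q²`. -/
theorem free_ekeland {b q Q ε : ℝ} (hb : 0 ≤ b) (hq : 1 < q) (hQ : 0 ≤ Q)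
    (hmin : ∀ v : K → ℝ, Lip v → Q * (∫ y, |v y| ^ q ∂P.τ) ^ (2 / q) ≤ P.energy b v)
    {u : K → ℝ} (hu : Lip u) (hpos : ∀ y, 0 < u y) (hu1 : ∫ y, u y ^ q ∂P.τ = 1)
    (huE : P.energy b u ≤ Q + ε) {η : K → ℝ} (hη : Lip η) :
    (P.form b u η - Q * ∫ y, u y ^ (q - 1) * η y ∂P.τ) ^ 2 ≤ ε * P.energy b η := by
  set X : ℝ := P.form b u η - Q * ∫ y, u y ^ (q - 1) * η y ∂P.τ with hX
  set E : ℝ := P.energy b η with hE
  have hE0 : 0 ≤ E := P.energy_nonneg hb hη
  have hucont := hu.continuous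
  have hηcont := hη.continuous
  have hcont1 : Continuous fun y => u y ^ (q - 1) :=
    hucont.rpow_const fun y => Or.inl (hpos y).ne'
  have hquad : ∀ s : ℝ, 0 ≤ E * (s * s) + (2 * X) * s + ε := by
    intro s
    have hv := hu.add (hη.const_mul s)
    have h1 := hmin _ hv
    have h2 := norm_sq_subgradient P.τ hq hucont (hv.continuous) hpos hu1
    have h3 : ∫ y, u y ^ (q - 1) * (u y + s * η y) ∂P.τ =
        1 + s * ∫ y, u y ^ (q - 1) * η y ∂P.τ := by
      have i1 : Integrable (fun y => u y ^ q) P.τ :=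
        (hucont.rpow_const fun y => Or.inl (hpos y).ne').integrable_of_hasCompactSupport
          (HasCompactSupport.of_compactSpace _)
      have i2 : Integrable (fun y => u y ^ (q - 1) * η y) P.τ :=
        (hcont1.mul hηcont).integrable_of_hasCompactSupport
          (HasCompactSupport.of_compactSpace _)
      calc ∫ y, u y ^ (q - 1) * (u y + s * η y) ∂P.τ
          = ∫ y, (u y ^ q + s * (u y ^ (q - 1) * η y)) ∂P.τ := by
            refine integral_congr_ae (Eventually.of_forall fun y => ?_)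
            simp only
            have : u y ^ q = u y ^ (q - 1) * u y := by
              rw [← Real.rpow_add_one (hpos y).ne']; congr 1; ring
            rw [this]; ring
        _ = 1 + s * ∫ y, u y ^ (q - 1) * η y ∂P.τ := by
            rw [integral_add i1 (i2.const_mul s), integral_const_mul, hu1]
    rw [h3] at h2
    have h4 := P.energy_add_smul b s hu hη
    rw [h4] at h1
    have h5 : Q * (2 * (1 + s * ∫ y, u y ^ (q - 1) * η y ∂P.τ) - 1) ≤
        Q * (∫ y, |u y + s * η y| ^ q ∂P.τ) ^ (2 / q) := mul_le_mul_of_nonneg_left h2 hQ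
    rw [← hE] at h1
    nlinarith
  have hd := discrim_le_zero hquad
  unfold discrim at hd
  nlinarith

end Form

end Crest.Agent.R241.A6
end

-- ▼ part R241/A6Min

/-!
R241, Theorem A, block A6: existence of positive Lipschitz near-minimisers.
-/

set_option autoImplicit false

namespace Crest.Agent.R241.A6

open Crest.Agent.R241.A
open MeasureTheory Set Filter Topology
open scoped NNReal ENNReal

variable {n : ℕ} {k : ℝ} {K : Type*} [MetricSpace K] [CompactSpace K]
  [MeasurableSpace K] [BorelSpace K] (P : PreData n k K)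

theorem sqrt_add_lip {δ : ℝ} (hδ : 0 < δ) {v : K → ℝ} (hv : Lip v) :
    Lip (fun y => √(v y ^ 2 + δ ^ 2)) := by
  obtain ⟨C, hC⟩ := hv
  refine ⟨C, LipschitzWith.of_dist_le_mul fun x y => ?_⟩
  have h1 : ∀ a b : ℝ, √(a ^ 2 + δ ^ 2) ≤ √(b ^ 2 + δ ^ 2) + |a - b| := by
    intro a b
    apply Real.sqrt_le_iff.2
    constructor
    · positivity
    · have hb : |b| ≤ √(b ^ 2 + δ ^ 2) := by
        apply Real.le_sqrt_of_sq_le
        rw [sq_abs]; nlinarith [sq_nonneg δ]
      have h2 := Real.sq_sqrt (show 0 ≤ b ^ 2 + δ ^ 2 by positivity)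
      have h3 : (a - b) * b ≤ |a - b| * |b| := by
        rw [← abs_mul]; exact le_abs_self _
      have h4 : |a - b| * |b| ≤ |a - b| * √(b ^ 2 + δ ^ 2) :=
        mul_le_mul_of_nonneg_left hb (abs_nonneg _)
      nlinarith [sq_abs (a - b)]
  have h2 : dist (√(v x ^ 2 + δ ^ 2)) (√(v y ^ 2 + δ ^ 2)) ≤ |v x - v y| := by
    rw [Real.dist_eq, abs_sub_le_iff]
    constructor
    · have := h1 (v x) (v y); linarith
    · have := h1 (v y) (v x)
      rw [abs_sub_comm] at this
      linarith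
  refine h2.trans ?_
  rw [← Real.dist_eq]
  exact hC.dist_le_mul x y

theorem energy_sqrt_le {b δ : ℝ} (hδ : 0 < δ) {v : K → ℝ} (hv : Lip v) :
    P.energy b (fun y => √(v y ^ 2 + δ ^ 2)) ≤ P.energy b v + b * δ ^ 2 * P.τ.real univ := by
  have hL := sqrt_add_lip hδ hv
  have hder : ∀ y, HasDerivAt (fun t => √(t ^ 2 + δ ^ 2)) (v y / √(v y ^ 2 + δ ^ 2)) (v y) := by
    intro y
    have hpos : 0 < v y ^ 2 + δ ^ 2 := by positivity
    have h1 : HasDerivAt (fun t : ℝ => t ^ 2 + δ ^ 2) (2 * v y) (v y) := by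
      simpa using (hasDerivAt_pow 2 (v y)).add_const (δ ^ 2)
    refine (h1.sqrt hpos.ne').congr_deriv ?_
    field_simp
  have hc : Continuous fun y => v y / √(v y ^ 2 + δ ^ 2) := by
    refine hv.continuous.div ((hv.continuous.pow 2).add continuous_const).sqrt fun y => ?_
    have hpos : 0 < v y ^ 2 + δ ^ 2 := by positivity
    exact (Real.sqrt_pos.2 hpos).ne'
  have hD := P.G_chain v (fun y => √(v y ^ 2 + δ ^ 2)) (fun t => √(t ^ 2 + δ ^ 2))
    (fun t => t / √(t ^ 2 + δ ^ 2)) hv hL hL hder hc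
  have hD' := P.G_chain_right (φ := fun t => √(t ^ 2 + δ ^ 2))
    (φ' := fun t => t / √(t ^ 2 + δ ^ 2)) hv hv hL hder hc
  have h0 : ∫ _, b * δ ^ 2 ∂P.τ = b * δ ^ 2 * P.τ.real univ := by
    rw [integral_const, smul_eq_mul]; ring
  unfold PreData.energy PreData.form
  rw [← h0, ← integral_add (P.integrable_form b hv hv) (integrable_const _)]
  refine integral_mono_ae (P.integrable_form b hL hL)
    ((P.integrable_form b hv hv).add (integrable_const _)) ?_
  filter_upwards [hD, hD', P.G_nonneg v hv] with y hy hy' h3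
  rw [hy, hy']
  have hpos : 0 < v y ^ 2 + δ ^ 2 := by positivity
  have hs := Real.mul_self_sqrt hpos.le
  have hsp : 0 < √(v y ^ 2 + δ ^ 2) := Real.sqrt_pos.2 hpos
  have h1 : v y / √(v y ^ 2 + δ ^ 2) * (v y / √(v y ^ 2 + δ ^ 2) * P.G v v y) ≤ P.G v v y := by
    have h2 : v y / √(v y ^ 2 + δ ^ 2) * (v y / √(v y ^ 2 + δ ^ 2)) ≤ 1 := by
      rw [div_mul_div_comm, hs, div_le_one hpos]
      nlinarith [sq_nonneg δ]
    nlinarith
  rw [hs]
  show _ + b * (v y ^ 2 + δ ^ 2) ≤ P.G v v y + b * (v y * v y) + b * δ ^ 2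
  nlinarith

theorem cont_rpow_abs {q : ℝ} (hq : 0 ≤ q) {v : K → ℝ} (hv : Continuous v) :
    Continuous fun y => |v y| ^ q :=
  (continuous_abs.comp hv).rpow_const fun _ => Or.inr hq

/-- Existence of the constant `Q` and of near-minimisers. -/
theorem exists_Q {b q : ℝ} (hb : 0 ≤ b) (hq : 2 < q) (hτ : P.τ ≠ 0)
    (hsob : ∃ C : ℝ, 0 < C ∧ ∀ u : K → ℝ, Lip u →
      (∫ y, |u y| ^ q ∂P.τ) ^ (2 / q) ≤ C * P.energy b u) :
    ∃ Q : ℝ, 0 < Q ∧
      (∀ v : K → ℝ, Lip v → Q * (∫ y, |v y| ^ q ∂P.τ) ^ (2 / q) ≤ P.energy b v) ∧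
      ∀ ε : ℝ, 0 < ε → ∃ u : K → ℝ, Lip u ∧ (∀ y, 0 < u y) ∧ ∫ y, u y ^ q ∂P.τ = 1 ∧
        P.energy b u ≤ Q + ε := by
  obtain ⟨C, hC, hsob⟩ := hsob
  have hq0 : 0 < q := by linarith
  have hM : 0 < P.τ.real univ :=
    ENNReal.toReal_pos (Measure.measure_univ_ne_zero.2 hτ) (measure_ne_top _ _)
  set S : Set ℝ := {r | ∃ v : K → ℝ, Lip v ∧ 0 < ∫ y, |v y| ^ q ∂P.τ ∧
    r = P.energy b v / (∫ y, |v y| ^ q ∂P.τ) ^ (2 / q)} with hS
  have hSne : S.Nonempty := by
    refine ⟨_, fun _ => 1, Lip.const 1, ?_, rfl⟩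
    simpa using hM
  have hlb : ∀ r ∈ S, 1 / C ≤ r := by
    rintro r ⟨v, hv, hv0, rfl⟩
    have h1 := hsob v hv
    have h2 : 0 < (∫ y, |v y| ^ q ∂P.τ) ^ (2 / q) := Real.rpow_pos_of_pos hv0 _
    rw [div_le_div_iff₀ hC h2]
    linarith
  have hbdd : BddBelow S := ⟨1 / C, hlb⟩
  set Q := sInf S with hQdef
  have hQpos : 0 < Q := lt_of_lt_of_le (by positivity) (le_csInf hSne hlb)
  have hmin : ∀ v : K → ℝ, Lip v → Q * (∫ y, |v y| ^ q ∂P.τ) ^ (2 / q) ≤ P.energy b v := by
    intro v hv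
    have hI0 : 0 ≤ ∫ y, |v y| ^ q ∂P.τ :=
      integral_nonneg fun y => Real.rpow_nonneg (abs_nonneg _) _
    rcases hI0.eq_or_lt with h | h
    · rw [← h, Real.zero_rpow (by positivity), mul_zero]
      exact P.energy_nonneg hb hv
    · have : Q ≤ P.energy b v / (∫ y, |v y| ^ q ∂P.τ) ^ (2 / q) :=
        csInf_le hbdd ⟨v, hv, h, rfl⟩
      rwa [le_div_iff₀ (Real.rpow_pos_of_pos h _)] at this
  refine ⟨Q, hQpos, hmin, ?_⟩
  intro ε hε
  obtain ⟨r, ⟨v, hv, hv0, rfl⟩, hr⟩ := exists_lt_of_csInf_lt hSne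
    (show sInf S < Q + ε / 2 by rw [← hQdef]; linarith)
  set N : ℝ := (∫ y, |v y| ^ q ∂P.τ) ^ (2 / q) with hN
  have hN0 : 0 < N := Real.rpow_pos_of_pos hv0 _
  -- choose δ
  obtain ⟨δ, hδ, hδε⟩ : ∃ δ : ℝ, 0 < δ ∧ b * δ ^ 2 * P.τ.real univ ≤ ε / 2 * N := by
    have h1 : Tendsto (fun δ : ℝ => b * δ ^ 2 * P.τ.real univ) (𝓝[>] 0) (𝓝 0) := by
      have : Continuous fun δ : ℝ => b * δ ^ 2 * P.τ.real univ := by fun_prop
      have h := this.tendsto 0
      simp only [ne_eq, OfNat.ofNat_ne_zero, not_false_eq_true, zero_pow, mul_zero,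
        zero_mul] at h
      exact h.mono_left nhdsWithin_le_nhds
    have h2 := (h1.eventually (gt_mem_nhds (show 0 < ε / 2 * N by positivity))).and
      self_mem_nhdsWithin
    obtain ⟨δ, h3, h4⟩ := h2.exists
    exact ⟨δ, h4, h3.le⟩
  set vδ : K → ℝ := fun y => √(v y ^ 2 + δ ^ 2) with hvδ
  have hvδL : Lip vδ := sqrt_add_lip hδ hv
  have hvδpos : ∀ y, 0 < vδ y := fun y => Real.sqrt_pos.2 (by positivity)
  have hle : ∀ y, |v y| ≤ vδ y := fun y => by
    apply Real.le_sqrt_of_sq_le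
    rw [sq_abs]; nlinarith [sq_nonneg δ]
  set J : ℝ := ∫ y, vδ y ^ q ∂P.τ with hJ
  have hvδc := hvδL.continuous
  have hJint : Integrable (fun y => vδ y ^ q) P.τ :=
    P.integrable_of_continuous (hvδc.rpow_const fun y => Or.inl (hvδpos y).ne')
  have hIJ : ∫ y, |v y| ^ q ∂P.τ ≤ J := by
    refine integral_mono (P.integrable_of_continuous (cont_rpow_abs hq0.le hv.continuous)) hJint
      fun y => ?_
    exact Real.rpow_le_rpow (abs_nonneg _) (hle y) hq0.le
  have hJ0 : 0 < J := lt_of_lt_of_le hv0 hIJ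
  have hEδ : P.energy b vδ ≤ P.energy b v + ε / 2 * N :=
    (energy_sqrt_le P hδ hv).trans (by gcongr)
  set c : ℝ := J ^ (-(1 / q)) with hc
  have hc0 : 0 < c := Real.rpow_pos_of_pos hJ0 _
  refine ⟨fun y => c * vδ y, hvδL.const_mul c, fun y => mul_pos hc0 (hvδpos y), ?_, ?_⟩
  · have : ∀ y, (c * vδ y) ^ q = c ^ q * vδ y ^ q := fun y =>
      Real.mul_rpow hc0.le (hvδpos y).le
    simp_rw [this]
    rw [integral_const_mul, ← hJ, hc, ← Real.rpow_mul hJ0.le]
    have : -(1 / q) * q = -1 := by field_simp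
    rw [this, Real.rpow_neg_one, inv_mul_cancel₀ hJ0.ne']
  · rw [energy_smul P b c hvδL]
    have hc2 : c ^ 2 = (J ^ (2 / q))⁻¹ := by
      rw [hc, ← Real.rpow_natCast, ← Real.rpow_mul hJ0.le, ← Real.rpow_neg hJ0.le]
      congr 1
      push_cast
      ring
    have hNJ : N ≤ J ^ (2 / q) := Real.rpow_le_rpow hv0.le hIJ (by positivity)
    have hJp : 0 < J ^ (2 / q) := Real.rpow_pos_of_pos hJ0 _
    rw [hc2, inv_mul_le_iff₀ hJp]
    have h1 : P.energy b v < (Q + ε / 2) * N := by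
      rwa [div_lt_iff₀ hN0] at hr
    calc P.energy b vδ ≤ P.energy b v + ε / 2 * N := hEδ
      _ ≤ (Q + ε / 2) * N + ε / 2 * N := by linarith
      _ = (Q + ε) * N := by ring
      _ ≤ J ^ (2 / q) * (Q + ε) := by
        rw [mul_comm]
        gcongr

end Crest.Agent.R241.A6
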