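import Crest.Agent.R241.A6Min
import Crest.Agent.R241.A9
import Mathlib

-- ▼ part R241/A7Step
section

/-!
R241, Theorem A, block A7c, step 1: the ODE comparison for a near-minimiser, pole `x`.
-/

set_option autoImplicit false

namespace Crest.Agent.R241.A7

open Crest.Agent.R241.A Crest.Agent.R241.A6
open MeasureTheory Set Filter Topology
open scoped NNReal ENNReal

variable {n : ℕ} {k : ℝ} {K : Type*} [MetricSpace K] [CompactSpace K]
  [MeasurableSpace K] [BorelSpace K]

/-- near-minimisers -/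
structure Near (P : PreData n k K) (b q Q ε : ℝ) (u : K → ℝ) : Prop where
  lip : Lip u
  pos : ∀ y, 0 < u y
  norm : ∫ y, u y ^ q ∂P.τ = 1
  en : P.energy b u ≤ Q + ε
  min : ∀ v : K → ℝ, Lip v → Q * (∫ y, |v y| ^ q ∂P.τ) ^ (2 / q) ≤ P.energy b v
  ek : ∀ η : K → ℝ, Lip η →
    (P.form b u η - Q * ∫ y, u y ^ (q - 1) * η y ∂P.τ) ^ 2 ≤ ε * P.energy b η

/-- `ν = u^q τ` -/
noncomputable def nuA (P : PreData n k K) (q : ℝ) (u : K → ℝ) : Measure K :=
  P.τ.withDensity fun y => ENNReal.ofReal (u y ^ q)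

variable (P : PreData n k K)

theorem cont_rpow {u : K → ℝ} (hu : Continuous u) (hpos : ∀ y, 0 < u y) (s : ℝ) :
    Continuous fun y => u y ^ s :=
  hu.rpow_const fun y => Or.inl (hpos y).ne'

theorem integral_nu {q : ℝ} {u : K → ℝ} (hu : Continuous u) (hpos : ∀ y, 0 < u y)
    (f : K → ℝ) : ∫ y, f y ∂(nuA P q u) = ∫ y, u y ^ q * f y ∂P.τ := by
  unfold nuA
  rw [integral_withDensity_eq_integral_toReal_smul
    (cont_rpow hu hpos q).measurable.ennreal_ofReal
    (Eventually.of_forall fun x => ENNReal.ofReal_lt_top)]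
  refine integral_congr_ae (Eventually.of_forall fun x => ?_)
  simp only [smul_eq_mul]
  rw [ENNReal.toReal_ofReal (Real.rpow_pos_of_pos (hpos x) _).le]

theorem prob_nu {q : ℝ} {u : K → ℝ} (hu : Continuous u) (hpos : ∀ y, 0 < u y)
    (h1 : ∫ y, u y ^ q ∂P.τ = 1) : IsProbabilityMeasure (nuA P q u) := by
  constructor
  unfold nuA
  rw [withDensity_apply _ MeasurableSet.univ, Measure.restrict_univ,
    ← ofReal_integral_eq_lintegral_ofReal (P.integrable_of_continuous (cont_rpow hu hpos q))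
    (Eventually.of_forall fun y => (Real.rpow_pos_of_pos (hpos y) _).le), h1, ENNReal.ofReal_one]

theorem wA_cont {u : K → ℝ} (hu : Continuous u) (hpos : ∀ y, 0 < u y) (x : K) :
    Continuous (wA n k x u) := by
  unfold wA
  exact (continuous_zd k x).mul (cont_rpow hu hpos _)

theorem wA_nonneg {u : K → ℝ} (hpos : ∀ y, 0 < u y) (x y : K) : 0 ≤ wA n k x u y :=
  mul_nonneg (zd_nonneg k x y) (Real.rpow_pos_of_pos (hpos y) _).le

/-- the inequality `N(t)^{2/q} ≤ ∫ H(t w) dν + e` -/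
theorem step1a {b q Q ε C2 : ℝ} {h : ℝ} (hb : b = bA n k h) (hm : 0 < mA n) (hq : 2 < q)
    (hqn : mA n * q ≤ n) (hQ : 0 < Q) (hε : 0 ≤ ε) (hC2 : 0 ≤ C2)
    {u : K → ℝ} (hu : Near P b q Q ε u)
    (hkey : ∀ (x : K) (t : ℝ) (u : K → ℝ), 0 < t → Lip u → (∀ y, 0 < u y) →
      Lip (fun y => u y * (1 + t * wA n k x u y) ^ (-(mA n))) ∧
      Lip (fun y => u y * HA n (t * wA n k x u y)) ∧
      P.energy (bA n k h) (fun y => u y * (1 + t * wA n k x u y) ^ (-(mA n)))
        ≤ P.form (bA n k h) u (fun y => u y * HA n (t * wA n k x u y)))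
    (hE : ∀ (x : K) (t : ℝ) (u : K → ℝ), 0 < t → Lip u → (∀ y, 0 < u y) →
      P.energy (bA n k h) (fun y => u y * HA n (t * wA n k x u y))
        ≤ C2 * P.energy (bA n k h) u) (x : K) {t : ℝ} (ht : 0 < t) :
    (∫ y, (1 + t * wA n k x u y) ^ (-(n : ℝ)) ∂(nuA P q u)) ^ (2 / q) ≤
      ∫ y, HA n (t * wA n k x u y) ∂(nuA P q u) + √(ε * (C2 * (Q + ε))) / Q := by
  subst hb
  have huc := hu.lip.continuous
  obtain ⟨hL1, hL2, hK⟩ := hkey x t u ht hu.lip hu.pos
  have hE' := hE x t u ht hu.lip hu.pos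
  set ζ : K → ℝ := fun y => u y * (1 + t * wA n k x u y) ^ (-(mA n)) with hζ
  set η : K → ℝ := fun y => u y * HA n (t * wA n k x u y) with hη
  have hw0 : ∀ y, 0 ≤ wA n k x u y := wA_nonneg hu.pos x
  have hwc := wA_cont (n := n) (k := k) huc hu.pos x
  have hbase : ∀ y, 1 ≤ 1 + t * wA n k x u y := fun y => by
    have := mul_nonneg ht.le (hw0 y); linarith
  have h1 := hu.min ζ hL1
  have h2 := hu.ek η hL2
  have h3 : P.form (bA n k h) u η - Q * ∫ y, u y ^ (q - 1) * η y ∂P.τ ≤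
      √(ε * (C2 * (Q + ε))) := by
    refine (le_abs_self _).trans ?_
    apply Real.abs_le_sqrt
    refine h2.trans ?_
    have : C2 * P.energy (bA n k h) u ≤ C2 * (Q + ε) := mul_le_mul_of_nonneg_left hu.en hC2
    exact mul_le_mul_of_nonneg_left (hE'.trans this) hε
  have h4 : ∫ y, u y ^ (q - 1) * η y ∂P.τ = ∫ y, HA n (t * wA n k x u y) ∂(nuA P q u) := by
    rw [integral_nu P huc hu.pos]
    refine integral_congr_ae (Eventually.of_forall fun y => ?_)
    simp only [hη]
    have : u y ^ q = u y ^ (q - 1) * u y := by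
      rw [← Real.rpow_add_one (hu.pos y).ne']; congr 1; ring
    rw [this]; ring
  have h5 : ∫ y, (1 + t * wA n k x u y) ^ (-(n : ℝ)) ∂(nuA P q u) ≤ ∫ y, |ζ y| ^ q ∂P.τ := by
    rw [integral_nu P huc hu.pos]
    have hc1 : Continuous fun y => (1 + t * wA n k x u y) ^ (-(n : ℝ)) :=
      (continuous_const.add (continuous_const.mul hwc)).rpow_const fun y =>
        Or.inl (lt_of_lt_of_le one_pos (hbase y)).ne'
    refine integral_mono
      (P.integrable_of_continuous ((cont_rpow huc hu.pos q).mul hc1))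
      (P.integrable_of_continuous (cont_rpow_abs (by linarith) hL1.continuous)) fun y => ?_
    have hb0 : 0 < 1 + t * wA n k x u y := by linarith [hbase y]
    have e1 : |ζ y| ^ q = u y ^ q * (1 + t * wA n k x u y) ^ (-(mA n * q)) := by
      simp only [hζ]
      rw [abs_of_pos (mul_pos (hu.pos y) (Real.rpow_pos_of_pos hb0 _)),
        Real.mul_rpow (hu.pos y).le (Real.rpow_pos_of_pos hb0 _).le, ← Real.rpow_mul hb0.le]
      congr 2
      ring
    show u y ^ q * (1 + t * wA n k x u y) ^ (-(n : ℝ)) ≤ |ζ y| ^ q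
    rw [e1]
    refine mul_le_mul_of_nonneg_left ?_ (Real.rpow_pos_of_pos (hu.pos y) _).le
    exact Real.rpow_le_rpow_of_exponent_le (hbase y) (by linarith)
  have h6 : (∫ y, (1 + t * wA n k x u y) ^ (-(n : ℝ)) ∂(nuA P q u)) ^ (2 / q) ≤
      (∫ y, |ζ y| ^ q ∂P.τ) ^ (2 / q) := by
    refine Real.rpow_le_rpow (integral_nonneg fun y => ?_) h5 (by positivity)
    exact Real.rpow_nonneg (by linarith [hbase y]) _
  have h7 : Q * (∫ y, |ζ y| ^ q ∂P.τ) ^ (2 / q) ≤
      Q * ∫ y, HA n (t * wA n k x u y) ∂(nuA P q u) + √(ε * (C2 * (Q + ε))) := by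
    rw [← h4]
    linarith
  refine h6.trans ?_
  have h8 : (∫ y, |ζ y| ^ q ∂P.τ) ^ (2 / q) ≤
      (Q * ∫ y, HA n (t * wA n k x u y) ∂(nuA P q u) + √(ε * (C2 * (Q + ε)))) / Q := by
    rw [le_div_iff₀ hQ]; linarith
  refine h8.trans (le_of_eq ?_)
  field_simp

/-- the ODE comparison, in the form: a lower bound of `W(T)` bounds `1 - ∫ H(t₀ w) dν`. -/
theorem step1c (hn : 3 ≤ n) (hode : T_ode) {q e : ℝ} (hq : 2 < q) (he : 0 ≤ e)
    (ν : Measure K) [IsProbabilityMeasure ν] {w : K → ℝ} (hwc : Continuous w)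
    (hw0 : ∀ y, 0 ≤ w y)
    (h1 : ∀ t : ℝ, 0 < t → (∫ y, (1 + t * w y) ^ (-(n : ℝ)) ∂ν) ^ (2 / q) ≤
      ∫ y, HA n (t * w y) ∂ν + e)
    {U lam Lam A : ℝ} (hU : 0 < U) (hlam : 0 < lam) (hLam : lam ≤ Lam) (hA : 0 < A)
    (hW : A * U ≤ Lam ^ mA n * U * ∫ y, HA n (Lam * U ^ (1 / mA n) * w y) ∂ν)
    (hH0 : 0 < ∫ y, HA n (lam * U ^ (1 / mA n) * w y) ∂ν) :
    1 - ∫ y, HA n (lam * U ^ (1 / mA n) * w y) ∂ν ≤
      e * (Lam / lam) ^ mA n + (lam ^ mA n / A) ^ ((q - 2) / 2) / ((q - 2) / 2) := by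
  have hm := mA_pos hn
  set m := mA n with hmdef
  set α : ℝ := (q - 2) / 2 with hα
  have hα0 : 0 < α := by rw [hα]; linarith
  have hLam0 : 0 < Lam := hlam.trans_le hLam
  have hU' : 0 < U ^ (1 / m) := Real.rpow_pos_of_pos hU _
  set t0 : ℝ := lam * U ^ (1 / m) with ht0
  set T : ℝ := Lam * U ^ (1 / m) with hT
  have ht0p : 0 < t0 := by positivity
  have hTp : 0 < T := by positivity
  have ht0T : t0 ≤ T := by rw [ht0, hT]; gcongr
  have hM : (0 : ℝ) < ν.real univ := by simp
  have hfub : ∀ t : ℝ, 0 < t → ∫ s in (0 : ℝ)..t, m * s ^ (m - 1) * A9.Nf n ν w s =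
      t ^ m * ∫ y, HA n (t * w y) ∂ν := by
    intro t ht
    rw [hmdef, A9.integral_Nf n hn ν hwc hw0 ht, integral_const_mul]
    simp
  have hNe : ∀ t : ℝ, 0 ≤ t → A9.Nf n ν w t = ∫ y, (1 + t * w y) ^ (-(n : ℝ)) ∂ν := by
    intro t ht
    unfold A9.Nf
    rw [abs_of_nonneg ht]
    simp
  have hO := hode m q e t0 T (A9.Nf n ν w) hm hq he ht0p ht0T
    (A9.continuous_Nf n ν hwc hw0) (fun s _ => A9.Nf_pos n ν hM hwc hw0) (by
      intro t ht
      have htp : 0 < t := ht0p.trans_le ht.1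
      rw [hNe t htp.le, hfub t htp]
      refine (h1 t htp).trans (le_of_eq ?_)
      rw [← mul_assoc, ← Real.rpow_add htp]
      simp)
  rw [hfub t0 ht0p, hfub T hTp] at hO
  set H : ℝ := ∫ y, HA n (t0 * w y) ∂ν with hH
  have hUm : (U ^ (1 / m)) ^ m = U := by
    rw [← Real.rpow_mul hU.le, one_div, inv_mul_cancel₀ hm.ne', Real.rpow_one]
  have ht0m : t0 ^ m = lam ^ m * U := by rw [ht0, Real.mul_rpow hlam.le hU'.le, hUm]
  have hTm : T ^ m = Lam ^ m * U := by rw [hT, Real.mul_rpow hLam0.le hU'.le, hUm]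
  rw [ht0m, hTm] at hO
  have hlm : 0 < lam ^ m := Real.rpow_pos_of_pos hlam _
  have hLm : 0 < Lam ^ m := Real.rpow_pos_of_pos hLam0 _
  have e1 : t0 ^ (-(m * (q - 2) / 2)) = (lam ^ m * U) ^ (-α) := by
    rw [← ht0m, ← Real.rpow_mul ht0p.le]
    congr 1
    rw [hα]; ring
  rw [e1] at hO
  have hAU : 0 < A * U := by positivity
  have h2 : (Lam ^ m * U * ∫ y, HA n (T * w y) ∂ν) ^ (-α) ≤ (A * U) ^ (-α) :=
    Real.rpow_le_rpow_of_nonpos hAU hW (by linarith)
  have h3 : (lam ^ m * U * H + e * (Lam ^ m * U)) ^ (-α) ≤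
      (lam ^ m * U) ^ (-α) + (A * U) ^ (-α) := by linarith
  set e' : ℝ := e * (Lam / lam) ^ m with he'
  have he'0 : 0 ≤ e' := by positivity
  have e2 : lam ^ m * U * H + e * (Lam ^ m * U) = (lam ^ m * U) * (H + e') := by
    rw [he', Real.div_rpow hLam0.le hlam.le]
    field_simp
  have hHe : 0 < H + e' := by linarith
  rw [e2, Real.mul_rpow (by positivity) hHe.le] at h3
  have hp : 0 < (lam ^ m * U) ^ (-α) := Real.rpow_pos_of_pos (by positivity) _
  have h4 : (H + e') ^ (-α) ≤ 1 + (lam ^ m / A) ^ α := by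
    have h5 : (A * U) ^ (-α) = (lam ^ m * U) ^ (-α) * (lam ^ m / A) ^ α := by
      have : A * U = (lam ^ m * U) * (lam ^ m / A)⁻¹ := by field_simp
      rw [this, Real.mul_rpow (by positivity) (by positivity), Real.inv_rpow (by positivity),
        ← Real.rpow_neg (by positivity), neg_neg]
    rw [h5] at h3
    have h6 : (lam ^ m * U) ^ (-α) * (H + e') ^ (-α) ≤
        (lam ^ m * U) ^ (-α) * (1 + (lam ^ m / A) ^ α) := by
      rw [mul_add, mul_one]; exact h3
    exact le_of_mul_le_mul_left h6 hp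
  have h7 := A9.rpow_neg_ge hHe hα0.le
  have h8 : α * (1 - (H + e')) ≤ (lam ^ m / A) ^ α := by linarith
  have h9 : 1 - (H + e') ≤ (lam ^ m / A) ^ α / α := by
    rw [le_div_iff₀ hα0]; linarith
  linarith

end Crest.Agent.R241.A7
end

-- ▼ part R241/A7Abs
section

/-!
R241, Theorem A, block A7c, step 3 (abstract): integrating the two-point inequality over the good
set.
-/

set_option autoImplicit false

namespace Crest.Agent.R241.A7

open MeasureTheory Set Filter Topology
open scoped NNReal ENNReal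

variable {K : Type*} [MetricSpace K] [CompactSpace K] [MeasurableSpace K] [BorelSpace K]

theorem step3 (ν : Measure K) [IsProbabilityMeasure ν] {D κ : K → K → ℝ}
    (hD : Continuous (Function.uncurry D)) (hκ : Continuous (Function.uncurry κ))
    {Φ : K → ℝ} (hΦ : Continuous Φ) (hD0 : ∀ y p, 0 ≤ D y p) (hDs : ∀ y p, D y p = D p y)
    (hΦ0 : ∀ y, 0 ≤ Φ y) (hκ2 : ∀ y p, κ y p ≤ 2) (hκ1 : ∀ p, 1 ≤ ∫ y, κ y p ∂ν)
    {DR R Y : ℝ} (hDR : 0 < DR) (hR : 0 ≤ R) (hY : 0 ≤ Y)
    (hκD : ∀ y p, κ y p ≤ D y p / DR * (2 + R / 2 * (Φ y + Φ p)))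
    {G : Set K} (hG : MeasurableSet G) (hGY : ∀ p ∈ G, ∫ y, D y p ∂ν ≤ Y) :
    1 - 3 * ν.real Gᶜ ≤ Y / DR * (2 + R * ∫ y, Φ y ∂ν) := by
  have hint : ∀ (μ : Measure K) [IsFiniteMeasure μ] (f : K → ℝ), Continuous f → Integrable f μ :=
    fun μ _ f hf => hf.integrable_of_hasCompactSupport (HasCompactSupport.of_compactSpace _)
  have hint2 : ∀ (μ : Measure K) [IsFiniteMeasure μ] (f : K × K → ℝ), Continuous f →
      Integrable f (μ.prod μ) := fun μ _ f hf =>
    hf.integrable_of_hasCompactSupport (HasCompactSupport.of_compactSpace _)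
  set c : ℝ := ν.real Gᶜ with hc
  have hc0 : 0 ≤ c := measureReal_nonneg
  have hGc : ν.real G = 1 - c := by
    rw [hc, probReal_compl_eq_one_sub hG]; ring
  set ν' : Measure K := ν.restrict G with hν'
  have hDy : ∀ p, Continuous fun y => D y p := fun p => by
    have : Continuous fun y : K => (y, p) := Continuous.prodMk_left p
    exact hD.comp this
  have hκy : ∀ p, Continuous fun y => κ y p := fun p => by
    have : Continuous fun y : K => (y, p) := Continuous.prodMk_left p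
    exact hκ.comp this
  -- swapped continuity
  have hD' : Continuous (fun z : K × K => D z.2 z.1) := hD.comp continuous_swap
  have hκ' : Continuous (fun z : K × K => κ z.2 z.1) := hκ.comp continuous_swap
  -- continuity of inner integrals
  have hcI : ∀ f : K × K → ℝ, Continuous f → Continuous fun p => ∫ y, f (p, y) ∂ν' := by
    intro f hf
    have h := continuous_parametric_integral_of_continuous (X := K) (μ := ν')
      (f := fun p y => f (p, y)) hf isCompact_univ
    simpa only [Measure.restrict_univ] using h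
  -- step A: pointwise
  have hA : ∀ p, 1 - 2 * c ≤ ∫ y, κ y p ∂ν' := by
    intro p
    have h1 := hκ1 p
    have h2 : ∫ y, κ y p ∂ν = ∫ y in G, κ y p ∂ν + ∫ y in Gᶜ, κ y p ∂ν :=
      (integral_add_compl hG (hint ν _ (hκy p))).symm
    have h3 : ∫ y in Gᶜ, κ y p ∂ν ≤ 2 * c := by
      calc ∫ y in Gᶜ, κ y p ∂ν ≤ ∫ y in Gᶜ, (2 : ℝ) ∂ν :=
            integral_mono (hint _ _ (hκy p)) (integrable_const _) fun y => hκ2 y p
        _ = 2 * c := by
            rw [integral_const, smul_eq_mul, measureReal_restrict_apply MeasurableSet.univ,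
              univ_inter]
            ring
    linarith
  -- step B: integrate over G
  have hB : (1 - 2 * c) * (1 - c) ≤ ∫ p, ∫ y, κ y p ∂ν' ∂ν' := by
    have h1 : ∫ _, (1 - 2 * c) ∂ν' = (1 - 2 * c) * (1 - c) := by
      rw [integral_const, smul_eq_mul, hν', measureReal_restrict_apply MeasurableSet.univ,
        univ_inter, hGc]
      ring
    rw [← h1]
    exact integral_mono (integrable_const _) (hint ν' _ (hcI _ hκ')) hA
  -- step C
  have hΦ1 : Continuous fun z : K × K => Φ z.1 := hΦ.comp continuous_fst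
  have hΦ2 : Continuous fun z : K × K => Φ z.2 := hΦ.comp continuous_snd
  have hsw : ∫ p, ∫ y, D y p * Φ y ∂ν' ∂ν' = ∫ p, ∫ y, D y p * Φ p ∂ν' ∂ν' := by
    rw [integral_integral_swap]
    · refine integral_congr_ae (Eventually.of_forall fun y => ?_)
      refine integral_congr_ae (Eventually.of_forall fun p => ?_)
      simp only
      rw [hDs]
    · exact hint2 ν' _ (hD'.mul hΦ2)
  have hC1 : ∫ p, ∫ y, κ y p ∂ν' ∂ν' ≤
      ∫ p, ∫ y, D y p / DR * (2 + R / 2 * (Φ y + Φ p)) ∂ν' ∂ν' := by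
    have hc2 : Continuous fun z : K × K => D z.2 z.1 / DR * (2 + R / 2 * (Φ z.2 + Φ z.1)) :=
      (hD'.div_const _).mul (continuous_const.add (continuous_const.mul (hΦ2.add hΦ1)))
    refine integral_mono (hint ν' _ (hcI _ hκ')) (hint ν' _ (hcI _ hc2)) fun p => ?_
    refine integral_mono (hint ν' _ (hκy p)) (hint ν' _ ?_) fun y => hκD y p
    exact ((hDy p).div_const _).mul
      (continuous_const.add (continuous_const.mul (hΦ.add continuous_const)))
  have hC2 : ∫ p, ∫ y, D y p / DR * (2 + R / 2 * (Φ y + Φ p)) ∂ν' ∂ν' =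
      (1 / DR) * ∫ p, ((2 + R * Φ p) * ∫ y, D y p ∂ν') ∂ν' := by
    have e1 : ∀ p, ∫ y, D y p / DR * (2 + R / 2 * (Φ y + Φ p)) ∂ν' =
        (1 / DR) * (2 * ∫ y, D y p ∂ν' + R / 2 * ∫ y, D y p * Φ y ∂ν' +
          R / 2 * ∫ y, D y p * Φ p ∂ν') := by
      intro p
      have i1 : Integrable (fun y => 2 * D y p) ν' := (hint ν' _ (hDy p)).const_mul 2
      have i2 : Integrable (fun y => R / 2 * (D y p * Φ y)) ν' :=
        (hint ν' _ ((hDy p).mul hΦ)).const_mul _
      have i3 : Integrable (fun y => R / 2 * (D y p * Φ p)) ν' :=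
        (hint ν' _ ((hDy p).mul (continuous_const (y := Φ p)))).const_mul _
      have i12 : Integrable (fun y => 2 * D y p + R / 2 * (D y p * Φ y)) ν' := i1.add i2
      rw [← integral_const_mul, ← integral_const_mul, ← integral_const_mul,
        ← integral_add i1 i2, ← integral_add i12 i3, ← integral_const_mul]
      refine integral_congr_ae (Eventually.of_forall fun y => ?_)
      simp only
      field_simp
      ring
    simp_rw [e1]
    rw [integral_const_mul]
    congr 1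
    have j1 : Integrable (fun p => 2 * ∫ y, D y p ∂ν') ν' :=
      (hint ν' _ (hcI _ hD')).const_mul 2
    have j2 : Integrable (fun p => R / 2 * ∫ y, D y p * Φ y ∂ν') ν' :=
      (hint ν' _ (hcI _ (hD'.mul hΦ2))).const_mul _
    have j3 : Integrable (fun p => R / 2 * ∫ y, D y p * Φ p ∂ν') ν' :=
      (hint ν' _ (hcI _ (hD'.mul hΦ1))).const_mul _
    have j3' : Integrable (fun p => R * ∫ y, D y p * Φ p ∂ν') ν' :=
      (hint ν' _ (hcI _ (hD'.mul hΦ1))).const_mul _
    have j12 : Integrable (fun p => 2 * ∫ y, D y p ∂ν' + R / 2 * ∫ y, D y p * Φ y ∂ν') ν' :=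
      j1.add j2
    rw [integral_add j12 j3, integral_add j1 j2, integral_const_mul,
      integral_const_mul, integral_const_mul, hsw]
    have e2 : ∫ p, (2 + R * Φ p) * ∫ y, D y p ∂ν' ∂ν' =
        ∫ p, (2 * ∫ y, D y p ∂ν' + R * ∫ y, D y p * Φ p ∂ν') ∂ν' := by
      refine integral_congr_ae (Eventually.of_forall fun p => ?_)
      simp only
      rw [integral_mul_const]
      ring
    rw [e2, integral_add j1 j3', integral_const_mul, integral_const_mul]
    ring
  have hD0' : ∀ p, ∫ y, D y p ∂ν' ≤ ∫ y, D y p ∂ν := fun p =>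
    setIntegral_le_integral (hint ν _ (hDy p)) (Eventually.of_forall fun y => hD0 y p)
  have hC3 : ∫ p, ((2 + R * Φ p) * ∫ y, D y p ∂ν') ∂ν' ≤ ∫ p, (2 + R * Φ p) * Y ∂ν' := by
    refine integral_mono_ae (hint ν' _ ?_) (hint ν' _ ?_) ?_
    · exact (continuous_const.add (continuous_const.mul hΦ)).mul (hcI _ hD')
    · exact (continuous_const.add (continuous_const.mul hΦ)).mul continuous_const
    · rw [EventuallyLE, hν', ae_restrict_iff' hG]
      refine Eventually.of_forall fun p hp => ?_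
      refine mul_le_mul_of_nonneg_left ((hD0' p).trans (hGY p hp)) ?_
      have := mul_nonneg hR (hΦ0 p)
      linarith
  have hC4 : ∫ p, (2 + R * Φ p) * Y ∂ν' ≤ ∫ p, (2 + R * Φ p) * Y ∂ν := by
    refine setIntegral_le_integral (hint ν _ ?_) (Eventually.of_forall fun p => ?_)
    · exact (continuous_const.add (continuous_const.mul hΦ)).mul continuous_const
    · have := mul_nonneg hR (hΦ0 p)
      show 0 ≤ (2 + R * Φ p) * Y
      positivity
  have hC5 : ∫ p, (2 + R * Φ p) * Y ∂ν = (2 + R * ∫ y, Φ y ∂ν) * Y := by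
    rw [integral_mul_const, integral_add (integrable_const _) ((hint ν _ hΦ).const_mul R),
      integral_const_mul, integral_const]
    simp
  have hfin : (1 - 2 * c) * (1 - c) ≤ (1 / DR) * ((2 + R * ∫ y, Φ y ∂ν) * Y) := by
    refine hB.trans (hC1.trans ?_)
    rw [hC2]
    refine mul_le_mul_of_nonneg_left ?_ (by positivity)
    rw [← hC5]
    exact hC3.trans hC4
  have e : Y / DR * (2 + R * ∫ y, Φ y ∂ν) = (1 / DR) * ((2 + R * ∫ y, Φ y ∂ν) * Y) := by
    field_simp
  rw [e]
  refine le_trans ?_ hfin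
  nlinarith [sq_nonneg c]

end Crest.Agent.R241.A7
end

-- ▼ part R241/A7Young
section

/-!
R241, Theorem A, block A7: Young's inequality in trilinear form for kernels with uniformly
bounded `s`-integrals.
-/

set_option autoImplicit false

open MeasureTheory ENNReal

namespace Crest.Agent.R241.A7

/-- Trilinear Young inequality. -/
theorem young3 {K L : Type*} [MeasurableSpace K] [MeasurableSpace L]
    (τ : Measure K) [SFinite τ] (σ : Measure L) [SFinite σ]
    {p r s : ℝ} (hp : 1 ≤ p) (hr : 1 ≤ r) (hs : 1 ≤ s) (hprs : 1 / p + 1 / r + 1 / s = 2)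
    (k : K → L → ℝ≥0∞) (hk : Measurable (Function.uncurry k)) (A : ℝ≥0∞)
    (hA : ∀ y, ∫⁻ x, k x y ^ s ∂τ ≤ A) (hA' : ∀ x, ∫⁻ y, k x y ^ s ∂σ ≤ A)
    (f : K → ℝ≥0∞) (hf : Measurable f) (g : L → ℝ≥0∞) (hg : Measurable g) :
    ∫⁻ x, ∫⁻ y, k x y * f x * g y ∂σ ∂τ ≤
      A ^ (1 / s) * (∫⁻ x, f x ^ p ∂τ) ^ (1 / p) * (∫⁻ y, g y ^ r ∂σ) ^ (1 / r) := by
  have hp0 : 0 < p := by linarith
  have hr0 : 0 < r := by linarith
  have hs0 : 0 < s := by linarith
  set a : ℝ := 1 - 1 / r with ha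
  set b : ℝ := 1 - 1 / p with hb
  set c : ℝ := 1 - 1 / s with hc
  have ha0 : 0 ≤ a := by
    rw [ha, sub_nonneg, div_le_one hr0]; exact hr
  have hb0 : 0 ≤ b := by
    rw [hb, sub_nonneg, div_le_one hp0]; exact hp
  have hc0 : 0 ≤ c := by
    rw [hc, sub_nonneg, div_le_one hs0]; exact hs
  have habc : a + b + c = 1 := by rw [ha, hb, hc]; linarith
  -- the three functions on the product
  let F : Fin 3 → K × L → ℝ≥0∞ := ![fun z => k z.1 z.2 ^ s * f z.1 ^ p,
    fun z => k z.1 z.2 ^ s * g z.2 ^ r, fun z => f z.1 ^ p * g z.2 ^ r]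
  let w : Fin 3 → ℝ := ![a, b, c]
  have hkm : Measurable fun z : K × L => k z.1 z.2 := hk
  have hF : ∀ i ∈ (Finset.univ : Finset (Fin 3)), AEMeasurable (F i) (τ.prod σ) := by
    intro i _
    fin_cases i
    · exact ((hkm.pow_const s).mul ((hf.comp measurable_fst).pow_const p)).aemeasurable
    · exact ((hkm.pow_const s).mul ((hg.comp measurable_snd).pow_const r)).aemeasurable
    · exact (((hf.comp measurable_fst).pow_const p).mul
        ((hg.comp measurable_snd).pow_const r)).aemeasurable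
  have hw1 : ∑ i ∈ (Finset.univ : Finset (Fin 3)), w i = 1 := by
    simp [w, Fin.sum_univ_three, habc]
  have hw0 : ∀ i ∈ (Finset.univ : Finset (Fin 3)), 0 ≤ w i := by
    intro i _
    fin_cases i <;> simp [w, ha0, hb0, hc0]
  have hH := ENNReal.lintegral_prod_norm_pow_le (μ := τ.prod σ) Finset.univ hF hw1 hw0
  -- the product of the powers is the integrand
  have hexp : ∀ z : K × L, ∏ i ∈ (Finset.univ : Finset (Fin 3)), F i z ^ w i
      = k z.1 z.2 * f z.1 * g z.2 := by
    intro z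
    have e1 : s * a + s * b = 1 := by
      have : a + b = 1 / s := by rw [ha, hb]; linarith
      rw [← mul_add, this, mul_one_div_cancel hs0.ne']
    have e2 : p * a + p * c = 1 := by
      have : a + c = 1 / p := by rw [ha, hc]; linarith
      rw [← mul_add, this, mul_one_div_cancel hp0.ne']
    have e3 : r * b + r * c = 1 := by
      have : b + c = 1 / r := by rw [hb, hc]; linarith
      rw [← mul_add, this, mul_one_div_cancel hr0.ne']
    rw [Fin.prod_univ_three]
    simp only [F, w, Matrix.cons_val_zero, Matrix.cons_val_one, Matrix.cons_val]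
    rw [ENNReal.mul_rpow_of_nonneg _ _ ha0, ENNReal.mul_rpow_of_nonneg _ _ hb0,
      ENNReal.mul_rpow_of_nonneg _ _ hc0, ← ENNReal.rpow_mul, ← ENNReal.rpow_mul,
      ← ENNReal.rpow_mul, ← ENNReal.rpow_mul, ← ENNReal.rpow_mul, ← ENNReal.rpow_mul]
    have hk1 : k z.1 z.2 ^ (s * a) * k z.1 z.2 ^ (s * b) = k z.1 z.2 := by
      rw [← ENNReal.rpow_add_of_nonneg _ _ (mul_nonneg hs0.le ha0) (mul_nonneg hs0.le hb0), e1,
        ENNReal.rpow_one]
    have hf1 : f z.1 ^ (p * a) * f z.1 ^ (p * c) = f z.1 := by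
      rw [← ENNReal.rpow_add_of_nonneg _ _ (mul_nonneg hp0.le ha0) (mul_nonneg hp0.le hc0), e2,
        ENNReal.rpow_one]
    have hg1 : g z.2 ^ (r * b) * g z.2 ^ (r * c) = g z.2 := by
      rw [← ENNReal.rpow_add_of_nonneg _ _ (mul_nonneg hr0.le hb0) (mul_nonneg hr0.le hc0), e3,
        ENNReal.rpow_one]
    calc k z.1 z.2 ^ (s * a) * f z.1 ^ (p * a) * (k z.1 z.2 ^ (s * b) * g z.2 ^ (r * b)) *
          (f z.1 ^ (p * c) * g z.2 ^ (r * c))
        = (k z.1 z.2 ^ (s * a) * k z.1 z.2 ^ (s * b)) * (f z.1 ^ (p * a) * f z.1 ^ (p * c)) *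
          (g z.2 ^ (r * b) * g z.2 ^ (r * c)) := by ring
      _ = _ := by rw [hk1, hf1, hg1]
  have hL : ∫⁻ x, ∫⁻ y, k x y * f x * g y ∂σ ∂τ
      = ∫⁻ z, ∏ i ∈ (Finset.univ : Finset (Fin 3)), F i z ^ w i ∂(τ.prod σ) := by
    rw [lintegral_congr hexp, lintegral_prod]
    exact ((hkm.mul (hf.comp measurable_fst)).mul (hg.comp measurable_snd)).aemeasurable
  rw [hL]
  refine hH.trans ?_
  rw [Fin.prod_univ_three]
  simp only [F, w, Matrix.cons_val_zero, Matrix.cons_val_one, Matrix.cons_val]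
  set If : ℝ≥0∞ := ∫⁻ x, f x ^ p ∂τ with hIf
  set Ig : ℝ≥0∞ := ∫⁻ y, g y ^ r ∂σ with hIg
  have h1 : ∫⁻ z : K × L, k z.1 z.2 ^ s * f z.1 ^ p ∂(τ.prod σ) ≤ A * If := by
    have hm : Measurable fun z : K × L => k z.1 z.2 ^ s * f z.1 ^ p :=
      (hkm.pow_const s).mul ((hf.comp measurable_fst).pow_const p)
    rw [lintegral_prod _ hm.aemeasurable]
    calc ∫⁻ x, ∫⁻ y, k x y ^ s * f x ^ p ∂σ ∂τ
        = ∫⁻ x, (∫⁻ y, k x y ^ s ∂σ) * f x ^ p ∂τ := by
          refine lintegral_congr fun x => ?_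
          rw [lintegral_mul_const]
          exact (hkm.comp measurable_prodMk_left).pow_const s
      _ ≤ ∫⁻ x, A * f x ^ p ∂τ := lintegral_mono fun x => mul_le_mul_left (hA' x) _
      _ = A * If := by rw [lintegral_const_mul _ (hf.pow_const p)]
  have h2 : ∫⁻ z : K × L, k z.1 z.2 ^ s * g z.2 ^ r ∂(τ.prod σ) ≤ A * Ig := by
    have hm : Measurable fun z : K × L => k z.1 z.2 ^ s * g z.2 ^ r :=
      (hkm.pow_const s).mul ((hg.comp measurable_snd).pow_const r)
    rw [lintegral_prod_symm _ hm.aemeasurable]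
    calc ∫⁻ y, ∫⁻ x, k x y ^ s * g y ^ r ∂τ ∂σ
        = ∫⁻ y, (∫⁻ x, k x y ^ s ∂τ) * g y ^ r ∂σ := by
          refine lintegral_congr fun y => ?_
          rw [lintegral_mul_const]
          exact (hkm.comp measurable_prodMk_right).pow_const s
      _ ≤ ∫⁻ y, A * g y ^ r ∂σ := lintegral_mono fun y => mul_le_mul_left (hA y) _
      _ = A * Ig := by rw [lintegral_const_mul _ (hg.pow_const r)]
  have h3 : ∫⁻ z : K × L, f z.1 ^ p * g z.2 ^ r ∂(τ.prod σ) = If * Ig := by
    rw [lintegral_prod_mul (hf.pow_const p).aemeasurable (hg.pow_const r).aemeasurable]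
  rw [h3]
  calc (∫⁻ z : K × L, k z.1 z.2 ^ s * f z.1 ^ p ∂(τ.prod σ)) ^ a *
        (∫⁻ z : K × L, k z.1 z.2 ^ s * g z.2 ^ r ∂(τ.prod σ)) ^ b * (If * Ig) ^ c
      ≤ (A * If) ^ a * (A * Ig) ^ b * (If * Ig) ^ c := by
        gcongr
    _ = (A ^ a * A ^ b) * (If ^ a * If ^ c) * (Ig ^ b * Ig ^ c) := by
        rw [ENNReal.mul_rpow_of_nonneg _ _ ha0, ENNReal.mul_rpow_of_nonneg _ _ hb0,
          ENNReal.mul_rpow_of_nonneg _ _ hc0]
        ring
    _ = A ^ (1 / s) * If ^ (1 / p) * Ig ^ (1 / r) := by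
        rw [← ENNReal.rpow_add_of_nonneg _ _ ha0 hb0, ← ENNReal.rpow_add_of_nonneg _ _ ha0 hc0,
          ← ENNReal.rpow_add_of_nonneg _ _ hb0 hc0]
        have e1 : a + b = 1 / s := by rw [ha, hb]; linarith
        have e2 : a + c = 1 / p := by rw [ha, hc]; linarith
        have e3 : b + c = 1 / r := by rw [hb, hc]; linarith
        rw [e1, e2, e3]

end Crest.Agent.R241.A7
end

-- ▼ part R241/A7Disc
section

/-!
R241, Theorem A, block A7b: from finite sums to integrals (discretisation of a finite measure on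
a compact metric space).
-/

set_option autoImplicit false

open MeasureTheory Filter Topology Set

namespace Crest.Agent.R241.A7

variable {K : Type*} [MetricSpace K] [CompactSpace K] [MeasurableSpace K] [BorelSpace K]

/-- A measurable map with finite range which moves points by less than `η`. -/
theorem exists_simple_near [Nonempty K] {η : ℝ} (hη : 0 < η) :
    ∃ T : SimpleFunc K K, ∀ y, dist (T y) y < η := by
  classical
  set e : ℕ → K := TopologicalSpace.denseSeq K with he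
  have hcov : (Set.univ : Set K) ⊆ ⋃ k : ℕ, Metric.ball (e k) η := by
    intro x _
    obtain ⟨k, hk⟩ := (TopologicalSpace.denseRange_denseSeq K).exists_dist_lt x hη
    exact mem_iUnion.2 ⟨k, by simpa [Metric.mem_ball] using hk⟩
  obtain ⟨t, ht⟩ := isCompact_univ.elim_finite_subcover (fun k : ℕ => Metric.ball (e k) η)
    (fun k => Metric.isOpen_ball) hcov
  refine ⟨SimpleFunc.nearestPt e (t.sup id), fun y => ?_⟩
  obtain ⟨k, hk, hy⟩ : ∃ k ∈ t, y ∈ Metric.ball (e k) η := by
    have := ht (mem_univ y)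
    simpa using this
  have h1 : edist (SimpleFunc.nearestPt e (t.sup id) y) y ≤ edist (e k) y :=
    SimpleFunc.edist_nearestPt_le e y (Finset.le_sup (f := id) hk)
  have h2 : edist (e k) y < ENNReal.ofReal η := by
    rw [edist_dist]
    refine (ENNReal.ofReal_lt_ofReal_iff hη).2 ?_
    rw [dist_comm]; exact hy
  have h3 := lt_of_le_of_lt h1 h2
  rw [edist_dist] at h3
  exact (ENNReal.ofReal_lt_ofReal_iff hη).1 h3

/-- Integral of a function composed with a simple map. -/
theorem integral_comp_simple (μ : Measure K) [IsFiniteMeasure μ] (T : SimpleFunc K K)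
    (F : K → ℝ) :
    ∫ y, F (T y) ∂μ = ∑ p ∈ T.range, μ.real (T ⁻¹' {p}) * F p := by
  classical
  have h1 : ∀ y, F (T y) = ∑ p ∈ T.range, (T ⁻¹' {p}).indicator (fun _ => F p) y := by
    intro y
    rw [Finset.sum_eq_single (T y)]
    · rw [indicator_of_mem]; simp
    · intro b _ hb
      rw [indicator_of_notMem]
      simp only [mem_preimage, mem_singleton_iff]
      exact fun h => hb h.symm
    · intro h; exact absurd (SimpleFunc.mem_range_self T y) h
  simp_rw [h1]
  rw [integral_finset_sum]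
  · refine Finset.sum_congr rfl fun p _ => ?_
    rw [integral_indicator (T.measurableSet_preimage _), setIntegral_const, smul_eq_mul]
  · intro p _
    exact (integrable_const _).indicator (T.measurableSet_preimage _)

/-- Discretisation: an inequality for all finitely supported measures passes to all finite
measures. -/
theorem disc_ineq [Nonempty K] (F : K → ℝ) (hF : Continuous F) (G : K → K → ℝ)
    (hG : Continuous (Function.uncurry G))
    (h : ∀ (s : Finset K) (w : K → ℝ), (∀ p, 0 ≤ w p) →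
      ∑ p ∈ s, w p * F p ≤ √(∑ p ∈ s, ∑ r ∈ s, w p * w r * G p r))
    (μ : Measure K) [IsFiniteMeasure μ] :
    ∫ y, F y ∂μ ≤ √(∫ x, ∫ y, G x y ∂μ ∂μ) := by
  classical
  set M : ℝ := μ.real univ with hM
  have hM0 : 0 ≤ M := measureReal_nonneg
  have hFint : Integrable F μ := hF.integrable_of_hasCompactSupport
    (HasCompactSupport.of_compactSpace F)
  have hGx : ∀ x, Continuous (G x) := fun x => hG.comp (Continuous.prodMk_right x)
  have hGint : ∀ x, Integrable (G x) μ := fun x => (hGx x).integrable_of_hasCompactSupport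
    (HasCompactSupport.of_compactSpace _)
  -- key estimate for each tolerance
  have key : ∀ δ > 0, ∫ y, F y ∂μ ≤ δ * M + √(∫ x, ∫ y, G x y ∂μ ∂μ + δ * M ^ 2) := by
    intro δ hδ
    have hFu : UniformContinuous F := CompactSpace.uniformContinuous_of_continuous hF
    have hGu : UniformContinuous (Function.uncurry G) :=
      CompactSpace.uniformContinuous_of_continuous hG
    obtain ⟨η1, hη1, hF1⟩ := Metric.uniformContinuous_iff.1 hFu δ hδ
    obtain ⟨η2, hη2, hG1⟩ := Metric.uniformContinuous_iff.1 hGu δ hδ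
    obtain ⟨T, hT⟩ := exists_simple_near (K := K) (lt_min hη1 hη2)
    have hsumF : ∫ y, F (T y) ∂μ = ∑ p ∈ T.range, μ.real (T ⁻¹' {p}) * F p :=
      integral_comp_simple μ T F
    have hsumG : ∫ x, ∫ y, G (T x) (T y) ∂μ ∂μ =
        ∑ p ∈ T.range, ∑ r ∈ T.range, μ.real (T ⁻¹' {p}) * μ.real (T ⁻¹' {r}) * G p r := by
      rw [integral_comp_simple μ T (fun x => ∫ y, G x (T y) ∂μ)]
      refine Finset.sum_congr rfl fun p _ => ?_
      rw [integral_comp_simple μ T (G p), Finset.mul_sum]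
      refine Finset.sum_congr rfl fun r _ => ?_
      ring
    have hFT : Integrable (fun y => F (T y)) μ := (T.map F).integrable_of_isFiniteMeasure
    have e1 : ∫ y, F y ∂μ ≤ δ * M + ∫ y, F (T y) ∂μ := by
      have : ∫ y, F y ∂μ - ∫ y, F (T y) ∂μ ≤ δ * M := by
        rw [← integral_sub hFint hFT]
        calc ∫ y, (F y - F (T y)) ∂μ ≤ ∫ _, δ ∂μ := by
              refine integral_mono (hFint.sub hFT) (integrable_const _) fun y => ?_
              have h1 := hF1 (a := y) (b := T y) (by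
                rw [dist_comm]; exact lt_of_lt_of_le (hT y) (min_le_left _ _))
              rw [Real.dist_eq] at h1
              exact (le_abs_self _).trans h1.le
          _ = δ * M := by rw [integral_const, smul_eq_mul, hM]; ring
      linarith
    have hGT : ∀ x, Integrable (fun y => G (T x) (T y)) μ := fun x =>
      (T.map (G (T x))).integrable_of_isFiniteMeasure
    have hGT2 : Integrable (fun x => ∫ y, G (T x) (T y) ∂μ) μ :=
      (T.map (fun p => ∫ y, G p (T y) ∂μ)).integrable_of_isFiniteMeasure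
    have hG2 : Integrable (fun x => ∫ y, G x y ∂μ) μ := by
      have hprod : Integrable (Function.uncurry G) (μ.prod μ) :=
        hG.integrable_of_hasCompactSupport (HasCompactSupport.of_compactSpace _)
      exact hprod.integral_prod_left
    have e2 : ∫ x, ∫ y, G (T x) (T y) ∂μ ∂μ ≤ ∫ x, ∫ y, G x y ∂μ ∂μ + δ * M ^ 2 := by
      have : ∫ x, ∫ y, G (T x) (T y) ∂μ ∂μ - ∫ x, ∫ y, G x y ∂μ ∂μ ≤ δ * M ^ 2 := by
        rw [← integral_sub hGT2 hG2]
        calc ∫ x, (∫ y, G (T x) (T y) ∂μ - ∫ y, G x y ∂μ) ∂μ ≤ ∫ _, δ * M ∂μ := by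
              refine integral_mono (hGT2.sub hG2) (integrable_const _) fun x => ?_
              simp only
              rw [← integral_sub (hGT x) (hGint x)]
              calc ∫ y, (G (T x) (T y) - G x y) ∂μ ≤ ∫ _, δ ∂μ := by
                    refine integral_mono ((hGT x).sub (hGint x)) (integrable_const _) fun y => ?_
                    have h1 := hG1 (a := (T x, T y)) (b := (x, y)) (by
                      rw [Prod.dist_eq]
                      exact max_lt (lt_of_lt_of_le (hT x) (min_le_right _ _))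
                        (lt_of_lt_of_le (hT y) (min_le_right _ _)))
                    rw [Real.dist_eq] at h1
                    exact (le_abs_self _).trans h1.le
                _ = δ * M := by rw [integral_const, smul_eq_mul, hM]; ring
          _ = δ * M ^ 2 := by rw [integral_const, smul_eq_mul, hM]; ring
      linarith
    have h3 := h T.range (fun p => μ.real (T ⁻¹' {p})) (fun p => measureReal_nonneg)
    rw [← hsumF, ← hsumG] at h3
    calc ∫ y, F y ∂μ ≤ δ * M + ∫ y, F (T y) ∂μ := e1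
      _ ≤ δ * M + √(∫ x, ∫ y, G (T x) (T y) ∂μ ∂μ) := by gcongr
      _ ≤ δ * M + √(∫ x, ∫ y, G x y ∂μ ∂μ + δ * M ^ 2) := by gcongr
  have hlim : Tendsto (fun δ : ℝ => δ * M + √(∫ x, ∫ y, G x y ∂μ ∂μ + δ * M ^ 2)) (𝓝[>] 0)
      (𝓝 (0 * M + √(∫ x, ∫ y, G x y ∂μ ∂μ + 0 * M ^ 2))) := by
    have : Continuous (fun δ : ℝ => δ * M + √(∫ x, ∫ y, G x y ∂μ ∂μ + δ * M ^ 2)) := by
      fun_prop
    exact (this.tendsto 0).mono_left nhdsWithin_le_nhds
  have := ge_of_tendsto hlim (by
    filter_upwards [self_mem_nhdsWithin] with δ hδ using key δ hδ)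
  simpa using this

end Crest.Agent.R241.A7
end

-- ▼ part R241/A7Pole
section

/-!
R241, Theorem A, block A7b (POLE-B): testing the near-Euler-Lagrange equation with superpositions
of `phi_{y,a}`.
-/

set_option autoImplicit false

namespace Crest.Agent.R241.A7

open Crest.Agent.R241.A Crest.Agent.R241.A6
open MeasureTheory Set Filter Topology
open scoped NNReal ENNReal

variable {n : ℕ} {k : ℝ} {K : Type*} [MetricSpace K] [CompactSpace K]
  [MeasurableSpace K] [BorelSpace K] (P : PreData n k K)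

/-- the kernel `κ_a(x,y) = (z_x(y)+a)^{-m-1/2}` -/
noncomputable def kap (n : ℕ) (k a : ℝ) (x y : K) : ℝ := (zd k x y + a) ^ (-(mA n) - 1 / 2)

omit [CompactSpace K] [MeasurableSpace K] [BorelSpace K] in
theorem kap_pos {a : ℝ} (ha : 0 < a) (x y : K) : 0 < kap n k a x y :=
  Real.rpow_pos_of_pos (zd_add_pos k x ha y) _

omit [CompactSpace K] [MeasurableSpace K] [BorelSpace K] in
theorem continuous_zd_rpow {a : ℝ} (ha : 0 < a) (s : ℝ) :
    Continuous fun p : K × K => (zd k p.1 p.2 + a) ^ s :=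
  ((continuous_zd₂ k).add continuous_const).rpow_const fun p => Or.inl (zd_add_pos k p.1 ha p.2).ne'

omit [CompactSpace K] [MeasurableSpace K] [BorelSpace K] in
theorem kap_cont {a : ℝ} (ha : 0 < a) : Continuous fun p : K × K => kap n k a p.1 p.2 :=
  continuous_zd_rpow ha _

omit [CompactSpace K] [MeasurableSpace K] [BorelSpace K] in
theorem kap_cont_right {a : ℝ} (ha : 0 < a) (x : K) : Continuous (kap n k a x) := by
  unfold kap
  exact ((continuous_zd k x).add continuous_const).rpow_const fun y =>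
    Or.inl (zd_add_pos k x ha y).ne'

theorem sqrt_G_phi_le {Z a : ℝ} (hZ0 : 0 < Z) (ha : 0 < a) (x : K) (hZ : ∀ y, zd k x y ≤ Z) :
    ∀ᵐ y ∂P.τ, √(P.G (phiA n k x a) (phiA n k x a) y) ≤
      √(mA n ^ 2 * (2 + k ^ 2 * Z)) * kap n k a x y := by
  have hL : Lip (phiA n k x a) := lip_zd_rpow k x ha _
  filter_upwards [P.G_zd_rpow_left x ha (-(mA n)) hL,
    P.G_zd_rpow_right x ha (-(mA n)) (lip_zd k x), P.G_z x] with y h1 h2 h3
  have hp := zd_add_pos k x ha y
  have e : phiA n k x a = fun y => (zd k x y + a) ^ (-(mA n)) := rfl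
  have h1' : P.G (phiA n k x a) (phiA n k x a) y =
      (-(mA n) * (zd k x y + a) ^ (-(mA n) - 1)) ^ 2 * P.G (zd k x) (zd k x) y := by
    rw [← e] at h1 h2
    rw [h1, h2]; ring
  rw [h1']
  rw [← Real.sqrt_sq (kap_pos (n := n) (k := k) ha x y).le, ← Real.sqrt_mul (by positivity)]
  apply Real.sqrt_le_sqrt
  have hz0 := zd_nonneg k x y
  have hzZ := hZ y
  have h4 : P.G (zd k x) (zd k x) y ≤ (2 + k ^ 2 * Z) * (zd k x y + a) := by
    refine h3.trans ?_
    have h5 : k ^ 2 * zd k x y ^ 2 ≤ k ^ 2 * Z * (zd k x y + a) := by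
      have : zd k x y ^ 2 ≤ Z * (zd k x y + a) := by nlinarith
      nlinarith [sq_nonneg k]
    nlinarith
  have h6 : ((zd k x y + a) ^ (-(mA n) - 1)) ^ 2 * (zd k x y + a) = kap n k a x y ^ 2 := by
    unfold kap
    rw [← Real.rpow_natCast, ← Real.rpow_natCast, ← Real.rpow_mul hp.le, ← Real.rpow_mul hp.le,
      ← Real.rpow_add_one hp.ne']
    congr 1
    push_cast
    ring
  calc (-(mA n) * (zd k x y + a) ^ (-(mA n) - 1)) ^ 2 * P.G (zd k x) (zd k x) y
      ≤ (-(mA n) * (zd k x y + a) ^ (-(mA n) - 1)) ^ 2 * ((2 + k ^ 2 * Z) * (zd k x y + a)) := by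
        gcongr
    _ = mA n ^ 2 * (2 + k ^ 2 * Z) *
        (((zd k x y + a) ^ (-(mA n) - 1)) ^ 2 * (zd k x y + a)) := by ring
    _ = _ := by rw [h6]

omit [CompactSpace K] [MeasurableSpace K] [BorelSpace K] in
theorem phi_le_kap {Z a : ℝ} (ha : 0 < a) (ha1 : a ≤ 1) (x y : K) (hZ : zd k x y ≤ Z) :
    phiA n k x a y ≤ √(Z + 1) * kap n k a x y := by
  have hp := zd_add_pos k x ha y
  have h1 : phiA n k x a y = √(zd k x y + a) * kap n k a x y := by
    unfold kap phiA
    rw [Real.sqrt_eq_rpow, ← Real.rpow_add hp]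
    congr 1; ring
  rw [h1]
  have h2 : √(zd k x y + a) ≤ √(Z + 1) := Real.sqrt_le_sqrt (by linarith)
  exact mul_le_mul_of_nonneg_right h2 (kap_pos ha x y).le

/-- the form of two poles -/
theorem form_phi_le {b : ℝ} (hb : 0 ≤ b) :
    ∃ C : ℝ, 0 < C ∧ ∀ a : ℝ, 0 < a → a ≤ 1 → ∀ x x' : K,
      P.form b (phiA n k x a) (phiA n k x' a) ≤
        C * ∫ y, kap n k a x y * kap n k a x' y ∂P.τ := by
  obtain ⟨Z, hZ0, hZ⟩ := exists_zd_le (K := K) k
  refine ⟨mA n ^ 2 * (2 + k ^ 2 * Z) + b * (Z + 1) + 1, by positivity, ?_⟩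
  intro a ha ha1 x x'
  have hL : ∀ x : K, Lip (phiA n k x a) := fun x => lip_zd_rpow k x ha _
  have hφ0 : ∀ x y : K, 0 < phiA n k x a y := fun x y =>
    Real.rpow_pos_of_pos (zd_add_pos k x ha y) _
  rw [← integral_const_mul]
  unfold PreData.form
  have hcκ : ∀ x : K, Continuous (kap n k a x) := fun x => kap_cont_right ha x
  refine integral_mono_ae (P.integrable_form b (hL x) (hL x'))
    ((P.integrable_of_continuous ((hcκ x).mul (hcκ x'))).const_mul _) ?_
  filter_upwards [sqrt_G_phi_le P hZ0 ha x (hZ x), sqrt_G_phi_le P hZ0 ha x' (hZ x'),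
    P.abs_G_le (hL x) (hL x')] with y h1 h2 h3
  have k1 := (kap_pos (n := n) (k := k) ha x y).le
  have k2 := (kap_pos (n := n) (k := k) ha x' y).le
  have h4 : P.G (phiA n k x a) (phiA n k x' a) y ≤
      (mA n ^ 2 * (2 + k ^ 2 * Z)) * (kap n k a x y * kap n k a x' y) := by
    refine (le_abs_self _).trans (h3.trans ?_)
    calc √(P.G (phiA n k x a) (phiA n k x a) y) * √(P.G (phiA n k x' a) (phiA n k x' a) y)
        ≤ (√(mA n ^ 2 * (2 + k ^ 2 * Z)) * kap n k a x y) *
          (√(mA n ^ 2 * (2 + k ^ 2 * Z)) * kap n k a x' y) :=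
          mul_le_mul h1 h2 (Real.sqrt_nonneg _) (mul_nonneg (Real.sqrt_nonneg _) k1)
      _ = (√(mA n ^ 2 * (2 + k ^ 2 * Z)) * √(mA n ^ 2 * (2 + k ^ 2 * Z))) *
          (kap n k a x y * kap n k a x' y) := by ring
      _ = _ := by rw [Real.mul_self_sqrt (by positivity)]
  have h5 : phiA n k x a y * phiA n k x' a y ≤ (Z + 1) * (kap n k a x y * kap n k a x' y) := by
    calc phiA n k x a y * phiA n k x' a y
        ≤ (√(Z + 1) * kap n k a x y) * (√(Z + 1) * kap n k a x' y) :=
          mul_le_mul (phi_le_kap ha ha1 x y (hZ x y)) (phi_le_kap ha ha1 x' y (hZ x' y))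
            (hφ0 x' y).le (mul_nonneg (Real.sqrt_nonneg _) k1)
      _ = (√(Z + 1) * √(Z + 1)) * (kap n k a x y * kap n k a x' y) := by ring
      _ = _ := by rw [Real.mul_self_sqrt (by positivity)]
  have h6 : b * (phiA n k x a y * phiA n k x' a y) ≤
      b * ((Z + 1) * (kap n k a x y * kap n k a x' y)) := mul_le_mul_of_nonneg_left h5 hb
  have h7 : 0 ≤ kap n k a x y * kap n k a x' y := mul_nonneg k1 k2
  show _ ≤ (mA n ^ 2 * (2 + k ^ 2 * Z) + b * (Z + 1) + 1) * (kap n k a x y * kap n k a x' y)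
  nlinarith

theorem cont_int {a : ℝ} (ha : 0 < a) (s : ℝ) {v : K → ℝ} (hv : Continuous v) (μ : Measure K)
    [IsFiniteMeasure μ] : Continuous fun x : K => ∫ y, (zd k x y + a) ^ s * v y ∂μ := by
  have h := continuous_parametric_integral_of_continuous (X := K) (μ := μ)
    (f := fun x y => (zd k x y + a) ^ s * v y)
    ((continuous_zd_rpow ha s).mul (hv.comp continuous_snd)) isCompact_univ
  simpa only [Measure.restrict_univ] using h

theorem cont_G0 {a : ℝ} (ha : 0 < a) (μ : Measure K) [IsFiniteMeasure μ] :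
    Continuous fun p : K × K => ∫ y, kap n k a p.1 y * kap n k a p.2 y ∂μ := by
  have h1 : Continuous fun q : (K × K) × K => kap n k a q.1.1 q.2 := by
    have : Continuous fun q : (K × K) × K => zd k q.1.1 q.2 := by
      unfold zd
      exact (continuous_zk k).comp
        (Continuous.dist (continuous_fst.comp continuous_fst) continuous_snd)
    unfold kap
    exact (this.add continuous_const).rpow_const fun q =>
      Or.inl (zd_add_pos k q.1.1 ha q.2).ne'
  have h2 : Continuous fun q : (K × K) × K => kap n k a q.1.2 q.2 := by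
    have : Continuous fun q : (K × K) × K => zd k q.1.2 q.2 := by
      unfold zd
      exact (continuous_zk k).comp
        (Continuous.dist (continuous_snd.comp continuous_fst) continuous_snd)
    unfold kap
    exact (this.add continuous_const).rpow_const fun q =>
      Or.inl (zd_add_pos k q.1.2 ha q.2).ne'
  have h := continuous_parametric_integral_of_continuous (X := K × K) (μ := μ)
    (f := fun (p : K × K) y => kap n k a p.1 y * kap n k a p.2 y) (h1.mul h2) isCompact_univ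
  simpa only [Measure.restrict_univ] using h

/-- the defect function `Ψ_a - Q P_a` -/
noncomputable def Fa (P : PreData n k K) (q Q a : ℝ) (u : K → ℝ) (x : K) : ℝ :=
  mA n * n / 2 * s0 k a * (∫ y, (zd k x y + a) ^ (-(mA n) - 2) * u y ∂P.τ)
    - Q * ∫ y, (zd k x y + a) ^ (-(mA n)) * u y ^ (q - 1) ∂P.τ

theorem finite_sum_ineq {h b q Q ε a C : ℝ} (hb : b = bA n k h) (hε : 0 ≤ ε)
    (hsup : T_super P h) {u : K → ℝ} (hu : Lip u) (hpos : ∀ y, 0 < u y)
    (hEK : ∀ η : K → ℝ, Lip η →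
      (P.form b u η - Q * ∫ y, u y ^ (q - 1) * η y ∂P.τ) ^ 2 ≤ ε * P.energy b η)
    (ha : 0 < a)
    (hC : ∀ x x' : K, P.form b (phiA n k x a) (phiA n k x' a) ≤
        C * ∫ y, kap n k a x y * kap n k a x' y ∂P.τ)
    (s : Finset K) (w : K → ℝ) (hw : ∀ p, 0 ≤ w p) :
    ∑ p ∈ s, w p * Fa P q Q a u p ≤
      √(∑ p ∈ s, ∑ r ∈ s, w p * w r *
        (ε * C * ∫ y, kap n k a p y * kap n k a r y ∂P.τ)) := by
  have hL : ∀ x : K, Lip (phiA n k x a) := fun x => lip_zd_rpow k x ha _
  have hLw : ∀ i ∈ s, Lip (fun y => w i * phiA n k i a y) := fun i _ => (hL i).const_mul _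
  set η : K → ℝ := fun y => ∑ i ∈ s, w i * phiA n k i a y with hη
  have hηL : Lip η := lip_sum s hLw
  have hu1 : Continuous fun y => u y ^ (q - 1) :=
    hu.continuous.rpow_const fun y => Or.inl (hpos y).ne'
  have h1 : P.form b u η = ∑ p ∈ s, w p * P.form b (phiA n k p a) u := by
    rw [hη, form_sum_right P b s hLw hu]
    refine Finset.sum_congr rfl fun i _ => ?_
    rw [P.form_smul_right b _ (hL i) hu, P.form_comm b hu (hL i)]
  have h2 : ∫ y, u y ^ (q - 1) * η y ∂P.τ =
      ∑ p ∈ s, w p * ∫ y, (zd k p y + a) ^ (-(mA n)) * u y ^ (q - 1) ∂P.τ := by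
    have e : ∀ y, u y ^ (q - 1) * η y =
        ∑ p ∈ s, w p * ((zd k p y + a) ^ (-(mA n)) * u y ^ (q - 1)) := by
      intro y
      rw [hη]
      simp only
      rw [Finset.mul_sum]
      refine Finset.sum_congr rfl fun i _ => ?_
      unfold phiA
      ring
    simp_rw [e]
    rw [integral_finsetSum]
    · exact Finset.sum_congr rfl fun i _ => integral_const_mul _ _
    · intro i _
      refine Integrable.const_mul ?_ _
      exact P.integrable_of_continuous ((lip_zd_rpow k i ha _).continuous.mul hu1)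
  have h3 : ∑ p ∈ s, w p * Fa P q Q a u p ≤ P.form b u η - Q * ∫ y, u y ^ (q - 1) * η y ∂P.τ := by
    rw [h1, h2, Finset.mul_sum, ← Finset.sum_sub_distrib]
    refine Finset.sum_le_sum fun i _ => ?_
    have := hsup i a ha u hu (fun y => (hpos y).le)
    rw [← hb] at this
    unfold Fa
    nlinarith [hw i]
  have h4 : P.energy b η ≤ ∑ p ∈ s, ∑ r ∈ s, w p * w r *
        (C * ∫ y, kap n k a p y * kap n k a r y ∂P.τ) := by
    unfold PreData.energy
    rw [hη, form_sum_left P b s hLw hηL]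
    refine Finset.sum_le_sum fun i _ => ?_
    rw [form_sum_right P b s hLw ((hL i).const_mul _)]
    refine Finset.sum_le_sum fun j _ => ?_
    rw [P.form_smul_left b _ (hL i) ((hL j).const_mul _), P.form_smul_right b _ (hL j) (hL i)]
    have := hC i j
    calc w i * (w j * P.form b (phiA n k i a) (phiA n k j a))
        = (w i * w j) * P.form b (phiA n k i a) (phiA n k j a) := by ring
      _ ≤ _ := mul_le_mul_of_nonneg_left this (mul_nonneg (hw i) (hw j))
  refine h3.trans ?_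
  refine (le_abs_self _).trans ?_
  apply Real.abs_le_sqrt
  refine (hEK η hηL).trans ?_
  refine (mul_le_mul_of_nonneg_left h4 hε).trans ?_
  rw [Finset.mul_sum]
  refine Finset.sum_le_sum fun i _ => ?_
  rw [Finset.mul_sum]
  refine Finset.sum_le_sum fun j _ => ?_
  apply le_of_eq
  ring

theorem integrable_cont2 (μ ν : Measure K) [IsFiniteMeasure μ] [IsFiniteMeasure ν]
    {f : K × K → ℝ} (hf : Continuous f) : Integrable f (μ.prod ν) :=
  hf.integrable_of_hasCompactSupport (HasCompactSupport.of_compactSpace _)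

theorem cont_I {a : ℝ} (ha : 0 < a) (μ : Measure K) [IsFiniteMeasure μ] :
    Continuous fun y : K => ∫ x, kap n k a x y ∂μ := by
  have h := cont_int (k := k) ha (-(mA n) - 1 / 2) (v := fun _ => (1 : ℝ)) continuous_const μ
  have e : (fun y : K => ∫ x, kap n k a x y ∂μ) =
      fun x : K => ∫ y, (zd k x y + a) ^ (-(mA n) - 1 / 2) * 1 ∂μ := by
    funext y
    refine integral_congr_ae (Eventually.of_forall fun x => ?_)
    simp only [kap, mul_one]
    rw [zd_comm]
  rw [e]; exact h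

theorem fubini_kap {a : ℝ} (ha : 0 < a) (τ μ : Measure K) [IsFiniteMeasure τ]
    [IsFiniteMeasure μ] :
    ∫ x, ∫ x', (∫ y, kap n k a x y * kap n k a x' y ∂τ) ∂μ ∂μ =
      ∫ y, (∫ x, kap n k a x y ∂μ) ^ 2 ∂τ := by
  have hκ := kap_cont (n := n) (k := k) (K := K) ha
  have hI := cont_I (n := n) (k := k) (K := K) ha μ
  have h1 : ∀ x : K, ∫ x', (∫ y, kap n k a x y * kap n k a x' y ∂τ) ∂μ =
      ∫ y, kap n k a x y * (∫ x', kap n k a x' y ∂μ) ∂τ := by
    intro x
    rw [integral_integral_swap]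
    · refine integral_congr_ae (Eventually.of_forall fun y => ?_)
      exact integral_const_mul _ _
    · refine integrable_cont2 μ τ ?_
      have h2 : Continuous fun p : K × K => kap n k a x p.2 :=
        (kap_cont_right ha x).comp continuous_snd
      exact h2.mul hκ
  simp_rw [h1]
  rw [integral_integral_swap]
  · refine integral_congr_ae (Eventually.of_forall fun y => ?_)
    simp only
    rw [integral_mul_const]
    ring
  · refine integrable_cont2 μ τ ?_
    exact hκ.mul (hI.comp continuous_snd)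

/-- the kernel `κ_a` is bounded from `L^{q'}` to `L²`, uniformly in `a` -/
theorem young_kap {q : ℝ} (hm : 0 < mA n) (hq : 2 < q) (hqn : mA n * q < n) (hint : T_int P) :
    ∃ C : ℝ, 0 < C ∧ ∀ a : ℝ, 0 < a → ∀ v : K → ℝ, Measurable v → (∀ y, 0 ≤ v y) →
      (∃ B : ℝ, ∀ y, v y ≤ B) →
      ∫⁻ y, ENNReal.ofReal (v y) ^ (q / (q - 1)) ∂P.τ ≤ 1 →
      √(∫ y, (∫ x, kap n k a x y * v x ∂P.τ) ^ 2 ∂P.τ) ≤ C := by
  have hn : (n : ℝ) = 2 * mA n + 2 := n_eq n
  set s : ℝ := 2 * q / (q + 2) with hs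
  have hq0 : 0 < q := by linarith
  have hq1 : 0 < q - 1 := by linarith
  have hq2 : 0 < q + 2 := by linarith
  have hs1 : 1 ≤ s := by rw [hs, le_div_iff₀ hq2]; linarith
  have hs0 : 0 < s := by linarith
  set s' : ℝ := (mA n + 1 / 2) * s with hs'
  have hs'0 : 0 ≤ s' := by positivity
  have hs'n : s' < (n : ℝ) / 2 := by
    rw [hs', hs, mul_div_assoc', div_lt_iff₀ hq2, hn]
    rw [hn] at hqn
    nlinarith
  obtain ⟨A0, hA0, hA⟩ := hint s' hs'0 hs'n
  refine ⟨A0 ^ (1 / s), by positivity, ?_⟩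
  intro a ha v hvm hv0 ⟨B, hB⟩ hv
  set Ir : K → ℝ := fun y => ∫ x, kap n k a x y * v x ∂P.τ with hIr
  have hκ := kap_cont (n := n) (k := k) (K := K) ha
  have hsymm : ∀ x y : K, kap n k a x y = kap n k a y x := by
    intro x y; unfold kap; rw [zd_comm]
  have hvint : Integrable v P.τ :=
    Integrable.of_bound hvm.aestronglyMeasurable B
      (Eventually.of_forall fun y => by
        rw [Real.norm_eq_abs, abs_of_nonneg (hv0 y)]; exact hB y)
  -- bound of kap
  have hκb : ∀ x y : K, kap n k a x y ≤ a ^ (-(mA n) - 1 / 2) := by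
    intro x y
    unfold kap
    apply Real.rpow_le_rpow_of_nonpos ha
    · have := zd_nonneg k x y; linarith
    · linarith
  have hκint : ∀ y : K, Integrable (fun x => kap n k a x y * v x) P.τ := by
    intro y
    refine Integrable.bdd_mul (c := a ^ (-(mA n) - 1 / 2)) hvint ?_ ?_
    · have : (fun x => kap n k a x y) = kap n k a y := by funext x; exact hsymm x y
      rw [this]
      exact (kap_cont_right ha y).aestronglyMeasurable
    · exact Eventually.of_forall fun x => by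
        rw [Real.norm_eq_abs, abs_of_nonneg (kap_pos ha x y).le]; exact hκb x y
  have hIr0 : ∀ y, 0 ≤ Ir y := fun y =>
    integral_nonneg fun x => mul_nonneg (kap_pos ha x y).le (hv0 x)
  have hIe : ∀ y, ENNReal.ofReal (Ir y) =
      ∫⁻ x, ENNReal.ofReal (kap n k a x y) * ENNReal.ofReal (v x) ∂P.τ := by
    intro y
    rw [hIr]
    simp only
    rw [ofReal_integral_eq_lintegral_ofReal (hκint y)
      (Eventually.of_forall fun x => mul_nonneg (kap_pos ha x y).le (hv0 x))]
    refine lintegral_congr fun x => ?_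
    rw [ENNReal.ofReal_mul (kap_pos ha x y).le]
  have hκm : Measurable fun p : K × K => ENNReal.ofReal (kap n k a p.1 p.2) :=
    hκ.measurable.ennreal_ofReal
  have hIm' : Measurable fun y => ENNReal.ofReal (Ir y) := by
    simp_rw [hIe]
    exact Measurable.lintegral_prod_left'
      (f := fun p : K × K => ENNReal.ofReal (kap n k a p.1 p.2) * ENNReal.ofReal (v p.1))
      (hκm.mul (hvm.comp measurable_fst).ennreal_ofReal)
  have hIm : Measurable Ir := by
    have : Ir = fun y => (ENNReal.ofReal (Ir y)).toReal := by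
      funext y; rw [ENNReal.toReal_ofReal (hIr0 y)]
    rw [this]; exact hIm'.ennreal_toReal
  have hIb : ∀ y, Ir y ≤ a ^ (-(mA n) - 1 / 2) * ∫ x, v x ∂P.τ := by
    intro y
    rw [hIr, ← integral_const_mul]
    refine integral_mono (hκint y) (hvint.const_mul _) fun x => ?_
    exact mul_le_mul_of_nonneg_right (hκb x y) (hv0 x)
  have hI2 : Integrable (fun y => Ir y ^ 2) P.τ := by
    refine Integrable.of_bound (hIm.pow_const 2).aestronglyMeasurable
      ((a ^ (-(mA n) - 1 / 2) * ∫ x, v x ∂P.τ) ^ 2) (Eventually.of_forall fun y => ?_)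
    rw [Real.norm_eq_abs, abs_of_nonneg (sq_nonneg _)]
    exact pow_le_pow_left₀ (hIr0 y) (hIb y) 2
  set X : ℝ := ∫ y, Ir y ^ 2 ∂P.τ with hX
  have hX0 : 0 ≤ X := integral_nonneg fun y => sq_nonneg _
  have hXe : ENNReal.ofReal X = ∫⁻ y, ENNReal.ofReal (Ir y) ^ (2 : ℝ) ∂P.τ := by
    rw [hX, ofReal_integral_eq_lintegral_ofReal hI2 (Eventually.of_forall fun y => sq_nonneg _)]
    refine lintegral_congr fun y => ?_
    rw [ENNReal.ofReal_rpow_of_nonneg (hIr0 y) (by norm_num)]
    norm_cast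
  have hkA : ∀ x : K, ∫⁻ y, ENNReal.ofReal (kap n k a x y) ^ s ∂P.τ ≤ ENNReal.ofReal A0 := by
    intro x
    refine le_trans (lintegral_mono_ae ?_) (hA x).1
    have hx : ∀ᵐ y ∂P.τ, y ≠ x := by
      rw [ae_iff]
      simpa using (hA x).2
    filter_upwards [hx] with y hy
    have hz : 0 < zd k x y := zd_pos (Ne.symm hy)
    rw [ENNReal.ofReal_rpow_of_pos (kap_pos ha x y)]
    apply ENNReal.ofReal_le_ofReal
    unfold kap
    rw [← Real.rpow_mul (by positivity)]
    have e : (-(mA n) - 1 / 2) * s = -s' := by rw [hs']; ring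
    rw [e]
    exact Real.rpow_le_rpow_of_nonpos hz (by linarith) (by linarith)
  have hkA' : ∀ x : K, ∫⁻ y, ENNReal.ofReal (kap n k a y x) ^ s ∂P.τ ≤ ENNReal.ofReal A0 := by
    intro x
    have e : ∀ y, kap n k a y x = kap n k a x y := fun y => hsymm y x
    simp_rw [e]
    exact hkA x
  have hκm' : Measurable (Function.uncurry fun x y : K => ENNReal.ofReal (kap n k a y x)) := by
    have e : (Function.uncurry fun x y : K => ENNReal.ofReal (kap n k a y x)) =
        fun p : K × K => ENNReal.ofReal (kap n k a p.1 p.2) := by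
      funext p
      rw [Function.uncurry, hsymm]
    rw [e]; exact hκm
  have hκx : ∀ x : K, Measurable fun y => ENNReal.ofReal (kap n k a y x) := by
    intro x
    have e : (fun y => ENNReal.ofReal (kap n k a y x)) =
        fun y => ENNReal.ofReal (kap n k a x y) := by
      funext y; rw [hsymm]
    rw [e]
    exact (kap_cont_right ha x).measurable.ennreal_ofReal
  have hs3 : 1 / (2 : ℝ) + 1 / (q / (q - 1)) + 1 / s = 2 := by rw [hs]; field_simp; ring
  have hY := young3 P.τ P.τ (p := 2) (r := q / (q - 1)) (s := s) (by norm_num)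
    (by rw [le_div_iff₀ hq1]; linarith) hs1 hs3
    (fun x y => ENNReal.ofReal (kap n k a y x)) hκm' (ENNReal.ofReal A0) hkA hkA'
    (fun y => ENNReal.ofReal (Ir y)) hIm' (fun x => ENNReal.ofReal (v x)) hvm.ennreal_ofReal
  have hLHS : ∫⁻ x, ∫⁻ y, ENNReal.ofReal (kap n k a y x) * ENNReal.ofReal (Ir x) *
      ENNReal.ofReal (v y) ∂P.τ ∂P.τ = ENNReal.ofReal X := by
    rw [hXe]
    refine lintegral_congr fun x => ?_
    have e : ENNReal.ofReal (Ir x) ^ (2 : ℝ) = ENNReal.ofReal (Ir x) * ENNReal.ofReal (Ir x) := by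
      norm_cast
      rw [pow_two]
    rw [e]
    nth_rw 3 [hIe x]
    have hmm : Measurable fun y => ENNReal.ofReal (kap n k a y x) * ENNReal.ofReal (v y) :=
      (hκx x).mul hvm.ennreal_ofReal
    rw [← lintegral_const_mul _ hmm]
    refine lintegral_congr fun y => ?_
    ring
  rw [hLHS, ← hXe] at hY
  have hY2 : ENNReal.ofReal X ≤ ENNReal.ofReal (A0 ^ (1 / s) * X ^ (1 / 2 : ℝ)) := by
    refine hY.trans ?_
    have h1 : (∫⁻ y, ENNReal.ofReal (v y) ^ (q / (q - 1)) ∂P.τ) ^ (1 / (q / (q - 1))) ≤ 1 :=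
      (ENNReal.rpow_le_rpow hv (by positivity)).trans (by rw [ENNReal.one_rpow])
    rw [ENNReal.ofReal_rpow_of_pos hA0, ENNReal.ofReal_rpow_of_nonneg hX0 (by norm_num),
      ← ENNReal.ofReal_mul (by positivity)]
    calc _ ≤ ENNReal.ofReal (A0 ^ (1 / s) * X ^ (1 / 2 : ℝ)) * 1 := by gcongr
      _ = _ := mul_one _
  have hY3 : X ≤ A0 ^ (1 / s) * X ^ (1 / 2 : ℝ) :=
    (ENNReal.ofReal_le_ofReal_iff (by positivity)).1 hY2
  rw [← Real.sqrt_eq_rpow] at hY3
  rcases (Real.sqrt_nonneg X).eq_or_lt with h0 | h0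
  · rw [← h0]; positivity
  · have h1 : √X * √X ≤ A0 ^ (1 / s) * √X := by rwa [Real.mul_self_sqrt hX0]
    exact le_of_mul_le_mul_right h1 h0

end Crest.Agent.R241.A7
end

-- ▼ part R241/A7PoleB
section

/-!
R241, Theorem A, block A7b (POLE-B), second part.
-/

set_option autoImplicit false

namespace Crest.Agent.R241.A7

open Crest.Agent.R241.A Crest.Agent.R241.A6
open MeasureTheory Set Filter Topology
open scoped NNReal ENNReal

variable {n : ℕ} {k : ℝ} {K : Type*} [MetricSpace K] [CompactSpace K]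
  [MeasurableSpace K] [BorelSpace K] (P : PreData n k K)

theorem Fa_cont {q Q a : ℝ} (ha : 0 < a) {u : K → ℝ} (hu : Continuous u)
    (hpos : ∀ y, 0 < u y) : Continuous (Fa P q Q a u) := by
  unfold Fa
  have h1 := cont_int (k := k) ha (-(mA n) - 2) hu P.τ
  have h2 := cont_int (k := k) ha (-(mA n)) (v := fun y => u y ^ (q - 1))
    (hu.rpow_const fun y => Or.inl (hpos y).ne') P.τ
  exact (continuous_const.mul h1).sub (continuous_const.mul h2)

theorem pole_a {h q : ℝ} (hn : 3 ≤ n) (hk : 0 ≤ k) (hkh : k < h) (hq : 2 < q)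
    (hqn : mA n * q < n) (hint : T_int P) (hsup : T_super P h) :
    ∃ C : ℝ, 0 < C ∧ ∀ (Q ε : ℝ), 0 ≤ ε → ∀ u : K → ℝ, Lip u → (∀ y, 0 < u y) →
      ∫ y, u y ^ q ∂P.τ = 1 →
      (∀ η : K → ℝ, Lip η →
        (P.form (bA n k h) u η - Q * ∫ y, u y ^ (q - 1) * η y ∂P.τ) ^ 2 ≤
          ε * P.energy (bA n k h) η) →
      ∀ a, 0 < a → a ≤ 1 → ∀ B : Set K, MeasurableSet B →
        ∫ x in B, u x ^ (q - 1) * Fa P q Q a u x ∂P.τ ≤ C * √ε := by
  have hm := mA_pos hn
  have hb := bA_pos hn hk hkh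
  obtain ⟨C4, hC4, hC4'⟩ := form_phi_le P hb.le
  obtain ⟨C5, hC5, hC5'⟩ := young_kap P hm hq hqn hint
  refine ⟨√C4 * C5, by positivity, ?_⟩
  intro Q ε hε u hu hpos hu1 hEK a ha ha1 B hB
  have hq1 : 0 < q - 1 := by linarith
  haveI : Nonempty K := by
    by_contra hne
    rw [not_nonempty_iff] at hne
    have : ∫ y, u y ^ q ∂P.τ = 0 := by
      rw [Measure.eq_zero_of_isEmpty P.τ, integral_zero_measure]
    rw [this] at hu1
    exact zero_ne_one hu1
  have huq : Continuous fun y => u y ^ (q - 1) :=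
    hu.continuous.rpow_const fun y => Or.inl (hpos y).ne'
  obtain ⟨Bd, hBd0, hBd⟩ := exists_bound_of_continuous huq
  set d : K → ℝ≥0∞ := fun x => ENNReal.ofReal (u x ^ (q - 1)) with hd
  have hdm : Measurable d := huq.measurable.ennreal_ofReal
  set μ : Measure K := (P.τ.restrict B).withDensity d with hμ
  haveI : IsFiniteMeasure μ := by
    refine isFiniteMeasure_withDensity ?_
    have : ∫⁻ x in B, d x ∂P.τ ≤ ∫⁻ x in B, ENNReal.ofReal Bd ∂P.τ :=
      lintegral_mono fun x => ENNReal.ofReal_le_ofReal ((le_abs_self _).trans (hBd x))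
    refine (this.trans_lt ?_).ne
    rw [lintegral_const]
    exact ENNReal.mul_lt_top ENNReal.ofReal_lt_top (measure_lt_top _ _)
  have hdens : ∀ g : K → ℝ, ∫ x, g x ∂μ = ∫ x in B, u x ^ (q - 1) * g x ∂P.τ := by
    intro g
    rw [hμ, integral_withDensity_eq_integral_toReal_smul hdm
      (Eventually.of_forall fun x => ENNReal.ofReal_lt_top)]
    refine integral_congr_ae (Eventually.of_forall fun x => ?_)
    simp only [hd, smul_eq_mul]
    rw [ENNReal.toReal_ofReal (Real.rpow_pos_of_pos (hpos x) _).le]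
  have hGc : Continuous (Function.uncurry fun x x' : K =>
      ε * C4 * ∫ y, kap n k a x y * kap n k a x' y ∂P.τ) :=
    continuous_const.mul (cont_G0 ha P.τ)
  have hD := disc_ineq (Fa P q Q a u) (Fa_cont P ha hu.continuous hpos)
    (fun x x' => ε * C4 * ∫ y, kap n k a x y * kap n k a x' y ∂P.τ) hGc
    (finite_sum_ineq P rfl hε hsup hu hpos hEK ha (fun x x' => hC4' a ha ha1 x x')) μ
  rw [hdens] at hD
  refine hD.trans ?_
  have h1 : ∫ x, ∫ x', (ε * C4 * ∫ y, kap n k a x y * kap n k a x' y ∂P.τ) ∂μ ∂μ =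
      ε * C4 * ∫ y, (∫ x, kap n k a x y ∂μ) ^ 2 ∂P.τ := by
    rw [← fubini_kap ha P.τ μ]
    simp_rw [integral_const_mul]
  rw [h1, Real.sqrt_mul (by positivity), Real.sqrt_mul hε]
  set v : K → ℝ := B.indicator fun x => u x ^ (q - 1) with hv
  have h2 : ∀ y, ∫ x, kap n k a x y ∂μ = ∫ x, kap n k a x y * v x ∂P.τ := by
    intro y
    rw [hdens, ← integral_indicator hB]
    refine integral_congr_ae (Eventually.of_forall fun x => ?_)
    simp only [hv, Set.indicator]
    split_ifs <;> ring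
  simp_rw [h2]
  have h3 := hC5' a ha v (huq.measurable.indicator hB) (fun y => by
      simp only [hv, Set.indicator]
      split_ifs
      · exact (Real.rpow_pos_of_pos (hpos y) _).le
      · exact le_rfl) ⟨Bd, fun y => by
      simp only [hv, Set.indicator]
      split_ifs
      · exact (le_abs_self _).trans (hBd y)
      · exact hBd0.le⟩ (by
      have hle : ∀ y, ENNReal.ofReal (v y) ^ (q / (q - 1)) ≤ ENNReal.ofReal (u y ^ q) := by
        intro y
        simp only [hv, Set.indicator]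
        split_ifs
        · rw [ENNReal.ofReal_rpow_of_pos (Real.rpow_pos_of_pos (hpos y) _),
            ← Real.rpow_mul (hpos y).le]
          apply ENNReal.ofReal_le_ofReal
          apply le_of_eq
          congr 1
          field_simp
        · rw [ENNReal.ofReal_zero, ENNReal.zero_rpow_of_pos (by positivity)]
          exact bot_le
      refine (lintegral_mono hle).trans ?_
      rw [← ofReal_integral_eq_lintegral_ofReal (P.integrable_of_continuous
        (hu.continuous.rpow_const fun y => Or.inl (hpos y).ne'))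
        (Eventually.of_forall fun y => (Real.rpow_pos_of_pos (hpos y) _).le), hu1,
        ENNReal.ofReal_one])
  calc √ε * √C4 * √(∫ y, (∫ x, kap n k a x y * v x ∂P.τ) ^ 2 ∂P.τ)
      ≤ √ε * √C4 * C5 := by gcongr
    _ = √C4 * C5 * √ε := by ring

/-- `P(x) = ∫ z_x^{-m} u^{q-1}`. -/
noncomputable def Pq (P : PreData n k K) (q : ℝ) (u : K → ℝ) (x : K) : ℝ :=
  ∫ y, zd k x y ^ (-(mA n)) * u y ^ (q - 1) ∂P.τ

theorem ae_ne_of_int (hm : 0 < mA n) (hint : T_int P) (x : K) : ∀ᵐ y ∂P.τ, y ≠ x := by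
  obtain ⟨C, hC, hC'⟩ := hint 0 le_rfl (by rw [n_eq n]; linarith)
  rw [ae_iff]
  simpa using (hC' x).2

theorem integrable_zd_rpow (hint : T_int P) {s : ℝ} (hs : 0 ≤ s) (hsn : s < (n : ℝ) / 2)
    (x : K) : Integrable (fun y => zd k x y ^ (-s)) P.τ := by
  obtain ⟨C, hC, hC'⟩ := hint s hs hsn
  have hmeas : Measurable fun y => zd k x y ^ (-s) :=
    (continuous_zd k x).measurable.pow_const _
  refine ⟨hmeas.aestronglyMeasurable, ?_⟩
  rw [hasFiniteIntegral_iff_ofReal (Eventually.of_forall fun y =>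
    Real.rpow_nonneg (zd_nonneg k x y) _)]
  exact (hC' x).1.trans_lt ENNReal.ofReal_lt_top

theorem integrable_Pq (hm : 0 < mA n) (hint : T_int P) {v : K → ℝ} (hv : Continuous v)
    (x : K) : Integrable (fun y => zd k x y ^ (-(mA n)) * v y) P.τ := by
  obtain ⟨Bd, hBd0, hBd⟩ := exists_bound_of_continuous hv
  refine Integrable.mul_bdd (c := Bd) (integrable_zd_rpow P hint hm.le
    (by rw [n_eq n]; linarith) x) hv.aestronglyMeasurable ?_
  exact Eventually.of_forall fun y => by rw [Real.norm_eq_abs]; exact hBd y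

theorem Pa_le_Pq {q a : ℝ} (hm : 0 < mA n) (hint : T_int P) (ha : 0 < a) {u : K → ℝ}
    (hu : Continuous u) (hpos : ∀ y, 0 < u y) (x : K) :
    ∫ y, (zd k x y + a) ^ (-(mA n)) * u y ^ (q - 1) ∂P.τ ≤ Pq P q u x := by
  have huq : Continuous fun y => u y ^ (q - 1) :=
    hu.rpow_const fun y => Or.inl (hpos y).ne'
  unfold Pq
  refine integral_mono_ae
    (P.integrable_of_continuous ((lip_zd_rpow k x ha _).continuous.mul huq))
    (integrable_Pq P hm hint huq x) ?_
  filter_upwards [ae_ne_of_int P hm hint x] with y hy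
  have hz : 0 < zd k x y := zd_pos (Ne.symm hy)
  refine mul_le_mul_of_nonneg_right ?_ (Real.rpow_pos_of_pos (hpos y) _).le
  exact Real.rpow_le_rpow_of_nonpos hz (by linarith) (by linarith)

theorem pole_B {h q : ℝ} (hn : 3 ≤ n) (hk : 0 ≤ k) (hkh : k < h) (hq : 2 < q)
    (hqn : mA n * q < n) (hint : T_int P) (hsup : T_super P h) (hpole : T_pole P) :
    ∃ C : ℝ, 0 < C ∧ ∀ (Q ε : ℝ), 0 ≤ Q → 0 ≤ ε → ∀ u : K → ℝ, Lip u → (∀ y, 0 < u y) →
      ∫ y, u y ^ q ∂P.τ = 1 →
      (∀ η : K → ℝ, Lip η →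
        (P.form (bA n k h) u η - Q * ∫ y, u y ^ (q - 1) * η y ∂P.τ) ^ 2 ≤
          ε * P.energy (bA n k h) η) →
      ∀ δ : ℝ, ∀ B : Set K, MeasurableSet B →
        (∀ x ∈ B, Q * Pq P q u x ≤ (1 - δ) * (cP n * u x)) →
        δ * cP n * ∫ x in B, u x ^ q ∂P.τ ≤ C * √ε := by
  have hm := mA_pos hn
  obtain ⟨C, hC, hC'⟩ := pole_a P hn hk hkh hq hqn hint hsup
  refine ⟨C, hC, ?_⟩
  intro Q ε hQ hε u hu hpos hu1 hEK δ B hB hBP
  have huc := hu.continuous
  have huq : Continuous fun y => u y ^ (q - 1) :=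
    huc.rpow_const fun y => Or.inl (hpos y).ne'
  have huq' : Continuous fun y => u y ^ q :=
    huc.rpow_const fun y => Or.inl (hpos y).ne'
  have hcP : 0 < cP n := by
    unfold cP omegaBall
    have hn0 : (0 : ℝ) < n := by
      have : (3 : ℝ) ≤ n := by exact_mod_cast hn
      linarith
    have hball : 0 < (volume (Metric.ball (0 : EuclideanSpace ℝ (Fin n)) 1)).toReal :=
      ENNReal.toReal_pos (Metric.measure_ball_pos volume _ one_pos).ne' measure_ball_lt_top.ne
    positivity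
  set X : ℝ := ∫ x in B, u x ^ q ∂P.τ with hX
  have hX0 : 0 ≤ X := integral_nonneg fun x => (Real.rpow_pos_of_pos (hpos x) _).le
  set R : ℝ := C * √ε + (1 - δ) * cP n * X with hR
  -- it suffices to show `cP n * X ≤ R`
  suffices hmain : cP n * X ≤ R by rw [hR] at hmain; linarith
  rcases hX0.eq_or_lt with h0 | hXpos
  · rw [hR, ← h0]
    have : 0 ≤ C * √ε := by positivity
    linarith
  set Ψ : ℝ → K → ℝ := fun a x =>
    mA n * n / 2 * s0 k a * (∫ y, (zd k x y + a) ^ (-(mA n) - 2) * u y ∂P.τ) with hΨ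
  have hΨc : ∀ a, 0 < a → Continuous (Ψ a) := fun a ha =>
    continuous_const.mul (cont_int (k := k) ha (-(mA n) - 2) huc P.τ)
  have hu_eq : ∀ x, u x ^ (q - 1) * u x = u x ^ q := fun x => by
    rw [← Real.rpow_add_one (hpos x).ne']; congr 1; ring
  -- upper bound
  have hup : ∀ a, 0 < a → a ≤ 1 → ∫ x in B, u x ^ (q - 1) * Ψ a x ∂P.τ ≤ R := by
    intro a ha ha1
    have h1 := hC' Q ε hε u hu hpos hu1 hEK a ha ha1 B hB
    have hPac : Continuous fun x : K => ∫ y, (zd k x y + a) ^ (-(mA n)) * u y ^ (q - 1) ∂P.τ :=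
      cont_int (k := k) ha (-(mA n)) huq P.τ
    have i1 : Integrable (fun x => u x ^ (q - 1) * Ψ a x) (P.τ.restrict B) :=
      (P.integrable_of_continuous (huq.mul (hΨc a ha))).restrict
    have i2 : Integrable (fun x => u x ^ (q - 1) * Fa P q Q a u x) (P.τ.restrict B) :=
      (P.integrable_of_continuous (huq.mul (Fa_cont P ha huc hpos))).restrict
    have i3 : Integrable (fun x => (1 - δ) * cP n * u x ^ q) (P.τ.restrict B) :=
      (P.integrable_of_continuous (continuous_const.mul huq')).restrict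
    have h2 : ∫ x in B, u x ^ (q - 1) * Ψ a x ∂P.τ ≤
        ∫ x in B, (u x ^ (q - 1) * Fa P q Q a u x + (1 - δ) * cP n * u x ^ q) ∂P.τ := by
      refine integral_mono_ae i1 (i2.add i3) ?_
      rw [EventuallyLE, ae_restrict_iff' hB]
      refine Eventually.of_forall fun x hx => ?_
      have h3 := Pa_le_Pq P (q := q) hm hint ha huc hpos x
      have h4 := hBP x hx
      have h5 : Q * ∫ y, (zd k x y + a) ^ (-(mA n)) * u y ^ (q - 1) ∂P.τ ≤
          (1 - δ) * (cP n * u x) := (mul_le_mul_of_nonneg_left h3 hQ).trans h4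
      have h6 : 0 < u x ^ (q - 1) := Real.rpow_pos_of_pos (hpos x) _
      have h7 : u x ^ (q - 1) * (Q * ∫ y, (zd k x y + a) ^ (-(mA n)) * u y ^ (q - 1) ∂P.τ) ≤
          u x ^ (q - 1) * ((1 - δ) * (cP n * u x)) := mul_le_mul_of_nonneg_left h5 h6.le
      have h8 : u x ^ (q - 1) * ((1 - δ) * (cP n * u x)) = (1 - δ) * cP n * u x ^ q := by
        rw [← hu_eq x]; ring
      show u x ^ (q - 1) * Ψ a x ≤ u x ^ (q - 1) * Fa P q Q a u x + (1 - δ) * cP n * u x ^ q
      rw [← h8]
      have h9 : Fa P q Q a u x = Ψ a x -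
          Q * ∫ y, (zd k x y + a) ^ (-(mA n)) * u y ^ (q - 1) ∂P.τ := rfl
      rw [h9]
      nlinarith
    rw [integral_add i2 i3, integral_const_mul] at h2
    rw [hR]
    linarith
  -- lower bound by Fatou
  have hlow : ∀ θ : ℝ, 0 < θ → θ < 1 → θ * cP n * X ≤ R := by
    intro θ hθ0 hθ1
    have hev : ∀ᶠ a in 𝓝[>] (0 : ℝ), 0 < a ∧ a ≤ 1 ∧ 0 ≤ s0 k a := by
      have e1 : ∀ᶠ a in 𝓝[>] (0 : ℝ), 0 < a := self_mem_nhdsWithin
      have e2 : ∀ᶠ a in 𝓝[>] (0 : ℝ), a < 1 :=
        nhdsWithin_le_nhds (gt_mem_nhds one_pos)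
      have e3 : ∀ᶠ a in 𝓝[>] (0 : ℝ), k ^ 2 * a < 2 := by
        have : Tendsto (fun a : ℝ => k ^ 2 * a) (𝓝[>] 0) (𝓝 (k ^ 2 * 0)) :=
          (tendsto_const_nhds.mul tendsto_id).mono_left nhdsWithin_le_nhds
        rw [mul_zero] at this
        exact this.eventually (gt_mem_nhds two_pos)
      filter_upwards [e1, e2, e3] with a h1 h2 h3
      refine ⟨h1, h2.le, ?_⟩
      unfold s0
      nlinarith
    have hΨ0 : ∀ a, 0 < a → 0 ≤ s0 k a → ∀ x, 0 ≤ Ψ a x := by
      intro a ha hs x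
      have : 0 ≤ ∫ y, (zd k x y + a) ^ (-(mA n) - 2) * u y ∂P.τ :=
        integral_nonneg fun y => mul_nonneg
          (Real.rpow_pos_of_pos (zd_add_pos k x ha y) _).le (hpos y).le
      have hn0 : (0 : ℝ) ≤ n := by positivity
      show 0 ≤ mA n * n / 2 * s0 k a * (∫ y, (zd k x y + a) ^ (-(mA n) - 2) * u y ∂P.τ)
      positivity
    have hfat : ENNReal.ofReal (θ * cP n * X) ≤ ENNReal.ofReal R := by
      calc ENNReal.ofReal (θ * cP n * X)
          = ∫⁻ x in B, ENNReal.ofReal (θ * cP n * u x ^ q) ∂P.τ := by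
            rw [hX, ← integral_const_mul, ofReal_integral_eq_lintegral_ofReal]
            · exact (P.integrable_of_continuous (continuous_const.mul huq')).restrict
            · refine Eventually.of_forall fun x => ?_
              have := Real.rpow_pos_of_pos (hpos x) q
              show 0 ≤ θ * cP n * u x ^ q
              positivity
        _ ≤ ∫⁻ x in B, liminf (fun a => ENNReal.ofReal (u x ^ (q - 1) * Ψ (max a 0) x))
              (𝓝[>] (0 : ℝ)) ∂P.τ := by
            refine lintegral_mono_ae ?_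
            refine ae_restrict_of_ae ?_
            filter_upwards [hpole] with x hx
            refine le_liminf_of_le (by isBoundedDefault) ?_
            filter_upwards [hx u huc (fun y => (hpos y).le) θ hθ1, hev] with a h1 h2
            apply ENNReal.ofReal_le_ofReal
            rw [max_eq_left h2.1.le]
            have h3 : θ * cP n * u x ≤ Ψ a x := h1
            have h4 : 0 < u x ^ (q - 1) := Real.rpow_pos_of_pos (hpos x) _
            calc θ * cP n * u x ^ q = u x ^ (q - 1) * (θ * cP n * u x) := by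
                  rw [← hu_eq x]; ring
              _ ≤ _ := mul_le_mul_of_nonneg_left h3 h4.le
        _ ≤ liminf (fun a => ∫⁻ x in B, ENNReal.ofReal (u x ^ (q - 1) * Ψ (max a 0) x) ∂P.τ)
              (𝓝[>] (0 : ℝ)) := by
            refine lintegral_liminf_le fun a => ?_
            rcases lt_or_ge 0 a with h0 | h0
            · rw [max_eq_left h0.le]
              exact (huq.mul (hΨc a h0)).measurable.ennreal_ofReal
            · rw [max_eq_right h0]
              have e : (fun x => ENNReal.ofReal (u x ^ (q - 1) * Ψ 0 x)) = fun _ => 0 := by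
                funext x
                simp [hΨ, s0]
              rw [e]
              exact measurable_const
        _ ≤ ENNReal.ofReal R := by
            refine (liminf_le_liminf (v := fun _ => ENNReal.ofReal R) ?_).trans
              (by rw [liminf_const])
            filter_upwards [hev] with a h2
            rw [max_eq_left h2.1.le]
            rw [← ofReal_integral_eq_lintegral_ofReal]
            · exact ENNReal.ofReal_le_ofReal (hup a h2.1 h2.2.1)
            · exact (P.integrable_of_continuous (huq.mul (hΨc a h2.1))).restrict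
            · refine Eventually.of_forall fun x => ?_
              exact mul_nonneg (Real.rpow_pos_of_pos (hpos x) _).le (hΨ0 a h2.1 h2.2.2 x)
    rcases (ENNReal.ofReal_le_ofReal_iff').1 hfat with h1 | h1
    · exact h1
    · exfalso
      have : 0 < θ * cP n * X := by positivity
      linarith
  -- conclusion
  have hlim : Tendsto (fun θ : ℝ => θ * cP n * X) (𝓝[<] 1) (𝓝 (1 * cP n * X)) := by
    have : Continuous fun θ : ℝ => θ * cP n * X := by fun_prop
    exact (this.tendsto 1).mono_left nhdsWithin_le_nhds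
  rw [one_mul] at hlim
  refine le_of_tendsto hlim ?_
  have e1 : ∀ᶠ θ in 𝓝[<] (1 : ℝ), 0 < θ := nhdsWithin_le_nhds (lt_mem_nhds one_pos)
  have e2 : ∀ᶠ θ in 𝓝[<] (1 : ℝ), θ < 1 := self_mem_nhdsWithin
  filter_upwards [e1, e2] with θ h1 h2
  exact hlow θ h1 h2

end Crest.Agent.R241.A7
end

-- ▼ part R241/A7Tail
section

/-!
R241, Theorem A, block A7a (TAIL): the small-scale tail is uniformly small.
-/

set_option autoImplicit false

open MeasureTheory ENNReal Filter Topology

namespace Crest.Agent.R241.A7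

variable {K : Type*} [MeasurableSpace K]

/-- pointwise splitting of the tail integrand -/
theorem tail_pointwise {m q r0 κ Λ C : ℝ} (hm : 0 < m) (hq : 1 < q) (_hr0 : 0 < r0) (hκ : 0 < κ)
    (hΛ : 0 < Λ) {g : ℝ → ℝ} (hg : Monotone g) (hg0 : 0 ≤ g 0)
    {z a b : ℝ} (hz : 0 ≤ z) (ha : 0 < a) (hb : 0 < b) :
    ENNReal.ofReal z ^ (-m) * ENNReal.ofReal (a ^ (q - 1)) * ENNReal.ofReal (b ^ (q - 1)) *
        ENNReal.ofReal (C - g (Λ * (z * (a * b) ^ (1 / m)))) ≤
      ENNReal.ofReal C * ((if z < r0 then ENNReal.ofReal z ^ (-m) else 0) *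
          ENNReal.ofReal (a ^ (q - 1)) * ENNReal.ofReal (b ^ (q - 1)))
      + ENNReal.ofReal (C - g (Λ * (r0 * (κ * κ) ^ (1 / m)))) * (ENNReal.ofReal z ^ (-m) *
          ENNReal.ofReal (a ^ (q - 1)) * ENNReal.ofReal (b ^ (q - 1)))
      + ENNReal.ofReal C * (ENNReal.ofReal r0 ^ (-m) * ENNReal.ofReal (κ ^ (q - 1))) *
          (ENNReal.ofReal (a ^ (q - 1)) + ENNReal.ofReal (b ^ (q - 1))) := by
  have hgC : ENNReal.ofReal (C - g (Λ * (z * (a * b) ^ (1 / m)))) ≤ ENNReal.ofReal C := by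
    apply ENNReal.ofReal_le_ofReal
    have : g 0 ≤ g (Λ * (z * (a * b) ^ (1 / m))) := hg (by positivity)
    linarith
  by_cases h1 : z < r0
  · simp only [h1, if_true]
    refine le_trans ?_ (le_trans (le_add_right le_rfl) (le_add_right le_rfl))
    rw [mul_comm (ENNReal.ofReal C)]
    gcongr
  · have hz' : r0 ≤ z := not_lt.1 h1
    have hk : ENNReal.ofReal z ^ (-m) ≤ ENNReal.ofReal r0 ^ (-m) := by
      rw [ENNReal.rpow_neg, ENNReal.rpow_neg]
      exact ENNReal.inv_le_inv.2 (ENNReal.rpow_le_rpow (ENNReal.ofReal_le_ofReal hz') hm.le)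
    by_cases h2 : κ ≤ a
    · by_cases h3 : κ ≤ b
      · refine le_trans ?_ (le_trans (le_add_left le_rfl) (le_add_right le_rfl))
        have : ENNReal.ofReal (C - g (Λ * (z * (a * b) ^ (1 / m)))) ≤
            ENNReal.ofReal (C - g (Λ * (r0 * (κ * κ) ^ (1 / m)))) := by
          apply ENNReal.ofReal_le_ofReal
          have hmon : g (Λ * (r0 * (κ * κ) ^ (1 / m))) ≤ g (Λ * (z * (a * b) ^ (1 / m))) := by
            apply hg
            gcongr
          linarith
        rw [mul_comm (ENNReal.ofReal (C - g (Λ * (r0 * (κ * κ) ^ (1 / m)))))]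
        gcongr
      · have hb' : b ^ (q - 1) ≤ κ ^ (q - 1) :=
          Real.rpow_le_rpow hb.le (not_le.1 h3).le (by linarith)
        refine le_trans ?_ (le_add_left le_rfl)
        calc ENNReal.ofReal z ^ (-m) * ENNReal.ofReal (a ^ (q - 1)) *
              ENNReal.ofReal (b ^ (q - 1)) * ENNReal.ofReal (C - g (Λ * (z * (a * b) ^ (1 / m))))
            ≤ ENNReal.ofReal r0 ^ (-m) * ENNReal.ofReal (a ^ (q - 1)) *
              ENNReal.ofReal (κ ^ (q - 1)) * ENNReal.ofReal C := by gcongr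
          _ = ENNReal.ofReal C * (ENNReal.ofReal r0 ^ (-m) * ENNReal.ofReal (κ ^ (q - 1))) *
              ENNReal.ofReal (a ^ (q - 1)) := by ring
          _ ≤ _ := by gcongr; exact le_add_right le_rfl
    · have ha' : a ^ (q - 1) ≤ κ ^ (q - 1) :=
        Real.rpow_le_rpow ha.le (not_le.1 h2).le (by linarith)
      refine le_trans ?_ (le_add_left le_rfl)
      calc ENNReal.ofReal z ^ (-m) * ENNReal.ofReal (a ^ (q - 1)) *
            ENNReal.ofReal (b ^ (q - 1)) * ENNReal.ofReal (C - g (Λ * (z * (a * b) ^ (1 / m))))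
          ≤ ENNReal.ofReal r0 ^ (-m) * ENNReal.ofReal (κ ^ (q - 1)) *
            ENNReal.ofReal (b ^ (q - 1)) * ENNReal.ofReal C := by gcongr
        _ = ENNReal.ofReal C * (ENNReal.ofReal r0 ^ (-m) * ENNReal.ofReal (κ ^ (q - 1))) *
            ENNReal.ofReal (b ^ (q - 1)) := by ring
        _ ≤ _ := by gcongr; exact le_add_left le_rfl

/-- near-diagonal part of the kernel -/
theorem near_kernel {m σ' s r0 : ℝ} (hm : 0 < m) (hs : 0 < s) (hσ : s < σ') (hr0 : 0 < r0)
    {z : ℝ} :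
    (if z < r0 then ENNReal.ofReal z ^ (-m) else 0) ^ s ≤
      ENNReal.ofReal (r0 ^ (m * (σ' - s))) * ENNReal.ofReal z ^ (-(m * σ')) := by
  by_cases h1 : z < r0
  · simp only [h1, if_true]
    rw [← ENNReal.rpow_mul]
    by_cases hz : z ≤ 0
    · rw [ENNReal.ofReal_of_nonpos hz, ENNReal.zero_rpow_of_neg (by nlinarith),
        ENNReal.zero_rpow_of_neg (by nlinarith)]
      rw [ENNReal.mul_top]
      simpa using Real.rpow_pos_of_pos hr0 _
    · have hz0 : 0 < z := not_le.1 hz
      rw [ENNReal.ofReal_rpow_of_pos hz0, ENNReal.ofReal_rpow_of_pos hz0,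
        ← ENNReal.ofReal_mul (by positivity)]
      apply ENNReal.ofReal_le_ofReal
      have e : z ^ (-m * s) = z ^ (m * (σ' - s)) * z ^ (-(m * σ')) := by
        rw [← Real.rpow_add hz0]; congr 1; ring
      rw [e]
      gcongr
  · simp only [h1, if_false]
    rw [ENNReal.zero_rpow_of_pos hs]
    exact bot_le

theorem kernel_le_one_add {m σ' s z : ℝ} (hm : 0 < m) (hs : 0 < s) (hσ : s < σ') :
    (ENNReal.ofReal z ^ (-m)) ^ s ≤ 1 + ENNReal.ofReal z ^ (-(m * σ')) := by
  rw [← ENNReal.rpow_mul]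
  by_cases hz : z ≤ 0
  · rw [ENNReal.ofReal_of_nonpos hz, ENNReal.zero_rpow_of_neg (by nlinarith),
        ENNReal.zero_rpow_of_neg (by nlinarith)]
    simp
  · have hz0 : 0 < z := not_le.1 hz
    by_cases h1 : z ≤ 1
    · refine le_trans ?_ (le_add_left le_rfl)
      rw [ENNReal.ofReal_rpow_of_pos hz0, ENNReal.ofReal_rpow_of_pos hz0]
      apply ENNReal.ofReal_le_ofReal
      exact Real.rpow_le_rpow_of_exponent_ge hz0 h1 (by nlinarith)
    · refine le_trans ?_ (le_add_right le_rfl)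
      rw [ENNReal.ofReal_rpow_of_pos hz0, ← ENNReal.ofReal_one]
      apply ENNReal.ofReal_le_ofReal
      exact Real.rpow_le_one_of_one_le_of_nonpos (not_le.1 h1).le (by nlinarith)

/-- (TAIL): uniform smallness. -/
theorem tail_small (τ : Measure K) [IsFiniteMeasure τ] (z : K → K → ℝ)
    (hzm : Measurable (Function.uncurry z)) (hz0 : ∀ x y, 0 ≤ z x y)
    {m q σ' : ℝ} (hm : 0 < m) (hq : 2 < q) (hσ : q / 2 < σ')
    (A : ℝ≥0∞) (hAt : A ≠ ∞)
    (hA : ∀ y, ∫⁻ x, ENNReal.ofReal (z x y) ^ (-(m * σ')) ∂τ ≤ A)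
    (hA' : ∀ x, ∫⁻ y, ENNReal.ofReal (z x y) ^ (-(m * σ')) ∂τ ≤ A)
    (g : ℝ → ℝ) (C : ℝ) (hg : Monotone g) (hg0 : 0 ≤ g 0) (hgC : Tendsto g atTop (𝓝 C))
    (ρ : ℝ≥0∞) (hρ : 0 < ρ) :
    ∃ Λ0 : ℝ, 0 < Λ0 ∧ ∀ Λ, Λ0 ≤ Λ → ∀ u : K → ℝ, Measurable u → (∀ x, 0 < u x) →
      ∫⁻ x, ENNReal.ofReal (u x ^ q) ∂τ ≤ 1 →
      ∫⁻ x, ∫⁻ y, ENNReal.ofReal (z x y) ^ (-m) * ENNReal.ofReal (u x ^ (q - 1)) *
        ENNReal.ofReal (u y ^ (q - 1)) *
        ENNReal.ofReal (C - g (Λ * (z x y * (u x * u y) ^ (1 / m)))) ∂τ ∂τ ≤ ρ := by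
  have hq0 : 0 < q := by linarith
  -- constants
  set s : ℝ := q / 2 with hsdef
  have hs1 : 1 < s := by rw [hsdef]; linarith
  have hs0 : 0 < s := by linarith
  set p : ℝ := q / (q - 1) with hpdef
  have hq1 : 0 < q - 1 := by linarith
  have hp1 : 1 ≤ p := by
    rw [hpdef, le_div_iff₀ hq1]; linarith
  have hpps : 1 / p + 1 / p + 1 / s = 2 := by
    rw [hpdef, hsdef]
    field_simp
    ring
  set A2 : ℝ≥0∞ := τ Set.univ + A with hA2
  have hA2t : A2 ≠ ∞ := ENNReal.add_ne_top.2 ⟨measure_ne_top _ _, hAt⟩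
  set M : ℝ≥0∞ := τ Set.univ with hM
  have hMt : M ≠ ∞ := measure_ne_top _ _
  have hC0 : ∀ x, g x ≤ C := fun x => hg.ge_of_tendsto hgC x
  -- the three error functions
  have hT1 : Tendsto (fun r0 : ℝ => ENNReal.ofReal C *
      (ENNReal.ofReal (r0 ^ (m * (σ' - s))) * A) ^ (1 / s)) (𝓝[>] 0) (𝓝 0) := by
    have h1 : Tendsto (fun r0 : ℝ => r0 ^ (m * (σ' - s))) (𝓝[>] 0) (𝓝 0) := by
      have hpos : 0 < m * (σ' - s) := mul_pos hm (by linarith)
      have := (Real.continuousAt_rpow_const 0 (m * (σ' - s)) (Or.inr hpos.le)).tendsto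
      rw [Real.zero_rpow hpos.ne'] at this
      exact this.mono_left nhdsWithin_le_nhds
    have h2 : Tendsto (fun r0 : ℝ => ENNReal.ofReal (r0 ^ (m * (σ' - s))) * A) (𝓝[>] 0) (𝓝 0) := by
      have := ENNReal.Tendsto.mul_const (b := A) (ENNReal.tendsto_ofReal h1) (Or.inr hAt)
      simpa using this
    have h3 := (ENNReal.continuous_rpow_const (y := 1 / s)).tendsto 0 |>.comp h2
    rw [ENNReal.zero_rpow_of_pos (by positivity)] at h3
    have h4 := ENNReal.Tendsto.const_mul (a := ENNReal.ofReal C) h3 (Or.inr ENNReal.ofReal_ne_top)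
    simpa using h4
  have hρ3 : 0 < ρ / 3 := ENNReal.div_pos hρ.ne' (by norm_num)
  obtain ⟨r0, hr0, hr0ρ⟩ : ∃ r0 : ℝ, 0 < r0 ∧ ENNReal.ofReal C *
      (ENNReal.ofReal (r0 ^ (m * (σ' - s))) * A) ^ (1 / s) ≤ ρ / 3 := by
    have := (hT1.eventually (gt_mem_nhds hρ3)).and self_mem_nhdsWithin
    obtain ⟨r, h1, h2⟩ := this.exists
    exact ⟨r, h2, h1.le⟩
  have hT2 : Tendsto (fun κ : ℝ => ENNReal.ofReal C * (ENNReal.ofReal r0 ^ (-m) *
      ENNReal.ofReal (κ ^ (q - 1))) * (M * (M + 1) + M * (M + 1))) (𝓝[>] 0) (𝓝 0) := by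
    have h1 : Tendsto (fun κ : ℝ => κ ^ (q - 1)) (𝓝[>] 0) (𝓝 0) := by
      have := (Real.continuousAt_rpow_const 0 (q - 1) (Or.inr hq1.le)).tendsto
      rw [Real.zero_rpow hq1.ne'] at this
      exact this.mono_left nhdsWithin_le_nhds
    have h0 : ENNReal.ofReal r0 ^ (-m) ≠ ∞ := by
      rw [ENNReal.ofReal_rpow_of_pos hr0]; exact ENNReal.ofReal_ne_top
    have h2 := ENNReal.Tendsto.const_mul (a := ENNReal.ofReal r0 ^ (-m))
      (ENNReal.tendsto_ofReal h1) (Or.inr h0)
    have h3 := ENNReal.Tendsto.const_mul (a := ENNReal.ofReal C) h2 (Or.inr ENNReal.ofReal_ne_top)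
    have hMM : M * (M + 1) + M * (M + 1) ≠ ∞ := by
      have : M + 1 ≠ ∞ := ENNReal.add_ne_top.2 ⟨hMt, ENNReal.one_ne_top⟩
      exact ENNReal.add_ne_top.2 ⟨ENNReal.mul_ne_top hMt this, ENNReal.mul_ne_top hMt this⟩
    have h4 := ENNReal.Tendsto.mul_const (b := M * (M + 1) + M * (M + 1)) h3 (Or.inr hMM)
    simpa using h4
  obtain ⟨κ, hκ, hκρ⟩ : ∃ κ : ℝ, 0 < κ ∧ ENNReal.ofReal C * (ENNReal.ofReal r0 ^ (-m) *
      ENNReal.ofReal (κ ^ (q - 1))) * (M * (M + 1) + M * (M + 1)) ≤ ρ / 3 := by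
    have := (hT2.eventually (gt_mem_nhds hρ3)).and self_mem_nhdsWithin
    obtain ⟨r, h1, h2⟩ := this.exists
    exact ⟨r, h2, h1.le⟩
  have hT3 : Tendsto (fun Λ : ℝ => ENNReal.ofReal (C - g (Λ * (r0 * (κ * κ) ^ (1 / m)))) *
      A2 ^ (1 / s)) atTop (𝓝 0) := by
    have h0 : 0 < r0 * (κ * κ) ^ (1 / m) := by positivity
    have h1 : Tendsto (fun Λ : ℝ => C - g (Λ * (r0 * (κ * κ) ^ (1 / m)))) atTop (𝓝 0) := by
      have := (hgC.comp (tendsto_id.atTop_mul_const h0)).const_sub C
      simpa using this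
    have h2 := ENNReal.tendsto_ofReal h1
    rw [ENNReal.ofReal_zero] at h2
    have hA3 : A2 ^ (1 / s) ≠ ∞ := ENNReal.rpow_ne_top_of_nonneg (by positivity) hA2t
    have h4 := ENNReal.Tendsto.mul_const (b := A2 ^ (1 / s)) h2 (Or.inr hA3)
    simpa using h4
  obtain ⟨Λ1, hΛ1⟩ := ((hT3.eventually (gt_mem_nhds hρ3)).and (eventually_gt_atTop 0)).exists
  refine ⟨Λ1, hΛ1.2, ?_⟩
  intro Λ hΛ u hu hupos hu1
  have hΛ0 : 0 < Λ := lt_of_lt_of_le hΛ1.2 hΛ
  -- abbreviations
  set f : K → ℝ≥0∞ := fun x => ENNReal.ofReal (u x ^ (q - 1)) with hf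
  have hfm : Measurable f := (hu.pow_const (q - 1)).ennreal_ofReal
  have hfp : ∫⁻ x, f x ^ p ∂τ ≤ 1 := by
    refine le_trans (le_of_eq ?_) hu1
    refine lintegral_congr fun x => ?_
    have hux := hupos x
    rw [hf]
    simp only
    rw [ENNReal.ofReal_rpow_of_pos (Real.rpow_pos_of_pos hux _), ← Real.rpow_mul hux.le]
    congr 2
    rw [hpdef]; field_simp
  have hf1 : ∫⁻ x, f x ∂τ ≤ M + 1 := by
    calc ∫⁻ x, f x ∂τ ≤ ∫⁻ x, (1 + ENNReal.ofReal (u x ^ q)) ∂τ := by
          refine lintegral_mono fun x => ?_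
          have hux := hupos x
          rw [hf]
          simp only
          rw [← ENNReal.ofReal_one, ← ENNReal.ofReal_add zero_le_one (by positivity)]
          apply ENNReal.ofReal_le_ofReal
          rcases le_total (u x) 1 with h | h
          · have : u x ^ (q - 1) ≤ 1 := Real.rpow_le_one hux.le h hq1.le
            have h2 : 0 ≤ u x ^ q := by positivity
            linarith
          · have : u x ^ (q - 1) ≤ u x ^ q := Real.rpow_le_rpow_of_exponent_le h (by linarith)
            linarith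
      _ = M + ∫⁻ x, ENNReal.ofReal (u x ^ q) ∂τ := by
          rw [lintegral_add_left measurable_const]; simp [hM]
      _ ≤ M + 1 := by gcongr
  have hzx : Measurable fun w : K × K => z w.1 w.2 := hzm
  -- kernels
  set k1 : K → K → ℝ≥0∞ := fun x y =>
    (if z x y < r0 then ENNReal.ofReal (z x y) ^ (-m) else 0) with hk1
  have hk1m : Measurable (Function.uncurry k1) := by
    have : Function.uncurry k1 = fun w : K × K =>
        (if z w.1 w.2 < r0 then ENNReal.ofReal (z w.1 w.2) ^ (-m) else 0) := rfl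
    rw [this]
    exact Measurable.ite (measurableSet_lt hzx measurable_const)
      (hzx.ennreal_ofReal.pow_const _) measurable_const
  set k2 : K → K → ℝ≥0∞ := fun x y => ENNReal.ofReal (z x y) ^ (-m) with hk2
  have hk2m : Measurable (Function.uncurry k2) := hzx.ennreal_ofReal.pow_const _
  have hY1 : ∫⁻ x, ∫⁻ y, k1 x y * f x * f y ∂τ ∂τ ≤
      (ENNReal.ofReal (r0 ^ (m * (σ' - s))) * A) ^ (1 / s) := by
    have := young3 τ τ hp1 hp1 hs1.le hpps k1 hk1m
      (ENNReal.ofReal (r0 ^ (m * (σ' - s))) * A)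
      (fun y => by
        calc ∫⁻ x, k1 x y ^ s ∂τ ≤ ∫⁻ x, ENNReal.ofReal (r0 ^ (m * (σ' - s))) *
              ENNReal.ofReal (z x y) ^ (-(m * σ')) ∂τ :=
              lintegral_mono fun x => near_kernel hm hs0 hσ hr0
          _ = ENNReal.ofReal (r0 ^ (m * (σ' - s))) *
              ∫⁻ x, ENNReal.ofReal (z x y) ^ (-(m * σ')) ∂τ := by
              rw [lintegral_const_mul]
              exact ((hzx.comp measurable_prodMk_right).ennreal_ofReal).pow_const _
          _ ≤ _ := by gcongr; exact hA y)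
      (fun x => by
        calc ∫⁻ y, k1 x y ^ s ∂τ ≤ ∫⁻ y, ENNReal.ofReal (r0 ^ (m * (σ' - s))) *
              ENNReal.ofReal (z x y) ^ (-(m * σ')) ∂τ :=
              lintegral_mono fun y => near_kernel hm hs0 hσ hr0
          _ = ENNReal.ofReal (r0 ^ (m * (σ' - s))) *
              ∫⁻ y, ENNReal.ofReal (z x y) ^ (-(m * σ')) ∂τ := by
              rw [lintegral_const_mul]
              exact ((hzx.comp measurable_prodMk_left).ennreal_ofReal).pow_const _
          _ ≤ _ := by gcongr; exact hA' x)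
      f hfm f hfm
    refine this.trans ?_
    have h1 : (∫⁻ x, f x ^ p ∂τ) ^ (1 / p) ≤ 1 := by
      have := ENNReal.rpow_le_rpow hfp (show 0 ≤ 1 / p by positivity)
      simpa using this
    calc _ ≤ (ENNReal.ofReal (r0 ^ (m * (σ' - s))) * A) ^ (1 / s) * 1 * 1 := by gcongr
      _ = _ := by ring
  have hY2 : ∫⁻ x, ∫⁻ y, k2 x y * f x * f y ∂τ ∂τ ≤ A2 ^ (1 / s) := by
    have := young3 τ τ hp1 hp1 hs1.le hpps k2 hk2m A2
      (fun y => by
        calc ∫⁻ x, k2 x y ^ s ∂τ ≤ ∫⁻ x, (1 + ENNReal.ofReal (z x y) ^ (-(m * σ'))) ∂τ :=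
              lintegral_mono fun x => kernel_le_one_add hm hs0 hσ
          _ = M + ∫⁻ x, ENNReal.ofReal (z x y) ^ (-(m * σ')) ∂τ := by
              rw [lintegral_add_left measurable_const]; simp [hM]
          _ ≤ _ := by rw [hA2]; gcongr; exact hA y)
      (fun x => by
        calc ∫⁻ y, k2 x y ^ s ∂τ ≤ ∫⁻ y, (1 + ENNReal.ofReal (z x y) ^ (-(m * σ'))) ∂τ :=
              lintegral_mono fun y => kernel_le_one_add hm hs0 hσ
          _ = M + ∫⁻ y, ENNReal.ofReal (z x y) ^ (-(m * σ')) ∂τ := by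
              rw [lintegral_add_left measurable_const]; simp [hM]
          _ ≤ _ := by rw [hA2]; gcongr; exact hA' x)
      f hfm f hfm
    refine this.trans ?_
    have h1 : (∫⁻ x, f x ^ p ∂τ) ^ (1 / p) ≤ 1 := by
      have := ENNReal.rpow_le_rpow hfp (show 0 ≤ 1 / p by positivity)
      simpa using this
    calc _ ≤ A2 ^ (1 / s) * 1 * 1 := by gcongr
      _ = _ := by ring
  -- the total bound
  set c1 : ℝ≥0∞ := ENNReal.ofReal C with hc1
  set c2 : ℝ≥0∞ := ENNReal.ofReal (C - g (Λ * (r0 * (κ * κ) ^ (1 / m)))) with hc2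
  set c3 : ℝ≥0∞ := ENNReal.ofReal C * (ENNReal.ofReal r0 ^ (-m) *
    ENNReal.ofReal (κ ^ (q - 1))) with hc3
  have hc2le : c2 * A2 ^ (1 / s) ≤ ρ / 3 := by
    refine le_trans ?_ hΛ1.1.le
    gcongr
    rw [hc2]
    apply ENNReal.ofReal_le_ofReal
    have : g (Λ1 * (r0 * (κ * κ) ^ (1 / m))) ≤ g (Λ * (r0 * (κ * κ) ^ (1 / m))) := by
      apply hg; gcongr
    linarith
  calc ∫⁻ x, ∫⁻ y, ENNReal.ofReal (z x y) ^ (-m) * ENNReal.ofReal (u x ^ (q - 1)) *
        ENNReal.ofReal (u y ^ (q - 1)) *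
        ENNReal.ofReal (C - g (Λ * (z x y * (u x * u y) ^ (1 / m)))) ∂τ ∂τ
      ≤ ∫⁻ x, ∫⁻ y, (c1 * (k1 x y * f x * f y) + c2 * (k2 x y * f x * f y)
          + c3 * (f x + f y)) ∂τ ∂τ := by
        refine lintegral_mono fun x => lintegral_mono fun y => ?_
        exact tail_pointwise hm (by linarith) hr0 hκ hΛ0 hg hg0 (hz0 x y) (hupos x) (hupos y)
    _ = c1 * ∫⁻ x, ∫⁻ y, k1 x y * f x * f y ∂τ ∂τ + c2 * ∫⁻ x, ∫⁻ y, k2 x y * f x * f y ∂τ ∂τ
          + c3 * (∫⁻ x, ∫⁻ y, (f x + f y) ∂τ ∂τ) := by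
        have hm1 : Measurable fun w : K × K => k1 w.1 w.2 * f w.1 * f w.2 :=
          (hk1m.mul (hfm.comp measurable_fst)).mul (hfm.comp measurable_snd)
        have hm2 : Measurable fun w : K × K => k2 w.1 w.2 * f w.1 * f w.2 :=
          (hk2m.mul (hfm.comp measurable_fst)).mul (hfm.comp measurable_snd)
        have hm3 : Measurable fun w : K × K => f w.1 + f w.2 :=
          (hfm.comp measurable_fst).add (hfm.comp measurable_snd)
        have e1 : ∀ x, ∫⁻ y, (c1 * (k1 x y * f x * f y) + c2 * (k2 x y * f x * f y)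
            + c3 * (f x + f y)) ∂τ = c1 * ∫⁻ y, k1 x y * f x * f y ∂τ +
            c2 * ∫⁻ y, k2 x y * f x * f y ∂τ + c3 * ∫⁻ y, (f x + f y) ∂τ := by
          intro x
          have a1 : Measurable fun y => k1 x y * f x * f y := hm1.comp measurable_prodMk_left
          have a2 : Measurable fun y => k2 x y * f x * f y := hm2.comp measurable_prodMk_left
          have a3 : Measurable fun y => f x + f y := hm3.comp measurable_prodMk_left
          have a4 : Measurable fun y => c1 * (k1 x y * f x * f y) + c2 * (k2 x y * f x * f y) :=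
            (a1.const_mul c1).add (a2.const_mul c2)
          rw [lintegral_add_left a4,
            lintegral_add_left (a1.const_mul c1), lintegral_const_mul _ a1,
            lintegral_const_mul _ a2, lintegral_const_mul _ a3]
        rw [lintegral_congr e1]
        have b1 : Measurable fun x => ∫⁻ y, k1 x y * f x * f y ∂τ := hm1.lintegral_prod_right'
        have b2 : Measurable fun x => ∫⁻ y, k2 x y * f x * f y ∂τ := hm2.lintegral_prod_right'
        have b3 : Measurable fun x => ∫⁻ y, (f x + f y) ∂τ := hm3.lintegral_prod_right'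
        have b4 : Measurable fun x => c1 * ∫⁻ y, k1 x y * f x * f y ∂τ +
            c2 * ∫⁻ y, k2 x y * f x * f y ∂τ := (b1.const_mul c1).add (b2.const_mul c2)
        rw [lintegral_add_left b4,
          lintegral_add_left (b1.const_mul c1), lintegral_const_mul _ b1,
          lintegral_const_mul _ b2, lintegral_const_mul _ b3]
    _ ≤ c1 * (ENNReal.ofReal (r0 ^ (m * (σ' - s))) * A) ^ (1 / s) + c2 * A2 ^ (1 / s)
          + c3 * (M * (M + 1) + M * (M + 1)) := by
        have hsum : ∫⁻ x, ∫⁻ y, (f x + f y) ∂τ ∂τ ≤ M * (M + 1) + M * (M + 1) := by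
          have e2 : ∀ x, ∫⁻ y, (f x + f y) ∂τ = f x * M + ∫⁻ y, f y ∂τ := by
            intro x
            rw [lintegral_add_left measurable_const, lintegral_const]
          rw [lintegral_congr e2, lintegral_add_left (hfm.mul_const M),
            lintegral_mul_const _ hfm, lintegral_const]
          calc (∫⁻ x, f x ∂τ) * M + (∫⁻ x, f x ∂τ) * τ Set.univ
              ≤ (M + 1) * M + (M + 1) * M := by gcongr
            _ = _ := by ring
        gcongr
    _ ≤ ρ / 3 + ρ / 3 + ρ / 3 := by gcongr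
    _ = ρ := ENNReal.add_thirds ρ

end Crest.Agent.R241.A7
end

-- ▼ part R241/A7Good
section

/-!
R241, Theorem A, block A7c, step 2: the good set.
-/

set_option autoImplicit false

namespace Crest.Agent.R241.A7

open Crest.Agent.R241.A Crest.Agent.R241.A6
open MeasureTheory Set Filter Topology
open scoped NNReal ENNReal

variable {n : ℕ} {k : ℝ} {K : Type*} [MetricSpace K] [CompactSpace K]
  [MeasurableSpace K] [BorelSpace K] (P : PreData n k K)

/-- monotone extension of `gA` -/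
noncomputable def gE (n : ℕ) (r : ℝ) : ℝ := gA n (max r 0)

theorem gE_mono (hH : T_H n) : Monotone (gE n) := fun a b hab =>
  hH.g_mono (mem_Ici.2 (le_max_right a 0)) (mem_Ici.2 (le_max_right b 0))
    (max_le_max hab le_rfl)

theorem gE_zero : gE n 0 = 0 := by simp [gE, gA]

theorem gE_nonneg (hH : T_H n) (r : ℝ) : 0 ≤ gE n r := by
  have h1 : gA n 0 ≤ gE n r := hH.g_mono (mem_Ici.2 le_rfl) (mem_Ici.2 (le_max_right r 0))
    (le_max_right r 0)
  have h2 : gA n 0 = 0 := by simp [gA]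
  linarith

theorem gE_le (hH : T_H n) (r : ℝ) : gE n r ≤ CnA n := hH.g_le _ (le_max_right r 0)

theorem gE_tendsto (hn : 3 ≤ n) (hH : T_H n) : Tendsto (gE n) atTop (𝓝 (CnA n)) := by
  have hm := mA_pos hn
  have h1 : Tendsto (fun r : ℝ => CnA n - mA n / (mA n + 2) * r ^ (-(mA n) - 2)) atTop
      (𝓝 (CnA n - mA n / (mA n + 2) * 0)) := by
    refine tendsto_const_nhds.sub (tendsto_const_nhds.mul ?_)
    have := tendsto_rpow_neg_atTop (y := mA n + 2) (by linarith)
    refine this.congr fun r => ?_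
    congr 1; ring
  rw [mul_zero, sub_zero] at h1
  refine tendsto_of_tendsto_of_tendsto_of_le_of_le' h1 tendsto_const_nhds ?_ ?_
  · filter_upwards [eventually_gt_atTop 0] with r hr
    have := hH.g_tail r hr
    unfold gE
    rw [max_eq_left hr.le]
    linarith
  · exact Eventually.of_forall fun r => gE_le hH r

/-- `F(x,y) = z_x(y) (u(x) u(y))^{1/m}` -/
noncomputable def Fk (n : ℕ) (k : ℝ) (u : K → ℝ) (x y : K) : ℝ :=
  zd k x y * (u x * u y) ^ (1 / mA n)

omit [MeasurableSpace K] [BorelSpace K] [CompactSpace K] in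
theorem Fk_nonneg {u : K → ℝ} (hpos : ∀ y, 0 < u y) (x y : K) : 0 ≤ Fk n k u x y :=
  mul_nonneg (zd_nonneg k x y) (Real.rpow_nonneg (mul_pos (hpos x) (hpos y)).le _)

omit [MeasurableSpace K] [BorelSpace K] [CompactSpace K] in
theorem Fk_cont {u : K → ℝ} (hu : Continuous u) (hpos : ∀ y, 0 < u y) :
    Continuous fun z : K × K => Fk n k u z.1 z.2 := by
  unfold Fk
  refine (continuous_zd₂ k).mul (((hu.comp continuous_fst).mul
    (hu.comp continuous_snd)).rpow_const fun z => Or.inl ?_)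
  exact (mul_pos (hpos z.1) (hpos z.2)).ne'

/-- the tail function -/
noncomputable def Rl (P : PreData n k K) (q Lam : ℝ) (u : K → ℝ) (x : K) : ℝ≥0∞ :=
  ∫⁻ y, ENNReal.ofReal (zd k x y) ^ (-(mA n)) * ENNReal.ofReal (u y ^ (q - 1)) *
    ENNReal.ofReal (CnA n - gE n (Lam * Fk n k u x y)) ∂P.τ

theorem Rl_integrand_meas (hH : T_H n) {q Lam : ℝ} {u : K → ℝ} (hu : Continuous u)
    (hpos : ∀ y, 0 < u y) : Measurable fun z : K × K =>
      ENNReal.ofReal (zd k z.1 z.2) ^ (-(mA n)) * ENNReal.ofReal (u z.2 ^ (q - 1)) *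
        ENNReal.ofReal (CnA n - gE n (Lam * Fk n k u z.1 z.2)) := by
  have h1 : Measurable fun z : K × K => ENNReal.ofReal (zd k z.1 z.2) :=
    (continuous_zd₂ k).measurable.ennreal_ofReal
  have h2 : Measurable fun z : K × K => ENNReal.ofReal (u z.2 ^ (q - 1)) :=
    ((cont_rpow hu hpos (q - 1)).comp continuous_snd).measurable.ennreal_ofReal
  have h3 : Measurable fun z : K × K => Lam * Fk n k u z.1 z.2 :=
    (continuous_const.mul (Fk_cont hu hpos)).measurable
  have h4 : Measurable fun z : K × K => gE n (Lam * Fk n k u z.1 z.2) :=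
    (gE_mono hH).measurable.comp h3
  exact ((h1.pow_const _).mul h2).mul (measurable_const.sub h4).ennreal_ofReal

theorem Rl_integrand_meas_right (hH : T_H n) {q Lam : ℝ} {u : K → ℝ} (hu : Continuous u)
    (hpos : ∀ y, 0 < u y) (x : K) : Measurable fun y : K =>
      ENNReal.ofReal (zd k x y) ^ (-(mA n)) * ENNReal.ofReal (u y ^ (q - 1)) *
        ENNReal.ofReal (CnA n - gE n (Lam * Fk n k u x y)) := by
  have h1 : Measurable fun y : K => ENNReal.ofReal (zd k x y) :=
    (continuous_zd k x).measurable.ennreal_ofReal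
  have h2 : Measurable fun y : K => ENNReal.ofReal (u y ^ (q - 1)) :=
    (cont_rpow hu hpos (q - 1)).measurable.ennreal_ofReal
  have h0 : Continuous fun y : K => Fk n k u x y := by
    unfold Fk
    refine (continuous_zd k x).mul ((continuous_const.mul hu).rpow_const fun z => Or.inl ?_)
    exact (mul_pos (hpos x) (hpos z)).ne'
  have h3 : Measurable fun y : K => Lam * Fk n k u x y := (continuous_const.mul h0).measurable
  have h4 : Measurable fun y : K => gE n (Lam * Fk n k u x y) :=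
    (gE_mono hH).measurable.comp h3
  exact ((h1.pow_const _).mul h2).mul (measurable_const.sub h4).ennreal_ofReal

theorem Rl_meas (hH : T_H n) {q Lam : ℝ} {u : K → ℝ} (hu : Continuous u)
    (hpos : ∀ y, 0 < u y) : Measurable (Rl P q Lam u) :=
  (Rl_integrand_meas hH hu hpos).lintegral_prod_right'

theorem Pq_meas {q : ℝ} {u : K → ℝ} (hu : Continuous u) (hpos : ∀ y, 0 < u y) :
    Measurable (Pq P q u) := by
  have h1 : Measurable fun z : K × K => zd k z.1 z.2 ^ (-(mA n)) * u z.2 ^ (q - 1) :=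
    ((continuous_zd₂ k).measurable.pow_const _).mul
      ((cont_rpow hu hpos (q - 1)).comp continuous_snd).measurable
  exact (h1.stronglyMeasurable.integral_prod_right' (ν := P.τ)).measurable

/-- real version of the tail integral -/
theorem Rl_eq (hn : 3 ≤ n) (hH : T_H n) (hint : T_int P) {q Lam : ℝ} {u : K → ℝ}
    (hu : Continuous u) (hpos : ∀ y, 0 < u y) (x : K) :
    Integrable (fun y => zd k x y ^ (-(mA n)) * u y ^ (q - 1) *
      (CnA n - gE n (Lam * Fk n k u x y))) P.τ ∧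
    Rl P q Lam u x = ENNReal.ofReal (∫ y, zd k x y ^ (-(mA n)) * u y ^ (q - 1) *
      (CnA n - gE n (Lam * Fk n k u x y)) ∂P.τ) := by
  have hm := mA_pos hn
  have huq := cont_rpow hu hpos (q - 1)
  have hgm : Measurable fun y => gE n (Lam * Fk n k u x y) := by
    have h3 : Measurable fun y : K => Lam * Fk n k u x y :=
      (continuous_const.mul ((Fk_cont (n := n) (k := k) hu hpos).comp
        (Continuous.prodMk_right x))).measurable
    exact (gE_mono hH).measurable.comp h3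
  have hi : Integrable (fun y => zd k x y ^ (-(mA n)) * u y ^ (q - 1) *
      (CnA n - gE n (Lam * Fk n k u x y))) P.τ := by
    refine Integrable.mul_bdd (c := CnA n) (integrable_Pq P hm hint huq x)
      (measurable_const.sub hgm).aestronglyMeasurable ?_
    refine Eventually.of_forall fun y => ?_
    have h1 := gE_nonneg hH (Lam * Fk n k u x y)
    have h2 := gE_le hH (Lam * Fk n k u x y)
    rw [Real.norm_eq_abs, abs_of_nonneg (by linarith)]
    linarith
  refine ⟨hi, ?_⟩
  rw [ofReal_integral_eq_lintegral_ofReal hi]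
  · unfold Rl
    refine lintegral_congr_ae ?_
    filter_upwards [ae_ne_of_int P hm hint x] with y hy
    have hz : 0 < zd k x y := zd_pos (Ne.symm hy)
    have h2 := gE_le hH (Lam * Fk n k u x y)
    rw [ENNReal.ofReal_rpow_of_pos hz, ENNReal.ofReal_mul (by
        exact mul_nonneg (Real.rpow_nonneg hz.le _) (Real.rpow_pos_of_pos (hpos y) _).le),
      ENNReal.ofReal_mul (Real.rpow_nonneg hz.le _)]
  · refine Eventually.of_forall fun y => ?_
    have h2 := gE_le hH (Lam * Fk n k u x y)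
    have h3 : 0 ≤ CnA n - gE n (Lam * Fk n k u x y) := by linarith
    exact mul_nonneg (mul_nonneg (Real.rpow_nonneg (zd_nonneg k x y) _)
      (Real.rpow_pos_of_pos (hpos y) _).le) h3

theorem W_eq (hn : 3 ≤ n) (hH : T_H n) (hint : T_int P) {q Lam : ℝ} (hLam : 0 < Lam)
    {u : K → ℝ} (hu : Continuous u) (hpos : ∀ y, 0 < u y) (x : K) :
    Lam ^ mA n * u x * ∫ y, HA n (Lam * u x ^ (1 / mA n) * wA n k x u y) ∂(nuA P q u) =
      ∫ y, zd k x y ^ (-(mA n)) * u y ^ (q - 1) * gE n (Lam * Fk n k u x y) ∂P.τ := by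
  have hm := mA_pos hn
  rw [integral_nu P hu hpos, ← integral_const_mul]
  refine integral_congr_ae ?_
  filter_upwards [ae_ne_of_int P hm hint x] with y hy
  have hz : 0 < zd k x y := zd_pos (Ne.symm hy)
  have hux := hpos x
  have huy := hpos y
  set m := mA n with hmdef
  have hU : 0 < u x ^ (1 / m) := Real.rpow_pos_of_pos hux _
  have hV : 0 < u y ^ (1 / m) := Real.rpow_pos_of_pos huy _
  have hF : Fk n k u x y = zd k x y * (u x ^ (1 / m) * u y ^ (1 / m)) := by
    unfold Fk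
    rw [← hmdef, Real.mul_rpow hux.le huy.le]
  have e1 : Lam * u x ^ (1 / m) * wA n k x u y = Lam * Fk n k u x y := by
    rw [hF]; unfold wA; rw [← hmdef]; ring
  have hr : 0 < Lam * Fk n k u x y := by rw [hF]; positivity
  rw [e1]
  unfold gE
  rw [max_eq_left hr.le, hH.g_eq _ hr, ← hmdef]
  have hUm : (u x ^ (1 / m)) ^ m = u x := by
    rw [← Real.rpow_mul hux.le, one_div, inv_mul_cancel₀ hm.ne', Real.rpow_one]
  have hVm : (u y ^ (1 / m)) ^ m = u y := by
    rw [← Real.rpow_mul huy.le, one_div, inv_mul_cancel₀ hm.ne', Real.rpow_one]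
  have e2 : (Lam * Fk n k u x y) ^ m = Lam ^ m * (zd k x y ^ m * (u x * u y)) := by
    rw [hF, Real.mul_rpow hLam.le (by positivity), Real.mul_rpow hz.le (by positivity),
      Real.mul_rpow hU.le hV.le, hUm, hVm]
  have e3 : u y ^ q = u y ^ (q - 1) * u y := by
    rw [← Real.rpow_add_one huy.ne']; congr 1; ring
  have e4 : zd k x y ^ (-m) * zd k x y ^ m = 1 := by
    rw [← Real.rpow_add hz]; simp
  rw [e2, e3]
  calc Lam ^ m * u x * (u y ^ (q - 1) * u y * HA n (Lam * Fk n k u x y))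
      = 1 * (Lam ^ m * u x * (u y ^ (q - 1) * u y * HA n (Lam * Fk n k u x y))) := by ring
    _ = (zd k x y ^ (-m) * zd k x y ^ m) *
        (Lam ^ m * u x * (u y ^ (q - 1) * u y * HA n (Lam * Fk n k u x y))) := by rw [e4]
    _ = _ := by ring

/-- lower bound for `W(T)` at a good point -/
theorem W_lower (hn : 3 ≤ n) (hH : T_H n) (hint : T_int P) {q Lam Q δ : ℝ} (hLam : 0 < Lam)
    (hQ : 0 < Q) (hδ : 0 ≤ δ)
    {u : K → ℝ} (hu : Continuous u) (hpos : ∀ y, 0 < u y) {x : K}
    (hB : (1 - δ) * (cP n * u x) ≤ Q * Pq P q u x)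
    (hB2 : Rl P q Lam u x ≤ ENNReal.ofReal (δ * u x)) :
    (CnA n * cP n * (1 - δ) / Q - δ) * u x ≤
      Lam ^ mA n * u x * ∫ y, HA n (Lam * u x ^ (1 / mA n) * wA n k x u y) ∂(nuA P q u) := by
  have hm := mA_pos hn
  rw [W_eq P hn hH hint hLam hu hpos x]
  obtain ⟨hi, hR⟩ := Rl_eq P hn hH hint (q := q) (Lam := Lam) hu hpos x
  have huq := cont_rpow hu hpos (q - 1)
  have hiP := integrable_Pq P hm hint huq x
  rw [hR] at hB2
  have hRle : ∫ y, zd k x y ^ (-(mA n)) * u y ^ (q - 1) *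
      (CnA n - gE n (Lam * Fk n k u x y)) ∂P.τ ≤ δ * u x :=
    (ENNReal.ofReal_le_ofReal_iff (mul_nonneg hδ (hpos x).le)).1 hB2
  have e : ∫ y, zd k x y ^ (-(mA n)) * u y ^ (q - 1) * gE n (Lam * Fk n k u x y) ∂P.τ =
      CnA n * Pq P q u x - ∫ y, zd k x y ^ (-(mA n)) * u y ^ (q - 1) *
      (CnA n - gE n (Lam * Fk n k u x y)) ∂P.τ := by
    unfold Pq
    rw [← integral_const_mul, ← integral_sub (hiP.const_mul _) hi]
    refine integral_congr_ae (Eventually.of_forall fun y => ?_)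
    simp only
    ring
  rw [e]
  have h1 : (1 - δ) * (cP n * u x) / Q ≤ Pq P q u x := by
    rw [div_le_iff₀ hQ]; linarith
  have h2 : CnA n * ((1 - δ) * (cP n * u x) / Q) ≤ CnA n * Pq P q u x :=
    mul_le_mul_of_nonneg_left h1 hH.Cn_pos.le
  have h3 : (CnA n * cP n * (1 - δ) / Q - δ) * u x =
      CnA n * ((1 - δ) * (cP n * u x) / Q) - δ * u x := by ring
  rw [h3]
  linarith

/-- the second bad set is small -/
theorem nu_B2_le (hH : T_H n) {q Lam δ ρ : ℝ} (hδ : 0 < δ) (hρ : 0 ≤ ρ)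
    {u : K → ℝ} (hu : Continuous u) (hpos : ∀ y, 0 < u y)
    (h1 : ∫ y, u y ^ q ∂P.τ = 1)
    (htail : ∫⁻ x, ∫⁻ y, ENNReal.ofReal (zd k x y) ^ (-(mA n)) *
        ENNReal.ofReal (u x ^ (q - 1)) * ENNReal.ofReal (u y ^ (q - 1)) *
        ENNReal.ofReal (CnA n - gE n (Lam * (zd k x y * (u x * u y) ^ (1 / mA n)))) ∂P.τ ∂P.τ
      ≤ ENNReal.ofReal ρ) :
    (nuA P q u).real {x | ENNReal.ofReal (δ * u x) < Rl P q Lam u x} ≤ ρ / δ := by
  haveI := prob_nu P hu hpos h1
  have hRm := Rl_meas P hH (q := q) (Lam := Lam) hu hpos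
  set B2 : Set K := {x | ENNReal.ofReal (δ * u x) < Rl P q Lam u x} with hB2
  have hB2m : MeasurableSet B2 :=
    measurableSet_lt (continuous_const.mul hu).measurable.ennreal_ofReal hRm
  have h2 : ∫⁻ x, ENNReal.ofReal (u x ^ (q - 1)) * Rl P q Lam u x ∂P.τ ≤ ENNReal.ofReal ρ := by
    refine le_trans (le_of_eq ?_) htail
    refine lintegral_congr fun x => ?_
    unfold Rl
    rw [← lintegral_const_mul]
    · refine lintegral_congr fun y => ?_
      unfold Fk
      ring
    · exact Rl_integrand_meas_right hH hu hpos x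
  have h3 : ENNReal.ofReal δ * nuA P q u B2 ≤ ENNReal.ofReal ρ := by
    refine le_trans ?_ h2
    unfold nuA
    rw [withDensity_apply _ hB2m, ← lintegral_const_mul _
      (cont_rpow hu hpos q).measurable.ennreal_ofReal]
    refine le_trans (lintegral_mono_ae ?_) (setLIntegral_le_lintegral B2 _)
    rw [ae_restrict_iff' hB2m]
    refine Eventually.of_forall fun x hx => ?_
    have hx' : ENNReal.ofReal (δ * u x) < Rl P q Lam u x := hx
    calc ENNReal.ofReal δ * ENNReal.ofReal (u x ^ q)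
        = ENNReal.ofReal (u x ^ (q - 1)) * ENNReal.ofReal (δ * u x) := by
          rw [← ENNReal.ofReal_mul hδ.le, ← ENNReal.ofReal_mul
            (Real.rpow_pos_of_pos (hpos x) _).le]
          congr 1
          have : u x ^ q = u x ^ (q - 1) * u x := by
            rw [← Real.rpow_add_one (hpos x).ne']; congr 1; ring
          rw [this]; ring
      _ ≤ ENNReal.ofReal (u x ^ (q - 1)) * Rl P q Lam u x := by gcongr
  rw [le_div_iff₀ hδ]
  have h4 : ENNReal.ofReal (δ * (nuA P q u).real B2) ≤ ENNReal.ofReal ρ := by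
    rw [ENNReal.ofReal_mul hδ.le, ofReal_measureReal]
    exact h3
  have := (ENNReal.ofReal_le_ofReal_iff hρ).1 h4
  linarith

end Crest.Agent.R241.A7
end

-- ▼ part R241/A7Fix
section

/-!
R241, Theorem A, block A7c: the inequality for fixed parameters.
-/

set_option autoImplicit false

namespace Crest.Agent.R241.A7

open Crest.Agent.R241.A Crest.Agent.R241.A6
open MeasureTheory Set Filter Topology
open scoped NNReal ENNReal

variable {n : ℕ} {k : ℝ} {K : Type*} [MetricSpace K] [CompactSpace K]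
  [MeasurableSpace K] [BorelSpace K] (P : PreData n k K)

/-- `Φ = ψ² u^{-2/m}` -/
noncomputable def PhiA (n : ℕ) (k : ℝ) (x : K) (a : ℝ) (u : K → ℝ) (y : K) : ℝ :=
  s0 k a * ((zd k x y + a) ^ 2)⁻¹ * u y ^ (-(2 / mA n))

theorem rho_cont (x : K) {a : ℝ} (ha : 0 < a) :
    Continuous fun y => s0 k a * ((zd k x y + a) ^ 2)⁻¹ := by
  refine continuous_const.mul ((((continuous_zd k x).add continuous_const).pow 2).inv₀ fun y => ?_)
  have := zd_add_pos k x ha y
  exact (pow_pos this 2).ne'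

theorem PhiA_cont (x : K) {a : ℝ} (ha : 0 < a) {u : K → ℝ} (hu : Continuous u)
    (hpos : ∀ y, 0 < u y) : Continuous (PhiA n k x a u) := by
  unfold PhiA
  exact (rho_cont x ha).mul (cont_rpow hu hpos _)

theorem PhiA_nonneg (x : K) {a : ℝ} (hs : 0 < s0 k a) {u : K → ℝ}
    (hpos : ∀ y, 0 < u y) (y : K) : 0 ≤ PhiA n k x a u y := by
  unfold PhiA
  have := Real.rpow_pos_of_pos (hpos y) (-(2 / mA n))
  positivity

theorem energy_one (b : ℝ) : P.energy b (fun _ => 1) = b * P.τ.real univ := by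
  rw [P.energy_eq]
  have : ∀ᵐ y ∂P.τ, P.G (fun _ => (1 : ℝ)) (fun _ => 1) y + b * (1 : ℝ) ^ 2 = b := by
    filter_upwards [P.G_const_left 1 (Lip.const 1)] with y hy
    rw [hy]; ring
  rw [integral_congr_ae this, integral_const, smul_eq_mul]
  ring

/-- Hölder bound -/
theorem X_bound (hn : 3 ≤ n) {h q Q ε : ℝ} (hbarta : T_barta P h)
    (hb : 0 < bA n k h) (hqn : mA n * q < n) (hv : (n : ℝ) / mA n - q < 2)
    {u : K → ℝ} (hu : Near P (bA n k h) q Q ε u)
    (x : K) {a : ℝ} (ha : 0 < a) (hs : 0 < s0 k a) :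
    ∫ y, PhiA n k x a u y ∂(nuA P q u) ≤
      (2 * (Q + ε) / (mA n * n)) ^ (1 - ((n : ℝ) / mA n - q) / 2) *
        (2 * (bA n k h * P.τ.real univ) / (mA n * n)) ^ (((n : ℝ) / mA n - q) / 2) := by
  have hm := mA_pos hn
  have hn0 : (0 : ℝ) < n := by
    have : (3 : ℝ) ≤ n := by exact_mod_cast hn
    linarith
  have hnn := n_eq n
  set v : ℝ := (n : ℝ) / mA n - q with hvdef
  have hv0 : 0 < v := by
    rw [hvdef, sub_pos, lt_div_iff₀ hm]; linarith
  have hv1 : 0 < 1 - v / 2 := by linarith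
  have huc := hu.lip.continuous
  have hpos := hu.pos
  set ρ : K → ℝ := fun y => s0 k a * ((zd k x y + a) ^ 2)⁻¹ with hρ
  have hρc : Continuous ρ := rho_cont x ha
  have hρ0 : ∀ y, 0 < ρ y := fun y => by
    have := zd_add_pos k x ha y
    show 0 < s0 k a * ((zd k x y + a) ^ 2)⁻¹
    positivity
  have hconj : (1 / (1 - v / 2)).HolderConjugate (2 / v) := by
    rw [Real.holderConjugate_iff]
    constructor
    · rw [lt_div_iff₀ hv1]; linarith
    · field_simp; ring
  have hc1 : Continuous fun y => ρ y ^ (1 - v / 2) * u y ^ (2 - v) :=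
    (hρc.rpow_const fun y => Or.inl (hρ0 y).ne').mul (cont_rpow huc hpos _)
  have hc2 : Continuous fun y => ρ y ^ (v / 2) := hρc.rpow_const fun y => Or.inl (hρ0 y).ne'
  have hH := integral_mul_le_Lp_mul_Lq_of_nonneg (μ := P.τ) hconj
    (f := fun y => ρ y ^ (1 - v / 2) * u y ^ (2 - v)) (g := fun y => ρ y ^ (v / 2))
    (Eventually.of_forall fun y => mul_nonneg (Real.rpow_pos_of_pos (hρ0 y) _).le
      (Real.rpow_pos_of_pos (hpos y) _).le)
    (Eventually.of_forall fun y => (Real.rpow_pos_of_pos (hρ0 y) _).le)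
    (hc1.memLp_of_hasCompactSupport (HasCompactSupport.of_compactSpace _))
    (hc2.memLp_of_hasCompactSupport (HasCompactSupport.of_compactSpace _))
  have e0 : ∫ y, PhiA n k x a u y ∂(nuA P q u) =
      ∫ y, ρ y ^ (1 - v / 2) * u y ^ (2 - v) * ρ y ^ (v / 2) ∂P.τ := by
    rw [integral_nu P huc hpos]
    refine integral_congr_ae (Eventually.of_forall fun y => ?_)
    simp only
    have e1 : ρ y ^ (1 - v / 2) * ρ y ^ (v / 2) = ρ y := by
      rw [← Real.rpow_add (hρ0 y)]
      have : 1 - v / 2 + v / 2 = 1 := by ring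
      rw [this, Real.rpow_one]
    have e2 : u y ^ q * u y ^ (-(2 / mA n)) = u y ^ (2 - v) := by
      rw [← Real.rpow_add (hpos y)]
      congr 1
      rw [hvdef]
      field_simp
      linarith
    calc u y ^ q * PhiA n k x a u y = ρ y * (u y ^ q * u y ^ (-(2 / mA n))) := by
          unfold PhiA; rw [hρ]; ring
      _ = (ρ y ^ (1 - v / 2) * ρ y ^ (v / 2)) * u y ^ (2 - v) := by rw [e1, e2]
      _ = _ := by ring
  have e3 : ∫ y, (ρ y ^ (1 - v / 2) * u y ^ (2 - v)) ^ (1 / (1 - v / 2)) ∂P.τ =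
      ∫ y, ρ y * u y ^ 2 ∂P.τ := by
    refine integral_congr_ae (Eventually.of_forall fun y => ?_)
    simp only
    rw [Real.mul_rpow (Real.rpow_pos_of_pos (hρ0 y) _).le (Real.rpow_pos_of_pos (hpos y) _).le,
      ← Real.rpow_mul (hρ0 y).le, ← Real.rpow_mul (hpos y).le]
    have h1 : (1 - v / 2) * (1 / (1 - v / 2)) = 1 := mul_one_div_cancel hv1.ne'
    have h2 : (2 - v) * (1 / (1 - v / 2)) = 2 := by
      have : (2 : ℝ) - v = 2 * (1 - v / 2) := by ring
      rw [this, mul_assoc, h1, mul_one]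
    rw [h1, h2, Real.rpow_one]
    norm_cast
  have e4 : ∫ y, (ρ y ^ (v / 2)) ^ (2 / v) ∂P.τ = ∫ y, ρ y ∂P.τ := by
    refine integral_congr_ae (Eventually.of_forall fun y => ?_)
    simp only
    rw [← Real.rpow_mul (hρ0 y).le]
    have : v / 2 * (2 / v) = 1 := by field_simp
    rw [this, Real.rpow_one]
  rw [e0]
  refine hH.trans ?_
  rw [e3, e4]
  have hexp1 : 1 / (1 / (1 - v / 2)) = 1 - v / 2 := by rw [one_div_one_div]
  have hexp2 : 1 / (2 / v) = v / 2 := by rw [one_div_div]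
  rw [hexp1, hexp2]
  have hmn : 0 < mA n * n := by positivity
  have b1 : ∫ y, ρ y * u y ^ 2 ∂P.τ ≤ 2 * (Q + ε) / (mA n * n) := by
    have h1 := (hbarta x a ha u hu.lip).trans hu.en
    have h2 : ∫ y, ρ y * u y ^ 2 ∂P.τ = s0 k a * ∫ y, ((zd k x y + a) ^ 2)⁻¹ * u y ^ 2 ∂P.τ := by
      rw [← integral_const_mul]
      refine integral_congr_ae (Eventually.of_forall fun y => ?_)
      simp only [hρ]; ring
    rw [le_div_iff₀ hmn, h2]
    linarith
  have b2 : ∫ y, ρ y ∂P.τ ≤ 2 * (bA n k h * P.τ.real univ) / (mA n * n) := by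
    have h1 := hbarta x a ha (fun _ => 1) (Lip.const 1)
    rw [energy_one] at h1
    have h2 : ∫ y, ρ y ∂P.τ = s0 k a * ∫ y, ((zd k x y + a) ^ 2)⁻¹ * (1 : ℝ) ^ 2 ∂P.τ := by
      rw [← integral_const_mul]
      refine integral_congr_ae (Eventually.of_forall fun y => ?_)
      simp only [hρ]; ring
    rw [le_div_iff₀ hmn, h2]
    linarith
  have p1 : 0 ≤ ∫ y, ρ y * u y ^ 2 ∂P.τ :=
    integral_nonneg fun y => mul_nonneg (hρ0 y).le (sq_nonneg _)
  have p2 : 0 ≤ ∫ y, ρ y ∂P.τ := integral_nonneg fun y => (hρ0 y).le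
  have p3 : 0 ≤ (2 * (Q + ε) / (mA n * n)) ^ (1 - v / 2) := Real.rpow_nonneg (p1.trans b1) _
  exact mul_le_mul (Real.rpow_le_rpow p1 b1 hv1.le) (Real.rpow_le_rpow p2 b2 (by positivity))
    (Real.rpow_nonneg p2 _) p3

theorem HA_lt_one (hn : 3 ≤ n) (hH : T_H n) {r : ℝ} (hr : 0 < r) : HA n r < 1 := by
  have hm := mA_pos hn
  obtain ⟨C, hC, hC'⟩ := hH.one_sub_ge
  set r' : ℝ := min r (mA n / C) with hr'
  have h0 : 0 < r' := lt_min hr (by positivity)
  have h1 := hC' r' h0.le
  have h2 : r' ≤ mA n / C := min_le_right _ _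
  have h3 : C * r' ≤ mA n := by
    rw [le_div_iff₀ hC] at h2; linarith
  have h4 : C * r' ^ 2 ≤ mA n * r' := by nlinarith
  have h5 : HA n r ≤ HA n r' := hH.anti (mem_Ici.2 h0.le) (mem_Ici.2 hr.le) (min_le_left _ _)
  nlinarith

omit [CompactSpace K] [MeasurableSpace K] [BorelSpace K] in
theorem Fk_symm (u : K → ℝ) (x y : K) : Fk n k u x y = Fk n k u y x := by
  unfold Fk
  rw [zd_comm, mul_comm (u x)]

theorem kappa_le (hn : 3 ≤ n) (hH : T_H n) (htwo : T_two k K) {u : K → ℝ}
    (hpos : ∀ y, 0 < u y) {x : K} {a : ℝ} (ha : 0 < a) (hs : 0 < s0 k a)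
    {lam R : ℝ} (hlam : 0 < lam) (hR : 0 < R) (y p : K) :
    zd k y p * (s0 k a / ((zd k x y + a) * (zd k x p + a))) ≤
      (1 - HA n (lam * Fk n k u y p)) / (1 - HA n (lam * R)) *
        (2 + R / 2 * (PhiA n k x a u y + PhiA n k x a u p)) := by
  have hm := mA_pos hn
  have hDR : 0 < 1 - HA n (lam * R) := by
    have := HA_lt_one hn hH (mul_pos hlam hR); linarith
  have hy := hpos y
  have hp := hpos p
  have hza := zd_add_pos k x ha y
  have hzp := zd_add_pos k x ha p
  have hF0 := Fk_nonneg (n := n) (k := k) hpos y p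
  set F := Fk n k u y p with hF
  have hD0 : 0 ≤ 1 - HA n (lam * F) := by
    have := hH.le_one (lam * F) (by positivity); linarith
  have hΦy := PhiA_nonneg (n := n) (k := k) x hs hpos y
  have hΦp := PhiA_nonneg (n := n) (k := k) x hs hpos p
  rcases le_or_gt F R with hFR | hFR
  · -- small F
    have hκ : zd k y p * (s0 k a / ((zd k x y + a) * (zd k x p + a))) ≤
        F * ((PhiA n k x a u y + PhiA n k x a u p) / 2) := by
      have e1 : zd k y p = F * (u y ^ (-(1 / mA n)) * u p ^ (-(1 / mA n))) := by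
        rw [hF]
        unfold Fk
        rw [Real.mul_rpow hy.le hp.le, Real.rpow_neg hy.le, Real.rpow_neg hp.le]
        have h1 : 0 < u y ^ (1 / mA n) := Real.rpow_pos_of_pos hy _
        have h2 : 0 < u p ^ (1 / mA n) := Real.rpow_pos_of_pos hp _
        field_simp
      rw [e1]
      have e2 : u y ^ (-(2 / mA n)) = (u y ^ (-(1 / mA n))) ^ 2 := by
        rw [← Real.rpow_natCast, ← Real.rpow_mul hy.le]
        congr 1; push_cast; ring
      have e3 : u p ^ (-(2 / mA n)) = (u p ^ (-(1 / mA n))) ^ 2 := by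
        rw [← Real.rpow_natCast, ← Real.rpow_mul hp.le]
        congr 1; push_cast; ring
      unfold PhiA
      rw [e2, e3]
      set A := (zd k x y + a)⁻¹ * u y ^ (-(1 / mA n)) with hA
      set B := (zd k x p + a)⁻¹ * u p ^ (-(1 / mA n)) with hB
      have e4 : F * (u y ^ (-(1 / mA n)) * u p ^ (-(1 / mA n))) *
          (s0 k a / ((zd k x y + a) * (zd k x p + a))) = F * s0 k a * (A * B) := by
        rw [hA, hB]; field_simp
      have e5 : F * ((s0 k a * ((zd k x y + a) ^ 2)⁻¹ * (u y ^ (-(1 / mA n))) ^ 2 +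
          s0 k a * ((zd k x p + a) ^ 2)⁻¹ * (u p ^ (-(1 / mA n))) ^ 2) / 2) =
          F * s0 k a * ((A ^ 2 + B ^ 2) / 2) := by
        rw [hA, hB]; field_simp
      rw [e4, e5]
      refine mul_le_mul_of_nonneg_left ?_ (by positivity)
      nlinarith [sq_nonneg (A - B)]
    have hFD : F ≤ R * ((1 - HA n (lam * F)) / (1 - HA n (lam * R))) := by
      rcases hF0.eq_or_lt with h0 | h0
      · rw [← h0]; rw [← h0] at hD0; positivity
      · have h1 := hH.slope_anti (lam * F) (lam * R) (by positivity)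
          (mul_le_mul_of_nonneg_left hFR hlam.le)
        rw [div_le_div_iff₀ (by positivity) (by positivity)] at h1
        rw [mul_div_assoc', le_div_iff₀ hDR]
        have h2 : lam * (F * (1 - HA n (lam * R))) ≤ lam * (R * (1 - HA n (lam * F))) := by
          nlinarith
        exact le_of_mul_le_mul_left h2 hlam
    refine hκ.trans ?_
    have h3 : F * ((PhiA n k x a u y + PhiA n k x a u p) / 2) ≤
        R * ((1 - HA n (lam * F)) / (1 - HA n (lam * R))) *
          ((PhiA n k x a u y + PhiA n k x a u p) / 2) :=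
      mul_le_mul_of_nonneg_right hFD (by positivity)
    refine h3.trans ?_
    have h4 : 0 ≤ (1 - HA n (lam * F)) / (1 - HA n (lam * R)) := by positivity
    nlinarith
  · -- large F
    have h1 := htwo x y p a ha hs
    have h2 : HA n (lam * F) ≤ HA n (lam * R) :=
      hH.anti (mem_Ici.2 (by positivity)) (mem_Ici.2 (by positivity))
        (mul_le_mul_of_nonneg_left hFR.le hlam.le)
    have h3 : 1 ≤ (1 - HA n (lam * F)) / (1 - HA n (lam * R)) := by
      rw [le_div_iff₀ hDR]; linarith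
    have h4 : 2 ≤ 2 + R / 2 * (PhiA n k x a u y + PhiA n k x a u p) := by
      have : 0 ≤ R / 2 * (PhiA n k x a u y + PhiA n k x a u p) := by positivity
      linarith
    nlinarith

end Crest.Agent.R241.A7
end

-- ▼ part R241/A7Ineq
section

/-!
R241, Theorem A, block A7c: the inequality for fixed parameters, assembled.
-/

set_option autoImplicit false

namespace Crest.Agent.R241.A7

open Crest.Agent.R241.A Crest.Agent.R241.A6
open MeasureTheory Set Filter Topology
open scoped NNReal ENNReal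

variable {n : ℕ} {k : ℝ} {K : Type*} [MetricSpace K] [CompactSpace K]
  [MeasurableSpace K] [BorelSpace K] (P : PreData n k K)

theorem cP_pos (hn : 3 ≤ n) : 0 < cP n := by
  have hm := mA_pos hn
  unfold cP omegaBall
  have hn0 : (0 : ℝ) < n := by
    have : (3 : ℝ) ≤ n := by exact_mod_cast hn
    linarith
  have hball : 0 < (volume (Metric.ball (0 : EuclideanSpace ℝ (Fin n)) 1)).toReal :=
    ENNReal.toReal_pos (Metric.measure_ball_pos volume _ one_pos).ne' measure_ball_lt_top.ne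
  positivity

/-- admissibility of `ν` for the centre theorem -/
theorem nu_adm (hn : 3 ≤ n) (hint : T_int P) {q : ℝ} {u : K → ℝ} (hu : Continuous u)
    (hpos : ∀ y, 0 < u y) :
    ∃ s : ℝ, 0 < s ∧ ∃ C : ℝ, ∀ x : K, nuA P q u {x} = 0 ∧
      ∫⁻ y, ENNReal.ofReal (zd k x y ^ (-s)) ∂(nuA P q u) ≤ ENNReal.ofReal C := by
  have hm := mA_pos hn
  obtain ⟨C, hC, hC'⟩ := hint (mA n) hm.le (by rw [n_eq n]; linarith)
  obtain ⟨Bd, hBd0, hBd⟩ := exists_bound_of_continuous (cont_rpow hu hpos q)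
  have hdm : Measurable fun y => ENNReal.ofReal (u y ^ q) :=
    (cont_rpow hu hpos q).measurable.ennreal_ofReal
  refine ⟨mA n, hm, Bd * C, fun x => ⟨?_, ?_⟩⟩
  · exact withDensity_absolutelyContinuous P.τ _ (hC' x).2
  · unfold nuA
    have hfm : Measurable fun y => ENNReal.ofReal (zd k x y ^ (-(mA n))) :=
      ((continuous_zd k x).measurable.pow_const _).ennreal_ofReal
    rw [lintegral_withDensity_eq_lintegral_mul _ hdm hfm]
    calc ∫⁻ y, ((fun y => ENNReal.ofReal (u y ^ q)) *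
          fun y => ENNReal.ofReal (zd k x y ^ (-(mA n)))) y ∂P.τ
        ≤ ∫⁻ y, ENNReal.ofReal Bd * ENNReal.ofReal (zd k x y ^ (-(mA n))) ∂P.τ := by
          refine lintegral_mono fun y => ?_
          simp only [Pi.mul_apply]
          gcongr
          exact (le_abs_self _).trans (hBd y)
      _ = ENNReal.ofReal Bd * ∫⁻ y, ENNReal.ofReal (zd k x y ^ (-(mA n))) ∂P.τ :=
          lintegral_const_mul _ hfm
      _ ≤ ENNReal.ofReal Bd * ENNReal.ofReal C := by gcongr; exact (hC' x).1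
      _ = ENNReal.ofReal (Bd * C) := (ENNReal.ofReal_mul hBd0.le).symm

theorem HA_comp_cont (hH : T_H n) {X : Type*} [TopologicalSpace X] {f : X → ℝ}
    (hf : Continuous f) (hf0 : ∀ x, 0 ≤ f x) : Continuous fun x => HA n (f x) :=
  hH.cont.comp_continuous hf fun x => mem_Ici.2 (hf0 x)

theorem fixed_ineq (hn : 3 ≤ n) {h q : ℝ} (hk : 0 ≤ k) (hkh : k < h)
    (hH : T_H n) (hode : T_ode) (hkey : T_key P h) (hcentre : T_centre k K) (htwo : T_two k K)
    (hint : T_int P) (hsup : T_super P h) (hbarta : T_barta P h) (hpole : T_pole P)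
    (hq : 2 < q) (hqn : mA n * q < n) (hv : (n : ℝ) / mA n - q < 2) :
    ∃ CB C2 : ℝ, 0 < CB ∧ 0 < C2 ∧ ∀ (Q ε : ℝ) (u : K → ℝ) (δ lam Lam R ρ : ℝ),
      0 < Q → 0 ≤ ε → Near P (bA n k h) q Q ε u → 0 < δ → 0 < lam → lam ≤ Lam → 0 < R → 0 ≤ ρ →
      ∫⁻ x, ∫⁻ y, ENNReal.ofReal (zd k x y) ^ (-(mA n)) *
        ENNReal.ofReal (u x ^ (q - 1)) * ENNReal.ofReal (u y ^ (q - 1)) *
        ENNReal.ofReal (CnA n - gE n (Lam * (zd k x y * (u x * u y) ^ (1 / mA n)))) ∂P.τ ∂P.τ
        ≤ ENNReal.ofReal ρ →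
      0 < CnA n * cP n * (1 - δ) / Q - δ →
      1 - 3 * (CB * √ε / (δ * cP n) + ρ / δ) ≤
        (√(ε * (C2 * (Q + ε))) / Q * (Lam / lam) ^ mA n +
          (lam ^ mA n / (CnA n * cP n * (1 - δ) / Q - δ)) ^ ((q - 2) / 2) / ((q - 2) / 2)) /
          (1 - HA n (lam * R)) *
        (2 + R * ((2 * (Q + ε) / (mA n * n)) ^ (1 - ((n : ℝ) / mA n - q) / 2) *
          (2 * (bA n k h * P.τ.real univ) / (mA n * n)) ^ (((n : ℝ) / mA n - q) / 2))) := by
  have hm := mA_pos hn
  have hb := bA_pos hn hk hkh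
  have hcP := cP_pos hn
  obtain ⟨CB, hCB, hCB'⟩ := pole_B P hn hk hkh hq hqn hint hsup hpole
  obtain ⟨hkey1, C2, hC2, hkey2⟩ := hkey
  refine ⟨CB, C2, hCB, hC2, ?_⟩
  intro Q ε u δ lam Lam R ρ hQ hε hu hδ hlam hLam hR hρ htail hA
  have huc := hu.lip.continuous
  have hpos := hu.pos
  haveI := prob_nu P huc hpos hu.norm
  set ν := nuA P q u with hν
  set A : ℝ := CnA n * cP n * (1 - δ) / Q - δ with hAdef
  set e : ℝ := √(ε * (C2 * (Q + ε))) / Q with he
  have he0 : 0 ≤ e := by positivity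
  have hLam0 : 0 < Lam := hlam.trans_le hLam
  set Y : ℝ := e * (Lam / lam) ^ mA n + (lam ^ mA n / A) ^ ((q - 2) / 2) / ((q - 2) / 2) with hY
  have hq2 : 0 < (q - 2) / 2 := by linarith
  have hlm : 0 < lam ^ mA n := Real.rpow_pos_of_pos hlam _
  have hY0 : 0 ≤ Y := by
    rw [hY]
    have : 0 ≤ (Lam / lam) ^ mA n := Real.rpow_nonneg (by positivity) _
    positivity
  have hDR : 0 < 1 - HA n (lam * R) := by
    have := HA_lt_one hn hH (mul_pos hlam hR); linarith
  -- bad sets
  set B1 : Set K := {x | Q * Pq P q u x ≤ (1 - δ) * (cP n * u x)} with hB1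
  set B2 : Set K := {x | ENNReal.ofReal (δ * u x) < Rl P q Lam u x} with hB2
  have hB1m : MeasurableSet B1 :=
    measurableSet_le ((Pq_meas P huc hpos).const_mul Q)
      (continuous_const.mul (continuous_const.mul huc)).measurable
  have hB2m : MeasurableSet B2 :=
    measurableSet_lt (continuous_const.mul huc).measurable.ennreal_ofReal
      (Rl_meas P hH huc hpos)
  set G : Set K := (B1 ∪ B2)ᶜ with hG
  have hGm : MeasurableSet G := (hB1m.union hB2m).compl
  have hνB1 : ν.real B1 ≤ CB * √ε / (δ * cP n) := by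
    have h1 := hCB' Q ε hQ.le hε u hu.lip hpos hu.norm hu.ek δ B1 hB1m (fun x hx => hx)
    have h2 : ν.real B1 = ∫ x in B1, u x ^ q ∂P.τ := by
      rw [← integral_indicator_one hB1m, hν, integral_nu P huc hpos, ← integral_indicator hB1m]
      refine integral_congr_ae (Eventually.of_forall fun x => ?_)
      simp only [Set.indicator]
      split_ifs <;> simp
    rw [le_div_iff₀ (by positivity), h2]
    linarith
  have hνB2 : ν.real B2 ≤ ρ / δ := nu_B2_le P hH hδ hρ huc hpos hu.norm htail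
  have hνG : ν.real Gᶜ ≤ CB * √ε / (δ * cP n) + ρ / δ := by
    rw [hG, compl_compl]
    exact (measureReal_union_le B1 B2).trans (add_le_add hνB1 hνB2)
  -- centre
  obtain ⟨x, a, ha, hs, hc⟩ := hcentre ν this (nu_adm P hn hint huc hpos)
  -- continuity facts
  have hFc : Continuous fun z : K × K => Fk n k u z.1 z.2 := Fk_cont huc hpos
  have hDc : Continuous (Function.uncurry fun y p : K => 1 - HA n (lam * Fk n k u y p)) := by
    refine continuous_const.sub ?_
    refine HA_comp_cont hH (f := fun z : K × K => lam * Fk n k u z.1 z.2)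
      (continuous_const.mul hFc) fun z => ?_
    exact mul_nonneg hlam.le (Fk_nonneg hpos _ _)
  have hκc : Continuous (Function.uncurry fun y p : K =>
      zd k y p * (s0 k a / ((zd k x y + a) * (zd k x p + a)))) := by
    refine (continuous_zd₂ k).mul (continuous_const.div ?_ fun z => ?_)
    · exact (((continuous_zd k x).comp continuous_fst).add continuous_const).mul
        (((continuous_zd k x).comp continuous_snd).add continuous_const)
    · exact (mul_pos (zd_add_pos k x ha z.1) (zd_add_pos k x ha z.2)).ne'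
  have hstep := step3 ν (D := fun y p => 1 - HA n (lam * Fk n k u y p))
    (κ := fun y p => zd k y p * (s0 k a / ((zd k x y + a) * (zd k x p + a))))
    hDc hκc (Φ := PhiA n k x a u) (PhiA_cont x ha huc hpos)
    (fun y p => by
      have := hH.le_one (lam * Fk n k u y p) (mul_nonneg hlam.le (Fk_nonneg hpos _ _))
      show 0 ≤ 1 - HA n (lam * Fk n k u y p)
      linarith)
    (fun y p => by
      show 1 - HA n (lam * Fk n k u y p) = 1 - HA n (lam * Fk n k u p y)
      rw [Fk_symm])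
    (PhiA_nonneg x hs hpos)
    (fun y p => htwo x y p a ha hs)
    hc (DR := 1 - HA n (lam * R)) (R := R) (Y := Y) hDR hR.le hY0
    (fun y p => kappa_le hn hH htwo hpos ha hs hlam hR y p)
    (G := G) hGm (by
      intro p hp
      have hp1 : p ∉ B1 := fun hh => hp (Or.inl hh)
      have hp2 : p ∉ B2 := fun hh => hp (Or.inr hh)
      have hp1' : (1 - δ) * (cP n * u p) ≤ Q * Pq P q u p := (not_le.1 hp1).le
      have hp2' : Rl P q Lam u p ≤ ENNReal.ofReal (δ * u p) := not_lt.1 hp2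
      have hW := W_lower P hn hH hint hLam0 hQ hδ.le huc hpos hp1' hp2'
      have hwc := wA_cont (n := n) (k := k) huc hpos p
      have hw0 := wA_nonneg (n := n) (k := k) hpos p
      have hU := hpos p
      have hU' : 0 < u p ^ (1 / mA n) := Real.rpow_pos_of_pos hU _
      have hHc : Continuous fun y => HA n (lam * u p ^ (1 / mA n) * wA n k p u y) :=
        HA_comp_cont hH (continuous_const.mul hwc) fun y =>
          mul_nonneg (mul_pos hlam hU').le (hw0 y)
      have hHpos : 0 < ∫ y, HA n (lam * u p ^ (1 / mA n) * wA n k p u y) ∂ν := by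
        rw [integral_pos_iff_support_of_nonneg]
        · have : Function.support (fun y => HA n (lam * u p ^ (1 / mA n) * wA n k p u y)) =
              univ := by
            ext y
            simp only [Function.mem_support, mem_univ, iff_true]
            exact (hH.pos _ (mul_nonneg (mul_pos hlam hU').le (hw0 y))).ne'
          rw [this]
          simp
        · exact fun y => (hH.pos _ (mul_nonneg (mul_pos hlam hU').le (hw0 y))).le
        · exact hHc.integrable_of_hasCompactSupport (HasCompactSupport.of_compactSpace _)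
      have h1 := step1c hn hode hq he0 ν hwc hw0 (fun t ht =>
        step1a P rfl hm hq hqn.le hQ hε hC2.le hu hkey1 hkey2 p ht) hU hlam hLam hA hW hHpos
      have h2 : ∫ y, (1 - HA n (lam * Fk n k u y p)) ∂ν =
          1 - ∫ y, HA n (lam * u p ^ (1 / mA n) * wA n k p u y) ∂ν := by
        have e1 : ∀ y, lam * Fk n k u y p = lam * u p ^ (1 / mA n) * wA n k p u y := by
          intro y
          unfold Fk wA
          rw [zd_comm, Real.mul_rpow (hpos y).le hU.le]
          ring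
        simp_rw [e1]
        rw [integral_sub (integrable_const _)
          (hHc.integrable_of_hasCompactSupport (HasCompactSupport.of_compactSpace _)),
          integral_const]
        simp
      rw [h2]
      exact h1)
  have hX := X_bound P hn hbarta hb hqn hv hu x ha hs
  have h1 : 1 - 3 * (CB * √ε / (δ * cP n) + ρ / δ) ≤ 1 - 3 * ν.real Gᶜ := by linarith
  refine h1.trans (hstep.trans ?_)
  have h2 : 0 ≤ Y / (1 - HA n (lam * R)) := by positivity
  refine mul_le_mul_of_nonneg_left ?_ h2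
  have h3 := mul_le_mul_of_nonneg_left hX hR.le
  linarith

end Crest.Agent.R241.A7
end

-- ▼ part R241/A7Claim
section

/-!
R241, Theorem A, block A7c: `ε → 0`, `Λ → ∞`, `δ → 0` for fixed `q`.
-/

set_option autoImplicit false

namespace Crest.Agent.R241.A7

open Crest.Agent.R241.A Crest.Agent.R241.A6
open MeasureTheory Set Filter Topology
open scoped NNReal ENNReal

variable {n : ℕ} {k : ℝ} {K : Type*} [MetricSpace K] [CompactSpace K]
  [MeasurableSpace K] [BorelSpace K] (P : PreData n k K)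

/-- the tail estimate in the form needed -/
theorem tail_P (hn : 3 ≤ n) (hH : T_H n) (hint : T_int P) {q : ℝ} (hq : 2 < q)
    (hqn : mA n * q < n) {ρ : ℝ} (hρ : 0 < ρ) :
    ∃ Λ0 : ℝ, 0 < Λ0 ∧ ∀ Λ, Λ0 ≤ Λ → ∀ u : K → ℝ, Continuous u → (∀ x, 0 < u x) →
      ∫ x, u x ^ q ∂P.τ = 1 →
      ∫⁻ x, ∫⁻ y, ENNReal.ofReal (zd k x y) ^ (-(mA n)) *
        ENNReal.ofReal (u x ^ (q - 1)) * ENNReal.ofReal (u y ^ (q - 1)) *
        ENNReal.ofReal (CnA n - gE n (Λ * (zd k x y * (u x * u y) ^ (1 / mA n)))) ∂P.τ ∂P.τ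
        ≤ ENNReal.ofReal ρ := by
  have hm := mA_pos hn
  set σ : ℝ := (q / 2 + n / (2 * mA n)) / 2 with hσ
  have h1 : q / 2 < n / (2 * mA n) := by
    rw [lt_div_iff₀ (by positivity)]; linarith
  have hσ1 : q / 2 < σ := by rw [hσ]; linarith
  have hσ2 : σ < n / (2 * mA n) := by rw [hσ]; linarith
  have hs : mA n * σ < (n : ℝ) / 2 := by
    have := mul_lt_mul_of_pos_left hσ2 hm
    refine this.trans_le (le_of_eq ?_)
    field_simp
  have hs0 : 0 ≤ mA n * σ := by
    have : 0 < σ := by linarith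
    positivity
  obtain ⟨C, hC, hC'⟩ := hint (mA n * σ) hs0 hs
  have hA : ∀ x : K, ∫⁻ y, ENNReal.ofReal (zd k x y) ^ (-(mA n * σ)) ∂P.τ ≤
      ENNReal.ofReal C := by
    intro x
    refine le_trans (le_of_eq ?_) (hC' x).1
    refine lintegral_congr_ae ?_
    filter_upwards [ae_ne_of_int P hm hint x] with y hy
    have hz : 0 < zd k x y := zd_pos (Ne.symm hy)
    rw [ENNReal.ofReal_rpow_of_pos hz]
  have hA' : ∀ y : K, ∫⁻ x, ENNReal.ofReal (zd k x y) ^ (-(mA n * σ)) ∂P.τ ≤
      ENNReal.ofReal C := by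
    intro y
    refine le_trans (le_of_eq ?_) (hA y)
    refine lintegral_congr fun x => ?_
    rw [zd_comm]
  obtain ⟨Λ0, hΛ0, h2⟩ := tail_small P.τ (fun x y : K => zd k x y)
    (continuous_zd₂ k).measurable (fun x y => zd_nonneg k x y) hm hq hσ1 (ENNReal.ofReal C)
    ENNReal.ofReal_ne_top hA' hA (gE n) (CnA n) (gE_mono hH) (gE_zero (n := n)).ge
    (gE_tendsto hn hH) (ENNReal.ofReal ρ) (ENNReal.ofReal_pos.2 hρ)
  refine ⟨Λ0, hΛ0, fun Λ hΛ u hu hpos hu1 => ?_⟩
  refine h2 Λ hΛ u hu.measurable hpos ?_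
  rw [← ofReal_integral_eq_lintegral_ofReal (P.integrable_of_continuous (cont_rpow hu hpos q))
    (Eventually.of_forall fun y => (Real.rpow_pos_of_pos (hpos y) _).le), hu1,
    ENNReal.ofReal_one]

/-- `A_δ` -/
theorem A_pos {c Q δ : ℝ} (hc : 0 < c) (hQ : 0 < Q) (hδ : 0 < δ) (h1 : δ < 1 / 2)
    (h2 : δ < c / (4 * Q)) : 0 < c * (1 - δ) / Q - δ := by
  have h3 : c * (1 / 2) / Q ≤ c * (1 - δ) / Q := by
    gcongr; linarith
  have h4 : c * (1 / 2) / Q = 2 * (c / (4 * Q)) := by field_simp; ring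
  have h5 : 0 < c / (4 * Q) := by positivity
  linarith

theorem claim_q (hn : 3 ≤ n) {h q : ℝ} (hk : 0 ≤ k) (hkh : k < h) (hτ : P.τ ≠ 0)
    (hH : T_H n) (hode : T_ode) (hkey : T_key P h) (hcentre : T_centre k K) (htwo : T_two k K)
    (hint : T_int P) (hsup : T_super P h) (hbarta : T_barta P h) (hpole : T_pole P)
    (hsob : T_sob P h)
    (hq : 2 < q) (hqn : mA n * q < n) (hv : (n : ℝ) / mA n - q < 2) :
    ∃ Q : ℝ, 0 < Q ∧
      (∀ v : K → ℝ, Lip v → Q * (∫ y, |v y| ^ q ∂P.τ) ^ (2 / q) ≤ P.energy (bA n k h) v) ∧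
      ∀ lam R : ℝ, 0 < lam → 0 < R →
        1 - HA n (lam * R) ≤
          (lam ^ mA n / (CnA n * cP n / Q)) ^ ((q - 2) / 2) / ((q - 2) / 2) *
          (2 + R * ((2 * Q / (mA n * n)) ^ (1 - ((n : ℝ) / mA n - q) / 2) *
          (2 * (bA n k h * P.τ.real univ) / (mA n * n)) ^ (((n : ℝ) / mA n - q) / 2))) := by
  have hm := mA_pos hn
  have hb := bA_pos hn hk hkh
  have hcP := cP_pos hn
  have hn0 : (0 : ℝ) < n := by
    have : (3 : ℝ) ≤ n := by exact_mod_cast hn
    linarith
  obtain ⟨Q, hQ, hmin, hnear⟩ := exists_Q P hb.le hq hτ (hsob q hq hqn)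
  obtain ⟨CB, C2, hCB, hC2, hfix⟩ := fixed_ineq P hn hk hkh hH hode hkey hcentre htwo hint hsup
    hbarta hpole hq hqn hv
  refine ⟨Q, hQ, hmin, ?_⟩
  intro lam R hlam hR
  set α : ℝ := (q - 2) / 2 with hα
  have hα0 : 0 < α := by rw [hα]; linarith
  set v2 : ℝ := ((n : ℝ) / mA n - q) / 2 with hv2
  set X1 : ℝ := (2 * (bA n k h * P.τ.real univ) / (mA n * n)) ^ v2 with hX1
  set c : ℝ := CnA n * cP n with hc
  have hc0 : 0 < c := mul_pos hH.Cn_pos hcP
  have hDR : 0 < 1 - HA n (lam * R) := by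
    have := HA_lt_one hn hH (mul_pos hlam hR); linarith
  have hmn : 0 < mA n * n := by positivity
  -- the inequality for small δ
  have hδineq : ∀ δ : ℝ, 0 < δ → δ < 1 / 2 → δ < c / (4 * Q) →
      (1 - 6 * δ) * (1 - HA n (lam * R)) ≤
        (δ + (lam ^ mA n / (c * (1 - δ) / Q - δ)) ^ α / α) *
        (2 + R * ((2 * (Q + δ) / (mA n * n)) ^ (1 - v2) * X1)) := by
    intro δ hδ hδ1 hδ2
    have hA := A_pos hc0 hQ hδ hδ1 hδ2
    obtain ⟨Λ0, hΛ0, htail⟩ := tail_P P hn hH hint hq hqn (ρ := δ ^ 2) (by positivity)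
    set Lam : ℝ := max Λ0 lam with hLam
    -- choice of ε
    obtain ⟨ε, hε, hε1, hε2, hε3⟩ : ∃ ε : ℝ, 0 < ε ∧ CB * √ε / (δ * cP n) ≤ δ ∧
        √(ε * (C2 * (Q + ε))) / Q * (Lam / lam) ^ mA n ≤ δ ∧ ε ≤ δ := by
      have t1 : Tendsto (fun ε : ℝ => CB * √ε / (δ * cP n)) (𝓝[>] 0) (𝓝 0) := by
        have : Continuous fun ε : ℝ => CB * √ε / (δ * cP n) := by fun_prop
        have h := this.tendsto 0
        simp only [Real.sqrt_zero, mul_zero, zero_div] at h
        exact h.mono_left nhdsWithin_le_nhds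
      have t2 : Tendsto (fun ε : ℝ => √(ε * (C2 * (Q + ε))) / Q * (Lam / lam) ^ mA n)
          (𝓝[>] 0) (𝓝 0) := by
        have : Continuous fun ε : ℝ => √(ε * (C2 * (Q + ε))) / Q * (Lam / lam) ^ mA n := by
          fun_prop
        have h := this.tendsto 0
        simp only [Real.sqrt_zero, zero_mul, zero_div] at h
        exact h.mono_left nhdsWithin_le_nhds
      have t3 : Tendsto (fun ε : ℝ => ε) (𝓝[>] 0) (𝓝 0) :=
        tendsto_id.mono_left nhdsWithin_le_nhds
      have := (((t1.eventually (gt_mem_nhds hδ)).and (t2.eventually (gt_mem_nhds hδ))).and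
        (t3.eventually (gt_mem_nhds hδ))).and self_mem_nhdsWithin
      obtain ⟨ε, ⟨⟨h1, h2⟩, h3⟩, h4⟩ := this.exists
      exact ⟨ε, h4, h1.le, h2.le, h3.le⟩
    obtain ⟨u, huL, hupos, hu1, huE⟩ := hnear ε hε
    have hN : Near P (bA n k h) q Q ε u := ⟨huL, hupos, hu1, huE, hmin,
      fun η hη => free_ekeland P hb.le (by linarith) hQ.le hmin huL hupos hu1 huE hη⟩
    have hF := hfix Q ε u δ lam Lam R (δ ^ 2) hQ hε.le hN hδ hlam (le_max_right _ _) hR
      (by positivity) (htail Lam (le_max_left _ _) u huL.continuous hupos hu1) hA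
    have e1 : δ ^ 2 / δ = δ := by field_simp
    rw [e1] at hF
    set Z : ℝ := (lam ^ mA n / (c * (1 - δ) / Q - δ)) ^ α / α with hZ
    have hlm : 0 < lam ^ mA n := Real.rpow_pos_of_pos hlam _
    have hZ0 : 0 ≤ Z := by positivity
    have hX10 : 0 ≤ X1 := Real.rpow_nonneg (by positivity) _
    have hv2' : 0 ≤ 1 - v2 := by rw [hv2]; linarith
    have h1 : 1 - 6 * δ ≤ (δ + Z) / (1 - HA n (lam * R)) *
        (2 + R * ((2 * (Q + δ) / (mA n * n)) ^ (1 - v2) * X1)) := by
      have h2 : 1 - 6 * δ ≤ 1 - 3 * (CB * √ε / (δ * cP n) + δ) := by linarith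
      refine h2.trans (hF.trans ?_)
      have h3 : (2 * (Q + ε) / (mA n * n)) ^ (1 - v2) ≤
          (2 * (Q + δ) / (mA n * n)) ^ (1 - v2) := by
        refine Real.rpow_le_rpow (by positivity) ?_ hv2'
        gcongr
      have h4 : 0 ≤ (2 * (Q + ε) / (mA n * n)) ^ (1 - v2) := Real.rpow_nonneg (by positivity) _
      have h5 : 0 ≤ √(ε * (C2 * (Q + ε))) / Q * (Lam / lam) ^ mA n := by
        have : 0 ≤ (Lam / lam) ^ mA n := Real.rpow_nonneg (by positivity) _
        positivity
      refine mul_le_mul ?_ ?_ ?_ ?_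
      · gcongr
      · gcongr
      · positivity
      · positivity
    rw [div_mul_eq_mul_div, le_div_iff₀ hDR] at h1
    exact h1
  -- limit δ → 0
  have hev : ∀ᶠ δ in 𝓝[>] (0 : ℝ), (1 - 6 * δ) * (1 - HA n (lam * R)) ≤
        (δ + (lam ^ mA n / (c * (1 - δ) / Q - δ)) ^ α / α) *
        (2 + R * ((2 * (Q + δ) / (mA n * n)) ^ (1 - v2) * X1)) := by
    have e1 : ∀ᶠ δ in 𝓝[>] (0 : ℝ), 0 < δ := self_mem_nhdsWithin
    have e2 : ∀ᶠ δ in 𝓝[>] (0 : ℝ), δ < 1 / 2 :=
      nhdsWithin_le_nhds (gt_mem_nhds (by norm_num))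
    have e3 : ∀ᶠ δ in 𝓝[>] (0 : ℝ), δ < c / (4 * Q) :=
      nhdsWithin_le_nhds (gt_mem_nhds (by positivity))
    filter_upwards [e1, e2, e3] with δ h1 h2 h3
    exact hδineq δ h1 h2 h3
  have hL : Tendsto (fun δ : ℝ => (1 - 6 * δ) * (1 - HA n (lam * R))) (𝓝[>] 0)
      (𝓝 (1 - HA n (lam * R))) := by
    have : Continuous fun δ : ℝ => (1 - 6 * δ) * (1 - HA n (lam * R)) := by fun_prop
    have h := this.tendsto 0
    simp only [mul_zero, sub_zero, one_mul] at h
    exact h.mono_left nhdsWithin_le_nhds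
  have hRt : Tendsto (fun δ : ℝ => (δ + (lam ^ mA n / (c * (1 - δ) / Q - δ)) ^ α / α) *
        (2 + R * ((2 * (Q + δ) / (mA n * n)) ^ (1 - v2) * X1))) (𝓝[>] 0)
      (𝓝 ((lam ^ mA n / (c / Q)) ^ α / α *
        (2 + R * ((2 * Q / (mA n * n)) ^ (1 - v2) * X1)))) := by
    have hcont : ContinuousAt (fun δ : ℝ => (δ + (lam ^ mA n / (c * (1 - δ) / Q - δ)) ^ α / α) *
        (2 + R * ((2 * (Q + δ) / (mA n * n)) ^ (1 - v2) * X1))) 0 := by
      have c1 : ContinuousAt (fun δ : ℝ => c * (1 - δ) / Q - δ) 0 := by fun_prop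
      have hne : c * (1 - 0) / Q - 0 ≠ 0 := by
        simp only [sub_zero, mul_one]; positivity
      have c2 : ContinuousAt (fun δ : ℝ => lam ^ mA n / (c * (1 - δ) / Q - δ)) 0 :=
        continuousAt_const.div c1 hne
      have c3 : ContinuousAt (fun δ : ℝ => (lam ^ mA n / (c * (1 - δ) / Q - δ)) ^ α) 0 :=
        c2.rpow_const (Or.inr hα0.le)
      have c4 : ContinuousAt (fun δ : ℝ => 2 * (Q + δ) / (mA n * n)) 0 := by fun_prop
      have c5 : ContinuousAt (fun δ : ℝ => (2 * (Q + δ) / (mA n * n)) ^ (1 - v2)) 0 := by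
        refine c4.rpow_const (Or.inl ?_)
        simp only [add_zero]; positivity
      exact (continuousAt_id.add (c3.div_const α)).mul
        (continuousAt_const.add (continuousAt_const.mul (c5.mul continuousAt_const)))
    have h := hcont.tendsto
    simp only [sub_zero, mul_one, zero_add, add_zero] at h
    exact h.mono_left nhdsWithin_le_nhds
  exact le_of_tendsto_of_tendsto hL hRt hev

end Crest.Agent.R241.A7
end

-- ▼ part R241/A7Sharp

/-!
R241, Theorem A, block A7c: `q → 2*`, the sharp Sobolev inequality, and Theorem A for `n ≥ 3`.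
-/

set_option autoImplicit false

namespace Crest.Agent.R241.A7

open Crest.Agent.R241.A Crest.Agent.R241.A6
open MeasureTheory Set Filter Topology
open scoped NNReal ENNReal

variable {n : ℕ} {k : ℝ} {K : Type*} [MetricSpace K] [CompactSpace K]
  [MeasurableSpace K] [BorelSpace K] (P : PreData n k K)

theorem tendsto_I {v : K → ℝ} (hv : Continuous v) {p : ℝ} (hp : 2 < p) :
    Tendsto (fun q : ℝ => ∫ y, |v y| ^ q ∂P.τ) (𝓝[<] p) (𝓝 (∫ y, |v y| ^ p ∂P.τ)) := by
  obtain ⟨M, hM0, hM⟩ := exists_bound_of_continuous hv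
  refine tendsto_integral_filter_of_dominated_convergence (fun _ => (max 1 M) ^ p) ?_ ?_
    (integrable_const _) ?_
  · filter_upwards [nhdsWithin_le_nhds (lt_mem_nhds hp)] with q hq
    exact (cont_rpow_abs (by linarith [show (2 : ℝ) < q from hq]) hv).aestronglyMeasurable
  · filter_upwards [nhdsWithin_le_nhds (lt_mem_nhds hp), self_mem_nhdsWithin] with q hq1 hq2
    refine Eventually.of_forall fun y => ?_
    have hq0 : (2 : ℝ) < q := hq1
    have hq2' : q < p := hq2
    rw [Real.norm_eq_abs, abs_of_nonneg (Real.rpow_nonneg (abs_nonneg _) _)]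
    calc |v y| ^ q ≤ (max 1 M) ^ q :=
          Real.rpow_le_rpow (abs_nonneg _) ((hM y).trans (le_max_right _ _)) (by linarith)
      _ ≤ (max 1 M) ^ p := Real.rpow_le_rpow_of_exponent_le (le_max_left _ _) hq2'.le
  · refine Eventually.of_forall fun y => ?_
    exact ((Real.continuousAt_const_rpow' (by linarith : p ≠ 0)).tendsto).mono_left
      nhdsWithin_le_nhds

/-- elementary end of the argument -/
theorem end_ineq {m c C q1 q2 : ℝ} (hm : 0 < m) (hC : 0 < C) (hq1 : 0 ≤ q1) (H : ℝ → ℝ)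
    (hH : ∀ r, 0 ≤ r → 2 * m * r - C * r ^ 2 ≤ 1 - H r)
    (h : ∀ lam R : ℝ, 0 < lam → 0 < R → 1 - H (lam * R) ≤ m * lam * q1 * (2 + 2 * R * q2)) :
    1 ≤ q1 * q2 := by
  have h1 : ∀ R : ℝ, 0 < R → R ≤ q1 * (1 + R * q2) := by
    intro R hR
    by_contra hcon
    push Not at hcon
    set g := R - q1 * (1 + R * q2) with hg
    have hg0 : 0 < g := by rw [hg]; linarith
    set lam := m * g / (C * R ^ 2) with hlam
    have hl0 : 0 < lam := by positivity
    have h2 := h lam R hl0 hR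
    have h3 := hH (lam * R) (by positivity)
    have h4 : 2 * m * (lam * R) - C * (lam * R) ^ 2 ≤ m * lam * q1 * (2 + 2 * R * q2) :=
      h3.trans h2
    have h5 : C * (lam * R) ^ 2 = lam * (m * g) := by
      rw [hlam]; field_simp
    rw [h5] at h4
    have h6 : lam * (m * (2 * R - g)) ≤ lam * (m * (q1 * (2 + 2 * R * q2))) := by nlinarith
    have h7 := le_of_mul_le_mul_left (le_of_mul_le_mul_left h6 hl0) hm
    nlinarith
  by_contra hcon
  push Not at hcon
  have h2 : 0 < 1 - q1 * q2 := by linarith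
  have h3 := h1 ((q1 + 1) / (1 - q1 * q2)) (by positivity)
  have h4 : (q1 + 1) / (1 - q1 * q2) * (1 - q1 * q2) = q1 + 1 := by field_simp
  nlinarith

/-- the constants -/
theorem const_alg (hn : 3 ≤ n) (hH : T_H n) {Qs : ℝ} (hQs : 0 < Qs)
    (h : 1 ≤ (Qs / (CnA n * cP n)) ^ (1 / mA n) * (Qs / (mA n * n))) :
    mA n * n / 2 * sphArea n ^ (2 / (n : ℝ)) ≤ Qs := by
  have hm := mA_pos hn
  have hnn := n_eq n
  have hn0 : (0 : ℝ) < n := by
    have : (3 : ℝ) ≤ n := by exact_mod_cast hn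
    linarith
  have hcP := cP_pos hn
  have hCn := hH.Cn_pos
  have hmn : 0 < mA n * n := by positivity
  have hω : 0 < omegaBall n := by
    unfold omegaBall
    exact ENNReal.toReal_pos (Metric.measure_ball_pos volume _ one_pos).ne'
      measure_ball_lt_top.ne
  set m := mA n with hmdef
  set y : ℝ := Qs / (m * n) with hy
  have hy0 : 0 < y := by positivity
  set x : ℝ := Qs / (CnA n * cP n) with hx
  have hx0 : 0 < x := by positivity
  -- raise to the power `m`
  have h1 : 1 ≤ x * y ^ m := by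
    have h2 : (1 : ℝ) ^ m ≤ (x ^ (1 / m) * y) ^ m := Real.rpow_le_rpow zero_le_one h hm.le
    rw [Real.one_rpow, Real.mul_rpow (Real.rpow_pos_of_pos hx0 _).le hy0.le,
      ← Real.rpow_mul hx0.le, one_div, inv_mul_cancel₀ hm.ne', Real.rpow_one] at h2
    exact h2
  have e1 : cP n = m * n * 2 ^ (m + 1) * omegaBall n := rfl
  have h3 : CnA n * 2 ^ (m + 1) * omegaBall n ≤ y ^ (m + 1) := by
    have h4 : x = y / (CnA n * 2 ^ (m + 1) * omegaBall n) := by
      rw [hx, hy, e1]; field_simp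
    have hd : 0 < CnA n * 2 ^ (m + 1) * omegaBall n := by positivity
    rw [h4, div_mul_eq_mul_div, le_div_iff₀ hd, one_mul] at h1
    refine h1.trans (le_of_eq ?_)
    rw [Real.rpow_add_one hy0.ne']; ring
  have h5 : sphArea n ≤ (2 * y) ^ (m + 1) := by
    rw [← hH.const, Real.mul_rpow (by norm_num) hy0.le]
    have e2 : (2 : ℝ) ^ n = 2 ^ (m + 1) * 2 ^ (m + 1) := by
      rw [← Real.rpow_add (by norm_num), ← Real.rpow_natCast]
      congr 1
      rw [hnn]; ring
    rw [e2]
    have h6 : (0 : ℝ) < 2 ^ (m + 1) := by positivity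
    calc (2 : ℝ) ^ (m + 1) * 2 ^ (m + 1) * omegaBall n * CnA n
        = 2 ^ (m + 1) * (CnA n * 2 ^ (m + 1) * omegaBall n) := by ring
      _ ≤ 2 ^ (m + 1) * y ^ (m + 1) := mul_le_mul_of_nonneg_left h3 h6.le
  have hs0 : 0 < sphArea n := by rw [← hH.const]; positivity
  have h7 : sphArea n ^ (2 / (n : ℝ)) ≤ 2 * y := by
    have h8 := Real.rpow_le_rpow hs0.le h5 (show 0 ≤ 2 / (n : ℝ) by positivity)
    rw [← Real.rpow_mul (by positivity)] at h8
    have e3 : (m + 1) * (2 / (n : ℝ)) = 1 := by rw [hnn]; field_simp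
    rwa [e3, Real.rpow_one] at h8
  calc m * n / 2 * sphArea n ^ (2 / (n : ℝ)) ≤ m * n / 2 * (2 * y) := by gcongr
    _ = Qs := by rw [hy]; field_simp

theorem t_sharp (hn : 3 ≤ n) {h : ℝ} (hk : 0 ≤ k) (hkh : k < h) (hτ : P.τ ≠ 0)
    (hH : T_H n) (hode : T_ode) (hkey : T_key P h) (hcentre : T_centre k K) (htwo : T_two k K)
    (hint : T_int P) (hsup : T_super P h) (hbarta : T_barta P h) (hpole : T_pole P)
    (hsob : T_sob P h) : A9.T_sharp P h := by
  intro v hv
  have hm := mA_pos hn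
  have hnn := n_eq n
  have hb := bA_pos hn hk hkh
  have hn0 : (0 : ℝ) < n := by
    have : (3 : ℝ) ≤ n := by exact_mod_cast hn
    linarith
  have hcP := cP_pos hn
  have hCn := hH.Cn_pos
  have hmn : 0 < mA n * n := by positivity
  have hτ0 : 0 < P.τ.real univ :=
    ENNReal.toReal_pos (Measure.measure_univ_ne_zero.2 hτ) (measure_ne_top _ _)
  set p : ℝ := (n : ℝ) / mA n with hp
  have hp2 : p = 2 + 2 / mA n := by rw [hp]; rw [hnn]; field_simp
  have hp2' : 2 < p := by rw [hp2]; have : 0 < 2 / mA n := by positivity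
                          linarith
  set I : ℝ := ∫ y, |v y| ^ p ∂P.τ with hI
  have hI0 : 0 ≤ I := integral_nonneg fun y => Real.rpow_nonneg (abs_nonneg _) _
  rcases hI0.eq_or_lt with h0 | hIpos
  · rw [← h0, Real.zero_rpow (by positivity), mul_zero]
    exact P.energy_nonneg hb.le hv
  set E : ℝ := P.energy (bA n k h) v with hE
  have htI := tendsto_I P hv.continuous hp2'
  set Iq : ℝ → ℝ := fun q => ∫ y, |v y| ^ q ∂P.τ with hIq
  have htI' : Tendsto Iq (𝓝[<] p) (𝓝 I) := htI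
  set c : ℝ := CnA n * cP n with hc
  have hc0 : 0 < c := by positivity
  set X : ℝ := 2 * (bA n k h * P.τ.real univ) / (mA n * n) with hX
  have hX0 : 0 < X := by positivity
  -- events
  have ev : ∀ᶠ q in 𝓝[<] p, (2 < q ∧ p - 2 < q ∧ q < p) ∧ 0 < Iq q := by
    have e1 : ∀ᶠ q in 𝓝[<] p, 2 < q := nhdsWithin_le_nhds (lt_mem_nhds hp2')
    have e2 : ∀ᶠ q in 𝓝[<] p, p - 2 < q := nhdsWithin_le_nhds (lt_mem_nhds (by linarith))
    have e3 : ∀ᶠ q in 𝓝[<] p, q < p := self_mem_nhdsWithin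
    have e4 : ∀ᶠ q in 𝓝[<] p, 0 < Iq q := htI'.eventually (lt_mem_nhds hIpos)
    filter_upwards [e1, e2, e3, e4] with q h1 h2 h3 h4
    exact ⟨⟨h1, h2, h3⟩, h4⟩
  have hq_main : ∀ q, 2 < q → p - 2 < q → q < p → 0 < Iq q →
      0 < E ∧ ∀ lam R : ℝ, 0 < lam → 0 < R →
        1 - HA n (lam * R) ≤
          (lam ^ mA n / (c / (E / Iq q ^ (2 / q)))) ^ ((q - 2) / 2) / ((q - 2) / 2) *
          (2 + R * ((2 * (E / Iq q ^ (2 / q)) / (mA n * n)) ^ (1 - (p - q) / 2) *
          X ^ ((p - q) / 2))) := by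
    intro q h1 h2 h3 h4
    have hqn : mA n * q < n := by
      rw [hp, lt_div_iff₀ hm] at h3; linarith
    obtain ⟨Q, hQ, hmin, hcl⟩ := claim_q P hn hk hkh hτ hH hode hkey hcentre htwo hint hsup
      hbarta hpole hsob h1 hqn (by linarith)
    have h5 := hmin v hv
    have h6 : 0 < Iq q ^ (2 / q) := Real.rpow_pos_of_pos h4 _
    have h7 : Q ≤ E / Iq q ^ (2 / q) := by rw [le_div_iff₀ h6]; exact h5
    have hE0 : 0 < E := lt_of_lt_of_le (mul_pos hQ h6) h5
    refine ⟨hE0, fun lam R hlam hR => ?_⟩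
    refine (hcl lam R hlam hR).trans ?_
    have hq2 : 0 < (q - 2) / 2 := by linarith
    have hlm : 0 < lam ^ mA n := Real.rpow_pos_of_pos hlam _
    have m1 : lam ^ mA n / (c / Q) ≤ lam ^ mA n / (c / (E / Iq q ^ (2 / q))) := by
      have a1 : 0 < c / (E / Iq q ^ (2 / q)) := by positivity
      have a2 : c / (E / Iq q ^ (2 / q)) ≤ c / Q := by gcongr
      gcongr
    have m2 : (lam ^ mA n / (c / Q)) ^ ((q - 2) / 2) ≤
        (lam ^ mA n / (c / (E / Iq q ^ (2 / q)))) ^ ((q - 2) / 2) :=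
      Real.rpow_le_rpow (by positivity) m1 hq2.le
    have m3 : (2 * Q / (mA n * n)) ^ (1 - (p - q) / 2) ≤
        (2 * (E / Iq q ^ (2 / q)) / (mA n * n)) ^ (1 - (p - q) / 2) := by
      refine Real.rpow_le_rpow (by positivity) (by gcongr) (by linarith)
    have m4 : 0 ≤ X ^ ((p - q) / 2) := Real.rpow_nonneg hX0.le _
    have m5 : 0 ≤ (2 * Q / (mA n * n)) ^ (1 - (p - q) / 2) := Real.rpow_nonneg (by positivity) _
    have m6 : 0 ≤ (lam ^ mA n / (c / Q)) ^ ((q - 2) / 2) := Real.rpow_nonneg (by positivity) _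
    refine mul_le_mul ?_ ?_ (by positivity) (div_nonneg (m6.trans m2) hq2.le)
    · gcongr
    · gcongr
  obtain ⟨q0, ⟨hq01, hq02, hq03⟩, hq04⟩ := ev.exists
  have hE0 : 0 < E := (hq_main q0 hq01 hq02 hq03 hq04).1
  -- the limit
  set Qs : ℝ := E / I ^ (2 / p) with hQs
  have hIp : 0 < I ^ (2 / p) := Real.rpow_pos_of_pos hIpos _
  have hQs0 : 0 < Qs := by positivity
  have hp0 : 0 < p := by linarith
  have hid : Tendsto (fun q : ℝ => q) (𝓝[<] p) (𝓝 p) := tendsto_id.mono_left nhdsWithin_le_nhds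
  have tQ : Tendsto (fun q => E / Iq q ^ (2 / q)) (𝓝[<] p) (𝓝 Qs) := by
    have t1 : Tendsto (fun q : ℝ => 2 / q) (𝓝[<] p) (𝓝 (2 / p)) :=
      tendsto_const_nhds.div hid hp0.ne'
    exact tendsto_const_nhds.div (htI'.rpow t1 (Or.inl hIpos.ne')) hIp.ne'
  have key : ∀ lam R : ℝ, 0 < lam → 0 < R →
      1 - HA n (lam * R) ≤ mA n * lam * (Qs / c) ^ (1 / mA n) * (2 + 2 * R * (Qs / (mA n * n))) := by
    intro lam R hlam hR
    have hlm : 0 < lam ^ mA n := Real.rpow_pos_of_pos hlam _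
    have tα : Tendsto (fun q : ℝ => (q - 2) / 2) (𝓝[<] p) (𝓝 (1 / mA n)) := by
      have : Tendsto (fun q : ℝ => (q - 2) / 2) (𝓝[<] p) (𝓝 ((p - 2) / 2)) :=
        (hid.sub tendsto_const_nhds).div_const 2
      have e : (p - 2) / 2 = 1 / mA n := by rw [hp2]; field_simp; ring
      rwa [e] at this
    have tv : Tendsto (fun q : ℝ => (p - q) / 2) (𝓝[<] p) (𝓝 0) := by
      have : Tendsto (fun q : ℝ => (p - q) / 2) (𝓝[<] p) (𝓝 ((p - p) / 2)) :=
        (tendsto_const_nhds.sub hid).div_const 2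
      rwa [sub_self, zero_div] at this
    have t1 : Tendsto (fun q => lam ^ mA n / (c / (E / Iq q ^ (2 / q)))) (𝓝[<] p)
        (𝓝 (lam ^ mA n / (c / Qs))) :=
      tendsto_const_nhds.div (tendsto_const_nhds.div tQ hQs0.ne') (by positivity)
    have t2 := (t1.rpow tα (Or.inl (by positivity))).div tα (by positivity)
    have t3 : Tendsto (fun q => 2 * (E / Iq q ^ (2 / q)) / (mA n * n)) (𝓝[<] p)
        (𝓝 (2 * Qs / (mA n * n))) := (tendsto_const_nhds.mul tQ).div_const _
    have t4 : Tendsto (fun q : ℝ => 1 - (p - q) / 2) (𝓝[<] p) (𝓝 (1 - 0)) :=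
      tendsto_const_nhds.sub tv
    have t5 := t3.rpow t4 (Or.inl (by positivity))
    have t6 : Tendsto (fun q : ℝ => X ^ ((p - q) / 2)) (𝓝[<] p) (𝓝 (X ^ (0 : ℝ))) :=
      (tendsto_const_nhds (x := X)).rpow tv (Or.inl hX0.ne')
    have t7 := t2.mul ((tendsto_const_nhds (x := (2 : ℝ))).add
      ((tendsto_const_nhds (x := R)).mul (t5.mul t6)))
    have h1 := ge_of_tendsto t7 (b := 1 - HA n (lam * R)) (by
      filter_upwards [ev] with q hq
      exact (hq_main q hq.1.1 hq.1.2.1 hq.1.2.2 hq.2).2 lam R hlam hR)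
    refine h1.trans (le_of_eq ?_)
    rw [Real.rpow_zero, sub_zero, Real.rpow_one, mul_one]
    have e1 : (lam ^ mA n / (c / Qs)) ^ (1 / mA n) = lam * (Qs / c) ^ (1 / mA n) := by
      have : lam ^ mA n / (c / Qs) = lam ^ mA n * (Qs / c) := by field_simp
      rw [this, Real.mul_rpow hlm.le (by positivity), ← Real.rpow_mul hlam.le,
        mul_one_div_cancel hm.ne', Real.rpow_one]
    rw [e1]
    field_simp
  obtain ⟨C, hC, hC'⟩ := hH.one_sub_ge
  have hend := end_ineq (c := c) hm hC (Real.rpow_nonneg (by positivity) _) (HA n) hC' key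
  have hfin := const_alg hn hH hQs0 hend
  rw [hQs, le_div_iff₀ hIp] at hfin
  have e : 2 * mA n / (n : ℝ) = 2 / p := by rw [hp]; field_simp
  rw [e]
  exact hfin

end Crest.Agent.R241.A7
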