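import Crest.Agent.R241.ABasic
import Crest.Agent.R241.A9Bary

-- ▼ part R241/A1
section

/-!
R241 block A1: `T_super`, `T_barta`, `T_fv'` from `(FV)`.
-/

set_option autoImplicit false

namespace Crest.Agent.R241.A1

open MeasureTheory Set Filter Topology Crest.Agent.R241.A
open scoped NNReal ENNReal RealInnerProductSpace

section
variable {n : ℕ} {k : ℝ} {K : Type*} [MetricSpace K] [CompactSpace K]
  [MeasurableSpace K] [BorelSpace K]

lemma integrable_of_bound (P : PreData n k K) {g : K → ℝ} (hg : AEStronglyMeasurable g P.τ)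
    {M : ℝ} (hM : ∀ᵐ y ∂P.τ, |g y| ≤ M) : Integrable g P.τ :=
  Integrable.of_bound hg M (by simpa [Real.norm_eq_abs] using hM)

lemma q_bound (P : PreData n k K) (x : K) : ∃ M : ℝ, 0 < M ∧ ∀ᵐ y ∂P.τ, P.q x y ≤ M := by
  have hg : Continuous fun y => √(2 * zd k x y + k ^ 2 * zd k x y ^ 2) :=
    Continuous.sqrt ((continuous_const.mul (continuous_zd k x)).add
        (continuous_const.mul ((continuous_zd k x).pow 2)))
  obtain ⟨B, hB0, hB⟩ := exists_bound_of_continuous hg
  refine ⟨B, hB0, ?_⟩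
  filter_upwards [P.q_le x] with y hy
  exact hy.trans ((le_abs_self _).trans (hB y))

lemma exists_zd_bound (k : ℝ) (x : K) : ∃ M : ℝ, 0 < M ∧ ∀ y, zd k x y ≤ M := by
  obtain ⟨M, h0, hM⟩ := exists_zd_le (K := K) k
  exact ⟨M, h0, hM x⟩

/-- **A1 (FV')**. -/
theorem t_fv' {h : ℝ} (P : PreData n k K) (hFV : P.FV h) : T_fv' P h := by
  intro x f hf hf0
  have key := hFV x f hf hf0
  have hz := lip_zd k x
  have hzc := Lip.continuous hz
  have hfc := Lip.continuous hf
  have i1 : Integrable (fun y => (n : ℝ) * (1 + k ^ 2 * zd k x y) * f y) P.τ :=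
    P.integrable_of_continuous (by fun_prop)
  have i2 : Integrable (fun y => P.G f (zd k x) y) P.τ := P.integrable_G hf hz
  have i3 : Integrable (fun y => f y * P.q x y) P.τ := P.integrable_mul_q hfc x
  have i12 : Integrable (fun y => (n : ℝ) * (1 + k ^ 2 * zd k x y) * f y
      + P.G f (zd k x) y) P.τ := i1.add i2
  have i4 : Integrable (fun y => (n : ℝ) * (1 + k ^ 2 * zd k x y) * f y
      + P.G f (zd k x) y - (n : ℝ) * h * (f y * P.q x y)) P.τ :=
    i12.sub (i3.const_mul _)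
  have i5 : ∫ y, ((n : ℝ) * (1 + k ^ 2 * zd k x y) * f y
      + P.G f (zd k x) y - (n : ℝ) * h * (f y * P.q x y)) ∂P.τ ≤ 0 := by
    rw [integral_sub i12 (i3.const_mul _), integral_const_mul]
    linarith
  obtain ⟨M, hM0, hM⟩ := exists_zd_bound k x
  obtain ⟨Fb, hF0, hFb⟩ := exists_bound_of_continuous hfc
  have i6 : Integrable (fun y => P.G f (zd k x) y + (n : ℝ) / 2 * f y *
      (P.G (zd k x) (zd k x) y / zd k x y - (h ^ 2 - k ^ 2) * zd k x y)) P.τ := by
    refine i2.add (integrable_of_bound P ?_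
      (M := (n : ℝ) / 2 * Fb * ((2 + k ^ 2 * M) + |h ^ 2 - k ^ 2| * M)) ?_)
    · refine ((continuous_const.mul hfc).aestronglyMeasurable).mul
        (((P.G_meas _ _ hz hz).div₀ hzc.aestronglyMeasurable).sub
          (continuous_const.mul hzc).aestronglyMeasurable)
    · filter_upwards [P.G_z x, P.G_nonneg _ hz] with y hy hy0
      have h0 := zd_nonneg k x y
      have h1 : |P.G (zd k x) (zd k x) y / zd k x y| ≤ 2 + k ^ 2 * M := by
        rw [abs_of_nonneg (by positivity)]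
        rcases h0.eq_or_lt with h0' | h0'
        · rw [← h0', div_zero]; positivity
        · rw [div_le_iff₀ h0']
          have : k ^ 2 * zd k x y * zd k x y ≤ k ^ 2 * M * zd k x y := by
            gcongr; exact hM y
          nlinarith
      have h2 : |(h ^ 2 - k ^ 2) * zd k x y| ≤ |h ^ 2 - k ^ 2| * M := by
        rw [abs_mul, abs_of_nonneg h0]; gcongr; exact hM y
      calc |(n : ℝ) / 2 * f y * (P.G (zd k x) (zd k x) y / zd k x y - (h ^ 2 - k ^ 2) * zd k x y)|
          = (n : ℝ) / 2 * |f y| *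
            |P.G (zd k x) (zd k x) y / zd k x y - (h ^ 2 - k ^ 2) * zd k x y| := by
            rw [abs_mul, abs_mul, abs_of_nonneg (by positivity : (0 : ℝ) ≤ (n : ℝ) / 2)]
        _ ≤ (n : ℝ) / 2 * Fb * ((2 + k ^ 2 * M) + |h ^ 2 - k ^ 2| * M) := by
            gcongr
            · exact hFb y
            · exact (abs_sub _ _).trans (add_le_add h1 h2)
  refine (integral_mono_ae i6 i4 ?_).trans i5
  filter_upwards [P.G_z x, P.q_sq x, P.G_nonneg _ hz] with y hy hq hG0
  have h0 := zd_nonneg k x y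
  have hf0' := hf0 y
  have hn : (0 : ℝ) ≤ n := Nat.cast_nonneg n
  have hmain : (1 / 2) * (P.G (zd k x) (zd k x) y / zd k x y - (h ^ 2 - k ^ 2) * zd k x y)
      ≤ (1 + k ^ 2 * zd k x y) - h * P.q x y := by
    rcases h0.eq_or_lt with h0' | h0'
    · have hq0 : P.q x y = 0 := by
        have h1 : P.q x y ^ 2 ≤ 0 := by
          rw [hq, ← h0']; nlinarith [hG0]
        exact pow_eq_zero_iff (two_ne_zero) |>.1 (le_antisymm h1 (sq_nonneg _))
      rw [← h0', div_zero, hq0]; norm_num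
    · have hD : P.G (zd k x) (zd k x) y = 2 * zd k x y + k ^ 2 * zd k x y ^ 2 - P.q x y ^ 2 := by
        linarith
      rw [hD]
      have h3 : (2 * zd k x y + k ^ 2 * zd k x y ^ 2 - P.q x y ^ 2) / zd k x y
          = 2 + k ^ 2 * zd k x y - P.q x y ^ 2 / zd k x y := by
        field_simp
      rw [h3]
      have h4 : 2 * h * P.q x y ≤ P.q x y ^ 2 / zd k x y + h ^ 2 * zd k x y := by
        have h5 : 0 ≤ (P.q x y - h * zd k x y) ^ 2 / zd k x y := by positivity
        have h6 : (P.q x y - h * zd k x y) ^ 2 / zd k x y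
            = P.q x y ^ 2 / zd k x y + h ^ 2 * zd k x y - 2 * h * P.q x y := by
          field_simp; ring
        linarith
      linarith
  nlinarith [mul_le_mul_of_nonneg_left hmain (mul_nonneg hn hf0')]

/-- Pointwise algebra behind the supersolution property. -/
lemma alg {h k a z q D : ℝ} (hD : D = 2 * z + k ^ 2 * z ^ 2 - q ^ 2) :
    2 * (1 + k ^ 2 * z) * (z + a) - 2 * h * q * (z + a) - D + (h ^ 2 - k ^ 2) * (z + a) ^ 2
      = (h * (z + a) - q) ^ 2 + s0 k a := by
  rw [hD, s0]; ring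

lemma super_int {h : ℝ} (P : PreData n k K) (x : K) {a : ℝ} (ha : 0 < a)
    {f : K → ℝ} (hfc : Continuous f) : Integrable (fun y => (zd k x y + a) ^ (-(mA n) - 2) * f y *
        ((h * (zd k x y + a) - P.q x y) ^ 2 + s0 k a
          - (h ^ 2 - k ^ 2) * (zd k x y + a) ^ 2)) P.τ := by
  have hzc : Continuous (zd k x) := continuous_zd k x
  have hpos : ∀ y, 0 < zd k x y + a := zd_add_pos k x ha
  have hp2c : Continuous (fun y => (zd k x y + a) ^ (-(mA n) - 2)) :=
    (lip_zd_rpow k x ha _).continuous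
  obtain ⟨M, hM0, hM⟩ := q_bound P x
  have hb : Integrable (fun y => (h * (zd k x y + a) - P.q x y) ^ 2 + s0 k a
        - (h ^ 2 - k ^ 2) * (zd k x y + a) ^ 2) P.τ := by
    obtain ⟨Z, hZ0, hZ⟩ := exists_zd_bound k x
    refine integrable_of_bound P (M := (|h| * (Z + a) + M) ^ 2 + |s0 k a|
      + |h ^ 2 - k ^ 2| * (Z + a) ^ 2) ?_ (hM.mono fun y hMy => ?_)
    · refine ((((continuous_const.mul (hzc.add_const a)).aestronglyMeasurable).sub
        (P.q_meas x)).pow 2 |>.add_const _).sub ?_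
      exact (continuous_const.mul ((hzc.add_const a).pow 2)).aestronglyMeasurable
    · have h1 : zd k x y + a ≤ Z + a := by linarith [hZ y]
      have h2 := (hpos y).le
      have h3 : |h * (zd k x y + a) - P.q x y| ≤ |h| * (Z + a) + M := by
        refine (abs_sub _ _).trans (add_le_add ?_ ?_)
        · rw [abs_mul, abs_of_nonneg h2]; gcongr
        · rw [abs_of_nonneg (P.q_nonneg x y)]; exact hMy
      refine (abs_sub _ _).trans (add_le_add ((abs_add_le _ _).trans (add_le_add ?_ le_rfl)) ?_)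
      · rw [abs_pow]; gcongr
      · rw [abs_mul, abs_of_nonneg (by positivity : 0 ≤ (zd k x y + a) ^ 2)]
        gcongr
  obtain ⟨M', hM0', hM'⟩ := exists_bound_of_continuous (hp2c.mul hfc)
  exact hb.bdd_mul (hp2c.mul hfc).aestronglyMeasurable
    (Eventually.of_forall fun y => by simpa [Real.norm_eq_abs] using hM' y)

/-- Integrated form of `(FV)` tested with `(z+a)^{-m-1} f`, exact remainder
`∫ (z+a)^{-m-2} f (h(z+a)-q)²`. Valid for every `n` (also `n = 2`), `m = n/2 - 1`. -/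
theorem super_aux {h : ℝ} (P : PreData n k K) (hFV : P.FV h) (x : K) {a : ℝ} (ha : 0 < a)
    {f : K → ℝ} (hf : Lip f) (hf0 : ∀ y, 0 ≤ f y) :
    (n : ℝ) / 2 * ∫ y, (zd k x y + a) ^ (-(mA n) - 2) * f y *
        ((h * (zd k x y + a) - P.q x y) ^ 2 + s0 k a - (h ^ 2 - k ^ 2) * (zd k x y + a) ^ 2) ∂P.τ
      + ∫ y, (zd k x y + a) ^ (-(mA n) - 1) * P.G f (zd k x) y ∂P.τ ≤ 0 := by
  set m := mA n with hm
  have hn : (n : ℝ) = 2 * m + 2 := by rw [hm, mA]; ring
  have hz := lip_zd k x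
  have hzc := Lip.continuous hz
  have hfc := Lip.continuous hf
  have hp : Lip (fun y => (zd k x y + a) ^ (-m - 1)) := lip_zd_rpow k x ha _
  have hpc := Lip.continuous hp
  have hp2c : Continuous (fun y => (zd k x y + a) ^ (-m - 2)) := Lip.continuous (lip_zd_rpow k x ha _)
  have hF : Lip (fun y => (zd k x y + a) ^ (-m - 1) * f y) := Lip.mul hp hf
  have hpos : ∀ y, 0 < zd k x y + a := fun y => by linarith [zd_nonneg k x y]
  have key := hFV x _ hF (fun y => mul_nonneg (Real.rpow_nonneg (hpos y).le _) (hf0 y))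
  have hDF : ∀ᵐ y ∂P.τ, P.G (fun y => (zd k x y + a) ^ (-m - 1) * f y) (zd k x) y
      = (zd k x y + a) ^ (-m - 1) * P.G f (zd k x) y
        - (m + 1) * (zd k x y + a) ^ (-m - 2) * f y * P.G (zd k x) (zd k x) y := by
    filter_upwards [P.G_mul _ _ _ hp hf hz, P.G_zd_rpow_left x ha (-m - 1) hz] with y h1 h2
    rw [h1, h2]
    have : -m - 1 - 1 = -m - 2 := by ring
    rw [this]; ring
  have j1 : Integrable (fun y => (zd k x y + a) ^ (-m - 1) * P.G f (zd k x) y) P.τ := by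
    obtain ⟨M, hM0, hM⟩ := exists_bound_of_continuous hpc
    exact (P.integrable_G hf hz).bdd_mul hpc.aestronglyMeasurable
      (Eventually.of_forall fun y => by simpa [Real.norm_eq_abs] using hM y)
  have j2 : Integrable (fun y => (zd k x y + a) ^ (-m - 2) * f y *
        ((h * (zd k x y + a) - P.q x y) ^ 2 + s0 k a
          - (h ^ 2 - k ^ 2) * (zd k x y + a) ^ 2)) P.τ := super_int P x ha hfc
  have i1 : Integrable (fun y => (n : ℝ) * (1 + k ^ 2 * zd k x y)
      * ((zd k x y + a) ^ (-m - 1) * f y)) P.τ :=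
    P.integrable_of_continuous (by fun_prop)
  have i2 : Integrable (fun y => P.G (fun y => (zd k x y + a) ^ (-m - 1) * f y)
      (zd k x) y) P.τ := P.integrable_G hF hz
  have i3 : Integrable (fun y => (zd k x y + a) ^ (-m - 1) * f y * P.q x y) P.τ :=
    P.integrable_mul_q (hpc.mul hfc) x
  have e1 : ∫ y, ((n : ℝ) * (1 + k ^ 2 * zd k x y) * ((zd k x y + a) ^ (-m - 1) * f y)
      + P.G (fun y => (zd k x y + a) ^ (-m - 1) * f y) (zd k x) y) ∂P.τ
      - (n : ℝ) * h * ∫ y, (zd k x y + a) ^ (-m - 1) * f y * P.q x y ∂P.τ ≤ 0 := by linarith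
  have i12 : Integrable (fun y => (n : ℝ) * (1 + k ^ 2 * zd k x y)
      * ((zd k x y + a) ^ (-m - 1) * f y)
      + P.G (fun y => (zd k x y + a) ^ (-m - 1) * f y) (zd k x) y) P.τ := i1.add i2
  rw [← integral_const_mul, ← integral_sub i12 (i3.const_mul _)] at e1
  rw [← integral_const_mul, ← integral_add (j2.const_mul _) j1]
  refine le_of_eq_of_le (integral_congr_ae ?_) e1
  filter_upwards [hDF, P.q_sq x] with y hy hq
  have hD : P.G (zd k x) (zd k x) y = 2 * zd k x y + k ^ 2 * zd k x y ^ 2 - P.q x y ^ 2 := by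
    linarith
  have hA := alg (h := h) (k := k) (a := a) (z := zd k x y) (q := P.q x y)
    (D := P.G (zd k x) (zd k x) y) hD
  rw [hy]
  have hpow : (zd k x y + a) ^ (-m - 1) = (zd k x y + a) ^ (-m - 2) * (zd k x y + a) := by
    rw [show -m - 1 = (-m - 2) + 1 by ring, Real.rpow_add (hpos y), Real.rpow_one]
  have hA' : (h * (zd k x y + a) - P.q x y) ^ 2 + s0 k a
      - (h ^ 2 - k ^ 2) * (zd k x y + a) ^ 2 = 2 * (1 + k ^ 2 * zd k x y) * (zd k x y + a)
        - 2 * h * P.q x y * (zd k x y + a) - P.G (zd k x) (zd k x) y := by linarith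
  rw [hA', hpow, hn]
  ring

/-- **A1 (P)**. -/
theorem t_super {h : ℝ} (P : PreData n k K) (hm : 0 ≤ mA n) (hFV : P.FV h) : T_super P h := by
  intro x a ha f hf hf0
  have key := super_aux P hFV x ha hf hf0
  set m := mA n with hmdef
  have hz := lip_zd k x
  have hzc := hz.continuous
  have hfc := hf.continuous
  have hpos : ∀ y, 0 < zd k x y + a := zd_add_pos k x ha
  have hphi : Lip (fun y => (zd k x y + a) ^ (-m)) := lip_zd_rpow k x ha _
  have hp2c : Continuous (fun y => (zd k x y + a) ^ (-m - 2)) := (lip_zd_rpow k x ha _).continuous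
  have hpc : Continuous (fun y => (zd k x y + a) ^ (-m - 1)) := (lip_zd_rpow k x ha _).continuous
  have j0 : Integrable (fun y => (zd k x y + a) ^ (-m - 2) * f y) P.τ :=
    P.integrable_of_continuous (hp2c.mul hfc)
  have j1 : Integrable (fun y => (zd k x y + a) ^ (-m - 1) * P.G f (zd k x) y) P.τ :=
    P.integrable_mul_G hf hz hpc
  have j3 : Integrable (fun y => (zd k x y + a) ^ (-m) * f y) P.τ :=
    P.integrable_of_continuous (hphi.continuous.mul hfc)
  have hform : P.form (bA n k h) (phiA n k x a) f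
      = -m * (∫ y, (zd k x y + a) ^ (-m - 1) * P.G f (zd k x) y ∂P.τ)
        + bA n k h * ∫ y, (zd k x y + a) ^ (-m) * f y ∂P.τ := by
    rw [PreData.form, ← integral_const_mul, ← integral_const_mul,
      ← integral_add (j1.const_mul _) (j3.const_mul _)]
    refine integral_congr_ae ?_
    filter_upwards [P.G_zd_rpow_left x ha (-m) hf, P.G_comm _ _ hf hz] with y hy hy2
    have e : phiA n k x a = fun y => (zd k x y + a) ^ (-m) := rfl
    rw [e]
    simp only
    rw [hy, ← hy2]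
    ring
  rw [hform]
  -- monotonicity: drop the square
  have j2 : ∫ y, (zd k x y + a) ^ (-m - 2) * f y *
        (s0 k a - (h ^ 2 - k ^ 2) * (zd k x y + a) ^ 2) ∂P.τ
      ≤ ∫ y, (zd k x y + a) ^ (-m - 2) * f y *
        ((h * (zd k x y + a) - P.q x y) ^ 2 + s0 k a - (h ^ 2 - k ^ 2) * (zd k x y + a) ^ 2) ∂P.τ
      := by
    refine integral_mono_ae ?_ ?_ (Eventually.of_forall fun y => ?_)
    · exact P.integrable_of_continuous (by fun_prop)
    · exact super_int P x ha hfc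
    · have h1 : 0 ≤ (zd k x y + a) ^ (-m - 2) * f y :=
        mul_nonneg (Real.rpow_nonneg (hpos y).le _) (hf0 y)
      have h2 := sq_nonneg (h * (zd k x y + a) - P.q x y)
      simp only
      gcongr
      linarith
  have j4 : ∫ y, (zd k x y + a) ^ (-m - 2) * f y *
        (s0 k a - (h ^ 2 - k ^ 2) * (zd k x y + a) ^ 2) ∂P.τ
      = s0 k a * (∫ y, (zd k x y + a) ^ (-m - 2) * f y ∂P.τ)
        - (h ^ 2 - k ^ 2) * ∫ y, (zd k x y + a) ^ (-m) * f y ∂P.τ := by
    rw [← integral_const_mul, ← integral_const_mul,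
      ← integral_sub (j0.const_mul _) (j3.const_mul _)]
    refine integral_congr_ae (Eventually.of_forall fun y => ?_)
    have hpow : (zd k x y + a) ^ (-m) = (zd k x y + a) ^ (-m - 2) * (zd k x y + a) ^ 2 := by
      rw [show -m = (-m - 2) + (2 : ℕ) by push_cast; ring, Real.rpow_add (hpos y),
        Real.rpow_natCast]
      ring_nf
    simp only
    rw [hpow]; ring
  have hn : 0 ≤ (n : ℝ) / 2 := by positivity
  have h5 := mul_le_mul_of_nonneg_left j2 hn
  rw [j4] at h5
  have h6 : m * ((n : ℝ) / 2 * (s0 k a * (∫ y, (zd k x y + a) ^ (-m - 2) * f y ∂P.τ)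
        - (h ^ 2 - k ^ 2) * ∫ y, (zd k x y + a) ^ (-m) * f y ∂P.τ)
        + ∫ y, (zd k x y + a) ^ (-m - 1) * P.G f (zd k x) y ∂P.τ) ≤ 0 :=
    mul_nonpos_of_nonneg_of_nonpos hm (by linarith)
  have hb : bA n k h = m * n * (h ^ 2 - k ^ 2) / 2 := rfl
  rw [hb]
  nlinarith [h6]

/-- a.e. the quadratic form `s ↦ G(u + s z, u + s z)` is nonnegative for all real `s`. -/
lemma square_nonneg (P : PreData n k K) {u v : K → ℝ} (hu : Lip u) (hv : Lip v) :
    ∀ᵐ y ∂P.τ, ∀ s : ℝ, 0 ≤ P.G u u y + 2 * s * P.G u v y + s ^ 2 * P.G v v y := by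
  filter_upwards [P.G_nonneg u hu, P.G_nonneg v hv, P.G_sq_le hu hv] with y h1 h2 h3 s
  rcases h2.eq_or_lt with h0 | h0
  · rw [← h0, mul_zero] at h3
    have h4 : P.G u v y = 0 := pow_eq_zero_iff two_ne_zero |>.1 (le_antisymm h3 (sq_nonneg _))
    rw [h4, ← h0]; simpa using h1
  · have h5 : 0 ≤ (P.G u v y + s * P.G v v y) ^ 2 := sq_nonneg _
    have h6 : P.G v v y * (P.G u u y + 2 * s * P.G u v y + s ^ 2 * P.G v v y)
        = (P.G u v y + s * P.G v v y) ^ 2 + (P.G u u y * P.G v v y - P.G u v y ^ 2) := by ring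
    have h7 : 0 ≤ P.G v v y * (P.G u u y + 2 * s * P.G u v y + s ^ 2 * P.G v v y) := by
      rw [h6]; linarith
    exact nonneg_of_mul_nonneg_right h7 h0

/-- **A1 (Barta)**. -/
theorem t_barta {h : ℝ} (P : PreData n k K) (hS : T_super P h) : T_barta P h := by
  intro x a ha u hu
  have hpos : ∀ y, 0 < zd k x y + a := zd_add_pos k x ha
  set m := mA n with hmdef
  have hpw : Lip (fun y => (zd k x y + a) ^ m) := lip_zd_rpow k x ha _
  have hphi : Lip (fun y => (zd k x y + a) ^ (-m)) := lip_zd_rpow k x ha _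
  have hu2 : Lip (fun y => u y ^ 2) := hu.sq
  have hf : Lip (fun y => u y ^ 2 * (zd k x y + a) ^ m) := hu2.mul hpw
  have key := hS x a ha _ hf
    (fun y => mul_nonneg (sq_nonneg _) (Real.rpow_nonneg (hpos y).le _))
  have e1 : ∫ y, (zd k x y + a) ^ (-m - 2) * (u y ^ 2 * (zd k x y + a) ^ m) ∂P.τ
      = ∫ y, ((zd k x y + a) ^ 2)⁻¹ * u y ^ 2 ∂P.τ := by
    refine integral_congr_ae (Eventually.of_forall fun y => ?_)
    have hpow : (zd k x y + a) ^ (-m - 2) * (zd k x y + a) ^ m = ((zd k x y + a) ^ 2)⁻¹ := by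
      rw [← Real.rpow_add (hpos y), show -m - 2 + m = -((2 : ℕ) : ℝ) by push_cast; ring,
        Real.rpow_neg (hpos y).le, Real.rpow_natCast]
    simp only
    rw [← hpow]; ring
  rw [e1] at key
  refine key.trans ?_
  rw [PreData.energy, PreData.form, PreData.form]
  refine integral_mono_ae (P.integrable_form _ hphi hf) (P.integrable_form _ hu hu) ?_
  have hz := lip_zd k x
  set φ : K → ℝ := fun y => (zd k x y + a) ^ (-m) with hφdef
  have hφ : phiA n k x a = φ := rfl
  have hpwc := hpw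
  -- `G(φ, u² ψ) = u² G(φ, ψ) + ψ G(φ, u²)`
  filter_upwards [P.G_mul_right hu2 hpw hphi, P.G_zd_rpow_left x ha (-m) hpw,
    P.G_zd_rpow_right x ha m hz, P.G_zd_rpow_left x ha (-m) hu2, P.G_comm _ _ hz hu2,
    P.G_sq_left hu hz, P.G_comm _ _ hu hz, square_nonneg P hu hz]
    with y h1 h2 h3 h4 h5 h6 h7 h8
  have h1' : P.G φ (fun y => u y ^ 2 * (zd k x y + a) ^ m) y
      = u y ^ 2 * P.G φ (fun y => (zd k x y + a) ^ m) y
        + (zd k x y + a) ^ m * P.G φ (fun y => u y ^ 2) y := h1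
  rw [hφ, h1', h2, h3, h4, h5, h6]
  have hmul : (zd k x y + a) ^ (-m) * (zd k x y + a) ^ m = 1 := by
    rw [← Real.rpow_add (hpos y)]; simp
  have hA : (zd k x y + a) ^ (-m - 1) = (zd k x y + a) ^ (-m) * (zd k x y + a)⁻¹ := by
    rw [Real.rpow_sub_one (hpos y).ne']; rfl
  have hB : (zd k x y + a) ^ (m - 1) = (zd k x y + a) ^ m * (zd k x y + a)⁻¹ := by
    rw [Real.rpow_sub_one (hpos y).ne']; rfl
  have h9 := h8 (m * u y * (zd k x y + a)⁻¹)
  simp only [hφdef]
  rw [hA, hB]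
  set Z := zd k x y + a with hZ
  set A := Z ^ (-m) with hAdef
  set B := Z ^ m with hBdef
  set guz := P.G u (zd k x) y
  set gzz := P.G (zd k x) (zd k x) y
  set guu := P.G u u y
  have e2 : u y ^ 2 * (-m * (A * Z⁻¹) * (m * (B * Z⁻¹) * gzz))
      + B * (-m * (A * Z⁻¹) * (2 * u y * guz))
      = (A * B) * (-(m * u y * Z⁻¹) ^ 2 * gzz - 2 * (m * u y * Z⁻¹) * guz) := by ring
  have e3 : A * (u y ^ 2 * B) = u y * u y := by
    calc A * (u y ^ 2 * B) = (A * B) * (u y ^ 2) := by ring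
      _ = u y * u y := by rw [hmul]; ring
  rw [e2, e3, hmul]
  linarith

end

end Crest.Agent.R241.A1
end

-- ▼ part R241/A8

/-!
R241 block A8: the case `n = 2` of Theorem A (inequality and equality case, `k = 0`).
Both are elementary: `(FV)` is tested with `1/(z+a)` at a density point.
-/

set_option autoImplicit false

namespace Crest.Agent.R241.A8

open MeasureTheory Set Filter Topology Crest.Agent.R241.A Crest.Agent.R241
open scoped NNReal ENNReal RealInnerProductSpace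

section layer
variable {K : Type*} [MeasurableSpace K]

/-- Layer cake lower bound for `∫ (z+a)^{-2}` from a lower bound of the distribution function. -/
lemma lower (τ : Measure K) [IsFiniteMeasure τ] {z : K → ℝ} (hz : Measurable z)
    (hz0 : ∀ y, 0 ≤ z y) {c u0 a : ℝ} (hc : 0 ≤ c) (hu0 : 0 < u0) (ha : 0 < a)
    (hV : ∀ u ∈ Ioo 0 u0, c * u ≤ τ.real {y | z y < u}) :
    c * (u0 ^ 2 / (a * (u0 + a) ^ 2)) ≤ ∫ y, ((z y + a) ^ 2)⁻¹ ∂τ := by
  have hpos : ∀ y, 0 < z y + a := fun y => by linarith [hz0 y]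
  set A := 1 / (u0 + a) with hA
  set B := 1 / a with hB
  have hAB : A ≤ B := by
    rw [hA, hB]; exact one_div_le_one_div_of_le ha (by linarith)
  have hA0 : 0 < A := by positivity
  have key := lintegral_rpow_eq_lintegral_meas_lt_mul (μ := τ) (f := fun y => (z y + a)⁻¹)
    (p := 2) (Eventually.of_forall fun y => (inv_nonneg.2 (hpos y).le : _))
    ((hz.add_const a).inv.aemeasurable) two_pos
  have hint : Integrable (fun y => ((z y + a) ^ 2)⁻¹) τ := by
    refine Integrable.of_bound ((hz.add_const a).pow_const 2).inv.aestronglyMeasurable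
      ((a ^ 2)⁻¹) (Eventually.of_forall fun y => ?_)
    rw [Real.norm_eq_abs, abs_of_nonneg (by positivity)]
    gcongr
    linarith [hz0 y]
  have h1 : ENNReal.ofReal (∫ y, ((z y + a) ^ 2)⁻¹ ∂τ)
      = ENNReal.ofReal 2 * ∫⁻ t in Ioi 0, τ {y | t < (z y + a)⁻¹} * ENNReal.ofReal t := by
    rw [ofReal_integral_eq_lintegral_ofReal hint (Eventually.of_forall fun y => by positivity)]
    have e1 : ∀ y, ENNReal.ofReal (((z y + a) ^ 2)⁻¹)
        = ENNReal.ofReal (((z y + a)⁻¹) ^ (2 : ℝ)) := by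
      intro y
      rw [Real.rpow_two, inv_pow]
    simp_rw [e1]
    rw [key]
    congr 1
    refine lintegral_congr fun t => ?_
    norm_num
  have h2 : ENNReal.ofReal (∫ t in A..B, c * (1 - a * t)) ≤
      ∫⁻ t in Ioi 0, τ {y | t < (z y + a)⁻¹} * ENNReal.ofReal t := by
    have hi : IntegrableOn (fun t => c * (1 - a * t)) (Ioc A B) :=
      (Continuous.integrableOn_Ioc (by fun_prop))
    rw [intervalIntegral.integral_of_le hAB, ofReal_integral_eq_lintegral_ofReal hi]
    · refine (lintegral_mono_set (μ := volume) (s := Ioc A B) (t := Ioi 0)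
        (fun t ht => hA0.trans ht.1)).trans' ?_
      refine setLIntegral_mono_ae' measurableSet_Ioc ?_
      have hne : ∀ᵐ t : ℝ, t ≠ B := by
        have : volume ({B} : Set ℝ) = 0 := by simp
        exact compl_mem_ae_iff.2 this
      filter_upwards [hne] with t htne ht
      have ht0 : 0 < t := hA0.trans ht.1
      have htB : t < B := lt_of_le_of_ne ht.2 htne
      have hu : 1 / t - a ∈ Ioo 0 u0 := by
        constructor
        · have : a < 1 / t := by
            rw [lt_div_iff₀ ht0]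
            rw [hB, lt_div_iff₀ ha] at htB
            linarith
          linarith
        · have h3 := ht.1
          rw [hA, div_lt_iff₀ (by linarith)] at h3
          have : 1 / t < u0 + a := by
            rw [div_lt_iff₀ ht0]; linarith
          linarith
      have hset : {y | z y < 1 / t - a} = {y | t < (z y + a)⁻¹} := by
        ext y
        simp only [mem_setOf_eq]
        rw [lt_sub_iff_add_lt, lt_div_iff₀ ht0, lt_inv_comm₀ ht0 (hpos y), inv_eq_one_div,
          lt_div_iff₀ ht0]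
      have h4 := hV _ hu
      rw [hset] at h4
      have h5 : ENNReal.ofReal (c * (1 / t - a)) ≤ τ {y | t < (z y + a)⁻¹} := by
        rw [← ofReal_measureReal (μ := τ) (s := {y | t < (z y + a)⁻¹})]
        exact ENNReal.ofReal_le_ofReal h4
      calc ENNReal.ofReal (c * (1 - a * t)) = ENNReal.ofReal (c * (1 / t - a) * t) := by
            congr 1; field_simp
        _ = ENNReal.ofReal (c * (1 / t - a)) * ENNReal.ofReal t :=
            ENNReal.ofReal_mul' ht0.le
        _ ≤ _ := by gcongr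
    · rw [EventuallyLE, ae_restrict_iff' measurableSet_Ioc]
      refine Eventually.of_forall fun t ht => ?_
      have : a * t ≤ 1 := by
        have := ht.2
        rw [hB, le_div_iff₀ ha] at this
        linarith
      exact mul_nonneg hc (by linarith)
  have h3 : (∫ t in A..B, c * (1 - a * t)) = c * ((B - A) - a * ((B ^ 2 - A ^ 2) / 2)) := by
    have j1 : IntervalIntegrable (fun _ : ℝ => (1 : ℝ)) volume A B := by simp
    have j2 : IntervalIntegrable (fun t : ℝ => a * t) volume A B :=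
      Continuous.intervalIntegrable (by fun_prop) _ _
    rw [intervalIntegral.integral_const_mul, intervalIntegral.integral_sub j1 j2,
      intervalIntegral.integral_const_mul, integral_id]
    simp
  have h4 : 2 * ((B - A) - a * ((B ^ 2 - A ^ 2) / 2)) = u0 ^ 2 / (a * (u0 + a) ^ 2) := by
    rw [hA, hB]
    have : u0 + a ≠ 0 := by positivity
    field_simp
    ring
  have h5 : ENNReal.ofReal (c * (u0 ^ 2 / (a * (u0 + a) ^ 2))) ≤
      ENNReal.ofReal (∫ y, ((z y + a) ^ 2)⁻¹ ∂τ) := by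
    rw [h1]
    calc ENNReal.ofReal (c * (u0 ^ 2 / (a * (u0 + a) ^ 2)))
        = ENNReal.ofReal 2 * ENNReal.ofReal (∫ t in A..B, c * (1 - a * t)) := by
          rw [h3, ← ENNReal.ofReal_mul two_pos.le, ← h4]; congr 1; ring
      _ ≤ _ := by gcongr
  have h6 : 0 ≤ ∫ y, ((z y + a) ^ 2)⁻¹ ∂τ := integral_nonneg fun y => by positivity
  exact (ENNReal.ofReal_le_ofReal_iff h6).1 h5

end layer

lemma omegaBall_two : omegaBall 2 = Real.pi := by
  unfold omegaBall
  rw [EuclideanSpace.volume_ball_fin_two]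
  simp [Real.pi_pos.le]

lemma sphArea_two : sphArea 2 = 4 * Real.pi := by
  unfold sphArea omegaBall
  have : (2 + 1 : ℕ) = 3 := rfl
  rw [show (2 : ℕ) + 1 = 3 from rfl, EuclideanSpace.volume_ball_fin_three]
  simp only [ENNReal.toReal_mul]
  norm_num
  rw [ENNReal.toReal_ofReal (by positivity)]
  ring

section main
variable {k : ℝ} {K : Type*} [MetricSpace K] [CompactSpace K]
  [MeasurableSpace K] [BorelSpace K]

/-- `n = 2`, `(FV)` tested with `1/(z+a)`. -/
lemma basic {h : ℝ} (P : PreData 2 k K) (hFV : P.FV h) (x : K) {a : ℝ} (ha : 0 < a) :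
    ∫ y, ((zd k x y + a) ^ 2)⁻¹ * (h * (zd k x y + a) - P.q x y) ^ 2 ∂P.τ
      + s0 k a * ∫ y, ((zd k x y + a) ^ 2)⁻¹ ∂P.τ ≤ (h ^ 2 - k ^ 2) * P.τ.real univ := by
  have key := A1.super_aux P hFV x ha (Lip.const 1) (fun _ => zero_le_one)
  have hm : mA 2 = 0 := by unfold mA; norm_num
  have hpos : ∀ y, 0 < zd k x y + a := zd_add_pos k x ha
  have hzc := continuous_zd k x
  have e0 : ∫ y, (zd k x y + a) ^ (-(mA 2) - 1) *
      P.G (fun _ => (1 : ℝ)) (zd k x) y ∂P.τ = 0 := by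
    refine integral_eq_zero_of_ae ?_
    filter_upwards [P.G_const_left 1 (lip_zd k x)] with y hy
    rw [hy, mul_zero]
    rfl
  rw [e0, add_zero] at key
  have hinv : Continuous fun y => ((zd k x y + a) ^ 2)⁻¹ :=
    ((hzc.add continuous_const).pow 2).inv₀ fun y => (pow_pos (hpos y) 2).ne'
  have i1 : Integrable (fun y => ((zd k x y + a) ^ 2)⁻¹) P.τ := P.integrable_of_continuous hinv
  have i3 : Integrable (fun y => (zd k x y + a) ^ (-(mA 2) - 2) * (fun _ => (1 : ℝ)) y *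
        ((h * (zd k x y + a) - P.q x y) ^ 2 + s0 k a
          - (h ^ 2 - k ^ 2) * (zd k x y + a) ^ 2)) P.τ :=
    A1.super_int P x ha continuous_const
  have e1 : ∀ y, (zd k x y + a) ^ (-(mA 2) - 2) * (fun _ => (1 : ℝ)) y *
        ((h * (zd k x y + a) - P.q x y) ^ 2 + s0 k a
          - (h ^ 2 - k ^ 2) * (zd k x y + a) ^ 2)
      = ((zd k x y + a) ^ 2)⁻¹ * (h * (zd k x y + a) - P.q x y) ^ 2
        + s0 k a * ((zd k x y + a) ^ 2)⁻¹ - (h ^ 2 - k ^ 2) := by
    intro y
    have hp : (zd k x y + a) ^ (-(mA 2) - 2) = ((zd k x y + a) ^ 2)⁻¹ := by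
      rw [hm, show -(0 : ℝ) - 2 = -((2 : ℕ) : ℝ) by norm_num, Real.rpow_neg (hpos y).le,
        Real.rpow_natCast]
    rw [hp]
    have : (zd k x y + a) ≠ 0 := (hpos y).ne'
    field_simp
  simp_rw [e1] at key i3
  have i4 : Integrable (fun y => ((zd k x y + a) ^ 2)⁻¹ * (h * (zd k x y + a) - P.q x y) ^ 2)
      P.τ := by
    have := (i3.add (integrable_const (h ^ 2 - k ^ 2))).sub (i1.const_mul (s0 k a))
    refine this.congr (Eventually.of_forall fun y => ?_)
    simp only [Pi.add_apply, Pi.sub_apply]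
    ring
  have i5 : Integrable (fun y => ((zd k x y + a) ^ 2)⁻¹ * (h * (zd k x y + a) - P.q x y) ^ 2
        + s0 k a * ((zd k x y + a) ^ 2)⁻¹) P.τ := i4.add (i1.const_mul _)
  rw [integral_sub i5 (integrable_const _), integral_add i4 (i1.const_mul _),
    integral_const_mul, integral_const] at key
  simp only [smul_eq_mul] at key
  norm_num at key
  linarith

/-- density at a point, in the form used by `lower`. -/
lemma dens' (P : PreData 2 k K) : ∀ᵐ x ∂P.τ, ∀ θ : ℝ, θ < 1 → ∃ u0 : ℝ, 0 < u0 ∧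
    ∀ u ∈ Ioo 0 u0, (2 * θ * omegaBall 2) * u ≤ P.τ.real {y | zd k x y < u} := by
  filter_upwards [P.dens] with x hx θ hθ
  have h1 := hx θ hθ
  rw [eventually_nhdsWithin_iff, Metric.eventually_nhds_iff] at h1
  obtain ⟨ε, hε, h2⟩ := h1
  refine ⟨ε ^ 2 / 2, by positivity, fun u hu => ?_⟩
  have hr : √(2 * u) < ε := by
    rw [Real.sqrt_lt' hε]; linarith [hu.2]
  have hr0 : 0 < √(2 * u) := Real.sqrt_pos.2 (by linarith [hu.1])
  have h3 := h2 (y := √(2 * u)) (by
    rw [Real.dist_eq, sub_zero, abs_of_pos hr0]; exact hr) hr0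
  rw [Real.sq_sqrt (by linarith [hu.1])] at h3
  have e1 : 2 * u / 2 = u := by ring
  rw [e1] at h3
  linarith

/-- At a.e. point `x`: `liminf_{a→0} s₀(a) ∫ (z_x+a)^{-2} ≥ 4π`. -/
lemma pole (P : PreData 2 k K) : ∀ᵐ x ∂P.τ, ∀ ε : ℝ, 0 < ε → ∀ᶠ a in 𝓝[>] (0 : ℝ),
    4 * Real.pi - ε ≤ s0 k a * ∫ y, ((zd k x y + a) ^ 2)⁻¹ ∂P.τ := by
  filter_upwards [dens' P] with x hx ε hε
  -- choose θ
  have hpi := Real.pi_pos
  set θ : ℝ := max 0 (1 - ε / (8 * Real.pi)) with hθ
  have hθ1 : θ < 1 := by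
    rw [hθ, max_lt_iff]; refine ⟨one_pos, ?_⟩
    have : 0 < ε / (8 * Real.pi) := by positivity
    linarith
  have hθ0 : 0 ≤ θ := le_max_left _ _
  have hθ2 : 4 * Real.pi - ε / 2 ≤ 4 * Real.pi * θ := by
    have : 1 - ε / (8 * Real.pi) ≤ θ := le_max_right _ _
    have h2 : 4 * Real.pi * (1 - ε / (8 * Real.pi)) ≤ 4 * Real.pi * θ :=
      mul_le_mul_of_nonneg_left this (by positivity)
    have h3 : 4 * Real.pi * (1 - ε / (8 * Real.pi)) = 4 * Real.pi - ε / 2 := by
      field_simp; ring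
    linarith
  obtain ⟨u0, hu0, hV⟩ := hx θ hθ1
  rw [omegaBall_two] at hV
  -- the lower bound
  have hlow : ∀ a : ℝ, 0 < a → 0 < s0 k a → (2 - k ^ 2 * a) * ((2 * θ * Real.pi) *
      (u0 ^ 2 / (u0 + a) ^ 2)) ≤ s0 k a * ∫ y, ((zd k x y + a) ^ 2)⁻¹ ∂P.τ := by
    intro a ha hs
    have h1 := lower P.τ (continuous_zd k x).measurable (zd_nonneg k x)
      (c := 2 * θ * Real.pi) (by positivity) hu0 ha hV
    have h2 := mul_le_mul_of_nonneg_left h1 hs.le
    refine le_of_eq_of_le ?_ h2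
    unfold s0
    have : u0 + a ≠ 0 := by positivity
    field_simp
  have hlim : Tendsto (fun a : ℝ => (2 - k ^ 2 * a) * ((2 * θ * Real.pi) *
      (u0 ^ 2 / (u0 + a) ^ 2))) (𝓝[>] 0) (𝓝 (4 * Real.pi * θ)) := by
    have hc : ContinuousAt (fun a : ℝ => (2 - k ^ 2 * a) * ((2 * θ * Real.pi) *
      (u0 ^ 2 / (u0 + a) ^ 2))) 0 := by
      have : (u0 + 0) ^ 2 ≠ 0 := by positivity
      fun_prop (disch := assumption)
    have h1 := hc.tendsto.mono_left (nhdsWithin_le_nhds (s := Ioi (0 : ℝ)))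
    convert h1 using 2
    have : u0 ≠ 0 := hu0.ne'
    field_simp
    ring
  have hev1 : ∀ᶠ a in 𝓝[>] (0 : ℝ), 4 * Real.pi - ε < (2 - k ^ 2 * a) * ((2 * θ * Real.pi) *
      (u0 ^ 2 / (u0 + a) ^ 2)) :=
    hlim.eventually (lt_mem_nhds (by linarith))
  have hev2 : ∀ᶠ a in 𝓝[>] (0 : ℝ), 0 < s0 k a := by
    have h1 : ∀ᶠ a in 𝓝[>] (0 : ℝ), 0 < 2 - k ^ 2 * a := by
      have : Tendsto (fun a : ℝ => 2 - k ^ 2 * a) (𝓝[>] 0) (𝓝 (2 - k ^ 2 * 0)) :=
        ((continuous_const.sub (continuous_const.mul continuous_id)).tendsto 0).mono_left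
          nhdsWithin_le_nhds
      exact this.eventually (lt_mem_nhds (by norm_num))
    filter_upwards [h1, self_mem_nhdsWithin] with a h2 h3
    have h3' : 0 < a := h3
    unfold s0
    nlinarith
  filter_upwards [hev1, hev2, self_mem_nhdsWithin] with a h1 h2 h3
  exact h1.le.trans (hlow a h3 h2)

/-- **A8: Theorem A for `n = 2`.** -/
theorem theoremA_two (k h : ℝ) : TheoremA 2 k h K := by
  intro _ _ _ _ P hτ hFV
  rw [sphArea_two]
  have hne : (ae P.τ).NeBot := ae_neBot.2 hτ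
  obtain ⟨x, hx⟩ := (pole P).exists
  have e1 : (h ^ 2 - k ^ 2) ^ (((2 : ℕ) : ℝ) / 2) = h ^ 2 - k ^ 2 := by norm_num
  rw [e1]
  refine le_of_forall_pos_le_add fun ε hε => ?_
  obtain ⟨a, ha1, ha2⟩ := ((hx ε hε).and self_mem_nhdsWithin).exists
  have ha : 0 < a := ha2
  have h1 := basic P hFV x ha
  have h2 : 0 ≤ ∫ y, ((zd k x y + a) ^ 2)⁻¹ * (h * (zd k x y + a) - P.q x y) ^ 2 ∂P.τ :=
    integral_nonneg fun y => by positivity
  linarith

/-- Power bookkeeping for `n = 2`. -/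
lemma pow2 {Z : ℝ} (hZ : 0 < Z) : Z ^ (-(mA 2) - 2) = (Z ^ 2)⁻¹ := by
  have hm : mA 2 = 0 := by unfold mA; norm_num
  rw [hm, show -(0 : ℝ) - 2 = -((2 : ℕ) : ℝ) by norm_num, Real.rpow_neg hZ.le, Real.rpow_natCast]

lemma pow1 {Z : ℝ} (hZ : 0 < Z) : Z ^ (-(mA 2) - 1) = Z⁻¹ := by
  have hm : mA 2 = 0 := by unfold mA; norm_num
  rw [hm, show -(0 : ℝ) - 1 = -1 by norm_num, Real.rpow_neg_one]

/-- `n = 2`, `k = 0`: `Def(1) ≤ C · Def(1/(z+a))`. -/
lemma def_one {h : ℝ} (P : PreData 2 0 K) (hFV : P.FV h) (x : K) {a C : ℝ} (ha : 0 < a)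
    (hC : ∀ y, zd 0 x y + a ≤ C) (hC0 : 0 ≤ C) :
    2 * h * ∫ y, P.q x y ∂P.τ ≤ 2 * P.τ.real univ
      + C * (h ^ 2 * P.τ.real univ - s0 0 a * ∫ y, ((zd 0 x y + a) ^ 2)⁻¹ ∂P.τ) := by
  have hz := lip_zd (K := K) 0 x
  have hzc := continuous_zd (K := K) 0 x
  have hf : Lip (fun y => C - (zd 0 x y + a)) := (Lip.const C).sub (lip_zd_add 0 x a)
  have hpos : ∀ y, 0 < zd 0 x y + a := zd_add_pos 0 x ha
  have key := A1.super_aux P hFV x ha hf (fun y => by linarith [hC y])
  have hinv : Continuous fun y => ((zd 0 x y + a) ^ 2)⁻¹ :=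
    ((hzc.add continuous_const).pow 2).inv₀ fun y => (pow_pos (hpos y) 2).ne'
  have i0 : Integrable (fun y => (zd 0 x y + a) ^ (-(mA 2) - 2) * (C - (zd 0 x y + a)) *
        ((h * (zd 0 x y + a) - P.q x y) ^ 2 + s0 0 a
          - (h ^ 2 - 0 ^ 2) * (zd 0 x y + a) ^ 2)) P.τ :=
    A1.super_int P x ha hf.continuous
  have i1 : Integrable (fun y => (zd 0 x y + a) ^ (-(mA 2) - 1) *
      P.G (fun y => C - (zd 0 x y + a)) (zd 0 x) y) P.τ :=
    P.integrable_mul_G hf hz (lip_zd_rpow 0 x ha _).continuous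
  have i2 : Integrable (fun y => ((zd 0 x y + a) ^ 2)⁻¹) P.τ := P.integrable_of_continuous hinv
  have i3 : Integrable (fun y => P.q x y) P.τ := by
    have := P.integrable_mul_q (f := fun _ => 1) continuous_const x
    simpa using this
  have i4 : Integrable (fun y => ((zd 0 x y + a) ^ 2)⁻¹ *
      (h * (zd 0 x y + a) - P.q x y) ^ 2) P.τ := by
    have h1 : Integrable (fun y => (zd 0 x y + a) ^ (-(mA 2) - 2) * (fun _ => (1 : ℝ)) y *
        ((h * (zd 0 x y + a) - P.q x y) ^ 2 + s0 0 a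
          - (h ^ 2 - 0 ^ 2) * (zd 0 x y + a) ^ 2)) P.τ :=
      A1.super_int P x ha continuous_const
    have h2 := (h1.add (integrable_const (h ^ 2))).sub (i2.const_mul (s0 0 a))
    refine h2.congr (Eventually.of_forall fun y => ?_)
    have h3 : zd 0 x y + a ≠ 0 := (hpos y).ne'
    simp only [Pi.add_apply, Pi.sub_apply, pow2 (hpos y)]
    field_simp
    ring
  have e1 : 0 ≤ ∫ y, (((zd 0 x y + a) ^ 2)⁻¹ * (h * (zd 0 x y + a) - P.q x y) ^ 2) ∂P.τ :=
    integral_nonneg fun y => by positivity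
  have e2 : ∫ y, (C * (((zd 0 x y + a) ^ 2)⁻¹ * (h * (zd 0 x y + a) - P.q x y) ^ 2)
      + C * s0 0 a * ((zd 0 x y + a) ^ 2)⁻¹ + (-(C * h ^ 2) - 2) + 2 * h * P.q x y) ∂P.τ ≤ 0 := by
    have n1 : (((2 : ℕ) : ℝ) / 2) = 1 := by norm_num
    rw [n1, one_mul, ← integral_add i0 i1] at key
    refine le_of_eq_of_le (integral_congr_ae ?_) key
    filter_upwards [P.q_sq x, P.G_sub_left (Lip.const C) (lip_zd_add 0 x a) hz,
      P.G_const_left C hz, P.G_add_const_left hz hz a] with y h1 h2 h3 h4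
    rw [h2, h3, h4, pow2 (hpos y), pow1 (hpos y)]
    have h5 : P.G (zd 0 x) (zd 0 x) y = 2 * zd 0 x y - P.q x y ^ 2 := by
      rw [h1]; ring
    rw [h5]
    have h3 : zd 0 x y + a ≠ 0 := (hpos y).ne'
    unfold s0
    field_simp
    ring
  have i5 : Integrable (fun y => C * (((zd 0 x y + a) ^ 2)⁻¹ *
      (h * (zd 0 x y + a) - P.q x y) ^ 2)) P.τ := i4.const_mul C
  have i6 : Integrable (fun y => C * s0 0 a * ((zd 0 x y + a) ^ 2)⁻¹) P.τ := i2.const_mul _
  have i7 : Integrable (fun y => C * (((zd 0 x y + a) ^ 2)⁻¹ *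
      (h * (zd 0 x y + a) - P.q x y) ^ 2) + C * s0 0 a * ((zd 0 x y + a) ^ 2)⁻¹) P.τ :=
    i5.add i6
  have i8 : Integrable (fun y => C * (((zd 0 x y + a) ^ 2)⁻¹ *
      (h * (zd 0 x y + a) - P.q x y) ^ 2) + C * s0 0 a * ((zd 0 x y + a) ^ 2)⁻¹
      + (-(C * h ^ 2) - 2)) P.τ := i7.add (integrable_const _)
  rw [integral_add i8 (i3.const_mul _), integral_add i7 (integrable_const _),
    integral_add i5 i6, integral_const_mul, integral_const_mul, integral_const_mul,
    integral_const] at e2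
  simp only [smul_eq_mul] at e2
  have e3 := mul_nonneg hC0 e1
  linarith

/-- `n = 2`, `k = 0`, equality: `∫ z_x dτ ≤ τ(K)/h²` for a.e. `x`. -/
lemma moment {h : ℝ} (hh : 0 < h) (P : PreData 2 0 K) (hFV : P.FV h)
    (heq : h ^ 2 * P.τ.real univ = 4 * Real.pi) :
    ∀ᵐ x ∂P.τ, ∫ y, zd 0 x y ∂P.τ ≤ P.τ.real univ / h ^ 2 := by
  filter_upwards [pole P] with x hx
  obtain ⟨Z, hZ0, hZ⟩ := exists_zd_le (K := K) 0
  set T := P.τ.real univ with hT
  have hT0 : 0 ≤ T := measureReal_nonneg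
  have hzc := continuous_zd (K := K) 0 x
  have i3 : Integrable (fun y => P.q x y) P.τ := by
    have := P.integrable_mul_q (f := fun _ => 1) continuous_const x
    simpa using this
  have iz : Integrable (fun y => zd 0 x y) P.τ := P.integrable_of_continuous hzc
  -- main estimate
  have main : ∀ δ : ℝ, 0 < δ → h * ∫ y, zd 0 x y ∂P.τ ≤ T / h
      + ((Z + 1) * δ / (2 * h) + T / 2 + (Z + 1) ^ 2 / 2) * δ := by
    intro δ hδ
    have hlt : ∀ᶠ a in 𝓝[>] (0 : ℝ), a < 1 :=
      nhdsWithin_le_nhds (gt_mem_nhds one_pos)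
    obtain ⟨a, ⟨ha1, ha2⟩, ha3⟩ := (((hx (δ ^ 2) (by positivity)).and hlt).and
      self_mem_nhdsWithin).exists
    have ha : 0 < a := ha3
    have hpos : ∀ y, 0 < zd 0 x y + a := zd_add_pos 0 x ha
    have hC : ∀ y, zd 0 x y + a ≤ Z + 1 := fun y => by linarith [hZ x y]
    have h1 := def_one P hFV x ha hC (by positivity)
    have h2 := basic P hFV x ha
    have h3 : 2 * h * ∫ y, P.q x y ∂P.τ ≤ 2 * T + (Z + 1) * δ ^ 2 := by
      refine h1.trans ?_
      have : h ^ 2 * T - s0 0 a * ∫ y, ((zd 0 x y + a) ^ 2)⁻¹ ∂P.τ ≤ δ ^ 2 := by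
        rw [heq]; linarith
      have := mul_le_mul_of_nonneg_left this (by positivity : 0 ≤ Z + 1)
      linarith
    have h4 : ∫ y, ((zd 0 x y + a) ^ 2)⁻¹ * (h * (zd 0 x y + a) - P.q x y) ^ 2 ∂P.τ
        ≤ δ ^ 2 := by
      have : (h ^ 2 - 0 ^ 2) * T = 4 * Real.pi := by rw [← heq]; ring
      linarith
    have hinv : Continuous fun y => ((zd 0 x y + a) ^ 2)⁻¹ :=
      ((hzc.add continuous_const).pow 2).inv₀ fun y => (pow_pos (hpos y) 2).ne'
    have i2 : Integrable (fun y => ((zd 0 x y + a) ^ 2)⁻¹) P.τ := P.integrable_of_continuous hinv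
    have i4 : Integrable (fun y => ((zd 0 x y + a) ^ 2)⁻¹ *
        (h * (zd 0 x y + a) - P.q x y) ^ 2) P.τ := by
      have h1 : Integrable (fun y => (zd 0 x y + a) ^ (-(mA 2) - 2) * (fun _ => (1 : ℝ)) y *
          ((h * (zd 0 x y + a) - P.q x y) ^ 2 + s0 0 a
            - (h ^ 2 - 0 ^ 2) * (zd 0 x y + a) ^ 2)) P.τ :=
        A1.super_int P x ha continuous_const
      have h2 := (h1.add (integrable_const (h ^ 2))).sub (i2.const_mul (s0 0 a))
      refine h2.congr (Eventually.of_forall fun y => ?_)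
      have h3 : zd 0 x y + a ≠ 0 := (hpos y).ne'
      simp only [Pi.add_apply, Pi.sub_apply, pow2 (hpos y)]
      field_simp
      ring
    -- pointwise: h z ≤ q + δ/2 + (Z+1)²/(2δ) * w²/(z+a)²
    have h5 : ∫ y, h * zd 0 x y ∂P.τ ≤ ∫ y, (P.q x y + δ / 2 + (Z + 1) ^ 2 / (2 * δ) *
        (((zd 0 x y + a) ^ 2)⁻¹ * (h * (zd 0 x y + a) - P.q x y) ^ 2)) ∂P.τ := by
      refine integral_mono_ae (iz.const_mul h) ((i3.add (integrable_const _)).add
        (i4.const_mul _)) (Eventually.of_forall fun y => ?_)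
      simp only
      set w := h * (zd 0 x y + a) - P.q x y with hw
      have h6 : w ^ 2 ≤ (Z + 1) ^ 2 * (((zd 0 x y + a) ^ 2)⁻¹ * w ^ 2) := by
        have h7 : 1 ≤ (Z + 1) ^ 2 * ((zd 0 x y + a) ^ 2)⁻¹ := by
          rw [← div_eq_mul_inv, one_le_div (by have := hpos y; positivity)]
          exact pow_le_pow_left₀ (hpos y).le (hC y) 2
        nlinarith [sq_nonneg w]
      have h8 : w ≤ δ / 2 + w ^ 2 / (2 * δ) := by
        rw [div_add_div _ _ two_ne_zero (by positivity), le_div_iff₀ (by positivity)]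
        nlinarith [sq_nonneg (w - δ)]
      have h9 : w ^ 2 / (2 * δ) ≤ (Z + 1) ^ 2 / (2 * δ) * (((zd 0 x y + a) ^ 2)⁻¹ * w ^ 2) := by
        rw [div_mul_eq_mul_div]
        gcongr
      have h10 : h * zd 0 x y ≤ P.q x y + w := by
        rw [hw]; nlinarith
      linarith
    have i9 : Integrable (fun y => P.q x y + δ / 2) P.τ := i3.add (integrable_const _)
    rw [integral_const_mul, integral_add i9 (i4.const_mul _),
      integral_add i3 (integrable_const _), integral_const, integral_const_mul] at h5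
    simp only [smul_eq_mul] at h5
    have h11 : ∫ y, P.q x y ∂P.τ ≤ T / h + (Z + 1) * δ ^ 2 / (2 * h) := by
      rw [div_add_div _ _ hh.ne' (by positivity), le_div_iff₀ (by positivity)]
      nlinarith
    have h12 : (Z + 1) ^ 2 / (2 * δ) * ∫ y, ((zd 0 x y + a) ^ 2)⁻¹ *
        (h * (zd 0 x y + a) - P.q x y) ^ 2 ∂P.τ ≤ (Z + 1) ^ 2 / 2 * δ := by
      calc _ ≤ (Z + 1) ^ 2 / (2 * δ) * δ ^ 2 := by gcongr
        _ = (Z + 1) ^ 2 / 2 * δ := by field_simp
    calc h * ∫ y, zd 0 x y ∂P.τ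
        ≤ ∫ y, P.q x y ∂P.τ + T * (δ / 2) + (Z + 1) ^ 2 / (2 * δ) * ∫ y,
          ((zd 0 x y + a) ^ 2)⁻¹ * (h * (zd 0 x y + a) - P.q x y) ^ 2 ∂P.τ := h5
      _ ≤ (T / h + (Z + 1) * δ ^ 2 / (2 * h)) + T * (δ / 2) + (Z + 1) ^ 2 / 2 * δ := by
          gcongr
      _ = _ := by ring
  have h1 : h * ∫ y, zd 0 x y ∂P.τ ≤ T / h := by
    refine le_of_forall_pos_le_add fun ε hε => ?_
    set B := (Z + 1) / (2 * h) + T / 2 + (Z + 1) ^ 2 / 2 with hB
    have hB0 : 0 < B := by positivity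
    set δ := min 1 (ε / B) with hδ
    have hδ0 : 0 < δ := lt_min one_pos (by positivity)
    have h2 := main δ hδ0
    have h3 : (Z + 1) * δ / (2 * h) ≤ (Z + 1) / (2 * h) := by
      gcongr
      have : δ ≤ 1 := min_le_left _ _
      nlinarith
    have h4 : B * δ ≤ ε := by
      have : δ ≤ ε / B := min_le_right _ _
      rw [le_div_iff₀ hB0] at this
      linarith
    have h5 : ((Z + 1) * δ / (2 * h) + T / 2 + (Z + 1) ^ 2 / 2) * δ ≤ B * δ :=
      mul_le_mul_of_nonneg_right (by rw [hB]; linarith) hδ0.le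
    linarith
  rw [le_div_iff₀ (by positivity)]
  rw [le_div_iff₀ hh] at h1
  nlinarith

/-- **A8: equality case of Theorem A for `n = 2`.** -/
theorem theoremAeq_two (h : ℝ) : TheoremAeq 2 h K := by
  intro _ hh hcat P hτ hFV heq
  have e1 : (h ^ 2) ^ (((2 : ℕ) : ℝ) / 2) = h ^ 2 := by norm_num
  rw [e1, sphArea_two] at heq
  refine A9Bary.exists_centre P (by norm_num) hh hcat hτ hFV ?_
  have hm := moment hh P hFV heq
  have hcont : Continuous fun x : K => ∫ y, zd 0 x y ∂P.τ := by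
    obtain ⟨Z, hZ0, hZ⟩ := exists_zd_le (K := K) 0
    refine continuous_of_dominated (F := fun x y => zd 0 x y) (bound := fun _ => Z)
      (fun x => (continuous_zd 0 x).aestronglyMeasurable)
      (fun x => Eventually.of_forall fun y => ?_) (integrable_const _)
      (Eventually.of_forall fun y => ?_)
    · rw [Real.norm_eq_abs, abs_of_nonneg (zd_nonneg 0 x y)]; exact hZ x y
    · have : (fun x : K => zd 0 x y) = zd 0 y := by funext x; exact zd_comm 0 x y
      rw [this]; exact continuous_zd 0 y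
  calc ∫ x, ∫ y, zd 0 x y ∂P.τ ∂P.τ ≤ ∫ _x, P.τ.real univ / h ^ 2 ∂P.τ :=
        integral_mono_ae (P.integrable_of_continuous hcont) (integrable_const _) hm
    _ = P.τ.real univ ^ 2 / h ^ 2 := by
        rw [integral_const, smul_eq_mul]; ring

end main

end Crest.Agent.R241.A8
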