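import Mathlib
import Crest.Agent.R241.A2Int
import Crest.Agent.R241.ATargets
import Crest.Agent.R241.ABasic
import Crest.Agent.R241.A8
import Crest.Agent.R241.A9
import Crest.Agent.R241.A7Sharp
import Crest.Agent.R241.A5

-- ▼ part R241/A2Layer
section

/-!
R241, block A2b: layer cake lower bound for the pole inequality.
-/

set_option autoImplicit false

namespace Crest.Agent.R241.A2

open MeasureTheory Set Filter Topology
open scoped NNReal ENNReal

/-- `∫_z^R p (t+a)^{-p-1} dt = (z+a)^{-p} - (R+a)^{-p}`. -/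
theorem integral_pow {a p z R : ℝ} (ha : 0 < a) (hz : 0 ≤ z) (hzR : z ≤ R) :
    ∫ t in z..R, p * (t + a) ^ (-p - 1) = (z + a) ^ (-p) - (R + a) ^ (-p) := by
  have h1 : ∀ t ∈ uIcc z R, HasDerivAt (fun t : ℝ => -(t + a) ^ (-p)) (p * (t + a) ^ (-p - 1)) t := by
    intro t ht
    rw [uIcc_of_le hzR] at ht
    have hne : t + a ≠ 0 := by have := ht.1; linarith
    have := (((hasDerivAt_id t).add_const a).rpow_const (p := -p) (Or.inl hne)).neg
    refine this.congr_deriv ?_
    simp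
  have h2 : ContinuousOn (fun t : ℝ => p * (t + a) ^ (-p - 1)) (uIcc z R) := by
    rw [uIcc_of_le hzR]
    refine ContinuousOn.mul continuousOn_const (ContinuousOn.rpow_const (by fun_prop) ?_)
    intro t ht
    left
    have := ht.1
    linarith
  rw [intervalIntegral.integral_eq_sub_of_hasDerivAt h1 h2.intervalIntegrable]
  ring

/-- `∫_0^R p t^{p-1} (t+a)^{-p-1} dt = (R/(R+a))^p / a`. -/
theorem integral_pole {a p R : ℝ} (ha : 0 < a) (hp : 1 ≤ p) (hR : 0 ≤ R) :
    ∫ t in (0 : ℝ)..R, p * (t + a) ^ (-p - 1) * t ^ (p - 1) = (R / (R + a)) ^ p / a := by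
  have hcont : ContinuousOn (fun t : ℝ => p * (t + a) ^ (-p - 1) * t ^ (p - 1)) (Icc 0 R) := by
    refine ContinuousOn.mul (ContinuousOn.mul continuousOn_const
      (ContinuousOn.rpow_const (by fun_prop) ?_)) ?_
    · intro t ht
      left
      have := ht.1
      positivity
    · exact ContinuousOn.rpow_const continuousOn_id fun t _ => Or.inr (by linarith)
  have h1 : ∫ t in (0 : ℝ)..R, p * (t + a) ^ (-p - 1) * t ^ (p - 1) =
      (fun t : ℝ => (t / (t + a)) ^ p / a) R - (fun t : ℝ => (t / (t + a)) ^ p / a) 0 := by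
    apply intervalIntegral.integral_eq_sub_of_hasDerivAt_of_le hR
    · refine ContinuousOn.div_const (ContinuousOn.rpow_const ?_ fun t _ => Or.inr (by linarith)) _
      refine ContinuousOn.div continuousOn_id (by fun_prop) ?_
      intro t ht
      have := ht.1
      positivity
    · intro t ht
      have ht0 := ht.1
      have hne : t + a ≠ 0 := by positivity
      have h2 : HasDerivAt (fun t : ℝ => t / (t + a)) (a / (t + a) ^ 2) t := by
        have := (hasDerivAt_id t).div ((hasDerivAt_id t).add_const a) hne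
        refine this.congr_deriv ?_
        simp
      have h3 := (h2.rpow_const (p := p) (Or.inr hp)).div_const a
      refine h3.congr_deriv ?_
      have e1 : (t / (t + a)) ^ (p - 1) = t ^ (p - 1) / (t + a) ^ (p - 1) :=
        Real.div_rpow ht0.le (by positivity) _
      have e2 : (t + a) ^ (-p - 1) = ((t + a) ^ (p - 1))⁻¹ * ((t + a) ^ 2)⁻¹ := by
        rw [← Real.rpow_neg (by positivity), ← Real.rpow_natCast (t + a) 2,
          ← Real.rpow_neg (by positivity), ← Real.rpow_add (by positivity)]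
        congr 1
        push_cast
        ring
      rw [e1, e2]
      have : (t + a) ^ (p - 1) ≠ 0 := (Real.rpow_pos_of_pos (by positivity) _).ne'
      field_simp
    · rw [← uIcc_of_le hR] at hcont
      exact hcont.intervalIntegrable
  rw [h1]
  have : (0 : ℝ) ^ p = 0 := Real.zero_rpow (by linarith)
  simp [this]

/-- layer cake lower bound -/
theorem layer {K : Type*} [MeasurableSpace K] {μ : Measure K} [IsFiniteMeasure μ] {z : K → ℝ}
    (hz : Measurable z) (hz0 : ∀ y, 0 ≤ z y) {a p R c : ℝ} (ha : 0 < a) (hp : 1 ≤ p)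
    (hR : 0 < R) (hc : 0 ≤ c)
    (h : ∀ t ∈ Ioo 0 R, c * t ^ (p - 1) ≤ μ.real {y | z y < t}) :
    c * ((R / (R + a)) ^ p / a) ≤ ∫ y in {y | z y < R}, (z y + a) ^ (-p) ∂μ := by
  have hp0 : 0 < p := by linarith
  have hmeasS : MeasurableSet {y | z y < R} := measurableSet_lt hz measurable_const
  have hG : Measurable fun y => (z y + a) ^ (-p) := (hz.add_const a).pow_const _
  have hGnn : ∀ y, 0 ≤ (z y + a) ^ (-p) := fun y => by have := hz0 y; positivity
  have hint : IntegrableOn (fun y => (z y + a) ^ (-p)) {y | z y < R} μ := by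
    apply Integrable.integrableOn
    refine Integrable.of_bound hG.aestronglyMeasurable (a ^ (-p)) ?_
    filter_upwards with y
    rw [Real.norm_of_nonneg (hGnn y)]
    apply Real.rpow_le_rpow_of_nonpos ha
    · linarith [hz0 y]
    · linarith
  set g : ℝ → ℝ := fun t => p * (t + a) ^ (-p - 1) with hg
  have hgm : Measurable g := by
    exact measurable_const.mul ((measurable_id.add_const a).pow_const _)
  -- pointwise
  have h1 : ∀ y, z y < R → ∫⁻ t in Ioo 0 R, (Ioi (z y)).indicator (fun t => ENNReal.ofReal (g t)) t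
      ≤ ENNReal.ofReal ((z y + a) ^ (-p)) := by
    intro y hy
    rw [lintegral_indicator measurableSet_Ioi]
    rw [Measure.restrict_restrict measurableSet_Ioi]
    have e0 : Ioi (z y) ∩ Ioo 0 R ⊆ Ioc (z y) R := fun t ht => ⟨ht.1, ht.2.2.le⟩
    refine (lintegral_mono_set e0).trans ?_
    have hI : IntervalIntegrable g volume (z y) R := by
      apply ContinuousOn.intervalIntegrable
      rw [uIcc_of_le hy.le]
      refine ContinuousOn.mul continuousOn_const (ContinuousOn.rpow_const (by fun_prop) ?_)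
      intro t ht
      left
      have := ht.1
      have := hz0 y
      linarith
    rw [← ofReal_integral_eq_lintegral_ofReal]
    · apply ENNReal.ofReal_le_ofReal
      rw [← intervalIntegral.integral_of_le hy.le, integral_pow ha (hz0 y) hy.le]
      have : 0 ≤ (R + a) ^ (-p) := by positivity
      linarith
    · exact (intervalIntegrable_iff_integrableOn_Ioc_of_le hy.le).1 hI
    · filter_upwards [ae_restrict_mem measurableSet_Ioc] with t ht
      have := ht.1
      have := hz0 y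
      have : 0 < t + a := by linarith
      change 0 ≤ p * (t + a) ^ (-p - 1)
      positivity
  have hjoint : Measurable (Function.uncurry fun (y : K) (t : ℝ) =>
      (Ioi (z y)).indicator (fun t => ENNReal.ofReal (g t)) t) := by
    have : (Function.uncurry fun (y : K) (t : ℝ) =>
        (Ioi (z y)).indicator (fun t => ENNReal.ofReal (g t)) t) =
        {q : K × ℝ | z q.1 < q.2}.indicator (fun q => ENNReal.ofReal (g q.2)) := by
      ext ⟨y, t⟩
      simp [Function.uncurry, indicator]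
    rw [this]
    apply Measurable.indicator
    · exact ENNReal.measurable_ofReal.comp (hgm.comp measurable_snd)
    · exact measurableSet_lt (hz.comp measurable_fst) measurable_snd
  have h2 : ∫⁻ t in Ioo 0 R, ENNReal.ofReal (c * (g t * t ^ (p - 1))) ≤
      ∫⁻ y in {y | z y < R}, ENNReal.ofReal ((z y + a) ^ (-p)) ∂μ := by
    calc ∫⁻ t in Ioo 0 R, ENNReal.ofReal (c * (g t * t ^ (p - 1)))
        ≤ ∫⁻ t in Ioo 0 R, ∫⁻ y in {y | z y < R},
            (Ioi (z y)).indicator (fun t => ENNReal.ofReal (g t)) t ∂μ := by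
          apply setLIntegral_mono'
          · exact measurableSet_Ioo
          intro t ht
          have ht0 := ht.1
          have e1 : ∫⁻ y in {y | z y < R},
              (Ioi (z y)).indicator (fun t => ENNReal.ofReal (g t)) t ∂μ =
              ENNReal.ofReal (g t) * μ {y | z y < t} := by
            have : (fun y => (Ioi (z y)).indicator (fun t => ENNReal.ofReal (g t)) t) =
                {y | z y < t}.indicator (fun _ => ENNReal.ofReal (g t)) := by
              ext y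
              simp [indicator]
            rw [this, lintegral_indicator (measurableSet_lt hz measurable_const),
              Measure.restrict_restrict (measurableSet_lt hz measurable_const)]
            have e3 : {y | z y < t} ∩ {y | z y < R} = {y | z y < t} := by
              ext y
              simp only [mem_inter_iff, mem_ofPred_eq, and_iff_left_iff_imp]
              intro h; exact h.trans ht.2
            rw [e3, setLIntegral_const]
          rw [e1]
          have hg0 : 0 ≤ g t := by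
            change 0 ≤ p * (t + a) ^ (-p - 1)
            positivity
          calc ENNReal.ofReal (c * (g t * t ^ (p - 1)))
              = ENNReal.ofReal (g t) * ENNReal.ofReal (c * t ^ (p - 1)) := by
                rw [← ENNReal.ofReal_mul hg0]; ring_nf
            _ ≤ ENNReal.ofReal (g t) * μ {y | z y < t} := by
                gcongr
                rw [← ENNReal.ofReal_toReal (measure_ne_top μ {y | z y < t})]
                exact ENNReal.ofReal_le_ofReal (h t ht)
      _ = ∫⁻ y in {y | z y < R}, (∫⁻ t in Ioo 0 R,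
            (Ioi (z y)).indicator (fun t => ENNReal.ofReal (g t)) t) ∂μ := by
          rw [lintegral_lintegral_swap]
          have := hjoint.comp (measurable_swap (α := ℝ) (β := K))
          exact this.aemeasurable
      _ ≤ ∫⁻ y in {y | z y < R}, ENNReal.ofReal ((z y + a) ^ (-p)) ∂μ := by
          apply setLIntegral_mono' hmeasS
          intro y hy
          exact h1 y hy
  have hI2 : IntegrableOn (fun t : ℝ => c * (g t * t ^ (p - 1))) (Ioo 0 R) := by
    have hcont : ContinuousOn (fun t : ℝ => c * (g t * t ^ (p - 1))) (Icc 0 R) := by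
      refine ContinuousOn.mul continuousOn_const (ContinuousOn.mul (ContinuousOn.mul
        continuousOn_const (ContinuousOn.rpow_const (by fun_prop) ?_)) ?_)
      · intro t ht
        left
        have := ht.1
        positivity
      · exact ContinuousOn.rpow_const continuousOn_id fun t _ => Or.inr (by linarith)
    exact hcont.integrableOn_Icc.mono_set Ioo_subset_Icc_self
  rw [← ofReal_integral_eq_lintegral_ofReal hI2, ← ofReal_integral_eq_lintegral_ofReal hint] at h2
  · have h3 : ∫ t in Ioo 0 R, c * (g t * t ^ (p - 1)) = c * ((R / (R + a)) ^ p / a) := by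
      rw [← integral_Ioc_eq_integral_Ioo, ← intervalIntegral.integral_of_le hR.le,
        intervalIntegral.integral_const_mul]
      rw [← integral_pole ha hp hR.le]
    rw [h3] at h2
    exact (ENNReal.ofReal_le_ofReal_iff (integral_nonneg fun y => hGnn y)).1 h2
  · filter_upwards with y using hGnn y
  · filter_upwards [ae_restrict_mem measurableSet_Ioo] with t ht
    have := ht.1
    change 0 ≤ c * (p * (t + a) ^ (-p - 1) * t ^ (p - 1))
    positivity

end Crest.Agent.R241.A2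
end

-- ▼ part R241/A2Pole
section

/-!
R241, block A2b: pole inequality `T_pole`.
-/

set_option autoImplicit false

namespace Crest.Agent.R241.A2

open MeasureTheory Set Filter Topology Crest.Agent.R241.A
open scoped NNReal ENNReal

variable {n : ℕ} {k : ℝ} {K : Type*} [MetricSpace K] [CompactSpace K]
  [MeasurableSpace K] [BorelSpace K]

theorem omegaBall_nonneg (n : ℕ) : 0 ≤ omegaBall n := ENNReal.toReal_nonneg

theorem t_pole (hn : 2 ≤ n) (P : PreData n k K) : T_pole P := by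
  have hn' : (2 : ℝ) ≤ n := by exact_mod_cast hn
  have hm : 0 ≤ mA n := by unfold mA; linarith
  have hω := omegaBall_nonneg n
  have hcP : 0 ≤ cP n := by unfold cP; positivity
  filter_upwards [P.dens] with y' hdens
  intro u hu hu0 θ hθ
  -- `s0 ≥ 0` eventually
  have hs0 : ∀ᶠ a in 𝓝[>] (0 : ℝ), 0 < a ∧ k ^ 2 * a ≤ 1 := by
    have h1 : Tendsto (fun a : ℝ => k ^ 2 * a) (𝓝[>] 0) (𝓝 0) := by
      have : Tendsto (fun a : ℝ => k ^ 2 * a) (𝓝 0) (𝓝 (k ^ 2 * 0)) :=
        (continuous_const.mul continuous_id).tendsto 0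
      rw [mul_zero] at this
      exact this.mono_left nhdsWithin_le_nhds
    filter_upwards [self_mem_nhdsWithin, h1.eventually (ge_mem_nhds zero_lt_one)] with a ha h
    exact ⟨ha, h⟩
  rcases (hu0 y').eq_or_lt with hz | hpos
  · filter_upwards [hs0] with a ⟨ha, hka⟩
    rw [← hz, mul_zero]
    have h1 : 0 ≤ s0 k a := by unfold s0; nlinarith
    have h2 : 0 ≤ ∫ y, (zd k y' y + a) ^ (-(mA n) - 2) * u y ∂P.τ := by
      apply integral_nonneg
      intro y
      have := zd_nonneg k y' y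
      have := hu0 y
      change 0 ≤ (zd k y' y + a) ^ (-(mA n) - 2) * u y
      positivity
    positivity
  · -- choose θ'
    set x := (1 - max θ 0) / 4 with hx
    have hx1 : max θ 0 < 1 := max_lt hθ zero_lt_one
    have hx0 : 0 < x := by rw [hx]; linarith
    have hx2 : x ≤ 1 / 4 := by
      have : 0 ≤ max θ 0 := le_max_right _ _
      rw [hx]; linarith
    set θ' := 1 - x with hθ'
    have hθ'1 : θ' < 1 := by rw [hθ']; linarith
    have hθ'0 : 0 < θ' := by rw [hθ']; linarith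
    have hcube : θ ≤ θ' * θ' * θ' := by
      have h1 : θ ≤ max θ 0 := le_max_left _ _
      have h2 : max θ 0 = 1 - 4 * x := by rw [hx]; ring
      rw [hθ']
      nlinarith [mul_pos hx0 hx0]
    -- continuity radius
    obtain ⟨ρ, hρ, hρu⟩ : ∃ ρ > 0, ∀ y, dist y' y < ρ → θ' * u y' ≤ u y := by
      have h1 : θ' * u y' < u y' := by nlinarith
      have h2 : ∀ᶠ y in 𝓝 y', θ' * u y' < u y := hu.continuousAt.eventually (lt_mem_nhds h1)
      obtain ⟨ρ, hρ, h3⟩ := Metric.eventually_nhds_iff.1 h2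
      exact ⟨ρ, hρ, fun y hy => (h3 (by rwa [dist_comm])).le⟩
    -- density radius
    obtain ⟨r1, hr1, hr1d⟩ : ∃ r1 > 0, ∀ r, 0 < r → r < r1 →
        θ' * omegaBall n * r ^ n ≤ P.τ.real {y | zd k y' y < r ^ 2 / 2} := by
      have h1 := hdens θ' hθ'1
      rw [eventually_nhdsWithin_iff] at h1
      obtain ⟨r1, hr1, h2⟩ := Metric.eventually_nhds_iff.1 h1
      refine ⟨r1, hr1, fun r hr hrr => h2 ?_ hr⟩
      rw [Real.dist_eq, sub_zero, abs_of_pos hr]
      exact hrr
    set R := min (ρ ^ 2 / 2) (r1 ^ 2 / 2) with hR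
    have hR0 : 0 < R := by rw [hR]; positivity
    have hRρ : R ≤ ρ ^ 2 / 2 := min_le_left _ _
    have hRr1 : R ≤ r1 ^ 2 / 2 := min_le_right _ _
    -- limit of the bracket
    have hlim : ∀ᶠ a in 𝓝[>] (0 : ℝ), θ' ≤ (1 - k ^ 2 * a / 2) * (R / (R + a)) ^ (mA n + 2) := by
      have h1 : Tendsto (fun a : ℝ => (1 - k ^ 2 * a / 2) * (R / (R + a)) ^ (mA n + 2)) (𝓝[>] 0)
          (𝓝 1) := by
        have hc : ContinuousAt (fun a : ℝ => (1 - k ^ 2 * a / 2) * (R / (R + a)) ^ (mA n + 2)) 0 := by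
          apply ContinuousAt.mul (by fun_prop)
          apply ContinuousAt.rpow_const
          · apply ContinuousAt.div continuousAt_const (by fun_prop)
            simp; positivity
          · right; linarith
        have h2 := hc.tendsto
        simp only [add_zero, mul_zero, zero_div, sub_zero, div_self hR0.ne', Real.one_rpow,
          one_mul] at h2
        exact h2.mono_left nhdsWithin_le_nhds
      exact h1.eventually (le_mem_nhds hθ'1)
    filter_upwards [hs0, hlim] with a ⟨ha, hka⟩ hlima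
    -- lower bound for the integral
    have hp : 1 ≤ mA n + 2 := by linarith
    have hlayer := layer (μ := P.τ) (z := zd k y') (continuous_zd k y').measurable
      (zd_nonneg k y') (a := a) (p := mA n + 2) (R := R)
      (c := θ' * omegaBall n * 2 ^ (mA n + 1)) ha hp hR0 (by positivity) (by
        intro t ht
        have ht0 := ht.1
        have h1 : √(2 * t) < r1 := by
          rw [Real.sqrt_lt' hr1]
          have := ht.2
          linarith
        have h2 := hr1d (√(2 * t)) (by positivity) h1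
        have h3 : (√(2 * t)) ^ 2 / 2 = t := by
          rw [Real.sq_sqrt (by positivity)]; ring
        rw [h3] at h2
        have h4 : (√(2 * t)) ^ n = 2 ^ (mA n + 1) * t ^ (mA n + 1) := by
          rw [← Real.rpow_natCast, Real.sqrt_eq_rpow, ← Real.rpow_mul (by positivity),
            ← Real.mul_rpow (by norm_num) ht0.le]
          congr 1
          rw [n_eq n]; ring
        rw [h4] at h2
        have h5 : mA n + 2 - 1 = mA n + 1 := by ring
        rw [h5]
        calc θ' * omegaBall n * 2 ^ (mA n + 1) * t ^ (mA n + 1)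
            = θ' * omegaBall n * (2 ^ (mA n + 1) * t ^ (mA n + 1)) := by ring
          _ ≤ _ := h2)
    have hexp : -(mA n + 2) = -(mA n) - 2 := by ring
    rw [hexp] at hlayer
    have hmeasS : MeasurableSet {y | zd k y' y < R} :=
      measurableSet_lt (continuous_zd k y').measurable measurable_const
    have hcont : Continuous fun y => (zd k y' y + a) ^ (-(mA n) - 2) * u y :=
      (continuous_pow_zd y' ha _).mul hu
    have hI1 := P.integrable_of_continuous (continuous_pow_zd (k := k) y' ha (-(mA n) - 2))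
    have hI2 := P.integrable_of_continuous hcont
    have h1 : θ' * u y' * ∫ y in {y | zd k y' y < R}, (zd k y' y + a) ^ (-(mA n) - 2) ∂P.τ ≤
        ∫ y, (zd k y' y + a) ^ (-(mA n) - 2) * u y ∂P.τ := by
      calc θ' * u y' * ∫ y in {y | zd k y' y < R}, (zd k y' y + a) ^ (-(mA n) - 2) ∂P.τ
          = ∫ y in {y | zd k y' y < R}, θ' * u y' * (zd k y' y + a) ^ (-(mA n) - 2) ∂P.τ := by
            rw [integral_const_mul]
        _ ≤ ∫ y in {y | zd k y' y < R}, (zd k y' y + a) ^ (-(mA n) - 2) * u y ∂P.τ := by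
            apply setIntegral_mono_on (hI1.const_mul _).integrableOn hI2.integrableOn hmeasS
            intro y hy
            have h2 : dist y' y < ρ := by
              apply dist_lt_of_zd_lt (k := k) hρ.le
              exact lt_of_lt_of_le hy hRρ
            have h3 := hρu y h2
            have h4 : 0 ≤ (zd k y' y + a) ^ (-(mA n) - 2) := by
              have := zd_nonneg k y' y
              positivity
            rw [mul_comm]
            gcongr
        _ ≤ _ := setIntegral_le_integral hI2 (by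
            filter_upwards with y
            have := zd_nonneg k y' y
            have := hu0 y
            change 0 ≤ (zd k y' y + a) ^ (-(mA n) - 2) * u y
            positivity)
    have hs0a : s0 k a = 2 * a * (1 - k ^ 2 * a / 2) := by unfold s0; ring
    have h6 : 0 ≤ 1 - k ^ 2 * a / 2 := by linarith
    calc θ * cP n * u y' ≤ (θ' * θ' * θ') * cP n * u y' := by gcongr
      _ ≤ (θ' * θ' * ((1 - k ^ 2 * a / 2) * (R / (R + a)) ^ (mA n + 2))) * cP n * u y' := by gcongr
      _ = mA n * n / 2 * s0 k a * (θ' * u y' * (θ' * omegaBall n * 2 ^ (mA n + 1) *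
            ((R / (R + a)) ^ (mA n + 2) / a))) := by
          rw [hs0a]
          unfold cP
          field_simp
      _ ≤ mA n * n / 2 * s0 k a * (θ' * u y' *
            ∫ y in {y | zd k y' y < R}, (zd k y' y + a) ^ (-(mA n) - 2) ∂P.τ) := by
          have : 0 ≤ s0 k a := by rw [hs0a]; positivity
          gcongr
      _ ≤ _ := by
          have : 0 ≤ s0 k a := by rw [hs0a]; positivity
          gcongr

end Crest.Agent.R241.A2
end

-- ▼ part R241/A2Pt
section

/-!
R241, block A2b: pointwise bound `T_pt`.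
-/

set_option autoImplicit false

namespace Crest.Agent.R241.A2

open MeasureTheory Set Filter Topology Crest.Agent.R241.A
open scoped NNReal ENNReal

variable {n : ℕ} {k : ℝ} {K : Type*} [MetricSpace K] [CompactSpace K]
  [MeasurableSpace K] [BorelSpace K]

theorem omegaBall_pos (n : ℕ) : 0 < omegaBall n := by
  unfold omegaBall
  apply ENNReal.toReal_pos
  · exact (Metric.measure_ball_pos volume _ one_pos).ne'
  · exact measure_ball_lt_top.ne

theorem cP_pos (hn : 3 ≤ n) : 0 < cP n := by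
  have h1 := mA_pos hn
  have h2 := omegaBall_pos n
  have h3 : (0 : ℝ) < n := by positivity
  unfold cP
  positivity

theorem integrable_kernel {P : PreData n k K} (hint : T_int P) {s : ℝ} (hs0 : 0 ≤ s)
    (hs : s < (n : ℝ) / 2) {u v : K → ℝ} (hu : Lip u) (hv : Continuous v) (x : K) :
    Integrable (fun y => zd k x y ^ (-s) * (√(P.G u u y) + v y)) P.τ := by
  obtain ⟨C, hC, h1⟩ := int_real hint hs0 hs
  obtain ⟨C1, hC1, hb1⟩ := P.exists_G_bound hu
  obtain ⟨C2, hC2, hb2⟩ := exists_bound_of_continuous hv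
  refine (h1 x).1.mul_bdd (c := C1 + C2) ?_ ?_
  · exact (P.aestronglyMeasurable_sqrt hu).add hv.aestronglyMeasurable
  · filter_upwards [hb1] with y hy
    refine (norm_add_le _ _).trans (add_le_add ?_ (hb2 y))
    rw [Real.norm_of_nonneg (Real.sqrt_nonneg _), ← Real.sqrt_sq hC1]
    exact Real.sqrt_le_sqrt hy

theorem t_pt (hn : 3 ≤ n) {h : ℝ} (hb : 0 < bA n k h) (P : PreData n k K) (hint : T_int P)
    (hpole : T_pole P) (hsup : T_super P h) : T_pt P := by
  have hn' : (3 : ℝ) ≤ n := by exact_mod_cast hn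
  have hm := mA_pos hn
  have hcP := cP_pos hn
  obtain ⟨Z, hZ, hbZ⟩ := exists_zd_le (K := K) k
  set b := bA n k h with hbdef
  set C1 := mA n * √(2 + k ^ 2 * Z) + b * √Z with hC1
  have hC1pos : 0 < C1 := by positivity
  refine ⟨2 * C1 / cP n, by positivity, fun u hu hu0 => ?_⟩
  filter_upwards [hpole] with y' hy'
  have hs : mA n + 1 / 2 < (n : ℝ) / 2 := by unfold mA; linarith
  have hsing : P.τ {y'} = 0 := ((hint (mA n + 1 / 2) (by positivity) hs).choose_spec.2 y').2
  have hne : ∀ᵐ y ∂P.τ, y ≠ y' := by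
    rw [ae_iff]
    simpa using hsing
  have hIk := integrable_kernel hint (s := mA n + 1 / 2) (by positivity) hs hu hu.continuous y'
  obtain ⟨a, ha, hpos⟩ := ((hy' u hu.continuous hu0 (1 / 2) (by norm_num)).and
    self_mem_nhdsWithin).exists
  have hpos : 0 < a := hpos
  have h1 := hsup y' a hpos u hu hu0
  have h2 : P.form b (phiA n k y' a) u ≤
      C1 * ∫ y, zd k y' y ^ (-(mA n + 1 / 2)) * (√(P.G u u y) + u y) ∂P.τ := by
    unfold PreData.form
    rw [← integral_const_mul]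
    have hφ : Lip (phiA n k y' a) := lip_zd_rpow k y' hpos _
    apply integral_mono_ae (P.integrable_form b hφ hu) (hIk.const_mul _)
    filter_upwards [hne, P.G_zd_rpow_left y' hpos (-(mA n)) hu, P.abs_G_le (lip_zd k y') hu,
      P.sqrt_G_z_le y'] with y hyne hG hG1 hG2
    have hz : 0 < zd k y' y := zd_pos (Ne.symm hyne)
    change P.G (fun y => (zd k y' y + a) ^ (-(mA n))) u y + b * ((zd k y' y + a) ^ (-(mA n)) * u y)
      ≤ _
    rw [hG]
    have hz1 : √(2 * zd k y' y + k ^ 2 * zd k y' y ^ 2) ≤ √(2 + k ^ 2 * Z) * √(zd k y' y) := by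
      rw [← Real.sqrt_mul' _ hz.le]
      apply Real.sqrt_le_sqrt
      have h1 : k ^ 2 * zd k y' y ^ 2 ≤ k ^ 2 * Z * zd k y' y := by
        have := hbZ y' y
        rw [pow_two (zd k y' y), ← mul_assoc]
        gcongr
      nlinarith
    have hzpow : zd k y' y ^ (-(mA n + 1 / 2)) = zd k y' y ^ (-(mA n) - 1) * √(zd k y' y) := by
      rw [Real.sqrt_eq_rpow, ← Real.rpow_add hz]; ring_nf
    have hzpow2 : zd k y' y ^ (-(mA n)) = zd k y' y ^ (-(mA n + 1 / 2)) * √(zd k y' y) := by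
      rw [Real.sqrt_eq_rpow, ← Real.rpow_add hz]; ring_nf
    have hpow1 : (zd k y' y + a) ^ (-(mA n) - 1) ≤ zd k y' y ^ (-(mA n) - 1) :=
      Real.rpow_le_rpow_of_nonpos hz (by linarith) (by linarith)
    have hpow2 : (zd k y' y + a) ^ (-(mA n)) ≤ zd k y' y ^ (-(mA n)) :=
      Real.rpow_le_rpow_of_nonpos hz (by linarith) (by linarith)
    have hu0y := hu0 y
    have hk0 : 0 ≤ zd k y' y ^ (-(mA n + 1 / 2)) := by positivity
    have ea : -(mA n) * (zd k y' y + a) ^ (-(mA n) - 1) * P.G (zd k y') u y ≤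
        mA n * √(2 + k ^ 2 * Z) * (zd k y' y ^ (-(mA n + 1 / 2)) * √(P.G u u y)) := by
      calc -(mA n) * (zd k y' y + a) ^ (-(mA n) - 1) * P.G (zd k y') u y
          ≤ mA n * (zd k y' y + a) ^ (-(mA n) - 1) * |P.G (zd k y') u y| := by
            have : -P.G (zd k y') u y ≤ |P.G (zd k y') u y| := neg_le_abs _
            have h0 : 0 ≤ mA n * (zd k y' y + a) ^ (-(mA n) - 1) := by positivity
            nlinarith
        _ ≤ mA n * zd k y' y ^ (-(mA n) - 1) *
            ((√(2 + k ^ 2 * Z) * √(zd k y' y)) * √(P.G u u y)) := by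
            have := hG1.trans (mul_le_mul_of_nonneg_right (hG2.trans hz1) (Real.sqrt_nonneg _))
            gcongr
        _ = _ := by rw [hzpow]; ring
    have eb : b * ((zd k y' y + a) ^ (-(mA n)) * u y) ≤
        b * √Z * (zd k y' y ^ (-(mA n + 1 / 2)) * u y) := by
      have : √(zd k y' y) ≤ √Z := Real.sqrt_le_sqrt (hbZ y' y)
      calc b * ((zd k y' y + a) ^ (-(mA n)) * u y)
          ≤ b * ((zd k y' y ^ (-(mA n + 1 / 2)) * √(zd k y' y)) * u y) := by
            rw [← hzpow2]; gcongr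
        _ ≤ b * ((zd k y' y ^ (-(mA n + 1 / 2)) * √Z) * u y) := by gcongr
        _ = _ := by ring
    have ec : 0 ≤ zd k y' y ^ (-(mA n + 1 / 2)) * √(P.G u u y) := by positivity
    have ed : 0 ≤ zd k y' y ^ (-(mA n + 1 / 2)) * u y := by positivity
    have ee : 0 ≤ b * √Z := by positivity
    have ef : 0 ≤ mA n * √(2 + k ^ 2 * Z) := by positivity
    rw [hC1]
    nlinarith
  have h3 : (1 / 2) * cP n * u y' ≤
      C1 * ∫ y, zd k y' y ^ (-(mA n + 1 / 2)) * (√(P.G u u y) + u y) ∂P.τ :=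
    ha.trans (h1.trans h2)
  have hexp : -(mA n) - 1 / 2 = -(mA n + 1 / 2) := by ring
  rw [hexp]
  rw [div_mul_eq_mul_div, le_div_iff₀ hcP]
  linarith

end Crest.Agent.R241.A2
end

-- ▼ part R241/A2Young
section

/-!
R241, block A2: Young / Schur inequality for an integral kernel (ENNReal form).
-/

set_option autoImplicit false

namespace Crest.Agent.R241.A2

open MeasureTheory Set Filter Topology
open scoped NNReal ENNReal

/-- Young / Schur inequality for a kernel `κ` with `∫ κ(x,·)^r ≤ M`, `∫ κ(·,y)^r ≤ M`,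
`1/p + 1/r = 1 + 1/q`. -/
theorem young {α β : Type*} [MeasurableSpace α] [MeasurableSpace β] {μ : Measure α}
    {ν : Measure β} [SFinite μ] [SFinite ν]
    {κ : α → β → ℝ≥0∞} (hκ : Measurable (Function.uncurry κ)) {g : β → ℝ≥0∞}
    (hg : AEMeasurable g ν) {p q r : ℝ} (hp : 0 < p) (hr : 0 < r) (hpq : p ≤ q) (hrq : r ≤ q)
    (h : 1 / p + 1 / r = 1 + 1 / q)
    {M : ℝ≥0∞} (h1 : ∀ x, ∫⁻ y, κ x y ^ r ∂ν ≤ M) (h2 : ∀ y, ∫⁻ x, κ x y ^ r ∂μ ≤ M) :
    (∫⁻ x, (∫⁻ y, κ x y * g y ∂ν) ^ q ∂μ) ≤ M ^ (q / r) * (∫⁻ y, g y ^ p ∂ν) ^ (q / p) := by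
  have hq : 0 < q := lt_of_lt_of_le hp hpq
  have hx : ∀ x, Measurable (κ x) := fun x => hκ.comp measurable_prodMk_left
  have hy : ∀ y, Measurable (fun x => κ x y) := fun y => hκ.comp measurable_prodMk_right
  -- pointwise estimate
  have key : ∀ x, (∫⁻ y, κ x y * g y ∂ν) ^ q ≤
      (∫⁻ y, κ x y ^ r * g y ^ p ∂ν) * ((∫⁻ y, g y ^ p ∂ν) ^ (q / p - 1) * M ^ (q / r - 1)) := by
    intro x
    have e1 : ∀ y, κ x y * g y =
        (κ x y ^ r * g y ^ p) ^ (1 / q) * (g y ^ p) ^ (1 / p - 1 / q) *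
          (κ x y ^ r) ^ (1 / r - 1 / q) := by
      intro y
      have a1 : (0 : ℝ) ≤ 1 / q := by positivity
      have a2 : 0 ≤ 1 / p - 1 / q := sub_nonneg.2 (one_div_le_one_div_of_le hp hpq)
      have a3 : 0 ≤ 1 / r - 1 / q := sub_nonneg.2 (one_div_le_one_div_of_le hr hrq)
      rw [ENNReal.mul_rpow_of_nonneg _ _ a1]
      have b1 : κ x y = (κ x y ^ r) ^ (1 / q) * (κ x y ^ r) ^ (1 / r - 1 / q) := by
        rw [← ENNReal.rpow_add_of_nonneg _ _ a1 a3, ← ENNReal.rpow_mul]
        have : r * (1 / q + (1 / r - 1 / q)) = 1 := by field_simp; ring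
        rw [this, ENNReal.rpow_one]
      have b2 : g y = (g y ^ p) ^ (1 / q) * (g y ^ p) ^ (1 / p - 1 / q) := by
        rw [← ENNReal.rpow_add_of_nonneg _ _ a1 a2, ← ENNReal.rpow_mul]
        have : p * (1 / q + (1 / p - 1 / q)) = 1 := by field_simp; ring
        rw [this, ENNReal.rpow_one]
      calc κ x y * g y = ((κ x y ^ r) ^ (1 / q) * (κ x y ^ r) ^ (1 / r - 1 / q)) *
            ((g y ^ p) ^ (1 / q) * (g y ^ p) ^ (1 / p - 1 / q)) := by rw [← b1, ← b2]
        _ = _ := by ring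
    have hol := ENNReal.lintegral_prod_norm_pow_le (μ := ν) (Finset.univ : Finset (Fin 3))
      (f := ![fun y => κ x y ^ r * g y ^ p, fun y => g y ^ p, fun y => κ x y ^ r])
      (by
        intro i _
        fin_cases i
        · exact (((hx x).pow_const r).aemeasurable).mul (hg.pow_const p)
        · exact hg.pow_const p
        · exact ((hx x).pow_const r).aemeasurable)
      (p := ![1 / q, 1 / p - 1 / q, 1 / r - 1 / q])
      (by simp [Fin.sum_univ_three]; simp at h; linarith)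
      (by
        intro i _
        fin_cases i
        · simp; positivity
        · simpa using inv_anti₀ hp hpq
        · simpa using inv_anti₀ hr hrq)
    simp only [Fin.prod_univ_three, Matrix.cons_val_zero, Matrix.cons_val_one,
      Matrix.cons_val_two, Matrix.head_cons, Matrix.tail_cons] at hol
    have e2 : ∫⁻ y, κ x y * g y ∂ν ≤
        (∫⁻ y, κ x y ^ r * g y ^ p ∂ν) ^ (1 / q) * (∫⁻ y, g y ^ p ∂ν) ^ (1 / p - 1 / q) *
          (∫⁻ y, κ x y ^ r ∂ν) ^ (1 / r - 1 / q) := by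
      calc ∫⁻ y, κ x y * g y ∂ν = ∫⁻ y, (κ x y ^ r * g y ^ p) ^ (1 / q) *
            (g y ^ p) ^ (1 / p - 1 / q) * (κ x y ^ r) ^ (1 / r - 1 / q) ∂ν :=
            lintegral_congr e1
        _ ≤ _ := hol
    have e3 : (∫⁻ y, κ x y * g y ∂ν) ^ q ≤
        ((∫⁻ y, κ x y ^ r * g y ^ p ∂ν) ^ (1 / q) * (∫⁻ y, g y ^ p ∂ν) ^ (1 / p - 1 / q) *
          M ^ (1 / r - 1 / q)) ^ q := by
      apply ENNReal.rpow_le_rpow _ hq.le
      refine e2.trans ?_
      gcongr
      · exact sub_nonneg.2 (one_div_le_one_div_of_le hr hrq)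
      · exact h1 x
    refine e3.trans (le_of_eq ?_)
    rw [ENNReal.mul_rpow_of_nonneg _ _ hq.le, ENNReal.mul_rpow_of_nonneg _ _ hq.le,
      ← ENNReal.rpow_mul, ← ENNReal.rpow_mul, ← ENNReal.rpow_mul]
    have c1 : 1 / q * q = 1 := by field_simp
    have c2 : (1 / p - 1 / q) * q = q / p - 1 := by field_simp
    have c3 : (1 / r - 1 / q) * q = q / r - 1 := by field_simp
    rw [c1, c2, c3, ENNReal.rpow_one, mul_assoc]
  have hmeas : AEMeasurable (Function.uncurry fun x y => κ x y ^ r * g y ^ p) (μ.prod ν) := by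
    exact ((hκ.pow_const r).aemeasurable).mul ((hg.pow_const p).comp_snd)
  calc (∫⁻ x, (∫⁻ y, κ x y * g y ∂ν) ^ q ∂μ)
      ≤ ∫⁻ x, (∫⁻ y, κ x y ^ r * g y ^ p ∂ν) *
          ((∫⁻ y, g y ^ p ∂ν) ^ (q / p - 1) * M ^ (q / r - 1)) ∂μ := lintegral_mono key
    _ = (∫⁻ x, ∫⁻ y, κ x y ^ r * g y ^ p ∂ν ∂μ) *
          ((∫⁻ y, g y ^ p ∂ν) ^ (q / p - 1) * M ^ (q / r - 1)) := by
        rw [lintegral_mul_const'']
        exact hmeas.lintegral_prod_right'
    _ ≤ (M * ∫⁻ y, g y ^ p ∂ν) *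
          ((∫⁻ y, g y ^ p ∂ν) ^ (q / p - 1) * M ^ (q / r - 1)) := by
        gcongr
        rw [lintegral_lintegral_swap hmeas]
        calc ∫⁻ y, ∫⁻ x, κ x y ^ r * g y ^ p ∂μ ∂ν
            = ∫⁻ y, (∫⁻ x, κ x y ^ r ∂μ) * g y ^ p ∂ν := by
              apply lintegral_congr
              intro y
              rw [lintegral_mul_const _ ((hy y).pow_const r)]
          _ ≤ ∫⁻ y, M * g y ^ p ∂ν := by
              apply lintegral_mono
              intro y
              dsimp only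
              gcongr
              exact h2 y
          _ = M * ∫⁻ y, g y ^ p ∂ν := by
              rw [lintegral_const_mul'' _ (hg.pow_const p)]
    _ = M ^ (q / r) * (∫⁻ y, g y ^ p ∂ν) ^ (q / p) := by
        have d1 : 0 ≤ q / p - 1 := by
          rw [sub_nonneg, one_le_div hp]; exact hpq
        have d2 : 0 ≤ q / r - 1 := by
          rw [sub_nonneg, one_le_div hr]; exact hrq
        have f1 : M ^ (q / r) = M * M ^ (q / r - 1) := by
          conv_lhs => rw [show q / r = 1 + (q / r - 1) by ring]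
          rw [ENNReal.rpow_add_of_nonneg _ _ zero_le_one d2, ENNReal.rpow_one]
        have f2 : (∫⁻ y, g y ^ p ∂ν) ^ (q / p) =
            (∫⁻ y, g y ^ p ∂ν) * (∫⁻ y, g y ^ p ∂ν) ^ (q / p - 1) := by
          conv_lhs => rw [show q / p = 1 + (q / p - 1) by ring]
          rw [ENNReal.rpow_add_of_nonneg _ _ zero_le_one d1, ENNReal.rpow_one]
        rw [f1, f2]
        ring

end Crest.Agent.R241.A2
end

-- ▼ part R241/A2Sob
section

/-!
R241, block A2c: subcritical Sobolev inequality `T_sob`.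
-/

set_option autoImplicit false

namespace Crest.Agent.R241.A2

open MeasureTheory Set Filter Topology Crest.Agent.R241.A
open scoped NNReal ENNReal

variable {n : ℕ} {k : ℝ} {K : Type*} [MetricSpace K] [CompactSpace K]
  [MeasurableSpace K] [BorelSpace K]

/-! ### regularised absolute value -/

theorem hasDerivAt_reg {δ : ℝ} (hδ : 0 < δ) (t : ℝ) :
    HasDerivAt (fun t : ℝ => √(t ^ 2 + δ ^ 2)) (t / √(t ^ 2 + δ ^ 2)) t := by
  have h0 : t ^ 2 + δ ^ 2 ≠ 0 := by positivity
  have h1 : HasDerivAt (fun t : ℝ => t ^ 2 + δ ^ 2) (2 * t) t := by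
    have := ((hasDerivAt_id' t).pow 2).add_const (δ ^ 2)
    exact this.congr_deriv (by norm_num)
  refine (h1.sqrt h0).congr_deriv ?_
  have : √(t ^ 2 + δ ^ 2) ≠ 0 := by positivity
  field_simp

omit [MeasurableSpace K] [BorelSpace K] in
theorem lip_reg {u : K → ℝ} (hu : Lip u) {δ : ℝ} (hδ : 0 < δ) :
    Lip (fun y => √(u y ^ 2 + δ ^ 2)) := by
  obtain ⟨B, hB, hBu⟩ := hu.exists_bound
  refine hu.comp_Icc (a := -B) (b := B) (φ := fun t => √(t ^ 2 + δ ^ 2))
    (φ' := fun t => t / √(t ^ 2 + δ ^ 2)) (fun s _ => hasDerivAt_reg hδ s) ?_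
    fun y => abs_le.1 (hBu y)
  apply Continuous.continuousOn
  exact continuous_id.div (by fun_prop) fun t => by positivity

theorem G_reg (P : PreData n k K) {u : K → ℝ} (hu : Lip u) {δ : ℝ} (hδ : 0 < δ) :
    ∀ᵐ y ∂P.τ, √(P.G (fun y => √(u y ^ 2 + δ ^ 2)) (fun y => √(u y ^ 2 + δ ^ 2)) y) ≤
      √(P.G u u y) := by
  have hr := lip_reg hu hδ
  have hc : Continuous (fun y => (fun t => t / √(t ^ 2 + δ ^ 2)) (u y)) := by
    have hcu := hu.continuous
    exact hcu.div (by fun_prop) fun t => by positivity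
  filter_upwards [P.G_chain u _ (fun t => √(t ^ 2 + δ ^ 2)) (fun t => t / √(t ^ 2 + δ ^ 2)) hu hr hr
    (fun y => hasDerivAt_reg hδ _) hc,
    P.G_chain_right (φ := fun t => √(t ^ 2 + δ ^ 2)) (φ' := fun t => t / √(t ^ 2 + δ ^ 2)) hu hu hr
    (fun y => hasDerivAt_reg hδ _) hc, P.G_nonneg u hu] with y h1 h2 h3
  apply Real.sqrt_le_sqrt
  rw [h1, h2]
  have hq : 0 < u y ^ 2 + δ ^ 2 := by positivity
  have e : u y / √(u y ^ 2 + δ ^ 2) * (u y / √(u y ^ 2 + δ ^ 2) * P.G u u y) =
      (u y ^ 2 / (u y ^ 2 + δ ^ 2)) * P.G u u y := by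
    have hs : √(u y ^ 2 + δ ^ 2) * √(u y ^ 2 + δ ^ 2) = u y ^ 2 + δ ^ 2 :=
      Real.mul_self_sqrt hq.le
    calc _ = (u y * u y / (√(u y ^ 2 + δ ^ 2) * √(u y ^ 2 + δ ^ 2))) * P.G u u y := by
          rw [← mul_assoc, div_mul_div_comm]
      _ = _ := by rw [hs]; ring
  rw [e]
  have h4 : u y ^ 2 / (u y ^ 2 + δ ^ 2) ≤ 1 := by
    rw [div_le_one hq]
    nlinarith [sq_nonneg δ]
  nlinarith [sq_nonneg (u y)]

/-- pointwise bound for functions of arbitrary sign -/
theorem t_pt_abs (hn : 3 ≤ n) (P : PreData n k K) (hint : T_int P) (hpt : T_pt P) :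
    ∃ C : ℝ, 0 < C ∧ ∀ u : K → ℝ, Lip u → ∀ᵐ y' ∂P.τ,
      |u y'| ≤ C * ∫ y, zd k y' y ^ (-(mA n + 1 / 2)) * (√(P.G u u y) + |u y|) ∂P.τ := by
  obtain ⟨C, hC, hCb⟩ := hpt
  have hm := mA_pos hn
  have hs : mA n + 1 / 2 < (n : ℝ) / 2 := by unfold mA; linarith
  have hs0 : 0 ≤ mA n + 1 / 2 := by positivity
  refine ⟨C, hC, fun u hu => ?_⟩
  let δ : ℕ → ℝ := fun j => 1 / ((j : ℝ) + 1)
  have hδ0 : ∀ j, 0 < δ j := fun j => by positivity
  have hδ : Tendsto δ atTop (𝓝 0) := tendsto_one_div_add_atTop_nhds_zero_nat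
  have h1 : ∀ᵐ y' ∂P.τ, ∀ j, √(u y' ^ 2 + δ j ^ 2) ≤ C * ∫ y, zd k y' y ^ (-(mA n) - 1 / 2) *
      (√(P.G (fun y => √(u y ^ 2 + δ j ^ 2)) (fun y => √(u y ^ 2 + δ j ^ 2)) y)
        + √(u y ^ 2 + δ j ^ 2)) ∂P.τ := by
    rw [ae_all_iff]
    intro j
    exact hCb _ (lip_reg hu (hδ0 j)) fun y => Real.sqrt_nonneg _
  filter_upwards [h1] with y' hy'
  have hcu := hu.continuous
  have hI0 := integrable_kernel hint hs0 hs hu (v := fun y => |u y|) (by fun_prop) y'
  have hIj : ∀ j, Integrable (fun y => zd k y' y ^ (-(mA n + 1 / 2)) *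
      (√(P.G u u y) + (|u y| + δ j))) P.τ := fun j =>
    integrable_kernel hint hs0 hs hu (v := fun y => |u y| + δ j) (by fun_prop) y'
  obtain ⟨C0, hC0, hC0b⟩ := int_real hint hs0 hs
  have hz := hC0b y'
  have h2 : ∀ j, |u y'| ≤ C * ∫ y, zd k y' y ^ (-(mA n + 1 / 2)) * (√(P.G u u y) + |u y|) ∂P.τ
      + C * (δ j * ∫ y, zd k y' y ^ (-(mA n + 1 / 2)) ∂P.τ) := by
    intro j
    have e1 : |u y'| ≤ √(u y' ^ 2 + δ j ^ 2) := by
      apply Real.abs_le_sqrt
      have := sq_nonneg (δ j)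
      linarith
    refine e1.trans ((hy' j).trans ?_)
    have e3 : ∫ y, zd k y' y ^ (-(mA n + 1 / 2)) * (√(P.G u u y) + |u y|) ∂P.τ +
        δ j * ∫ y, zd k y' y ^ (-(mA n + 1 / 2)) ∂P.τ =
        ∫ y, (zd k y' y ^ (-(mA n + 1 / 2)) * (√(P.G u u y) + |u y|) +
          δ j * zd k y' y ^ (-(mA n + 1 / 2))) ∂P.τ := by
      rw [integral_add hI0 (hz.1.const_mul _), integral_const_mul]
    rw [← mul_add, e3]
    apply mul_le_mul_of_nonneg_left _ hC.le
    have hexp : -(mA n) - 1 / 2 = -(mA n + 1 / 2) := by ring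
    rw [hexp]
    have hr := lip_reg hu (hδ0 j)
    apply integral_mono_ae (integrable_kernel hint hs0 hs hr hr.continuous y')
      (hI0.add (hz.1.const_mul _))
    filter_upwards [G_reg P hu (hδ0 j)] with y hy
    have e2 : √(u y ^ 2 + δ j ^ 2) ≤ |u y| + δ j := by
      rw [Real.sqrt_le_left (by have := hδ0 j; positivity)]
      have := hδ0 j
      have := abs_nonneg (u y)
      have := sq_abs (u y)
      nlinarith
    have hk : 0 ≤ zd k y' y ^ (-(mA n + 1 / 2)) := Real.rpow_nonneg (zd_nonneg k y' y) _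
    calc zd k y' y ^ (-(mA n + 1 / 2)) *
        (√(P.G (fun y => √(u y ^ 2 + δ j ^ 2)) (fun y => √(u y ^ 2 + δ j ^ 2)) y)
          + √(u y ^ 2 + δ j ^ 2))
        ≤ zd k y' y ^ (-(mA n + 1 / 2)) * (√(P.G u u y) + (|u y| + δ j)) := by gcongr
      _ = zd k y' y ^ (-(mA n + 1 / 2)) * (√(P.G u u y) + |u y|) +
            δ j * zd k y' y ^ (-(mA n + 1 / 2)) := by ring
  have h3 : Tendsto (fun j => C * ∫ y, zd k y' y ^ (-(mA n + 1 / 2)) *
      (√(P.G u u y) + |u y|) ∂P.τ + C * (δ j * ∫ y, zd k y' y ^ (-(mA n + 1 / 2)) ∂P.τ)) atTop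
      (𝓝 (C * ∫ y, zd k y' y ^ (-(mA n + 1 / 2)) * (√(P.G u u y) + |u y|) ∂P.τ
        + C * (0 * ∫ y, zd k y' y ^ (-(mA n + 1 / 2)) ∂P.τ))) :=
    ((hδ.mul_const _).const_mul C).const_add _
  rw [zero_mul, mul_zero, add_zero] at h3
  exact ge_of_tendsto' h3 h2

theorem t_sob (hn : 3 ≤ n) {h : ℝ} (hb : 0 < bA n k h) (P : PreData n k K) (hint : T_int P)
    (hpt : T_pt P) : T_sob P h := by
  intro q hq2 hmq
  have hn' : (3 : ℝ) ≤ n := by exact_mod_cast hn
  have hm := mA_pos hn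
  have hq0 : 0 < q := by linarith
  obtain ⟨C, hC, hCb⟩ := t_pt_abs hn P hint hpt
  set s := mA n + 1 / 2 with hs
  have hs0 : 0 < s := by positivity
  set r := 2 * q / (q + 2) with hr
  have hr0 : 0 < r := by positivity
  have hrs : s * r < (n : ℝ) / 2 := by
    rw [hr, hs, mul_div_assoc', div_lt_iff₀ (by positivity)]
    have : (n : ℝ) = 2 * mA n + 2 := n_eq n
    nlinarith
  obtain ⟨C0, hC0, hC0b⟩ := hint (s * r) (by positivity) hrs
  set b := bA n k h with hbdef
  refine ⟨C ^ 2 * C0 ^ (2 / r) * (2 * (1 + 1 / b)), by positivity, fun u hu => ?_⟩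
  have hcu := hu.continuous
  -- the functions
  set g : K → ℝ := fun y => √(P.G u u y) + |u y| with hg
  have hgm : AEStronglyMeasurable g P.τ :=
    (P.aestronglyMeasurable_sqrt hu).add (by fun_prop : Continuous fun y => |u y|).aestronglyMeasurable
  have hg0 : ∀ y, 0 ≤ g y := fun y => by change 0 ≤ √(P.G u u y) + |u y|; positivity
  have hκm : Measurable (Function.uncurry fun x y : K => ENNReal.ofReal (zd k x y ^ (-s))) := by
    have : Measurable fun p : K × K => zd k p.1 p.2 ^ (-s) :=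
      (continuous_zd₂ k).measurable.pow_const _
    exact ENNReal.measurable_ofReal.comp this
  have hκr : ∀ x y : K, ENNReal.ofReal (zd k x y ^ (-s)) ^ r =
      ENNReal.ofReal (zd k x y ^ (-(s * r))) := by
    intro x y
    have hz := zd_nonneg k x y
    rw [ENNReal.ofReal_rpow_of_nonneg (Real.rpow_nonneg hz _) hr0.le, ← Real.rpow_mul hz]
    ring_nf
  have hy := young (μ := P.τ) (ν := P.τ) hκm (g := fun y => ENNReal.ofReal (g y))
    hgm.aemeasurable.ennreal_ofReal (p := 2) (q := q) (r := r) (by norm_num) hr0 hq2.le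
    (by rw [hr, div_le_iff₀ (by positivity)]; nlinarith)
    (by rw [hr]; field_simp; ring) (M := ENNReal.ofReal C0)
    (fun x => by simp_rw [hκr]; exact (hC0b x).1)
    (fun y => by simp_rw [hκr, fun x => zd_comm k x y]; exact (hC0b y).1)
  -- left side
  have hI : Integrable (fun y => |u y| ^ q) P.τ := by
    apply P.integrable_of_continuous
    exact (continuous_abs.comp hcu).rpow_const fun y => Or.inr hq0.le
  have hIk := fun x => integrable_kernel hint (s := s) hs0.le (by rw [hs]; unfold mA; linarith)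
    hu (v := fun y => |u y|) (by fun_prop) x
  have hleft : ENNReal.ofReal (∫ y, |u y| ^ q ∂P.τ) ≤ ENNReal.ofReal C ^ q *
      ∫⁻ x, (∫⁻ y, ENNReal.ofReal (zd k x y ^ (-s)) * ENNReal.ofReal (g y) ∂P.τ) ^ q ∂P.τ := by
    rw [ofReal_integral_eq_lintegral_ofReal hI (Eventually.of_forall fun y => by positivity),
      ← lintegral_const_mul' _ _ (by
        exact (ENNReal.rpow_lt_top_of_nonneg hq0.le ENNReal.ofReal_ne_top).ne)]
    apply lintegral_mono_ae
    filter_upwards [hCb u hu] with x hx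
    rw [← ENNReal.mul_rpow_of_nonneg _ _ hq0.le,
      ← ENNReal.ofReal_rpow_of_nonneg (abs_nonneg _) hq0.le]
    apply ENNReal.rpow_le_rpow _ hq0.le
    have e1 : ∫⁻ y, ENNReal.ofReal (zd k x y ^ (-s)) * ENNReal.ofReal (g y) ∂P.τ =
        ENNReal.ofReal (∫ y, zd k x y ^ (-s) * g y ∂P.τ) := by
      rw [ofReal_integral_eq_lintegral_ofReal (hIk x) (Eventually.of_forall fun y => by
        have := zd_nonneg k x y
        have := hg0 y
        change 0 ≤ zd k x y ^ (-s) * g y
        positivity)]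
      apply lintegral_congr
      intro y
      rw [ENNReal.ofReal_mul (Real.rpow_nonneg (zd_nonneg k x y) _)]
    rw [e1, ← ENNReal.ofReal_mul hC.le]
    exact ENNReal.ofReal_le_ofReal hx
  -- right side
  have hJi : Integrable (fun y => g y ^ 2) P.τ := by
    obtain ⟨C1, hC1, hb1⟩ := P.exists_G_bound hu
    obtain ⟨C2, hC2, hb2⟩ := hu.exists_bound
    refine Integrable.of_bound (hgm.pow 2) ((C1 + C2) ^ 2) ?_
    filter_upwards [hb1] with y hy
    rw [norm_pow]
    gcongr
    rw [Real.norm_of_nonneg (hg0 y)]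
    refine add_le_add ?_ (hb2 y)
    rw [← Real.sqrt_sq hC1]
    exact Real.sqrt_le_sqrt hy
  have hJ : ∫⁻ y, ENNReal.ofReal (g y) ^ (2 : ℝ) ∂P.τ = ENNReal.ofReal (∫ y, g y ^ 2 ∂P.τ) := by
    rw [ofReal_integral_eq_lintegral_ofReal hJi (Eventually.of_forall fun y => by positivity)]
    apply lintegral_congr
    intro y
    rw [ENNReal.ofReal_rpow_of_nonneg (hg0 y) (by norm_num)]
    norm_num
  have hJE : ∫ y, g y ^ 2 ∂P.τ ≤ 2 * (1 + 1 / b) * P.energy b u := by
    have h1 : ∫ y, g y ^ 2 ∂P.τ ≤ ∫ y, (2 * P.G u u y + 2 * u y ^ 2) ∂P.τ := by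
      apply integral_mono_ae hJi
        (((P.integrable_G hu hu).const_mul 2).add ((P.integrable_lip hu.sq).const_mul 2))
      filter_upwards [P.G_nonneg u hu] with y hy
      change (√(P.G u u y) + |u y|) ^ 2 ≤ 2 * P.G u u y + 2 * u y ^ 2
      have h1 := Real.sq_sqrt hy
      have h2 := sq_abs (u y)
      nlinarith [sq_nonneg (√(P.G u u y) - |u y|)]
    rw [integral_add ((P.integrable_G hu hu).const_mul 2) ((P.integrable_lip hu.sq).const_mul 2),
      integral_const_mul, integral_const_mul] at h1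
    have h2 := P.integral_G_le_energy hb.le hu
    have h3 := P.integral_sq_le_energy (b := b) hu
    have h4 : ∫ y, u y ^ 2 ∂P.τ ≤ 1 / b * P.energy b u := by
      rw [one_div, inv_mul_eq_div, le_div_iff₀ hb]
      linarith
    linarith
  set J := ∫ y, g y ^ 2 ∂P.τ with hJdef
  have hJ0 : 0 ≤ J := integral_nonneg fun y => by positivity
  rw [hJ] at hy
  have hfin := hleft.trans (mul_le_mul_right hy (ENNReal.ofReal C ^ q))
  rw [ENNReal.ofReal_rpow_of_nonneg hC.le hq0.le,
    ENNReal.ofReal_rpow_of_nonneg hC0.le (by positivity),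
    ENNReal.ofReal_rpow_of_nonneg hJ0 (by positivity), ← ENNReal.ofReal_mul (by positivity),
    ← ENNReal.ofReal_mul (by positivity)] at hfin
  have hfin2 := (ENNReal.ofReal_le_ofReal_iff (by positivity)).1 hfin
  have hI0 : 0 ≤ ∫ y, |u y| ^ q ∂P.τ := integral_nonneg fun y => by positivity
  calc (∫ y, |u y| ^ q ∂P.τ) ^ (2 / q)
      ≤ (C ^ q * (C0 ^ (q / r) * J ^ (q / 2))) ^ (2 / q) := by
        apply Real.rpow_le_rpow hI0 hfin2 (by positivity)
    _ = C ^ 2 * (C0 ^ (2 / r) * J) := by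
        rw [Real.mul_rpow (by positivity) (by positivity),
          Real.mul_rpow (by positivity) (by positivity), ← Real.rpow_mul hC.le,
          ← Real.rpow_mul hC0.le, ← Real.rpow_mul hJ0]
        have e1 : q * (2 / q) = 2 := by field_simp
        have e2 : q / r * (2 / q) = 2 / r := by field_simp
        have e3 : q / 2 * (2 / q) = 1 := by field_simp
        rw [e1, e2, e3, Real.rpow_one, Real.rpow_two]
    _ ≤ C ^ 2 * (C0 ^ (2 / r) * (2 * (1 + 1 / b) * P.energy b u)) := by gcongr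
    _ = _ := by ring

end Crest.Agent.R241.A2
end

-- ▼ part R241/A2
section

/-!
R241, block A2: summary.
-/

set_option autoImplicit false

namespace Crest.Agent.R241.A2

open MeasureTheory Set Filter Topology Crest.Agent.R241.A

variable {n : ℕ} {k h : ℝ} {K : Type*} [MetricSpace K] [CompactSpace K]
  [MeasurableSpace K] [BorelSpace K]

/-- A2 in one statement, given A1's `T_super`. -/
theorem a2 (hn : 3 ≤ n) (hk : 0 ≤ k) (hkh : k < h) (P : PreData n k K) (hFV : P.FV h)
    (hsup : T_super P h) : T_int P ∧ T_pole P ∧ T_pt P ∧ T_sob P h := by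
  have hb := bA_pos hn hk hkh
  have h1 := t_int (by omega) (hk.trans_lt hkh) P hFV
  have h2 := t_pole (by omega) P
  have h3 := t_pt hn hb P h1 h2 hsup
  exact ⟨h1, h2, h3, t_sob hn hb P h1 h3⟩

end Crest.Agent.R241.A2
end

-- ▼ part R241/A3J
section

/-!
R241, block A, A3: the parametric integrals `∫₀¹ ρ^α (1+ρ r)^(-β) dρ`.
-/

set_option autoImplicit false

namespace Crest.Agent.R241.A3J

open MeasureTheory Set Filter Topology Crest.Agent.R241.A
open scoped NNReal ENNReal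

/-- `∫₀¹ ρ^α (1+ρ r)^(-β) dρ`. -/
noncomputable def Jab (α β r : ℝ) : ℝ := ∫ ρ in (0 : ℝ)..1, ρ ^ α * (1 + ρ * r) ^ (-β)

lemma min_le {ρ r : ℝ} (h0 : 0 ≤ ρ) (h1 : ρ ≤ 1) : min 1 (1 + r) ≤ 1 + ρ * r := by
  have e : 1 + ρ * r = (1 - ρ) * 1 + ρ * (1 + r) := by ring
  have h2 : min 1 (1 + r) ≤ 1 := min_le_left _ _
  have h3 : min 1 (1 + r) ≤ 1 + r := min_le_right _ _
  rw [e]
  nlinarith

lemma base_pos {ρ r : ℝ} (h0 : 0 ≤ ρ) (h1 : ρ ≤ 1) (hr : -1 < r) : 0 < 1 + ρ * r :=
  lt_of_lt_of_le (lt_min one_pos (by linarith)) (min_le h0 h1)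

lemma continuousOn_base {r : ℝ} (hr : -1 < r) (β : ℝ) :
    ContinuousOn (fun ρ : ℝ => (1 + ρ * r) ^ β) (Icc 0 1) := by
  intro ρ hρ
  have h := base_pos hρ.1 hρ.2 hr
  have h1 : ContinuousAt (fun ρ : ℝ => 1 + ρ * r) ρ := by fun_prop
  exact (h1.rpow_const (Or.inl h.ne')).continuousWithinAt

lemma intInt {α : ℝ} (hα : -1 < α) (β : ℝ) {r : ℝ} (hr : -1 < r) :
    IntervalIntegrable (fun ρ => ρ ^ α * (1 + ρ * r) ^ (-β)) volume 0 1 := by
  apply (intervalIntegral.intervalIntegrable_rpow' hα).mul_continuousOn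
  rw [uIcc_of_le zero_le_one]
  exact continuousOn_base hr (-β)

theorem hasDerivAt_Jab {α : ℝ} (hα : -1 < α) {β : ℝ} (hβ : 0 ≤ β) {r : ℝ} (hr : -1 < r) :
    HasDerivAt (Jab α β) (-β * Jab (α + 1) (β + 1) r) r := by
  set δ : ℝ := min 1 ((1 + r) / 2) with hδ
  have hδ0 : 0 < δ := lt_min one_pos (by linarith)
  set s : Set ℝ := Ioi ((r - 1) / 2) with hs
  have hsr : s ∈ 𝓝 r := Ioi_mem_nhds (by linarith)
  have hs1 : ∀ x ∈ s, -1 < x := fun x hx => by have : (r - 1) / 2 < x := hx; linarith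
  have hlow : ∀ x ∈ s, ∀ ρ ∈ Icc (0 : ℝ) 1, δ ≤ 1 + ρ * x := by
    intro x hx ρ hρ
    refine le_trans ?_ (min_le hρ.1 hρ.2)
    have : (r - 1) / 2 < x := hx
    exact min_le_min_left _ (by linarith)
  have hI : uIoc (0 : ℝ) 1 = Ioc 0 1 := uIoc_of_le zero_le_one
  have key := intervalIntegral.hasDerivAt_integral_of_dominated_loc_of_deriv_le
    (μ := volume) (a := 0) (b := 1)
    (F := fun x ρ => ρ ^ α * (1 + ρ * x) ^ (-β))
    (F' := fun x ρ => ρ ^ α * (ρ * (-β) * (1 + ρ * x) ^ (-β - 1)))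
    (x₀ := r) (s := s) (bound := fun ρ => β * δ ^ (-β - 1) * ρ ^ α) hsr
    (by
      filter_upwards [hsr] with x hx
      exact ((intervalIntegrable_iff.1 (intInt hα β (hs1 x hx)))).aestronglyMeasurable)
    (intInt hα β hr)
    (by
      have h1 : IntervalIntegrable (fun ρ => ρ ^ α * (ρ * (-β) * (1 + ρ * r) ^ (-β - 1)))
          volume 0 1 := by
        apply (intervalIntegral.intervalIntegrable_rpow' hα).mul_continuousOn
        rw [uIcc_of_le zero_le_one]
        exact ContinuousOn.mul (by fun_prop) (continuousOn_base hr (-β - 1))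
      exact (intervalIntegrable_iff.1 h1).aestronglyMeasurable)
    (by
      refine ae_of_all _ fun ρ hρ x hx => ?_
      rw [hI] at hρ
      have h1 := hlow x hx ρ ⟨hρ.1.le, hρ.2⟩
      have h2 : (1 + ρ * x) ^ (-β - 1) ≤ δ ^ (-β - 1) :=
        Real.rpow_le_rpow_of_nonpos hδ0 h1 (by linarith)
      have h3 : 0 ≤ (1 + ρ * x) ^ (-β - 1) := Real.rpow_nonneg (hδ0.le.trans h1) _
      have h4 : 0 ≤ ρ ^ α := Real.rpow_nonneg hρ.1.le _
      have e : ρ ^ α * (ρ * (-β) * (1 + ρ * x) ^ (-β - 1))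
          = -(β * (ρ * (1 + ρ * x) ^ (-β - 1)) * ρ ^ α) := by ring
      rw [e, norm_neg, Real.norm_of_nonneg (by
        have := hρ.1.le
        positivity)]
      have h5 : ρ * (1 + ρ * x) ^ (-β - 1) ≤ δ ^ (-β - 1) := by
        calc ρ * (1 + ρ * x) ^ (-β - 1) ≤ 1 * (1 + ρ * x) ^ (-β - 1) :=
              mul_le_mul_of_nonneg_right hρ.2 h3
          _ ≤ _ := by rw [one_mul]; exact h2
      gcongr)
    ((intervalIntegral.intervalIntegrable_rpow' hα).const_mul _)
    (by
      refine ae_of_all _ fun ρ hρ x hx => ?_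
      rw [hI] at hρ
      have h1 := base_pos hρ.1.le hρ.2 (hs1 x hx)
      have h2 : HasDerivAt (fun x : ℝ => 1 + ρ * x) ρ x := by
        simpa using ((hasDerivAt_id x).const_mul ρ).const_add 1
      exact (h2.rpow_const (p := -β) (Or.inl h1.ne')).const_mul _)
  refine key.2.congr_deriv ?_
  unfold Jab
  rw [← intervalIntegral.integral_const_mul]
  refine intervalIntegral.integral_congr_ae (ae_of_all _ fun ρ hρ => ?_)
  rw [hI] at hρ
  have e1 : ρ ^ (α + 1) = ρ ^ α * ρ := by rw [Real.rpow_add hρ.1, Real.rpow_one]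
  have e2 : -(β + 1) = -β - 1 := by ring
  rw [e1, e2]; ring

lemma continuousAt_Jab {α : ℝ} (hα : -1 < α) {β : ℝ} (hβ : 0 ≤ β) {r : ℝ} (hr : -1 < r) :
    ContinuousAt (Jab α β) r := (hasDerivAt_Jab hα hβ hr).continuousAt

/-- `(α+1) J_{α,β} = β r J_{α+1,β+1} + (1+r)^{-β}`. -/
theorem Jab_rec {α : ℝ} (hα : -1 < α) {β r : ℝ} (hr : -1 < r) :
    (α + 1) * Jab α β r - β * r * Jab (α + 1) (β + 1) r = (1 + r) ^ (-β) := by
  have h1 := intInt hα β hr
  have h2 := intInt (α := α + 1) (by linarith) (β + 1) hr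
  unfold Jab
  rw [← intervalIntegral.integral_const_mul, ← intervalIntegral.integral_const_mul,
    ← intervalIntegral.integral_sub (h1.const_mul _) (h2.const_mul _)]
  rw [intervalIntegral.integral_eq_sub_of_hasDerivAt_of_le (f := fun ρ => ρ ^ (α + 1) *
    (1 + ρ * r) ^ (-β)) zero_le_one]
  · have : (0 : ℝ) ^ (α + 1) = 0 := Real.zero_rpow (by linarith)
    simp [this]
  · apply ContinuousOn.mul _ (continuousOn_base hr (-β))
    exact (Real.continuous_rpow_const (by linarith)).continuousOn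
  · intro ρ hρ
    have hb := base_pos hρ.1.le hρ.2.le hr
    have h3 : HasDerivAt (fun ρ : ℝ => ρ ^ (α + 1)) ((α + 1) * ρ ^ (α + 1 - 1)) ρ :=
      Real.hasDerivAt_rpow_const (Or.inl hρ.1.ne')
    have h4 : HasDerivAt (fun ρ : ℝ => 1 + ρ * r) r ρ := by
      simpa using ((hasDerivAt_id ρ).mul_const r).const_add 1
    refine (h3.mul (h4.rpow_const (p := -β) (Or.inl hb.ne'))).congr_deriv ?_
    have e1 : α + 1 - 1 = α := by ring
    have e2 : -(β + 1) = -β - 1 := by ring
    rw [e1, e2]; ring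
  · exact (h1.const_mul _).sub (h2.const_mul _)

/-- `m J_{m-1,n}(r) = (1+r)^{-2m} + m r² J_{m+1,n}(r)`, `n = 2m+2`. -/
theorem Jab_id {m : ℝ} (hm : 0 < m) {r : ℝ} (hr : -1 < r) :
    m * Jab (m - 1) (2 * m + 2) r
      = (1 + r) ^ (-(2 * m)) + m * r ^ 2 * Jab (m + 1) (2 * m + 2) r := by
  have h1 := intInt (α := m - 1) (by linarith) (2 * m + 2) hr
  have h2 := intInt (α := m + 1) (by linarith) (2 * m + 2) hr
  have key : m * Jab (m - 1) (2 * m + 2) r - m * r ^ 2 * Jab (m + 1) (2 * m + 2) r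
      = (1 + r) ^ (-(2 * m)) := by
    unfold Jab
    rw [← intervalIntegral.integral_const_mul, ← intervalIntegral.integral_const_mul,
      ← intervalIntegral.integral_sub (h1.const_mul _) (h2.const_mul _)]
    rw [intervalIntegral.integral_eq_sub_of_hasDerivAt_of_le (f := fun ρ => ρ ^ m *
      (1 + ρ * r) ^ (-(2 * m))) zero_le_one]
    · have : (0 : ℝ) ^ m = 0 := Real.zero_rpow (by linarith)
      simp [this]
    · apply ContinuousOn.mul _ (continuousOn_base hr _)
      exact (Real.continuous_rpow_const hm.le).continuousOn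
    · intro ρ hρ
      have hb := base_pos hρ.1.le hρ.2.le hr
      have h3 : HasDerivAt (fun ρ : ℝ => ρ ^ m) (m * ρ ^ (m - 1)) ρ :=
        Real.hasDerivAt_rpow_const (Or.inl hρ.1.ne')
      have h4 : HasDerivAt (fun ρ : ℝ => 1 + ρ * r) r ρ := by
        simpa using ((hasDerivAt_id ρ).mul_const r).const_add 1
      refine (h3.mul (h4.rpow_const (p := -(2 * m)) (Or.inl hb.ne'))).congr_deriv ?_
      have e1 : ρ ^ (m + 1) = ρ ^ (m - 1) * ρ ^ 2 := by
        rw [← Real.rpow_natCast, ← Real.rpow_add hρ.1]; congr 1; push_cast; ring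
      have e2 : ρ ^ m = ρ ^ (m - 1) * ρ := by
        nth_rewrite 3 [← Real.rpow_one ρ]
        rw [← Real.rpow_add hρ.1]; congr 1; ring
      have e3 : (1 + ρ * r) ^ (-(2 * m)) = (1 + ρ * r) ^ (-(2 * m + 2)) * (1 + ρ * r) ^ 2 := by
        rw [← Real.rpow_natCast, ← Real.rpow_add hb]; congr 1; push_cast; ring
      have e4 : (1 + ρ * r) ^ (-(2 * m) - 1) = (1 + ρ * r) ^ (-(2 * m + 2)) * (1 + ρ * r) := by
        nth_rewrite 3 [← Real.rpow_one (1 + ρ * r)]
        rw [← Real.rpow_add hb]; congr 1; ring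
      rw [e1, e2, e3, e4]; ring
    · exact (h1.const_mul _).sub (h2.const_mul _)
  linarith

lemma Jab_nonneg {α β r : ℝ} (hr : -1 < r) : 0 ≤ Jab α β r := by
  unfold Jab
  apply intervalIntegral.integral_nonneg zero_le_one
  intro ρ hρ
  have := base_pos hρ.1 hρ.2 hr
  have h1 : 0 ≤ ρ ^ α := Real.rpow_nonneg hρ.1 _
  positivity

lemma Jab_le {α β r : ℝ} (hα : -1 < α) (hβ : 0 ≤ β) (hr : 0 ≤ r) :
    Jab α β r ≤ 1 / (α + 1) := by
  have h0 : ∫ ρ in (0 : ℝ)..1, ρ ^ α = 1 / (α + 1) := by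
    rw [integral_rpow (Or.inl hα)]
    have : (0 : ℝ) ^ (α + 1) = 0 := Real.zero_rpow (by linarith)
    rw [this]; simp
  rw [← h0]
  unfold Jab
  apply intervalIntegral.integral_mono_on zero_le_one (intInt hα β (by linarith))
    (intervalIntegral.intervalIntegrable_rpow' hα)
  intro ρ hρ
  have h1 : 0 ≤ ρ ^ α := Real.rpow_nonneg hρ.1 _
  have h2 : (1 + ρ * r) ^ (-β) ≤ 1 := by
    apply Real.rpow_le_one_of_one_le_of_nonpos _ (by linarith)
    have := mul_nonneg hρ.1 hr
    linarith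
  calc ρ ^ α * (1 + ρ * r) ^ (-β) ≤ ρ ^ α * 1 := mul_le_mul_of_nonneg_left h2 h1
    _ = _ := mul_one _

lemma HA_eq (n : ℕ) (r : ℝ) : HA n r = mA n * Jab (mA n - 1) (2 * mA n + 2) r := by
  unfold HA Jab
  rw [← intervalIntegral.integral_const_mul]
  have e : (n : ℝ) = 2 * mA n + 2 := by unfold mA; ring
  congr 1; ext ρ
  rw [← e]; ring

/-- `H(r) = (1+r)^{-2m} + m r² J(r)`. -/
lemma HA_id {n : ℕ} (hm : 0 < mA n) {r : ℝ} (hr : -1 < r) :
    HA n r = (1 + r) ^ (-(2 * mA n)) + mA n * r ^ 2 * Jab (mA n + 1) (2 * mA n + 2) r := by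
  rw [HA_eq, Jab_id hm hr]

end Crest.Agent.R241.A3J
end

-- ▼ part R241/A3D
section

/-!
R241, block A, A3: first order calculus for functions of `(u, z_x)`, and the Hardy inequality.
-/

set_option autoImplicit false

namespace Crest.Agent.R241.A3

open MeasureTheory Set Filter Topology Crest.Agent.R241.A Crest.Agent.R241.A3J
open scoped NNReal ENNReal

variable {n : ℕ} {k : ℝ} {K : Type*} [MetricSpace K] [CompactSpace K]
  [MeasurableSpace K] [BorelSpace K]

/-- `F` is Lipschitz and `∇F = α ∇u + β ∇z`. -/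
structure D (P : PreData n k K) (u z F α β : K → ℝ) : Prop where
  lip : Lip F
  eq : ∀ g : K → ℝ, Lip g → ∀ᵐ y ∂P.τ, P.G F g y = α y * P.G u g y + β y * P.G z g y

section D
variable {P : PreData n k K} {u z : K → ℝ}

lemma D.fst (hu : Lip u) : D P u z u (fun _ => 1) (fun _ => 0) :=
  ⟨hu, fun g _ => ae_of_all _ fun y => by simp⟩

lemma D.snd (hz : Lip z) : D P u z z (fun _ => 0) (fun _ => 1) :=
  ⟨hz, fun g _ => ae_of_all _ fun y => by simp⟩

lemma D.mul {F α β F' α' β' : K → ℝ} (h : D P u z F α β) (h' : D P u z F' α' β') :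
    D P u z (fun y => F y * F' y) (fun y => F y * α' y + F' y * α y)
      (fun y => F y * β' y + F' y * β y) := by
  refine ⟨h.lip.mul h'.lip, fun g hg => ?_⟩
  filter_upwards [P.G_mul F F' g h.lip h'.lip hg, h.eq g hg, h'.eq g hg] with y h1 h2 h3
  rw [h1, h2, h3]; ring

lemma D.comp {F α β : K → ℝ} (h : D P u z F α β) {φ φ' : ℝ → ℝ}
    (hl : Lip (fun y => φ (F y))) (hφ : ∀ y, HasDerivAt φ (φ' (F y)) (F y))
    (hc : Continuous (fun y => φ' (F y))) :
    D P u z (fun y => φ (F y)) (fun y => φ' (F y) * α y) (fun y => φ' (F y) * β y) := by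
  refine ⟨hl, fun g hg => ?_⟩
  filter_upwards [P.G_chain F g φ φ' h.lip hg hl hφ hc, h.eq g hg] with y h1 h2
  rw [h1, h2]; ring

lemma D.comp_nonneg {F α β : K → ℝ} (h : D P u z F α β) (hF : ∀ y, 0 ≤ F y) {φ φ' : ℝ → ℝ}
    (hφ : ∀ s, 0 ≤ s → HasDerivAt φ (φ' s) s) (hc : ContinuousOn φ' (Ici 0)) :
    D P u z (fun y => φ (F y)) (fun y => φ' (F y) * α y) (fun y => φ' (F y) * β y) := by
  obtain ⟨B, hB, hBF⟩ := h.lip.exists_bound
  refine h.comp (h.lip.comp_Icc (a := 0) (b := B) (fun s hs => hφ s hs.1)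
    (hc.mono fun s hs => hs.1) fun y => ⟨hF y, (le_abs_self _).trans (hBF y)⟩)
    (fun y => hφ _ (hF y)) (hc.comp_continuous h.lip.continuous hF)

lemma D.comp_pos {F α β : K → ℝ} (h : D P u z F α β) (hF : ∀ y, 0 < F y) {φ φ' : ℝ → ℝ}
    (hφ : ∀ s, 0 < s → HasDerivAt φ (φ' s) s) (hc : ContinuousOn φ' (Ioi 0)) :
    D P u z (fun y => φ (F y)) (fun y => φ' (F y) * α y) (fun y => φ' (F y) * β y) :=
  h.comp (h.lip.comp_pos hF hφ hc) (fun y => hφ _ (hF y))
    (hc.comp_continuous h.lip.continuous hF)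

lemma D.rpow {F α β : K → ℝ} (h : D P u z F α β) (hF : ∀ y, 0 < F y) (s : ℝ) :
    D P u z (fun y => F y ^ s) (fun y => s * F y ^ (s - 1) * α y)
      (fun y => s * F y ^ (s - 1) * β y) :=
  h.comp_pos hF (φ := fun t => t ^ s) (φ' := fun t => s * t ^ (s - 1))
    (fun _ ht => Real.hasDerivAt_rpow_const (Or.inl ht.ne')) (PreData.continuousOn_rpow_deriv s)

lemma D.pair {F α β F' α' β' : K → ℝ} (hu : Lip u) (hz : Lip z)
    (h : D P u z F α β) (h' : D P u z F' α' β') :
    ∀ᵐ y ∂P.τ, P.G F F' y = α y * α' y * P.G u u y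
      + (α y * β' y + β y * α' y) * P.G u z y + β y * β' y * P.G z z y := by
  filter_upwards [h.eq F' h'.lip, P.G_comm u F' hu h'.lip, P.G_comm z F' hz h'.lip,
    h'.eq u hu, h'.eq z hz, P.G_comm z u hz hu] with y h1 h2 h3 h4 h5 h6
  rw [h1, h2, h3, h4, h5, h6]; ring

end D

/-- Vanishing of `G z z` where `z = 0`. -/
lemma G_zero_of_zd_zero (P : PreData n k K) (x : K) {u : K → ℝ} (hu : Lip u) :
    ∀ᵐ y ∂P.τ, zd k x y = 0 → P.G (zd k x) (zd k x) y = 0 ∧ P.G u (zd k x) y = 0 := by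
  filter_upwards [P.G_z x, P.G_nonneg _ (lip_zd k x), P.G_sq_le hu (lip_zd k x)]
    with y h1 h2 h3 hy
  rw [hy] at h1
  have h4 : P.G (zd k x) (zd k x) y = 0 := le_antisymm (by simpa using h1) h2
  rw [h4, mul_zero] at h3
  exact ⟨h4, by nlinarith [sq_nonneg (P.G u (zd k x) y)]⟩

lemma hardy_alg {m U Z a i b c0 Gzz Guz Guu : ℝ} (hm : 0 < m) (hb : 0 ≤ b)
    (hc0 : c0 * (m + 1) = b / m) (hZ0 : 0 ≤ Z) (ha : 0 < a) (hi : i = (Z + a)⁻¹)
    (h2 : Z = 0 → Gzz = 0) (h3 : 0 ≤ Gzz) (h4 : 0 ≤ Guu) (h5 : Guz ^ 2 ≤ Guu * Gzz) :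
    m / 2 * (i ^ 2 * U ^ 2 * Gzz) - (2 / m * Guu + b / m * U ^ 2)
      ≤ (2 * U * Guz * i - U ^ 2 * i ^ 2 * Gzz)
        + (m + 1) * (U ^ 2 * i) * (Gzz / Z - c0 * Z) := by
  have hZa : 0 < Z + a := by linarith
  have hi0 : 0 < i := by rw [hi]; exact inv_pos.2 hZa
  have hii : i * (Z + a) = 1 := by rw [hi]; exact inv_mul_cancel₀ hZa.ne'
  have h6 : Gzz * i ≤ Gzz / Z := by
    rcases hZ0.eq_or_lt with h0 | h0
    · rw [h2 h0.symm]; simp
    · rw [div_eq_mul_inv]
      apply mul_le_mul_of_nonneg_left _ h3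
      rw [hi]
      exact inv_anti₀ h0 (by linarith)
  have h7 : Z * i ≤ 1 := by
    have : 0 < i * a := by positivity
    linarith [mul_comm i Z, mul_add i Z a]
  have h8 : 0 ≤ 2 / m * Guu + 2 * U * Guz * i + m / 2 * (i ^ 2 * U ^ 2 * Gzz) := by
    have hA : 0 ≤ 2 / m * Guu := by positivity
    have hB : 0 ≤ m / 2 * (i ^ 2 * U ^ 2 * Gzz) := by positivity
    have hq : (2 * U * Guz * i) ^ 2 ≤ (2 / m * Guu + m / 2 * (i ^ 2 * U ^ 2 * Gzz)) ^ 2 := by
      have e : 4 * (2 / m * Guu) * (m / 2 * (i ^ 2 * U ^ 2 * Gzz))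
          = 4 * (U ^ 2 * i ^ 2) * (Guu * Gzz) := by field_simp
      have e2 : (2 * U * Guz * i) ^ 2 = 4 * (U ^ 2 * i ^ 2) * Guz ^ 2 := by ring
      have e3 : 4 * (U ^ 2 * i ^ 2) * Guz ^ 2 ≤ 4 * (U ^ 2 * i ^ 2) * (Guu * Gzz) :=
        mul_le_mul_of_nonneg_left h5 (by positivity)
      have e4 := sq_nonneg (2 / m * Guu - m / 2 * (i ^ 2 * U ^ 2 * Gzz))
      rw [e2]
      nlinarith
    have := (abs_le_of_sq_le_sq' hq (by positivity)).1
    linarith
  have h9 : (m + 1) * (U ^ 2 * i) * (Gzz * i) ≤ (m + 1) * (U ^ 2 * i) * (Gzz / Z) :=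
    mul_le_mul_of_nonneg_left h6 (by positivity)
  have h10 : (m + 1) * (U ^ 2 * i) * (c0 * Z) ≤ b / m * U ^ 2 := by
    have : (m + 1) * (U ^ 2 * i) * (c0 * Z) = b / m * U ^ 2 * (Z * i) := by
      rw [← hc0]; ring
    rw [this]
    have hbm : 0 ≤ b / m * U ^ 2 := by positivity
    exact mul_le_of_le_one_right hbm h7
  have e3 : (m + 1) * (U ^ 2 * i) * (Gzz / Z - c0 * Z)
      = (m + 1) * (U ^ 2 * i) * (Gzz / Z) - (m + 1) * (U ^ 2 * i) * (c0 * Z) := by
    ring
  have e4 : (m + 1) * (U ^ 2 * i) * (Gzz * i) = m * (i ^ 2 * U ^ 2 * Gzz)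
      + i ^ 2 * U ^ 2 * Gzz := by ring
  rw [e3]
  linarith

/-- Integrability of the (FV') integrand. -/
lemma integrable_fv' (P : PreData n k K) (x : K) (h : ℝ) {f : K → ℝ} (hfL : Lip f) :
    Integrable (fun y => P.G f (zd k x) y + (n : ℝ) / 2 * f y *
      (P.G (zd k x) (zd k x) y / zd k x y - (h ^ 2 - k ^ 2) * zd k x y)) P.τ := by
  have hzl : Lip (zd k x) := lip_zd k x
  have hg : AEStronglyMeasurable (fun y => P.G (zd k x) (zd k x) y / zd k x y) P.τ :=
    ((P.G_meas _ _ hzl hzl).aemeasurable.div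
      hzl.continuous.aemeasurable).aestronglyMeasurable
  obtain ⟨B, hB, hzB⟩ := hzl.exists_bound
  have hg2 : Integrable (fun y => P.G (zd k x) (zd k x) y / zd k x y) P.τ := by
    refine Integrable.of_bound hg (2 + k ^ 2 * B) ?_
    filter_upwards [P.G_z x, P.G_nonneg _ hzl] with y h1 h2
    have hz0 : 0 ≤ zd k x y := zd_nonneg k x y
    rw [Real.norm_of_nonneg (div_nonneg h2 hz0)]
    rcases hz0.eq_or_lt with h0 | h0
    · rw [← h0]; simp; positivity
    · rw [div_le_iff₀ h0]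
      have h3 : zd k x y ≤ B := (le_abs_self _).trans (hzB y)
      have h4 : k ^ 2 * zd k x y ^ 2 ≤ k ^ 2 * B * zd k x y := by
        rw [mul_assoc, pow_two (zd k x y)]
        exact mul_le_mul_of_nonneg_left (mul_le_mul_of_nonneg_right h3 hz0) (sq_nonneg k)
      linarith [add_mul 2 (k ^ 2 * B) (zd k x y)]
  have hg3 : Integrable (fun y => P.G (zd k x) (zd k x) y / zd k x y
      - (h ^ 2 - k ^ 2) * zd k x y) P.τ :=
    hg2.sub ((P.integrable_lip hzl).const_mul _)
  refine (P.integrable_G hfL hzl).add ?_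
  have hfc : Continuous (fun y => (n : ℝ) / 2 * f y) := continuous_const.mul hfL.continuous
  obtain ⟨B', _, hB'⟩ := exists_bound_of_continuous hfc
  exact hg3.bdd_mul (c := B') hfc.aestronglyMeasurable
    (ae_of_all _ fun y => by simpa only [Real.norm_eq_abs] using hB' y)

lemma const_eq {h : ℝ} (hm : 0 < mA n) : (h ^ 2 - k ^ 2) * (mA n + 1) = bA n k h / mA n := by
  unfold bA
  rw [n_eq n]; field_simp

lemma G_inv (P : PreData n k K) (x : K) {a : ℝ} (ha : 0 < a) :
    Lip (fun y => (zd k x y + a)⁻¹) ∧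
    ∀ᵐ y ∂P.τ, P.G (fun y => (zd k x y + a)⁻¹) (zd k x) y
      = - ((zd k x y + a)⁻¹ ^ 2) * P.G (zd k x) (zd k x) y := by
  have e : (fun y => (zd k x y + a) ^ (-1 : ℝ)) = fun y => (zd k x y + a)⁻¹ := by
    ext y; rw [Real.rpow_neg_one]
  refine ⟨e ▸ lip_zd_rpow k x ha (-1), ?_⟩
  filter_upwards [P.G_zd_rpow_left x ha (-1) (lip_zd k x)] with y hy
  rw [e] at hy
  rw [hy]
  have e2 : (-1 : ℝ) - 1 = -(2 : ℕ) := by norm_num
  rw [e2, Real.rpow_neg (zd_add_pos k x ha y).le, Real.rpow_natCast, inv_pow]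
  ring

/-- Hardy type inequality. -/
theorem hardy {h : ℝ} (hm : 0 < mA n) (hb : 0 ≤ bA n k h) {P : PreData n k K}
    (hfv : T_fv' P h) (x : K) {a : ℝ} (ha : 0 < a) {u : K → ℝ} (hu : Lip u) :
    ∫ y, ((zd k x y + a)⁻¹ ^ 2) * u y ^ 2 * P.G (zd k x) (zd k x) y ∂P.τ
      ≤ 4 / mA n ^ 2 * P.energy (bA n k h) u := by
  have hzl : Lip (zd k x) := lip_zd k x
  have hza : ∀ y, 0 < zd k x y + a := zd_add_pos k x ha
  obtain ⟨hinvL, hinv⟩ := G_inv P x ha
  have hfL : Lip (fun y => u y ^ 2 * (zd k x y + a)⁻¹) := hu.sq.mul hinvL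
  have h1 := hfv x _ hfL (fun y => mul_nonneg (sq_nonneg _) (inv_nonneg.2 (hza y).le))
  have hI1 : Integrable (fun y => ((zd k x y + a)⁻¹ ^ 2) * u y ^ 2
      * P.G (zd k x) (zd k x) y) P.τ :=
    P.integrable_mul_G hzl hzl (hinvL.sq.mul hu.sq).continuous
  have hI2 : Integrable (fun y => P.G u u y) P.τ := P.integrable_G hu hu
  have hI3 : Integrable (fun y => u y ^ 2) P.τ := P.integrable_lip hu.sq
  have hI4 := integrable_fv' P x h hfL
  have hae : ∀ᵐ y ∂P.τ, mA n / 2 * (((zd k x y + a)⁻¹ ^ 2) * u y ^ 2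
        * P.G (zd k x) (zd k x) y)
      - (2 / mA n * P.G u u y + bA n k h / mA n * u y ^ 2)
      ≤ P.G (fun y => u y ^ 2 * (zd k x y + a)⁻¹) (zd k x) y
        + (n : ℝ) / 2 * (u y ^ 2 * (zd k x y + a)⁻¹)
        * (P.G (zd k x) (zd k x) y / zd k x y - (h ^ 2 - k ^ 2) * zd k x y) := by
    filter_upwards [P.G_mul (fun y => u y ^ 2) (fun y => (zd k x y + a)⁻¹) (zd k x) hu.sq
      hinvL hzl, hinv, P.G_sq_left hu hzl, G_zero_of_zd_zero P x hu, P.G_nonneg _ hzl,
      P.G_nonneg u hu, P.G_sq_le hu hzl] with y g1 g2 g3 g4 g5 g6 g7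
    have key := hardy_alg (m := mA n) (U := u y) (Z := zd k x y) (a := a)
      (i := (zd k x y + a)⁻¹) (b := bA n k h) (c0 := h ^ 2 - k ^ 2)
      hm hb (const_eq hm) (zd_nonneg k x y) ha rfl (fun h0 => (g4 h0).1) g5 g6 g7
    rw [g1, g2, g3]
    have e : (n : ℝ) / 2 = mA n + 1 := by rw [n_eq n]; ring
    rw [e]
    refine key.trans (le_of_eq ?_)
    ring
  have hI23 : Integrable (fun y => 2 / mA n * P.G u u y + bA n k h / mA n * u y ^ 2) P.τ :=
    (hI2.const_mul _).add (hI3.const_mul _)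
  have hI123 : Integrable (fun y => mA n / 2 * (((zd k x y + a)⁻¹ ^ 2) * u y ^ 2
      * P.G (zd k x) (zd k x) y)
      - (2 / mA n * P.G u u y + bA n k h / mA n * u y ^ 2)) P.τ :=
    (hI1.const_mul _).sub hI23
  have h2 := integral_mono_ae hI123 hI4 hae
  have e : ∫ y, (mA n / 2 * (((zd k x y + a)⁻¹ ^ 2) * u y ^ 2 * P.G (zd k x) (zd k x) y)
      - (2 / mA n * P.G u u y + bA n k h / mA n * u y ^ 2)) ∂P.τ
      = mA n / 2 * ∫ y, ((zd k x y + a)⁻¹ ^ 2) * u y ^ 2 * P.G (zd k x) (zd k x) y ∂P.τ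
      - (2 / mA n * ∫ y, P.G u u y ∂P.τ + bA n k h / mA n * ∫ y, u y ^ 2 ∂P.τ) := by
    rw [integral_sub (hI1.const_mul _) hI23, integral_const_mul,
      integral_add (hI2.const_mul _) (hI3.const_mul _), integral_const_mul,
      integral_const_mul]
  have h3 := h2.trans h1
  rw [e] at h3
  rw [P.energy_eq_add _ hu]
  have hs : 0 ≤ ∫ y, u y ^ 2 ∂P.τ := integral_nonneg fun y => sq_nonneg _
  generalize (∫ y, ((zd k x y + a)⁻¹ ^ 2) * u y ^ 2 * P.G (zd k x) (zd k x) y ∂P.τ) = I1 at *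
  generalize (∫ y, P.G u u y ∂P.τ) = I2 at *
  generalize (∫ y, u y ^ 2 ∂P.τ) = I3 at *
  generalize bA n k h = b at *
  generalize mA n = m at *
  have h4 : m / 2 * I1 ≤ 2 / m * I2 + b / m * I3 := by linarith
  have h5 : I1 = 2 / m * (m / 2 * I1) := by field_simp
  rw [h5]
  calc 2 / m * (m / 2 * I1) ≤ 2 / m * (2 / m * I2 + b / m * I3) :=
        mul_le_mul_of_nonneg_left h4 (by positivity)
    _ ≤ 4 / m ^ 2 * (I2 + b * I3) := by
        have e : 2 / m * (2 / m * I2 + b / m * I3) = 4 / m ^ 2 * (I2 + b * I3)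
          - 2 / m ^ 2 * (b * I3) := by field_simp; ring
        rw [e]
        have : 0 ≤ 2 / m ^ 2 * (b * I3) := by positivity
        linarith

end Crest.Agent.R241.A3
end

-- ▼ part R241/A3
section

/-!
R241, block A, A3: (KEY).
-/

set_option autoImplicit false

namespace Crest.Agent.R241.A3

open MeasureTheory Set Filter Topology Crest.Agent.R241.A Crest.Agent.R241.A3J
open scoped NNReal ENNReal

/-! ### one variable functions -/

/-- `J(r)`, with derivative `J1`. -/
noncomputable def J0 (m r : ℝ) : ℝ := Jab (m + 1) (2 * m + 2) r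
noncomputable def J1 (m r : ℝ) : ℝ := -(2 * m + 2) * Jab (m + 1 + 1) (2 * m + 2 + 1) r

lemma hasDerivAt_J0 {m r : ℝ} (hm : 0 < m) (hr : 0 ≤ r) : HasDerivAt (J0 m) (J1 m r) r :=
  hasDerivAt_Jab (by linarith) (by linarith) (by linarith)

lemma continuousOn_J0 {m : ℝ} (hm : 0 < m) : ContinuousOn (J0 m) (Ici 0) :=
  fun _ hr => (hasDerivAt_J0 hm hr).continuousAt.continuousWithinAt

lemma continuousOn_J1 {m : ℝ} (hm : 0 < m) : ContinuousOn (J1 m) (Ici 0) := by
  intro r hr
  have hr' : (0 : ℝ) ≤ r := hr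
  exact (continuousAt_const.mul (continuousAt_Jab (by linarith) (by linarith)
    (by linarith))).continuousWithinAt

lemma J_rel {m r : ℝ} (hm : 0 < m) (hr : 0 ≤ r) :
    ((1 + r) ^ (-m - 1)) ^ 2 = (m + 2) * J0 m r + r * J1 m r := by
  have h := Jab_rec (α := m + 1) (β := 2 * m + 2) (r := r) (by linarith) (by linarith)
  have h1 : 0 < 1 + r := by linarith
  have e : ((1 + r) ^ (-m - 1)) ^ 2 = (1 + r) ^ (-(2 * m + 2)) := by
    rw [← Real.rpow_natCast, ← Real.rpow_mul h1.le]; congr 1; push_cast; ring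
  rw [e, ← h]; unfold J0 J1; ring

/-- `(1+ts)^(-m)` -/
noncomputable def fA (m t s : ℝ) : ℝ := (1 + t * s) ^ (-m)
noncomputable def fA' (m t s : ℝ) : ℝ := t * (-m) * (1 + t * s) ^ (-m - 1)

lemma hasDerivAt_fA {m t s : ℝ} (ht : 0 < t) (hs : 0 ≤ s) :
    HasDerivAt (fA m t) (fA' m t s) s := by
  have h1 : 0 < 1 + t * s := by positivity
  have h2 : HasDerivAt (fun s : ℝ => 1 + t * s) t s := by
    simpa using ((hasDerivAt_id s).const_mul t).const_add 1
  exact h2.rpow_const (p := -m) (Or.inl h1.ne')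

lemma continuousOn_pow {t : ℝ} (p : ℝ) (ht : 0 < t) :
    ContinuousOn (fun s : ℝ => (1 + t * s) ^ p) (Ici 0) := by
  intro s hs
  have hs' : (0 : ℝ) ≤ s := hs
  have h1 : 0 < 1 + t * s := by positivity
  have h2 : ContinuousAt (fun s : ℝ => 1 + t * s) s := by fun_prop
  exact (h2.rpow_const (Or.inl h1.ne')).continuousWithinAt

lemma continuousOn_fA' {m t : ℝ} (ht : 0 < t) : ContinuousOn (fA' m t) (Ici 0) :=
  continuousOn_const.mul (continuousOn_pow _ ht)

/-- `T(s) = m² t² s J(ts)` -/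
noncomputable def fT (m t s : ℝ) : ℝ := m ^ 2 * t ^ 2 * (s * J0 m (t * s))
noncomputable def fT' (m t s : ℝ) : ℝ :=
  m ^ 2 * t ^ 2 * (1 * J0 m (t * s) + s * (J1 m (t * s) * t))

lemma hasDerivAt_J0t {m t s : ℝ} (hm : 0 < m) (ht : 0 < t) (hs : 0 ≤ s) :
    HasDerivAt (fun s => J0 m (t * s)) (J1 m (t * s) * t) s := by
  have h2 : HasDerivAt (fun s : ℝ => t * s) t s := by
    simpa using (hasDerivAt_id s).const_mul t
  exact (hasDerivAt_J0 hm (by positivity : (0:ℝ) ≤ t * s)).comp s h2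

lemma hasDerivAt_fT {m t s : ℝ} (hm : 0 < m) (ht : 0 < t) (hs : 0 ≤ s) :
    HasDerivAt (fT m t) (fT' m t s) s :=
  ((hasDerivAt_id' s).mul (hasDerivAt_J0t hm ht hs)).const_mul _

lemma mapsTo_mul {t : ℝ} (ht : 0 < t) : MapsTo (fun s : ℝ => t * s) (Ici 0) (Ici 0) :=
  fun s hs => by
    have hs' : (0 : ℝ) ≤ s := hs
    exact mem_Ici.2 (by positivity)

lemma continuousOn_J0t {m t : ℝ} (hm : 0 < m) (ht : 0 < t) :
    ContinuousOn (fun s => J0 m (t * s)) (Ici 0) :=
  (continuousOn_J0 hm).comp (by fun_prop) (mapsTo_mul ht)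

lemma continuousOn_J1t {m t : ℝ} (hm : 0 < m) (ht : 0 < t) :
    ContinuousOn (fun s => J1 m (t * s)) (Ici 0) :=
  (continuousOn_J1 hm).comp (by fun_prop) (mapsTo_mul ht)

lemma continuousOn_fT' {m t : ℝ} (hm : 0 < m) (ht : 0 < t) :
    ContinuousOn (fT' m t) (Ici 0) :=
  continuousOn_const.mul ((continuousOn_const.mul (continuousOn_J0t hm ht)).add
    (continuousOn_id.mul ((continuousOn_J1t hm ht).mul continuousOn_const)))

/-- `B(s) = (1+ts)^(-2m) + m t² s² J(ts) = H(ts)` -/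
noncomputable def fB (m t s : ℝ) : ℝ :=
  (1 + t * s) ^ (-(2 * m)) + m * t ^ 2 * (s ^ 2 * J0 m (t * s))
noncomputable def fB' (m t s : ℝ) : ℝ :=
  t * (-(2 * m)) * (1 + t * s) ^ (-(2 * m) - 1)
    + m * t ^ 2 * (2 * s * J0 m (t * s) + s ^ 2 * (J1 m (t * s) * t))

lemma hasDerivAt_fB {m t s : ℝ} (hm : 0 < m) (ht : 0 < t) (hs : 0 ≤ s) :
    HasDerivAt (fB m t) (fB' m t s) s := by
  have h1 : 0 < 1 + t * s := by positivity
  have h2 : HasDerivAt (fun s : ℝ => 1 + t * s) t s := by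
    simpa using ((hasDerivAt_id s).const_mul t).const_add 1
  have h3 : HasDerivAt (fun s : ℝ => s ^ 2) (2 * s) s := by
    simpa using hasDerivAt_pow 2 s
  exact (h2.rpow_const (p := -(2 * m)) (Or.inl h1.ne')).add
    ((h3.mul (hasDerivAt_J0t hm ht hs)).const_mul _)

lemma continuousOn_fB' {m t : ℝ} (hm : 0 < m) (ht : 0 < t) :
    ContinuousOn (fB' m t) (Ici 0) := by
  refine (continuousOn_const.mul (continuousOn_pow _ ht)).add (continuousOn_const.mul ?_)
  exact ((continuousOn_const.mul continuousOn_id).mul (continuousOn_J0t hm ht)).add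
    ((continuousOn_id.pow 2).mul ((continuousOn_J1t hm ht).mul continuousOn_const))

lemma HA_eq_fB {n : ℕ} (hm : 0 < mA n) {t s : ℝ} (ht : 0 < t) (hs : 0 ≤ s) :
    HA n (t * s) = fB (mA n) t s := by
  have h : 0 ≤ t * s := by positivity
  rw [HA_id hm (by linarith)]
  unfold fB J0; ring

/-- `C(s) = H(ts)`, second form. -/
noncomputable def fC (m t s : ℝ) : ℝ := m * Jab (m - 1) (2 * m + 2) (t * s)
noncomputable def fC' (m t s : ℝ) : ℝ :=
  m * (-(2 * m + 2) * Jab (m - 1 + 1) (2 * m + 2 + 1) (t * s) * t)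

lemma hasDerivAt_fC {m t s : ℝ} (hm : 0 < m) (ht : 0 < t) (hs : 0 ≤ s) :
    HasDerivAt (fC m t) (fC' m t s) s := by
  have h2 : HasDerivAt (fun s : ℝ => t * s) t s := by
    simpa using (hasDerivAt_id s).const_mul t
  have h3 : (0 : ℝ) ≤ t * s := by positivity
  exact ((hasDerivAt_Jab (α := m - 1) (β := 2 * m + 2) (by linarith) (by linarith)
    (by linarith : -1 < t * s)).comp s h2).const_mul m

lemma continuousOn_fC' {m t : ℝ} (hm : 0 < m) (ht : 0 < t) :
    ContinuousOn (fC' m t) (Ici 0) := by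
  intro s hs
  have hs' : (0 : ℝ) ≤ s := hs
  have h3 : (0 : ℝ) ≤ t * s := by positivity
  have h4 : ContinuousAt (fun s : ℝ => t * s) s := by fun_prop
  have h5 : ContinuousAt (Jab (m - 1 + 1) (2 * m + 2 + 1)) (t * s) :=
    continuousAt_Jab (by linarith) (by linarith) (by linarith)
  exact (continuousAt_const.mul ((continuousAt_const.mul
    (ContinuousAt.comp (f := fun s : ℝ => t * s) h5 h4)).mul
      continuousAt_const)).continuousWithinAt

lemma HA_eq_fC (n : ℕ) (t s : ℝ) : HA n (t * s) = fC (mA n) t s := HA_eq n _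

lemma fC_rel {m t s : ℝ} (hm : 0 < m) (ht : 0 < t) (hs : 0 ≤ s) :
    fC m t s + s / m * fC' m t s = (1 + t * s) ^ (-(2 * m + 2)) := by
  have h3 : (0 : ℝ) ≤ t * s := by positivity
  rw [← Jab_rec (α := m - 1) (β := 2 * m + 2) (r := t * s) (by linarith) (by linarith)]
  unfold fC fC'
  field_simp
  ring

lemma fC_nonneg {m t s : ℝ} (hm : 0 < m) (ht : 0 < t) (hs : 0 ≤ s) : 0 ≤ fC m t s := by
  have h3 : (0 : ℝ) ≤ t * s := by positivity
  exact mul_nonneg hm.le (Jab_nonneg (by linarith))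

lemma fC_le_one {m t s : ℝ} (hm : 0 < m) (ht : 0 < t) (hs : 0 ≤ s) : fC m t s ≤ 1 := by
  have h3 : (0 : ℝ) ≤ t * s := by positivity
  have h := Jab_le (α := m - 1) (β := 2 * m + 2) (r := t * s) (by linarith) (by linarith) h3
  have e : m - 1 + 1 = m := by ring
  rw [e] at h
  unfold fC
  calc m * Jab (m - 1) (2 * m + 2) (t * s) ≤ m * (1 / m) := mul_le_mul_of_nonneg_left h hm.le
    _ = 1 := by field_simp

lemma abs_fC'_le {m t s : ℝ} (hm : 0 < m) (ht : 0 < t) (hs : 0 ≤ s) :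
    |fC' m t s| ≤ 2 * m * t := by
  have h3 : (0 : ℝ) ≤ t * s := by positivity
  have h := Jab_le (α := m - 1 + 1) (β := 2 * m + 2 + 1) (r := t * s)
    (by linarith) (by linarith) h3
  have h0 : 0 ≤ Jab (m - 1 + 1) (2 * m + 2 + 1) (t * s) := Jab_nonneg (by linarith)
  have e : m - 1 + 1 + 1 = m + 1 := by ring
  rw [e] at h
  have e2 : fC' m t s = -(m * (2 * m + 2) * t * Jab (m - 1 + 1) (2 * m + 2 + 1) (t * s)) := by
    unfold fC'; ring
  rw [e2, abs_neg, abs_of_nonneg (by positivity)]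
  calc m * (2 * m + 2) * t * Jab (m - 1 + 1) (2 * m + 2 + 1) (t * s)
      ≤ m * (2 * m + 2) * t * (1 / (m + 1)) := by gcongr
    _ = 2 * m * t := by field_simp

lemma s_fC'_le {m t s : ℝ} (hm : 0 < m) (ht : 0 < t) (hs : 0 ≤ s) :
    |s * fC' m t s| ≤ m := by
  have h1 := fC_rel hm ht hs
  have h2 := fC_nonneg hm ht hs
  have h3 := fC_le_one hm ht hs
  have h4 : 0 ≤ (1 + t * s) ^ (-(2 * m + 2)) := Real.rpow_nonneg (by positivity) _
  have h5 : (1 + t * s) ^ (-(2 * m + 2)) ≤ 1 := by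
    apply Real.rpow_le_one_of_one_le_of_nonpos _ (by linarith)
    have : 0 ≤ t * s := by positivity
    linarith
  have e : s * fC' m t s = m * ((1 + t * s) ^ (-(2 * m + 2)) - fC m t s) := by
    rw [← h1]; field_simp; ring
  rw [e, abs_mul, abs_of_pos hm]
  have : |(1 + t * s) ^ (-(2 * m + 2)) - fC m t s| ≤ 1 := abs_le.2 ⟨by linarith, by linarith⟩
  calc m * |(1 + t * s) ^ (-(2 * m + 2)) - fC m t s| ≤ m * 1 :=
        mul_le_mul_of_nonneg_left this hm.le
    _ = m := mul_one m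

/-! ### pointwise algebra -/

/-- The key pointwise identity. -/
lemma key_alg (m t U Z p j0 j1 a1 c0 b N Guu Guz Gzz : ℝ) (hm : m ≠ 0) (hU : U ≠ 0)
    (hN : N = 2 * m + 2) (hb : b = m * N * c0 / 2)
    (hZ : Z = 0 → Gzz = 0 ∧ Guz = 0)
    (ha : a1 ^ 2 = (m + 2) * j0 + t * (Z * p) * j1) :
    -- w = Z p,  A = (1 + t w) a1
    ((U * (t * (-(2 * m)) * ((1 + t * (Z * p)) * a1 ^ 2)
        + m * t ^ 2 * (2 * (Z * p) * j0 + (Z * p) ^ 2 * (j1 * t))) * (Z * (1 / m * (p / U)))
        + (((1 + t * (Z * p)) * a1) ^ 2 + m * t ^ 2 * ((Z * p) ^ 2 * j0)) * 1) * Guu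
      + (U * (t * (-(2 * m)) * ((1 + t * (Z * p)) * a1 ^ 2)
        + m * t ^ 2 * (2 * (Z * p) * j0 + (Z * p) ^ 2 * (j1 * t))) * p) * Guz
      + b * (U * (U * (((1 + t * (Z * p)) * a1) ^ 2 + m * t ^ 2 * ((Z * p) ^ 2 * j0)))))
    - ((U * (t * (-m) * a1) * (Z * (1 / m * (p / U))) + ((1 + t * (Z * p)) * a1) * 1) ^ 2 * Guu
      + 2 * ((U * (t * (-m) * a1) * (Z * (1 / m * (p / U))) + ((1 + t * (Z * p)) * a1) * 1)
        * (U * (t * (-m) * a1) * p)) * Guz
      + (U * (t * (-m) * a1) * p) ^ 2 * Gzz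
      + b * ((U * ((1 + t * (Z * p)) * a1)) * (U * ((1 + t * (Z * p)) * a1))))
    = -(((U ^ 2 * p) * (m ^ 2 * t ^ 2 * (1 * j0 + (Z * p) * (j1 * t))) * (Z * (1 / m * (p / U)))
        + (m ^ 2 * t ^ 2 * ((Z * p) * j0)) * ((2 + 1 / m) * (U * p))) * Guz
      + ((U ^ 2 * p) * (m ^ 2 * t ^ 2 * (1 * j0 + (Z * p) * (j1 * t))) * p) * Gzz
      + N / 2 * ((U ^ 2 * p) * (m ^ 2 * t ^ 2 * ((Z * p) * j0))) * (Gzz / Z - c0 * Z)) := by
  subst hN hb
  rcases eq_or_ne Z 0 with h0 | h0
  · obtain ⟨h1, h2⟩ := hZ h0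
    subst h0
    rw [h1, h2]
    ring
  · have hZZ : Gzz = (Gzz / Z) * Z := by field_simp
    set g := Gzz / Z with hg
    rw [hZZ]
    have hj : t * (Z * p) * j1 = a1 ^ 2 - (m + 2) * j0 := by linarith
    field_simp
    linear_combination (-((t * Z * p) ^ 2 * Guu + 2 * U * t * m * p * (t * Z * p) * Guz
      + U ^ 2 * t ^ 2 * m ^ 2 * Z * p ^ 2 * g)) * ha

/-! ### the functions of `w` -/

variable {n : ℕ} {k : ℝ} {K : Type*} [MetricSpace K] [CompactSpace K]
  [MeasurableSpace K] [BorelSpace K]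

omit [CompactSpace K] [MeasurableSpace K] [BorelSpace K] in
lemma wA_nonneg (x : K) {u : K → ℝ} (hpos : ∀ y, 0 < u y) (y : K) : 0 ≤ wA n k x u y :=
  mul_nonneg (zd_nonneg k x y) (Real.rpow_nonneg (hpos y).le _)

/-- gradient of `w`. -/
lemma D_w (P : PreData n k K) (x : K) {u : K → ℝ} (hu : Lip u) (hpos : ∀ y, 0 < u y) :
    D P u (zd k x) (wA n k x u)
      (fun y => zd k x y * (1 / mA n * (u y ^ (1 / mA n) / u y)))
      (fun y => u y ^ (1 / mA n)) := by
  have h1 := (D.snd (P := P) (u := u) (lip_zd k x)).mul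
    ((D.fst (P := P) (z := zd k x) hu).rpow hpos (1 / mA n))
  refine ⟨h1.lip, fun g hg => ?_⟩
  filter_upwards [h1.eq g hg] with y hy
  have e : (fun y => zd k x y * u y ^ (1 / mA n)) = wA n k x u := rfl
  rw [e] at hy
  rw [hy]
  have e2 : u y ^ (1 / mA n - 1) = u y ^ (1 / mA n) / u y := by
    rw [Real.rpow_sub (hpos y), Real.rpow_one]
  rw [e2]; ring

lemma D_comp_w (P : PreData n k K) (x : K) {u : K → ℝ} (hu : Lip u) (hpos : ∀ y, 0 < u y)
    {φ φ' : ℝ → ℝ} (hφ : ∀ s, 0 ≤ s → HasDerivAt φ (φ' s) s) (hc : ContinuousOn φ' (Ici 0)) :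
    D P u (zd k x) (fun y => u y * φ (wA n k x u y))
      (fun y => u y * (φ' (wA n k x u y) * (zd k x y * (1 / mA n * (u y ^ (1 / mA n) / u y))))
        + φ (wA n k x u y) * 1)
      (fun y => u y * (φ' (wA n k x u y) * u y ^ (1 / mA n)) + φ (wA n k x u y) * 0) :=
  (D.fst (P := P) (z := zd k x) hu).mul ((D_w P x hu hpos).comp_nonneg (wA_nonneg x hpos) hφ hc)

/-- (KEY), first part. -/
theorem key1 {h : ℝ} (hm : 0 < mA n) {P : PreData n k K} (hfv : T_fv' P h) (x : K) {t : ℝ}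
    (ht : 0 < t) {u : K → ℝ} (hu : Lip u) (hpos : ∀ y, 0 < u y) :
    Lip (fun y => u y * (1 + t * wA n k x u y) ^ (-(mA n))) ∧
    Lip (fun y => u y * HA n (t * wA n k x u y)) ∧
    P.energy (bA n k h) (fun y => u y * (1 + t * wA n k x u y) ^ (-(mA n)))
      ≤ P.form (bA n k h) u (fun y => u y * HA n (t * wA n k x u y)) := by
  have hzl : Lip (zd k x) := lip_zd k x
  have hDA := D_comp_w P x hu hpos (φ := fA (mA n) t) (φ' := fA' (mA n) t)
    (fun s hs => hasDerivAt_fA ht hs) (continuousOn_fA' ht)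
  have hDB := D_comp_w P x hu hpos (φ := fB (mA n) t) (φ' := fB' (mA n) t)
    (fun s hs => hasDerivAt_fB hm ht hs) (continuousOn_fB' hm ht)
  have hDT := (D_w P x hu hpos).comp_nonneg (wA_nonneg x hpos) (φ := fT (mA n) t)
    (φ' := fT' (mA n) t) (fun s hs => hasDerivAt_fT hm ht hs) (continuousOn_fT' hm ht)
  have hDU := (D.fst (P := P) (z := zd k x) hu).rpow hpos (2 + 1 / mA n)
  have hDf := hDU.mul hDT
  have eB : (fun y => u y * HA n (t * wA n k x u y))
      = fun y => u y * fB (mA n) t (wA n k x u y) := by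
    ext y; rw [HA_eq_fB hm ht (wA_nonneg x hpos y)]
  have eA : (fun y => u y * (1 + t * wA n k x u y) ^ (-(mA n)))
      = fun y => u y * fA (mA n) t (wA n k x u y) := rfl
  rw [eA, eB]
  refine ⟨hDA.lip, hDB.lip, ?_⟩
  -- the test function
  have hf0 : ∀ y, 0 ≤ u y ^ (2 + 1 / mA n) * fT (mA n) t (wA n k x u y) := by
    intro y
    have h1 := wA_nonneg (n := n) (k := k) x hpos y
    have h2 : 0 ≤ J0 (mA n) (t * wA n k x u y) := Jab_nonneg (by
      have : 0 ≤ t * wA n k x u y := by positivity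
      linarith)
    have h3 := Real.rpow_nonneg (hpos y).le (2 + 1 / mA n)
    unfold fT
    positivity
  have hineq := hfv x _ hDf.lip hf0
  have hI1 := P.integrable_form (bA n k h) hu hDB.lip
  have hI2 := P.integrable_form (bA n k h) hDA.lip hDA.lip
  have hdiff : P.form (bA n k h) u (fun y => u y * fB (mA n) t (wA n k x u y))
      - P.energy (bA n k h) (fun y => u y * fA (mA n) t (wA n k x u y))
      = - ∫ y, (P.G (fun y => u y ^ (2 + 1 / mA n) * fT (mA n) t (wA n k x u y)) (zd k x) y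
        + (n : ℝ) / 2 * (u y ^ (2 + 1 / mA n) * fT (mA n) t (wA n k x u y)) *
        (P.G (zd k x) (zd k x) y / zd k x y - (h ^ 2 - k ^ 2) * zd k x y)) ∂P.τ := by
    unfold PreData.energy PreData.form
    rw [← integral_sub hI1 hI2, ← integral_neg]
    refine integral_congr_ae ?_
    filter_upwards [D.pair hu hzl (D.fst (z := zd k x) hu) hDB, D.pair hu hzl hDA hDA,
      hDf.eq (zd k x) hzl, G_zero_of_zd_zero P x hu] with y h1 h2 h3 h4
    rw [h1, h2, h3]
    have hU := hpos y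
    have hw0 := wA_nonneg (n := n) (k := k) x hpos y
    have hw : wA n k x u y = zd k x y * u y ^ (1 / mA n) := rfl
    have htw : 0 ≤ t * wA n k x u y := by positivity
    have hb1 : 0 < 1 + t * wA n k x u y := by linarith
    set U := u y with hUdef
    set w := wA n k x u y with hwdef
    set a1 := (1 + t * w) ^ (-(mA n) - 1) with ha1
    have hfA : fA (mA n) t w = (1 + t * w) * a1 := by
      unfold fA
      rw [ha1]
      nth_rewrite 2 [← Real.rpow_one (1 + t * w)]
      rw [← Real.rpow_add hb1]; congr 1; ring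
    have hfA' : fA' (mA n) t w = t * (-(mA n)) * a1 := rfl
    have hB1 : (1 + t * w) ^ (-(2 * mA n)) = ((1 + t * w) * a1) ^ 2 := by
      rw [← hfA]; unfold fA
      rw [← Real.rpow_natCast, ← Real.rpow_mul hb1.le]; congr 1; push_cast; ring
    have hB2 : (1 + t * w) ^ (-(2 * mA n) - 1) = (1 + t * w) * a1 ^ 2 := by
      have e1 : (1 + t * w) * a1 ^ 2 = ((1 + t * w) * a1) * a1 := by ring
      rw [e1, ← hfA, ha1]; unfold fA
      rw [← Real.rpow_add hb1]; congr 1; ring
    have hfB : fB (mA n) t w = ((1 + t * w) * a1) ^ 2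
        + mA n * t ^ 2 * (w ^ 2 * J0 (mA n) (t * w)) := by
      unfold fB; rw [hB1]
    have hfB' : fB' (mA n) t w = t * (-(2 * mA n)) * ((1 + t * w) * a1 ^ 2)
        + mA n * t ^ 2 * (2 * w * J0 (mA n) (t * w) + w ^ 2 * (J1 (mA n) (t * w) * t)) := by
      unfold fB'; rw [hB2]
    have hU2 : U ^ (2 + 1 / mA n) = U ^ 2 * U ^ (1 / mA n) := by
      rw [Real.rpow_add hU]; norm_num
    have hU3 : U ^ (2 + 1 / mA n - 1) = U * U ^ (1 / mA n) := by
      have : 2 + 1 / mA n - 1 = 1 + 1 / mA n := by ring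
      rw [this, Real.rpow_add hU, Real.rpow_one]
    have hfT : fT (mA n) t w = mA n ^ 2 * t ^ 2 * (w * J0 (mA n) (t * w)) := rfl
    have hfT' : fT' (mA n) t w = mA n ^ 2 * t ^ 2 *
      (1 * J0 (mA n) (t * w) + w * (J1 (mA n) (t * w) * t)) := rfl
    have hrel := J_rel hm htw
    rw [hfA, hfA', hfB, hfB', hfT, hfT', hU2, hU3]
    set p := U ^ (1 / mA n) with hp
    have key := key_alg (mA n) t U (zd k x y) p (J0 (mA n) (t * w)) (J1 (mA n) (t * w)) a1
      (h ^ 2 - k ^ 2) (bA n k h) n (P.G u u y) (P.G u (zd k x) y) (P.G (zd k x) (zd k x) y)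
      hm.ne' hU.ne' (n_eq n) rfl h4 (by rw [← hw]; exact hrel.trans (by ring))
    rw [← hw] at key
    refine Eq.trans ?_ (key.trans ?_)
    · ring
    · ring
  have : 0 ≤ P.form (bA n k h) u (fun y => u y * fB (mA n) t (wA n k x u y))
      - P.energy (bA n k h) (fun y => u y * fA (mA n) t (wA n k x u y)) := by
    rw [hdiff]; linarith
  linarith

lemma amgm {e β Guu Guz Gzz : ℝ} (h3 : 0 ≤ Guu) (h2 : 0 ≤ Gzz) (h4 : Guz ^ 2 ≤ Guu * Gzz) :
    (e * β + β * e) * Guz ≤ e * e * Guu + β * β * Gzz := by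
  have h8 : (2 * e * β * Guz) ^ 2 ≤ (e ^ 2 * Guu + β ^ 2 * Gzz) ^ 2 := by
    have e1 : (2 * e * β * Guz) ^ 2 = 4 * (e ^ 2 * β ^ 2) * Guz ^ 2 := by ring
    have e2 : 4 * (e ^ 2 * β ^ 2) * Guz ^ 2 ≤ 4 * (e ^ 2 * β ^ 2) * (Guu * Gzz) :=
      mul_le_mul_of_nonneg_left h4 (by positivity)
    have e3 := sq_nonneg (e ^ 2 * Guu - β ^ 2 * Gzz)
    have e4 : (e ^ 2 * Guu + β ^ 2 * Gzz) ^ 2 = (e ^ 2 * Guu - β ^ 2 * Gzz) ^ 2
      + 4 * (e ^ 2 * β ^ 2) * (Guu * Gzz) := by ring
    rw [e1, e4]; linarith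
  have h9 := (abs_le_of_sq_le_sq' h8 (by positivity)).2
  calc (e * β + β * e) * Guz = 2 * e * β * Guz := by ring
    _ ≤ e ^ 2 * Guu + β ^ 2 * Gzz := h9
    _ = _ := by ring

/-- (KEY), uniform bound. -/
theorem key2 {h : ℝ} (hm : 0 < mA n) (hb : 0 ≤ bA n k h) {P : PreData n k K}
    (hfv : T_fv' P h) (x : K) {t : ℝ}
    (ht : 0 < t) {u : K → ℝ} (hu : Lip u) (hpos : ∀ y, 0 < u y) :
    P.energy (bA n k h) (fun y => u y * HA n (t * wA n k x u y))
      ≤ 74 * P.energy (bA n k h) u := by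
  have hzl : Lip (zd k x) := lip_zd k x
  have hD := D_comp_w P x hu hpos (φ := fC (mA n) t) (φ' := fC' (mA n) t)
    (fun s hs => hasDerivAt_fC hm ht hs) (continuousOn_fC' hm ht)
  have eC : (fun y => u y * HA n (t * wA n k x u y))
      = fun y => u y * fC (mA n) t (wA n k x u y) := by
    ext y; rw [HA_eq_fC n t]
  rw [eC]
  -- the scale `a`
  obtain ⟨M, hM, huM⟩ := exists_bound_of_continuous
    (hu.rpow hpos (1 / mA n)).continuous
  have ha : 0 < 1 / (t * M) := by positivity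
  have hH := hardy hm hb hfv x ha hu
  obtain ⟨hinvL, -⟩ := G_inv P x ha
  set a := 1 / (t * M) with hadef
  have hI1 : Integrable (fun y => ((zd k x y + a)⁻¹ ^ 2) * u y ^ 2
      * P.G (zd k x) (zd k x) y) P.τ :=
    P.integrable_mul_G hzl hzl (hinvL.sq.mul hu.sq).continuous
  have hI2 : Integrable (fun y => P.G u u y) P.τ := P.integrable_G hu hu
  have hI3 : Integrable (fun y => u y ^ 2) P.τ := P.integrable_lip hu.sq
  have hI4 := P.integrable_form (bA n k h) hD.lip hD.lip
  have hI5 : Integrable (fun y => 2 * P.G u u y + 18 * mA n ^ 2 * (((zd k x y + a)⁻¹ ^ 2)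
      * u y ^ 2 * P.G (zd k x) (zd k x) y)) P.τ := (hI2.const_mul 2).add (hI1.const_mul _)
  have hI6 : Integrable (fun y => 2 * P.G u u y + 18 * mA n ^ 2 * (((zd k x y + a)⁻¹ ^ 2)
      * u y ^ 2 * P.G (zd k x) (zd k x) y) + bA n k h * u y ^ 2) P.τ :=
    hI5.add (hI3.const_mul _)
  have hle : P.energy (bA n k h) (fun y => u y * fC (mA n) t (wA n k x u y))
      ≤ ∫ y, (2 * P.G u u y + 18 * mA n ^ 2 * (((zd k x y + a)⁻¹ ^ 2) * u y ^ 2
        * P.G (zd k x) (zd k x) y) + bA n k h * u y ^ 2) ∂P.τ := by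
    unfold PreData.energy PreData.form
    refine integral_mono_ae hI4 hI6 ?_
    filter_upwards [D.pair hu hzl hD hD, P.G_nonneg _ hzl, P.G_nonneg u hu, P.G_sq_le hu hzl]
      with y h1 h2 h3 h4
    rw [h1]
    have hU := hpos y
    have hw0 := wA_nonneg (n := n) (k := k) x hpos y
    have hw : wA n k x u y = zd k x y * u y ^ (1 / mA n) := rfl
    have hZ0 : 0 ≤ zd k x y := zd_nonneg k x y
    have hza : 0 < zd k x y + a := zd_add_pos k x ha y
    have hpM : u y ^ (1 / mA n) ≤ M := (le_abs_self _).trans (huM y)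
    have hp0 : 0 < u y ^ (1 / mA n) := Real.rpow_pos_of_pos hU _
    have hrel := fC_rel hm ht hw0
    have hC0 := fC_nonneg hm ht hw0
    have hC1 := fC_le_one hm ht hw0
    have hC2 := abs_fC'_le hm ht hw0
    have hC3 := s_fC'_le hm ht hw0
    have hE0 : 0 ≤ (1 + t * wA n k x u y) ^ (-(2 * mA n + 2)) :=
      Real.rpow_nonneg (by positivity) _
    have hE1 : (1 + t * wA n k x u y) ^ (-(2 * mA n + 2)) ≤ 1 := by
      apply Real.rpow_le_one_of_one_le_of_nonpos _ (by linarith)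
      have : 0 ≤ t * wA n k x u y := by positivity
      linarith
    have hat : a * t * M = 1 := by rw [hadef]; field_simp
    set U := u y with hUdef
    set w := wA n k x u y with hwdef
    set p := U ^ (1 / mA n) with hp
    set Z := zd k x y with hZdef
    set c := fC (mA n) t w with hc
    set c' := fC' (mA n) t w with hc'
    set E1 := (1 + t * w) ^ (-(2 * mA n + 2)) with hE
    set Guu := P.G u u y
    set Guz := P.G u (zd k x) y
    set Gzz := P.G (zd k x) (zd k x) y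
    -- coefficients
    have hα : U * (c' * (Z * (1 / mA n * (p / U)))) + c * 1 = E1 := by
      rw [← hrel, hw]; field_simp; ring
    have hβ : U * (c' * p) + c * 0 = U * (c' * p) := by ring
    rw [hα, hβ]
    -- bound on `p c' (Z+a)`
    have hβ1 : |p * c' * (Z + a)| ≤ 3 * mA n := by
      have e : p * c' * (Z + a) = w * c' + p * a * c' := by rw [hw]; ring
      rw [e]
      have h5 : |p * a * c'| ≤ 2 * mA n := by
        rw [abs_mul, abs_of_pos (by positivity : 0 < p * a)]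
        calc p * a * |c'| ≤ M * a * (2 * mA n * t) := by gcongr
          _ = 2 * mA n * (a * t * M) := by ring
          _ = 2 * mA n := by rw [hat, mul_one]
      calc |w * c' + p * a * c'| ≤ |w * c'| + |p * a * c'| := abs_add_le _ _
        _ ≤ mA n + 2 * mA n := add_le_add hC3 h5
        _ = 3 * mA n := by ring
    have hβ2 : (c' * p) ^ 2 ≤ 9 * mA n ^ 2 * (Z + a)⁻¹ ^ 2 := by
      have h6 : (p * c' * (Z + a)) ^ 2 ≤ (3 * mA n) ^ 2 := by
        rw [← sq_abs]
        exact pow_le_pow_left₀ (abs_nonneg _) hβ1 2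
      have e : (c' * p) ^ 2 = (p * c' * (Z + a)) ^ 2 * (Z + a)⁻¹ ^ 2 := by
        field_simp
      rw [e]
      calc (p * c' * (Z + a)) ^ 2 * (Z + a)⁻¹ ^ 2 ≤ (3 * mA n) ^ 2 * (Z + a)⁻¹ ^ 2 :=
            mul_le_mul_of_nonneg_right h6 (by positivity)
        _ = _ := by ring
    -- AM-GM
    have h7 : (E1 * (U * (c' * p)) + U * (c' * p) * E1) * Guz
        ≤ E1 * E1 * Guu + U * (c' * p) * (U * (c' * p)) * Gzz := amgm h3 h2 h4
    have h8 : E1 * E1 * Guu ≤ Guu := by
      have : E1 * E1 ≤ 1 := mul_le_one₀ hE1 hE0 hE1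
      exact mul_le_of_le_one_left h3 this
    have h9 : U * (c' * p) * (U * (c' * p)) * Gzz
        ≤ 9 * mA n ^ 2 * ((Z + a)⁻¹ ^ 2 * U ^ 2 * Gzz) := by
      have e : U * (c' * p) * (U * (c' * p)) * Gzz = (c' * p) ^ 2 * (U ^ 2 * Gzz) := by ring
      rw [e]
      calc (c' * p) ^ 2 * (U ^ 2 * Gzz) ≤ (9 * mA n ^ 2 * (Z + a)⁻¹ ^ 2) * (U ^ 2 * Gzz) :=
            mul_le_mul_of_nonneg_right hβ2 (by positivity)
        _ = _ := by ring
    have h10 : bA n k h * (U * c * (U * c)) ≤ bA n k h * U ^ 2 := by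
      apply mul_le_mul_of_nonneg_left _ hb
      have e : U * c * (U * c) = U ^ 2 * (c * c) := by ring
      rw [e]
      have : c * c ≤ 1 := mul_le_one₀ hC1 hC0 hC1
      exact mul_le_of_le_one_right (sq_nonneg U) this
    linarith
  refine hle.trans ?_
  rw [integral_add hI5 (hI3.const_mul _), integral_add (hI2.const_mul 2) (hI1.const_mul _),
    integral_const_mul, integral_const_mul, integral_const_mul]
  have hE := P.energy_eq_add (bA n k h) hu
  have hG : 0 ≤ ∫ y, P.G u u y ∂P.τ := integral_nonneg_of_ae (P.G_nonneg u hu)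
  have hs : 0 ≤ ∫ y, u y ^ 2 ∂P.τ := integral_nonneg fun y => sq_nonneg _
  have hbs := mul_nonneg hb hs
  have h11 : 18 * mA n ^ 2 * ∫ y, ((zd k x y + a)⁻¹ ^ 2) * u y ^ 2
      * P.G (zd k x) (zd k x) y ∂P.τ ≤ 72 * P.energy (bA n k h) u := by
    calc 18 * mA n ^ 2 * ∫ y, ((zd k x y + a)⁻¹ ^ 2) * u y ^ 2
          * P.G (zd k x) (zd k x) y ∂P.τ
        ≤ 18 * mA n ^ 2 * (4 / mA n ^ 2 * P.energy (bA n k h) u) :=
          mul_le_mul_of_nonneg_left hH (by positivity)
      _ = 72 * P.energy (bA n k h) u := by field_simp; ring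
  linarith

/-- (KEY). -/
theorem t_key {h : ℝ} (hn : 3 ≤ n) (hk : 0 ≤ k) (hkh : k < h) (P : PreData n k K)
    (hfv : T_fv' P h) : T_key P h :=
  ⟨fun x _ _ ht hu hpos => key1 (mA_pos hn) hfv x ht hu hpos, 74, by norm_num,
    fun x _ _ ht hu hpos => key2 (mA_pos hn) (bA_pos hn hk hkh).le hfv x ht hu hpos⟩

end Crest.Agent.R241.A3
end

-- ▼ part R241/A4Ode
section

/-!
R241, block A, T_ode: the ODE comparison.
-/

set_option autoImplicit false

namespace Crest.Agent.R241.A4Ode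

open MeasureTheory Set Filter Topology Crest.Agent.R241.A
open scoped NNReal ENNReal

lemma intInt {m : ℝ} (hm : 0 < m) {N : ℝ → ℝ} (hN : Continuous N) (a b : ℝ) :
    IntervalIntegrable (fun s => m * s ^ (m - 1) * N s) volume a b :=
  ((intervalIntegral.intervalIntegrable_rpow' (by linarith : -1 < m - 1)).const_mul m
    ).mul_continuousOn hN.continuousOn

lemma W_pos {m : ℝ} (hm : 0 < m) {N : ℝ → ℝ} (hN : Continuous N)
    (hpos : ∀ s, 0 ≤ s → 0 < N s) {t : ℝ} (ht : 0 < t) :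
    0 < ∫ s in (0 : ℝ)..t, m * s ^ (m - 1) * N s := by
  apply intervalIntegral.intervalIntegral_pos_of_pos_on (intInt hm hN 0 t) _ ht
  intro x hx
  have h1 : 0 < x ^ (m - 1) := Real.rpow_pos_of_pos hx.1 _
  have h2 := hpos x hx.1.le
  positivity

lemma W_deriv {m : ℝ} (hm : 0 < m) {N : ℝ → ℝ} (hN : Continuous N) {t : ℝ} (ht : 0 < t) :
    HasDerivAt (fun t => ∫ s in (0 : ℝ)..t, m * s ^ (m - 1) * N s) (m * t ^ (m - 1) * N t) t := by
  have hcont : ContinuousOn (fun s : ℝ => m * s ^ (m - 1) * N s) (Ioi 0) := by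
    intro s hs
    have hs0 : s ≠ 0 := ne_of_gt hs
    exact ((continuousAt_const.mul
      (Real.continuousAt_rpow_const s (m - 1) (Or.inl hs0))).mul
        hN.continuousAt).continuousWithinAt
  apply intervalIntegral.integral_hasDerivAt_right (intInt hm hN 0 t)
  · exact hcont.stronglyMeasurableAtFilter isOpen_Ioi t ht
  · exact hcont.continuousAt (Ioi_mem_nhds ht)

theorem t_ode : T_ode := by
  intro m q e t0 T N hm hq he ht0 htT hN hpos hyp
  set W : ℝ → ℝ := fun t => ∫ s in (0 : ℝ)..t, m * s ^ (m - 1) * N s with hW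
  have hWpos : ∀ t, 0 < t → 0 < W t := fun t ht => W_pos hm hN hpos ht
  have hT : 0 < T := ht0.trans_le htT
  set c : ℝ := e * T ^ m with hc
  have hc0 : 0 ≤ c := mul_nonneg he (Real.rpow_nonneg hT.le _)
  have hWt : ∀ t, 0 < t → 0 < W t + c := fun t ht => by have := hWpos t ht; linarith
  set p : ℝ := (q - 2) / 2 with hp
  have hp0 : 0 < p := by rw [hp]; linarith
  have hq2 : q / 2 = p + 1 := by rw [hp]; ring
  -- key pointwise bound
  have hkey : ∀ t ∈ Icc t0 T, N t ≤ (t ^ (-m) * (W t + c)) ^ (q / 2) := by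
    intro t ht
    have htp : 0 < t := ht0.trans_le ht.1
    have h1 : N t ^ (2 / q) ≤ t ^ (-m) * (W t + c) := by
      refine (hyp t ht).trans ?_
      rw [mul_add]
      have : e ≤ t ^ (-m) * c := by
        rw [hc]
        have h2 : t ^ (-m) * t ^ m = 1 := by
          rw [← Real.rpow_add htp]; simp
        have h3 : t ^ m ≤ T ^ m := Real.rpow_le_rpow htp.le ht.2 hm.le
        have h4 : 0 < t ^ (-m) := Real.rpow_pos_of_pos htp _
        calc e = e * (t ^ (-m) * t ^ m) := by rw [h2, mul_one]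
          _ ≤ e * (t ^ (-m) * T ^ m) := by gcongr
          _ = _ := by ring
      linarith
    have hNt := hpos t htp.le
    have h2 : N t = (N t ^ (2 / q)) ^ (q / 2) := by
      rw [← Real.rpow_mul hNt.le]
      have : 2 / q * (q / 2) = 1 := by field_simp
      rw [this, Real.rpow_one]
    rw [h2]
    exact Real.rpow_le_rpow (Real.rpow_nonneg hNt.le _) h1 (by linarith)
  have hmono : MonotoneOn (fun t => (W t + c) ^ (-p) - t ^ (-(m * p))) (Icc t0 T) := by
    have hder : ∀ t, 0 < t → HasDerivAt (fun t => (W t + c) ^ (-p) - t ^ (-(m * p)))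
        ((m * t ^ (m - 1) * N t) * (-p) * (W t + c) ^ (-p - 1)
          - (-(m * p)) * t ^ (-(m * p) - 1)) t := by
      intro t ht
      have h1 := ((W_deriv hm hN ht).add_const c).rpow_const (p := -p)
        (Or.inl (hWt t ht).ne')
      have h2 := Real.hasDerivAt_rpow_const (x := t) (p := -(m * p)) (Or.inl ht.ne')
      exact h1.sub h2
    apply monotoneOn_of_deriv_nonneg (convex_Icc _ _)
    · intro t ht
      exact (hder t (ht0.trans_le ht.1)).continuousAt.continuousWithinAt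
    · intro t ht
      have ht' := interior_subset ht
      exact (hder t (ht0.trans_le ht'.1)).differentiableAt.differentiableWithinAt
    · intro t ht
      have ht' := interior_subset ht
      have htp : 0 < t := ht0.trans_le ht'.1
      rw [(hder t htp).deriv]
      have h1 := hkey t ht'
      have hA : 0 < W t + c := hWt t htp
      have h2 : (t ^ (-m) * (W t + c)) ^ (q / 2) * (W t + c) ^ (-p - 1)
          = t ^ (-(m * (p + 1))) := by
        rw [Real.mul_rpow (Real.rpow_nonneg htp.le _) hA.le, hq2, mul_assoc,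
          ← Real.rpow_add hA, ← Real.rpow_mul htp.le]
        have : p + 1 + (-p - 1) = 0 := by ring
        rw [this, Real.rpow_zero, mul_one]
        congr 1; ring
      have h3 : t ^ (m - 1) * t ^ (-(m * (p + 1))) = t ^ (-(m * p) - 1) := by
        rw [← Real.rpow_add htp]; congr 1; ring
      have h4 : N t * (W t + c) ^ (-p - 1) ≤ t ^ (-(m * (p + 1))) := by
        rw [← h2]
        exact mul_le_mul_of_nonneg_right h1 (Real.rpow_nonneg hA.le _)
      have h5 : t ^ (m - 1) * (N t * (W t + c) ^ (-p - 1)) ≤ t ^ (-(m * p) - 1) := by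
        rw [← h3]
        exact mul_le_mul_of_nonneg_left h4 (Real.rpow_nonneg htp.le _)
      have h6 : (m * t ^ (m - 1) * N t) * (-p) * (W t + c) ^ (-p - 1)
          - (-(m * p)) * t ^ (-(m * p) - 1)
          = m * p * (t ^ (-(m * p) - 1) - t ^ (m - 1) * (N t * (W t + c) ^ (-p - 1))) := by
        ring
      rw [h6]
      have : 0 ≤ t ^ (-(m * p) - 1) - t ^ (m - 1) * (N t * (W t + c) ^ (-p - 1)) := by linarith
      positivity
  have h1 := hmono (left_mem_Icc.2 htT) (right_mem_Icc.2 htT) htT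
  simp only at h1
  have h2 : (W T + c) ^ (-p) ≤ W T ^ (-p) :=
    Real.rpow_le_rpow_of_nonpos (hWpos T hT) (by linarith) (by linarith)
  have h3 : 0 ≤ T ^ (-(m * p)) := Real.rpow_nonneg hT.le _
  have h4 : m * (q - 2) / 2 = m * p := by rw [hp]; ring
  rw [h4]
  linarith

end Crest.Agent.R241.A4Ode
end

-- ▼ part R241/A4H
section

/-! R241, block A4H: the functions `H`, `g`, the constant `C_n`. Author: helper459. -/

set_option autoImplicit false

namespace Crest.Agent.R241.A4H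

open MeasureTheory Set Filter Topology Crest.Agent.R241.A
open scoped NNReal ENNReal Interval

/-! ### pointwise inequalities -/


theorem rpow_neg_nat' {x : ℝ} (n : ℕ) (hx : 0 ≤ x) :
    (1 + x) ^ (-(n : ℝ)) = ((1 + x) ^ n)⁻¹ := by
  rw [Real.rpow_neg (by linarith), Real.rpow_natCast]

/-- `ψ(x) = (1+x)^{-n}`. -/
noncomputable def psi (n : ℕ) (x : ℝ) : ℝ := (1 + x) ^ (-(n : ℝ))

theorem psi_pos {n : ℕ} {x : ℝ} (hx : 0 ≤ x) : 0 < psi n x :=
  Real.rpow_pos_of_pos (by linarith) _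

theorem psi_le_one {n : ℕ} {x : ℝ} (hx : 0 ≤ x) : psi n x ≤ 1 := by
  unfold psi
  apply Real.rpow_le_one_of_one_le_of_nonpos (by linarith)
  have : (0 : ℝ) ≤ n := Nat.cast_nonneg n
  linarith

theorem psi_anti {n : ℕ} {x y : ℝ} (hx : 0 ≤ x) (hxy : x ≤ y) : psi n y ≤ psi n x := by
  unfold psi
  apply Real.rpow_le_rpow_of_nonpos (by linarith) (by linarith)
  have : (0 : ℝ) ≤ n := Nat.cast_nonneg n
  linarith

theorem one_sub_psi_le {n : ℕ} {x : ℝ} (hx : 0 ≤ x) : 1 - psi n x ≤ n * x := by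
  have h1 : psi n x = ((1 + x)⁻¹) ^ n := by
    unfold psi; rw [rpow_neg_nat' n hx, inv_pow]
  have h2 : 1 + (n : ℝ) * ((1 + x)⁻¹ - 1) ≤ (1 + ((1 + x)⁻¹ - 1)) ^ n := by
    apply one_add_mul_le_pow
    have : 0 < (1 + x)⁻¹ := by positivity
    linarith
  rw [add_sub_cancel] at h2
  rw [h1]
  have h3 : 1 - (1 + x)⁻¹ ≤ x := by
    have : (1 + x)⁻¹ ≥ 1 - x := by
      rw [ge_iff_le, ← one_div, le_div_iff₀ (by linarith)]
      nlinarith
    linarith
  have : (0 : ℝ) ≤ n := Nat.cast_nonneg n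
  nlinarith

theorem one_sub_psi_ge {n : ℕ} {x : ℝ} (hx : 0 ≤ x) :
    n * x - (n : ℝ) ^ 2 * x ^ 2 ≤ 1 - psi n x := by
  have hn : (0 : ℝ) ≤ n := Nat.cast_nonneg n
  have h1 : 1 + (n : ℝ) * x ≤ (1 + x) ^ n := one_add_mul_le_pow (by linarith) n
  have h2 : psi n x ≤ (1 + n * x)⁻¹ := by
    unfold psi
    rw [rpow_neg_nat' n hx]
    gcongr
  have h3 : (1 + n * x)⁻¹ ≤ 1 - n * x + (n : ℝ) ^ 2 * x ^ 2 := by
    have h4 : 0 < 1 + n * x := by positivity
    rw [inv_le_iff_one_le_mul₀ h4]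
    have : 0 ≤ (n : ℝ) ^ 3 * x ^ 3 := by positivity
    nlinarith
  linarith

theorem slope_psi_anti {n : ℕ} {x y : ℝ} (hx : 0 < x) (hxy : x ≤ y) :
    (1 - psi n y) / y ≤ (1 - psi n x) / x := by
  have key : ∀ z : ℝ, 0 < z → (1 - psi n z) / z = ∑ i ∈ Finset.range n, ((1 + z)⁻¹) ^ (i + 1) := by
    intro z hz
    have h1 : psi n z = ((1 + z)⁻¹) ^ n := by
      unfold psi; rw [rpow_neg_nat' n hz.le, inv_pow]
    rw [h1, div_eq_iff hz.ne']
    have h2 := mul_neg_geom_sum ((1 + z)⁻¹) n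
    have h3 : 1 - (1 + z)⁻¹ = z * (1 + z)⁻¹ := by field_simp; ring
    rw [← h2, h3]
    simp_rw [pow_succ']
    rw [← Finset.mul_sum]
    ring
  rw [key x hx, key y (by linarith)]
  apply Finset.sum_le_sum
  intro i _
  have : 0 < x := hx
  have hy : 0 < y := by linarith
  gcongr

/-! ### integrability -/

section
variable {n : ℕ}

theorem mA_pos' (hn : 3 ≤ n) : 0 < mA n := by
  unfold mA
  have : (3 : ℝ) ≤ n := by exact_mod_cast hn
  linarith

theorem n_eq' : (n : ℝ) = 2 * mA n + 2 := by unfold mA; ring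

theorem intervalIntegrable_kernel {m : ℝ} (hm : 0 < m) (b : ℝ) :
    IntervalIntegrable (fun s : ℝ => m * s ^ (m - 1)) volume 0 b :=
  (intervalIntegral.intervalIntegrable_rpow' (by linarith)).const_mul m

theorem continuous_psi_comp {r : ℝ} (hr : 0 ≤ r) :
    ContinuousOn (fun s : ℝ => psi n (s * r)) (Ici 0) := by
  unfold psi
  apply ContinuousOn.rpow_const (by fun_prop)
  intro s hs
  left
  have : (0 : ℝ) ≤ s := hs
  positivity

theorem intervalIntegrable_H (hn : 3 ≤ n) {r : ℝ} (hr : 0 ≤ r) {b : ℝ} (hb : 0 ≤ b) :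
    IntervalIntegrable (fun s : ℝ => mA n * s ^ (mA n - 1) * psi n (s * r)) volume 0 b := by
  apply (intervalIntegrable_kernel (mA_pos' hn) b).mul_continuousOn
  apply (continuous_psi_comp hr).mono
  rw [uIcc_of_le hb]
  exact fun s hs => hs.1

theorem HA_eq (r : ℝ) :
    HA n r = ∫ s in (0 : ℝ)..1, mA n * s ^ (mA n - 1) * psi n (s * r) := rfl

theorem gA_eq (r : ℝ) :
    gA n r = ∫ s in (0 : ℝ)..r, mA n * s ^ (mA n - 1) * psi n (s * 1) := by
  unfold gA psi; simp

theorem CnA_eq :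
    CnA n = ∫ s in Ioi (0 : ℝ), mA n * s ^ (mA n - 1) * psi n (s * 1) := by
  unfold CnA psi; simp

theorem kernel_nonneg {m : ℝ} (hm : 0 < m) {s : ℝ} (hs : 0 ≤ s) : 0 ≤ m * s ^ (m - 1) := by
  positivity

theorem integral_kernel {m : ℝ} (hm : 0 < m) : ∫ s in (0 : ℝ)..1, m * s ^ (m - 1) = 1 := by
  rw [intervalIntegral.integral_const_mul, integral_rpow (Or.inl (by linarith))]
  simp only [sub_add_cancel, Real.one_rpow]
  rw [Real.zero_rpow hm.ne']
  field_simp
  ring

theorem integral_kernel1 {m : ℝ} (hm : 0 < m) :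
    ∫ s in (0 : ℝ)..1, m * s ^ (m - 1) * s = m / (m + 1) := by
  have h : ∀ s ∈ [[(0 : ℝ), 1]], m * s ^ (m - 1) * s = m * s ^ m := by
    intro s hs
    rw [uIcc_of_le (by norm_num)] at hs
    rcases eq_or_lt_of_le hs.1 with h0 | h0
    · rw [← h0, Real.zero_rpow hm.ne']; simp
    · rw [mul_assoc, ← Real.rpow_add_one h0.ne']; simp
  rw [intervalIntegral.integral_congr h, intervalIntegral.integral_const_mul,
    integral_rpow (Or.inl (by linarith))]
  simp only [Real.one_rpow]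
  rw [Real.zero_rpow (by linarith)]
  ring

theorem integral_kernel2 {m : ℝ} (hm : 0 < m) :
    ∫ s in (0 : ℝ)..1, m * s ^ (m - 1) * s ^ 2 = m / (m + 2) := by
  have h : ∀ s ∈ [[(0 : ℝ), 1]], m * s ^ (m - 1) * s ^ 2 = m * s ^ (m + 1) := by
    intro s hs
    rw [uIcc_of_le (by norm_num)] at hs
    rcases eq_or_lt_of_le hs.1 with h0 | h0
    · rw [← h0, Real.zero_rpow (by linarith : m + 1 ≠ 0)]; simp
    · rw [mul_assoc, ← Real.rpow_natCast s 2, ← Real.rpow_add h0]
      norm_num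
      left; congr 1; ring
  rw [intervalIntegral.integral_congr h, intervalIntegral.integral_const_mul,
    integral_rpow (Or.inl (by linarith))]
  simp only [Real.one_rpow]
  rw [Real.zero_rpow (by linarith)]
  ring

theorem H_pos (hn : 3 ≤ n) {r : ℝ} (hr : 0 ≤ r) : 0 < HA n r := by
  rw [HA_eq]
  apply intervalIntegral.intervalIntegral_pos_of_pos_on (intervalIntegrable_H hn hr zero_le_one)
  · intro s hs
    have hs0 : 0 < s := hs.1
    have := mA_pos' hn
    have h2 : 0 < psi n (s * r) := psi_pos (by positivity)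
    positivity
  · norm_num

theorem H_anti (hn : 3 ≤ n) : AntitoneOn (HA n) (Ici 0) := by
  intro r hr s hs hrs
  have hr' : (0 : ℝ) ≤ r := hr
  rw [HA_eq, HA_eq]
  apply intervalIntegral.integral_mono_on zero_le_one (intervalIntegrable_H hn hs zero_le_one)
    (intervalIntegrable_H hn hr zero_le_one)
  intro t ht
  have h0 : 0 ≤ t := ht.1
  apply mul_le_mul_of_nonneg_left _ (kernel_nonneg (mA_pos' hn) h0)
  apply psi_anti (by positivity)
  gcongr

theorem one_sub_H (hn : 3 ≤ n) {r : ℝ} (hr : 0 ≤ r) :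
    1 - HA n r = ∫ s in (0 : ℝ)..1, mA n * s ^ (mA n - 1) * (1 - psi n (s * r)) := by
  calc 1 - HA n r = (∫ s in (0 : ℝ)..1, mA n * s ^ (mA n - 1)) -
        ∫ s in (0 : ℝ)..1, mA n * s ^ (mA n - 1) * psi n (s * r) := by
        rw [integral_kernel (mA_pos' hn), HA_eq]
    _ = _ := by
        rw [← intervalIntegral.integral_sub (intervalIntegrable_kernel (mA_pos' hn) 1)
          (intervalIntegrable_H hn hr zero_le_one)]
        congr 1
        ext s
        ring

theorem intervalIntegrable_one_sub (hn : 3 ≤ n) {r : ℝ} (hr : 0 ≤ r) :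
    IntervalIntegrable (fun s : ℝ => mA n * s ^ (mA n - 1) * (1 - psi n (s * r))) volume 0 1 := by
  have := (intervalIntegrable_kernel (mA_pos' hn) 1).sub (intervalIntegrable_H hn hr zero_le_one)
  exact this.congr (fun s _ => by ring)

theorem H_le_one (hn : 3 ≤ n) {r : ℝ} (hr : 0 ≤ r) : HA n r ≤ 1 := by
  have : 0 ≤ 1 - HA n r := by
    rw [one_sub_H hn hr]
    apply intervalIntegral.integral_nonneg zero_le_one
    intro t ht
    have h0 : 0 ≤ t := ht.1
    apply mul_nonneg (kernel_nonneg (mA_pos' hn) h0)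
    have := psi_le_one (n := n) (x := t * r) (by positivity)
    linarith
  linarith

theorem intervalIntegrable_kernel_mul {m : ℝ} (hm : 0 < m) {f : ℝ → ℝ} (hf : Continuous f) :
    IntervalIntegrable (fun s : ℝ => m * s ^ (m - 1) * f s) volume 0 1 :=
  (intervalIntegrable_kernel hm 1).mul_continuousOn hf.continuousOn

theorem one_sub_H_le (hn : 3 ≤ n) {r : ℝ} (hr : 0 ≤ r) : 1 - HA n r ≤ 2 * mA n * r := by
  have hm := mA_pos' hn
  rw [one_sub_H hn hr]
  calc ∫ s in (0 : ℝ)..1, mA n * s ^ (mA n - 1) * (1 - psi n (s * r))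
      ≤ ∫ s in (0 : ℝ)..1, (n * r) * (mA n * s ^ (mA n - 1) * s) := by
        apply intervalIntegral.integral_mono_on zero_le_one (intervalIntegrable_one_sub hn hr)
        · exact (intervalIntegrable_kernel_mul hm continuous_id).const_mul _
        · intro t ht
          have h0 : 0 ≤ t := ht.1
          have h1 := one_sub_psi_le (n := n) (x := t * r) (by positivity)
          have h2 := kernel_nonneg hm h0
          calc mA n * t ^ (mA n - 1) * (1 - psi n (t * r))
              ≤ mA n * t ^ (mA n - 1) * (n * (t * r)) := by gcongr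
            _ = _ := by ring
    _ = 2 * mA n * r := by
        rw [intervalIntegral.integral_const_mul, integral_kernel1 hm, n_eq']
        field_simp

theorem one_sub_H_ge (hn : 3 ≤ n) {r : ℝ} (hr : 0 ≤ r) :
    2 * mA n * r - ((n : ℝ) ^ 2 * mA n / (mA n + 2)) * r ^ 2 ≤ 1 - HA n r := by
  have hm := mA_pos' hn
  rw [one_sub_H hn hr]
  calc 2 * mA n * r - ((n : ℝ) ^ 2 * mA n / (mA n + 2)) * r ^ 2
      = (∫ s in (0 : ℝ)..1, (n * r) * (mA n * s ^ (mA n - 1) * s)) -
        ∫ s in (0 : ℝ)..1, ((n : ℝ) ^ 2 * r ^ 2) * (mA n * s ^ (mA n - 1) * s ^ 2) := by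
        rw [intervalIntegral.integral_const_mul, integral_kernel1 hm,
          intervalIntegral.integral_const_mul, integral_kernel2 hm]
        have : (n : ℝ) * r * (mA n / (mA n + 1)) = 2 * mA n * r := by
          rw [n_eq']; field_simp
        rw [this]; ring
    _ = ∫ s in (0 : ℝ)..1, ((n * r) * (mA n * s ^ (mA n - 1) * s) -
          ((n : ℝ) ^ 2 * r ^ 2) * (mA n * s ^ (mA n - 1) * s ^ 2)) := by
        rw [intervalIntegral.integral_sub]
        · exact (intervalIntegrable_kernel_mul hm continuous_id).const_mul _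
        · exact (intervalIntegrable_kernel_mul hm (continuous_pow 2)).const_mul _
    _ ≤ _ := by
        apply intervalIntegral.integral_mono_on zero_le_one _ (intervalIntegrable_one_sub hn hr)
        · intro t ht
          have h0 : 0 ≤ t := ht.1
          have h1 := one_sub_psi_ge (n := n) (x := t * r) (by positivity)
          have h2 := kernel_nonneg hm h0
          calc _ = mA n * t ^ (mA n - 1) * (n * (t * r) - (n : ℝ) ^ 2 * (t * r) ^ 2) := by ring
            _ ≤ _ := by gcongr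
        · exact ((intervalIntegrable_kernel_mul hm continuous_id).const_mul _).sub
            ((intervalIntegrable_kernel_mul hm (continuous_pow 2)).const_mul _)

theorem H_slope (hn : 3 ≤ n) {r s : ℝ} (hr : 0 < r) (hrs : r ≤ s) :
    (1 - HA n s) / s ≤ (1 - HA n r) / r := by
  have hm := mA_pos' hn
  have hs : 0 < s := by linarith
  rw [one_sub_H hn hr.le, one_sub_H hn hs.le, ← intervalIntegral.integral_div,
    ← intervalIntegral.integral_div]
  apply intervalIntegral.integral_mono_on_of_le_Ioo zero_le_one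
  · exact (intervalIntegrable_one_sub hn hs.le).div_const _
  · exact (intervalIntegrable_one_sub hn hr.le).div_const _
  · intro t ht
    have h0 : 0 < t := ht.1
    have h2 := kernel_nonneg hm h0.le
    have h3 := slope_psi_anti (n := n) (x := t * r) (y := t * s) (by positivity) (by gcongr)
    calc mA n * t ^ (mA n - 1) * (1 - psi n (t * s)) / s
        = mA n * t ^ (mA n - 1) * t * ((1 - psi n (t * s)) / (t * s)) := by
          field_simp
      _ ≤ mA n * t ^ (mA n - 1) * t * ((1 - psi n (t * r)) / (t * r)) := by gcongr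
      _ = _ := by field_simp

theorem H_cont (hn : 3 ≤ n) : ContinuousOn (HA n) (Ici 0) := by
  have hm := mA_pos' hn
  intro r hr
  have hr' : (0 : ℝ) ≤ r := hr
  apply intervalIntegral.continuousWithinAt_of_dominated_interval
    (bound := fun s => mA n * s ^ (mA n - 1))
  · filter_upwards [self_mem_nhdsWithin] with r' hr'
    exact (intervalIntegrable_H hn hr' zero_le_one).def'.aestronglyMeasurable
  · filter_upwards [self_mem_nhdsWithin] with r' hr'
    filter_upwards with t ht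
    rw [uIoc_of_le zero_le_one] at ht
    have h0 : 0 < t := ht.1
    have h1 : (0 : ℝ) ≤ r' := hr'
    have h2 := kernel_nonneg hm h0.le
    have h3 := psi_pos (n := n) (x := t * r') (by positivity)
    have h4 := psi_le_one (n := n) (x := t * r') (by positivity)
    change ‖mA n * t ^ (mA n - 1) * psi n (t * r')‖ ≤ _
    rw [Real.norm_of_nonneg (by positivity)]
    nlinarith
  · exact intervalIntegrable_kernel hm 1
  · filter_upwards with t ht
    rw [uIoc_of_le zero_le_one] at ht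
    have h0 : 0 < t := ht.1
    apply ContinuousAt.continuousWithinAt
    apply ContinuousAt.mul continuousAt_const
    apply ContinuousAt.rpow_const (by fun_prop)
    left
    positivity

theorem g_eq (_hn : 3 ≤ n) {r : ℝ} (hr : 0 < r) : gA n r = r ^ mA n * HA n r := by
  have h := intervalIntegral.integral_comp_mul_left (a := 0) (b := 1)
    (fun s : ℝ => mA n * s ^ (mA n - 1) * psi n (s * 1)) hr.ne'
  simp only [mul_zero, mul_one, smul_eq_mul] at h
  have h1 : gA n r = r * ∫ x in (0 : ℝ)..1, mA n * (r * x) ^ (mA n - 1) * psi n (r * x) := by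
    rw [h, gA_eq]
    field_simp
  rw [h1, HA_eq, ← intervalIntegral.integral_const_mul, ← intervalIntegral.integral_const_mul]
  apply intervalIntegral.integral_congr
  intro s hs
  rw [uIcc_of_le zero_le_one] at hs
  simp only
  rw [Real.mul_rpow hr.le hs.1, mul_comm s r]
  have : r ^ mA n = r * r ^ (mA n - 1) := by
    rw [mul_comm, ← Real.rpow_add_one hr.ne']; simp
  rw [this]; ring

/-! ### monotonicity and tail of `g` -/

theorem g_integrand_nonneg (hn : 3 ≤ n) {s : ℝ} (hs : 0 ≤ s) :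
    0 ≤ mA n * s ^ (mA n - 1) * psi n (s * 1) :=
  mul_nonneg (kernel_nonneg (mA_pos' hn) hs) (psi_pos (by linarith)).le

theorem g_integrand_le (hn : 3 ≤ n) {s : ℝ} (hs : 0 < s) :
    mA n * s ^ (mA n - 1) * psi n (s * 1) ≤ mA n * s ^ (-(mA n) - 3) := by
  have hm := mA_pos' hn
  have h1 : psi n (s * 1) ≤ s ^ (-(n : ℝ)) := by
    unfold psi
    apply Real.rpow_le_rpow_of_nonpos hs (by linarith)
    have : (0 : ℝ) ≤ n := Nat.cast_nonneg n
    linarith
  calc mA n * s ^ (mA n - 1) * psi n (s * 1) ≤ mA n * s ^ (mA n - 1) * s ^ (-(n : ℝ)) := by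
        gcongr
    _ = mA n * s ^ (-(mA n) - 3) := by
        rw [mul_assoc, ← Real.rpow_add hs, n_eq']
        congr 2; ring

theorem g_integrableOn_tail (hn : 3 ≤ n) {r : ℝ} (hr : 0 < r) :
    IntegrableOn (fun s : ℝ => mA n * s ^ (mA n - 1) * psi n (s * 1)) (Ioi r) := by
  have hm := mA_pos' hn
  have h := (integrableOn_Ioi_rpow_of_lt (a := -(mA n) - 3) (by linarith) hr).const_mul (mA n)
  refine Integrable.mono' h ?_ ?_
  · apply ContinuousOn.aestronglyMeasurable _ measurableSet_Ioi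
    apply ContinuousOn.mul
    · apply ContinuousOn.mul continuousOn_const
      apply ContinuousOn.rpow_const continuousOn_id
      intro x hx
      left
      exact (lt_trans hr hx).ne'
    · apply (continuous_psi_comp zero_le_one).mono
      intro x hx
      exact (lt_trans hr hx).le
  · rw [ae_restrict_iff' measurableSet_Ioi]
    filter_upwards with x hx
    have hx0 : 0 < x := lt_trans hr hx
    rw [Real.norm_of_nonneg (g_integrand_nonneg hn hx0.le)]
    exact g_integrand_le hn hx0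

theorem g_integrableOn (hn : 3 ≤ n) :
    IntegrableOn (fun s : ℝ => mA n * s ^ (mA n - 1) * psi n (s * 1)) (Ioi 0) := by
  rw [← Ioc_union_Ioi_eq_Ioi (zero_le_one' ℝ)]
  apply IntegrableOn.union
  · have := (intervalIntegrable_H (r := 1) hn zero_le_one zero_le_one)
    rwa [intervalIntegrable_iff_integrableOn_Ioc_of_le zero_le_one] at this
  · exact g_integrableOn_tail hn zero_lt_one

theorem Cn_sub_g (hn : 3 ≤ n) {r : ℝ} (hr : 0 ≤ r) :
    CnA n - gA n r = ∫ s in Ioi r, mA n * s ^ (mA n - 1) * psi n (s * 1) := by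
  have h := setIntegral_union (μ := volume)
    (f := fun s : ℝ => mA n * s ^ (mA n - 1) * psi n (s * 1))
    (s := Ioc 0 r) (t := Ioi r) (Ioc_disjoint_Ioi (le_refl r)) measurableSet_Ioi
    ((g_integrableOn hn).mono_set Ioc_subset_Ioi_self)
    ((g_integrableOn hn).mono_set (Ioi_subset_Ioi hr))
  rw [Ioc_union_Ioi_eq_Ioi hr] at h
  rw [CnA_eq, h, gA_eq, intervalIntegral.integral_of_le hr]
  ring

theorem g_mono (hn : 3 ≤ n) : MonotoneOn (gA n) (Ici 0) := by
  intro r hr s hs hrs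
  have hr' : (0 : ℝ) ≤ r := hr
  have hs' : (0 : ℝ) ≤ s := hs
  have h1 := Cn_sub_g hn hr'
  have h2 := Cn_sub_g hn hs'
  have h3 : ∫ x in Ioi s, mA n * x ^ (mA n - 1) * psi n (x * 1) ≤
      ∫ x in Ioi r, mA n * x ^ (mA n - 1) * psi n (x * 1) := by
    apply setIntegral_mono_set ((g_integrableOn hn).mono_set (Ioi_subset_Ioi hr'))
    · rw [EventuallyLE, ae_restrict_iff' measurableSet_Ioi]
      filter_upwards with x hx
      exact g_integrand_nonneg hn (le_trans hr' (le_of_lt hx))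
    · exact (Ioi_subset_Ioi hrs).eventuallyLE
  linarith

theorem g_le (hn : 3 ≤ n) {r : ℝ} (hr : 0 ≤ r) : gA n r ≤ CnA n := by
  have h1 := Cn_sub_g hn hr
  have h3 : 0 ≤ ∫ x in Ioi r, mA n * x ^ (mA n - 1) * psi n (x * 1) := by
    apply setIntegral_nonneg measurableSet_Ioi
    intro x hx
    exact g_integrand_nonneg hn (le_trans hr (le_of_lt hx))
  linarith

theorem g_tail (hn : 3 ≤ n) {r : ℝ} (hr : 0 < r) :
    CnA n - gA n r ≤ mA n / (mA n + 2) * r ^ (-(mA n) - 2) := by
  have hm := mA_pos' hn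
  rw [Cn_sub_g hn hr.le]
  calc ∫ s in Ioi r, mA n * s ^ (mA n - 1) * psi n (s * 1)
      ≤ ∫ s in Ioi r, mA n * s ^ (-(mA n) - 3) := by
        apply setIntegral_mono_on (g_integrableOn_tail hn hr)
          ((integrableOn_Ioi_rpow_of_lt (by linarith) hr).const_mul _) measurableSet_Ioi
        intro x hx
        exact g_integrand_le hn (lt_trans hr hx)
    _ = mA n / (mA n + 2) * r ^ (-(mA n) - 2) := by
        rw [integral_const_mul, integral_Ioi_rpow_of_lt (by linarith) hr]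
        rw [show -(mA n) - 3 + 1 = -(mA n) - 2 by ring]
        have : (-(mA n) - 2) ≠ 0 := by linarith
        have : (mA n + 2) ≠ 0 := by linarith
        field_simp
        ring

theorem Cn_pos (hn : 3 ≤ n) : 0 < CnA n := by
  have h1 := g_le hn (zero_le_one' ℝ)
  have h2 := g_eq hn one_pos
  have h3 := H_pos hn (zero_le_one' ℝ)
  rw [Real.one_rpow, one_mul] at h2
  linarith

/-! ### the constant -/

theorem integral_beta {α β : ℝ} (hα : 0 < α) (hβ : 0 < β) :
    ∫ x in Ioo (0 : ℝ) 1, x ^ (α - 1) * (1 - x) ^ (β - 1) =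
      Real.Gamma α * Real.Gamma β / Real.Gamma (α + β) := by
  have h0 := ProbabilityTheory.beta_eq_betaIntegralReal α β hα hβ
  unfold ProbabilityTheory.beta at h0
  rw [h0, Complex.betaIntegral, intervalIntegral.integral_of_le (by norm_num),
    ← integral_Ioc_eq_integral_Ioo, ← RCLike.re_to_complex, ← integral_re]
  · refine setIntegral_congr_fun measurableSet_Ioc fun x ⟨hx1, hx₂⟩ ↦ ?_
    norm_cast
    rw [← Complex.ofReal_cpow, ← Complex.ofReal_cpow, RCLike.re_to_complex,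
      Complex.re_mul_ofReal, Complex.ofReal_re]
    all_goals linarith
  convert! Complex.betaIntegral_convergent (u := α) (v := β) (by simpa) (by simpa)
  rw [intervalIntegrable_iff_integrableOn_Ioc_of_le (by simp), IntegrableOn]

/-- `∫₀^∞ s^{α-1} (1+s)^{-(α+β)} ds = B(α, β)`. -/
theorem integral_beta' {α β : ℝ} (hα : 0 < α) (hβ : 0 < β) :
    ∫ s in Ioi (0 : ℝ), s ^ (α - 1) * (1 + s) ^ (-(α + β)) =
      Real.Gamma α * Real.Gamma β / Real.Gamma (α + β) := by
  rw [← integral_beta hα hβ]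
  have himg : (fun s : ℝ => s / (1 + s)) '' Ioi 0 = Ioo 0 1 := by
    ext x
    simp only [mem_image, mem_Ioi, mem_Ioo]
    constructor
    · rintro ⟨s, hs, rfl⟩
      refine ⟨by positivity, ?_⟩
      rw [div_lt_one (by linarith)]; linarith
    · rintro ⟨h0, h1⟩
      refine ⟨x / (1 - x), div_pos h0 (by linarith), ?_⟩
      have : 1 - x ≠ 0 := by linarith
      field_simp
      ring
  rw [← himg, integral_image_eq_integral_abs_deriv_smul measurableSet_Ioi
    (f' := fun s => 1 / (1 + s) ^ 2)]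
  · apply setIntegral_congr_fun measurableSet_Ioi
    intro s hs
    have hs0 : 0 < s := hs
    have h1 : 0 < 1 + s := by linarith
    simp only [smul_eq_mul]
    rw [abs_of_pos (by positivity)]
    have h2 : 1 - s / (1 + s) = (1 + s)⁻¹ := by field_simp; ring
    have h3 : (1 : ℝ) / (1 + s) ^ 2 = (1 + s) ^ (-(2 : ℝ)) := by
      rw [Real.rpow_neg h1.le]; norm_num
    rw [h3, h2, Real.div_rpow hs0.le h1.le, Real.inv_rpow h1.le, ← Real.rpow_neg h1.le,
      div_eq_mul_inv (s ^ (α - 1)), ← Real.rpow_neg h1.le (α - 1)]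
    have h4 : (1 + s) ^ (-(α + β)) = (1 + s) ^ (-(2 : ℝ)) * (1 + s) ^ (-(α - 1)) *
        (1 + s) ^ (-(β - 1)) := by
      rw [← Real.rpow_add h1, ← Real.rpow_add h1]
      congr 1; ring
    rw [h4]; ring
  · intro s hs
    have hs0 : 0 < s := hs
    have h1 : 1 + s ≠ 0 := by linarith
    apply HasDerivAt.hasDerivWithinAt
    have h := (hasDerivAt_id s).div ((hasDerivAt_id s).const_add 1) h1
    refine h.congr_deriv ?_
    simp only [id]
    field_simp
    ring
  · intro s hs t ht hst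
    have hs0 : 0 < s := hs
    have ht0 : 0 < t := ht
    simp only at hst
    rw [div_eq_div_iff (by linarith) (by linarith)] at hst
    linarith

theorem Cn_val (hn : 3 ≤ n) :
    CnA n = Real.Gamma ((n : ℝ) / 2) * Real.Gamma ((n : ℝ) / 2 + 1) / Real.Gamma n := by
  have hm := mA_pos' hn
  have h := integral_beta' (α := mA n) (β := mA n + 2) hm (by linarith)
  have e1 : mA n + (mA n + 2) = n := by rw [n_eq']; ring
  rw [e1] at h
  have e2 : mA n + 2 = (n : ℝ) / 2 + 1 := by unfold mA; ring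
  have e3 : mA n + 1 = (n : ℝ) / 2 := by unfold mA; ring
  unfold CnA
  have : ∀ s : ℝ, mA n * s ^ (mA n - 1) * (1 + s) ^ (-(n : ℝ)) =
      mA n * (s ^ (mA n - 1) * (1 + s) ^ (-(n : ℝ))) := fun s => by ring
  simp_rw [this]
  rw [integral_const_mul, h, ← e3, Real.Gamma_add_one hm.ne', e3, e2]
  ring

theorem omegaBall_eq (n : ℕ) (hn : 1 ≤ n) :
    omegaBall n = √Real.pi ^ n / Real.Gamma ((n : ℝ) / 2 + 1) := by
  unfold omegaBall
  have : Nonempty (Fin n) := ⟨⟨0, hn⟩⟩
  rw [EuclideanSpace.volume_ball]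
  simp only [Fintype.card_fin, ENNReal.ofReal_one, one_pow, one_mul]
  apply ENNReal.toReal_ofReal
  have : 0 < Real.Gamma ((n : ℝ) / 2 + 1) := Real.Gamma_pos_of_pos (by positivity)
  positivity

theorem const (hn : 3 ≤ n) : 2 ^ n * omegaBall n * CnA n = sphArea n := by
  have h1 := omegaBall_eq n (by omega)
  have h2 := omegaBall_eq (n + 1) (by omega)
  have hnpos : (0 : ℝ) < n := by positivity
  unfold sphArea
  rw [h1, h2, Cn_val hn]
  have hG1 : 0 < Real.Gamma ((n : ℝ) / 2 + 1) := Real.Gamma_pos_of_pos (by positivity)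
  have hG2 : 0 < Real.Gamma (n : ℝ) := Real.Gamma_pos_of_pos hnpos
  have hG3 : 0 < Real.Gamma ((n : ℝ) / 2 + 1 / 2) := Real.Gamma_pos_of_pos (by positivity)
  have hdup := Real.Gamma_mul_Gamma_add_half ((n : ℝ) / 2)
  have e1 : 2 * ((n : ℝ) / 2) = n := by ring
  rw [e1] at hdup
  have e2 : (((n + 1 : ℕ) : ℝ)) / 2 + 1 = ((n : ℝ) / 2 + 1 / 2) + 1 := by push_cast; ring
  rw [e2, Real.Gamma_add_one (s := (n : ℝ) / 2 + 1 / 2) (by positivity)]
  have h3 : Real.Gamma ((n : ℝ) / 2) =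
      Real.Gamma n * 2 ^ (1 - (n : ℝ)) * √Real.pi / Real.Gamma ((n : ℝ) / 2 + 1 / 2) := by
    rw [eq_div_iff hG3.ne', hdup]
  rw [h3]
  have h4 : (2 : ℝ) ^ (1 - (n : ℝ)) = 2 / 2 ^ n := by
    rw [Real.rpow_sub two_pos, Real.rpow_one, Real.rpow_natCast]
  rw [h4]
  have h5 : √Real.pi ^ (n + 1) = √Real.pi ^ n * √Real.pi := pow_succ _ _
  rw [h5]
  have : (n : ℝ) / 2 + 1 / 2 ≠ 0 := by positivity
  field_simp
  try ring

theorem t_H (hn : 3 ≤ n) : T_H n where
  cont := H_cont hn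
  pos := fun _ hr => H_pos hn hr
  anti := H_anti hn
  le_one := fun _ hr => H_le_one hn hr
  one_sub_le := fun _ hr => one_sub_H_le hn hr
  one_sub_ge := by
    have hm := mA_pos' hn
    have hnpos : (0 : ℝ) < n := by positivity
    exact ⟨(n : ℝ) ^ 2 * mA n / (mA n + 2), by positivity, fun r hr => one_sub_H_ge hn hr⟩
  slope_anti := fun _ _ hr hrs => H_slope hn hr hrs
  g_eq := fun _ hr => g_eq hn hr
  g_mono := g_mono hn
  g_le := fun _ hr => g_le hn hr
  g_tail := fun _ hr => g_tail hn hr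
  Cn_pos := Cn_pos hn
  const := const hn

end

end Crest.Agent.R241.A4H
end

-- ▼ part R241/ASharp
section

/-!
R241, block A: Theorem A for `n ≥ 3` from the sharp Sobolev inequality (test function `1`).
-/

set_option autoImplicit false

namespace Crest.Agent.R241.ASharp

open MeasureTheory Set Filter Topology Crest.Agent.R241.A
open scoped NNReal ENNReal

variable {n : ℕ} {k : ℝ} {K : Type*} [MetricSpace K] [CompactSpace K]
  [MeasurableSpace K] [BorelSpace K]

lemma omegaBall_nonneg (n : ℕ) : 0 ≤ omegaBall n := ENNReal.toReal_nonneg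

lemma sphArea_nonneg (n : ℕ) : 0 ≤ sphArea n :=
  mul_nonneg (by positivity) (omegaBall_nonneg _)

lemma energy_one (P : PreData n k K) (b : ℝ) :
    P.energy b (fun _ => 1) = b * P.τ.real univ := by
  rw [PreData.energy_eq]
  have h1 : ∫ y, (P.G (fun _ => (1 : ℝ)) (fun _ => (1 : ℝ)) y + b * (1 : ℝ) ^ 2) ∂P.τ
      = ∫ _, b ∂P.τ := by
    refine integral_congr_ae ?_
    filter_upwards [P.G_const_left 1 (Lip.const (1 : ℝ))] with y hy
    rw [hy]; ring
  rw [h1, integral_const, smul_eq_mul, mul_comm]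

theorem ineq_of_sharp {h : ℝ} (hn : 3 ≤ n) (hk : 0 ≤ k) (hkh : k < h) (P : PreData n k K)
    (h0 : P.τ ≠ 0) (hs : A9.T_sharp P h) :
    sphArea n ≤ (h ^ 2 - k ^ 2) ^ ((n : ℝ) / 2) * P.τ.real univ := by
  have hm := mA_pos hn
  have hnn := n_eq n
  have hn0 : (0 : ℝ) < n := by positivity
  have hM : 0 < P.τ.real univ := by
    rw [Measure.real, ENNReal.toReal_pos_iff]
    exact ⟨Measure.measure_univ_pos.2 h0, measure_lt_top _ _⟩
  have hc0 : 0 < h ^ 2 - k ^ 2 := by nlinarith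
  have h1 := hs (fun _ => 1) (Lip.const 1)
  rw [energy_one] at h1
  have e1 : ∫ _, |(1 : ℝ)| ^ ((n : ℝ) / mA n) ∂P.τ = P.τ.real univ := by
    simp
  rw [e1] at h1
  set V := P.τ.real univ with hV
  set S := sphArea n with hS
  have hS0 : 0 ≤ S := sphArea_nonneg n
  have h2 : S ^ (2 / (n : ℝ)) ≤ (h ^ 2 - k ^ 2) * V ^ (2 / (n : ℝ)) := by
    have e2 : V = V ^ (2 / (n : ℝ)) * V ^ (2 * mA n / n) := by
      rw [← Real.rpow_add hM]
      have : 2 / (n : ℝ) + 2 * mA n / n = 1 := by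
        field_simp; linarith
      rw [this, Real.rpow_one]
    have hVa : 0 < V ^ (2 * mA n / n) := Real.rpow_pos_of_pos hM _
    have h3 : (mA n * n / 2 * V ^ (2 * mA n / n)) * S ^ (2 / (n : ℝ))
        ≤ (mA n * n / 2 * V ^ (2 * mA n / n)) * ((h ^ 2 - k ^ 2) * V ^ (2 / (n : ℝ))) := by
      calc (mA n * n / 2 * V ^ (2 * mA n / n)) * S ^ (2 / (n : ℝ))
          = mA n * n / 2 * S ^ (2 / (n : ℝ)) * V ^ (2 * mA n / n) := by ring
        _ ≤ bA n k h * V := h1
        _ = bA n k h * (V ^ (2 / (n : ℝ)) * V ^ (2 * mA n / n)) := by rw [← e2]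
        _ = _ := by unfold bA; ring
    exact le_of_mul_le_mul_left h3 (by positivity)
  have h3 : (S ^ (2 / (n : ℝ))) ^ ((n : ℝ) / 2)
      ≤ ((h ^ 2 - k ^ 2) * V ^ (2 / (n : ℝ))) ^ ((n : ℝ) / 2) :=
    Real.rpow_le_rpow (Real.rpow_nonneg hS0 _) h2 (by positivity)
  rw [Real.mul_rpow hc0.le (Real.rpow_nonneg hM.le _), ← Real.rpow_mul hS0,
    ← Real.rpow_mul hM.le] at h3
  have e3 : 2 / (n : ℝ) * (n / 2) = 1 := by field_simp
  rw [e3, Real.rpow_one, Real.rpow_one] at h3
  exact h3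

end Crest.Agent.R241.ASharp
end

-- ▼ part R241/A7Final

/-!
R241, Theorem A: the sharp Sobolev inequality and the inequality of Theorem A for `n ≥ 3`, with
all inputs discharged.
-/

set_option autoImplicit false

namespace Crest.Agent.R241.A7

open Crest.Agent.R241.A Crest.Agent.R241.A6
open MeasureTheory Set Filter Topology
open scoped NNReal ENNReal

variable {n : ℕ} {k : ℝ} {K : Type*} [MetricSpace K] [CompactSpace K]
  [MeasurableSpace K] [BorelSpace K]

theorem t_sharp_final (hn : 3 ≤ n) {h : ℝ} (hk : 0 ≤ k) (hkh : k < h) (hcat : CatD k K)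
    (P : PreData n k K) (h0 : P.τ ≠ 0) (hFV : P.FV h) : A9.T_sharp P h := by
  have hm := mA_pos hn
  have hsup := A1.t_super P hm.le hFV
  obtain ⟨hint, hpole, -, hsob⟩ := A2.a2 hn hk hkh P hFV hsup
  exact t_sharp P hn hk hkh h0 (A4H.t_H hn) A4Ode.t_ode
    (A3.t_key hn hk hkh P (A1.t_fv' P hFV)) (A5.centre k hk hcat) (A5.t_two k hk) hint hsup
    (A1.t_barta P hsup) hpole hsob

end Crest.Agent.R241.A7
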