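import Mathlib
import Crest.Prelude.Def_MetricCurrent

/-!
# R241, block B10: mass toolbox (owner: helper502)

Depends only on the Prelude. `mass` is a norm on currents, boundaries are linear, supports.
-/

set_option autoImplicit false

open MeasureTheory Filter Topology Set
open scoped ENNReal NNReal

universe u

namespace Crest.Agent.R241.B10

open Crest.GeometryTopology.MetricCurrent

variable {X : Type u} [MetricSpace X]

/-! ### Test pairs -/

section TestPair

variable {k : ℕ}

theorem isTestPair_add {f g : X → ℝ} {π : Fin k → X → ℝ} (hf : IsTestPair f π)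
    (hg : IsTestPair g π) : IsTestPair (f + g) π := by
  obtain ⟨⟨K, hK⟩, ⟨C, hC⟩, hπ⟩ := hf
  obtain ⟨⟨K', hK'⟩, ⟨C', hC'⟩, -⟩ := hg
  refine ⟨⟨K + K', hK.add hK'⟩, ⟨C + C', fun x => ?_⟩, hπ⟩
  exact (abs_add_le _ _).trans (add_le_add (hC x) (hC' x))

theorem isTestPair_smul (c : ℝ) {f : X → ℝ} {π : Fin k → X → ℝ} (hf : IsTestPair f π) :
    IsTestPair (c • f) π := by
  obtain ⟨⟨K, hK⟩, ⟨C, hC⟩, hπ⟩ := hf
  refine ⟨⟨‖c‖₊ * K, ?_⟩, ⟨|c| * C, fun x => ?_⟩, hπ⟩
  · refine LipschitzWith.of_dist_le_mul fun x y => ?_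
    simp only [Pi.smul_apply, smul_eq_mul, NNReal.coe_mul, coe_nnnorm, Real.norm_eq_abs,
      Real.dist_eq]
    rw [← mul_sub, abs_mul, mul_assoc]
    have := hK.dist_le_mul x y
    rw [Real.dist_eq] at this
    exact mul_le_mul_of_nonneg_left this (abs_nonneg c)
  · simp only [Pi.smul_apply, smul_eq_mul, abs_mul]
    exact mul_le_mul_of_nonneg_left (hC x) (abs_nonneg c)

theorem isTestPair_neg {f : X → ℝ} {π : Fin k → X → ℝ} (hf : IsTestPair f π) :
    IsTestPair (-f) π := by
  have := isTestPair_smul (-1) hf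
  simpa using this

theorem isTestPair_sub {f g : X → ℝ} {π : Fin k → X → ℝ} (hf : IsTestPair f π)
    (hg : IsTestPair g π) : IsTestPair (f - g) π := by
  rw [sub_eq_add_neg]
  exact isTestPair_add hf (isTestPair_neg hg)

theorem isTestPair_zero {π : Fin k → X → ℝ} (hπ : ∀ i, ∃ K : NNReal, LipschitzWith K (π i)) :
    IsTestPair (0 : X → ℝ) π :=
  ⟨⟨0, by simpa using LipschitzWith.const (0 : ℝ)⟩, ⟨0, by simp⟩, hπ⟩

theorem isTestPair_one {π : Fin k → X → ℝ} (hπ : ∀ i, ∃ K : NNReal, LipschitzWith K (π i)) :
    IsTestPair (fun _ => (1 : ℝ)) π :=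
  ⟨⟨0, LipschitzWith.const (1 : ℝ)⟩, ⟨1, by simp⟩, hπ⟩

theorem isTestPair_cons {f : X → ℝ} {π : Fin k → X → ℝ} (h : IsTestPair f π) :
    IsTestPair (fun _ => (1 : ℝ)) (Fin.cons f π : Fin (k + 1) → X → ℝ) := by
  refine isTestPair_one fun i => ?_
  refine Fin.cases ?_ (fun j => ?_) i
  · simpa using h.1
  · simpa using h.2.2 j

theorem isTestPair_update {f : X → ℝ} {π : Fin k → X → ℝ} (h : IsTestPair f π) (i : Fin k)
    {g : X → ℝ} (hg : ∃ K : NNReal, LipschitzWith K g) : IsTestPair f (Function.update π i g) := by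
  refine ⟨h.1, h.2.1, fun j => ?_⟩
  by_cases hj : j = i
  · subst hj; simpa using hg
  · simpa [Function.update_of_ne hj] using h.2.2 j

theorem IsTestPair.continuous {f : X → ℝ} {π : Fin k → X → ℝ} (h : IsTestPair f π) :
    Continuous f := by
  obtain ⟨⟨K, hK⟩, -⟩ := h
  exact hK.continuous

variable [MeasurableSpace X] [BorelSpace X]

theorem IsTestPair.integrable {f : X → ℝ} {π : Fin k → X → ℝ} (h : IsTestPair f π)
    (μ : Measure X) [IsFiniteMeasure μ] : Integrable (fun x => |f x|) μ := by
  obtain ⟨C, hC⟩ := h.2.1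
  refine Integrable.of_bound (C := C) ?_ ?_
  · exact (IsTestPair.continuous h).measurable.abs.aestronglyMeasurable
  · exact Eventually.of_forall fun x => by simpa using hC x

theorem IsTestPair.integral_le {f : X → ℝ} {π : Fin k → X → ℝ} (h : IsTestPair f π)
    (μ : Measure X) [IsFiniteMeasure μ] {C : ℝ} (hC : ∀ x, |f x| ≤ C) :
    ∫ x, |f x| ∂μ ≤ C * (μ univ).toReal := by
  have h1 : ∫ x, |f x| ∂μ ≤ ∫ _x, C ∂μ :=
    integral_mono (IsTestPair.integrable h μ) (integrable_const _) fun x => hC x
  rw [integral_const] at h1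
  simpa [Measure.real, mul_comm] using h1

end TestPair

/-! ### Boundary is linear -/

section Bd

variable {k : ℕ}

theorem bd_apply {T : Functional X (k + 1)} {f : X → ℝ} {π : Fin k → X → ℝ}
    (h : IsTestPair f π) : bd T f π = T (fun _ => 1) (Fin.cons f π) := by
  simp [bd, h]

theorem bd_apply_not {T : Functional X (k + 1)} {f : X → ℝ} {π : Fin k → X → ℝ}
    (h : ¬ IsTestPair f π) : bd T f π = 0 := by
  simp [bd, h]

theorem bd_add (S T : Functional X (k + 1)) : bd (S + T) = bd S + bd T := by
  funext f π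
  by_cases h : IsTestPair f π
  · simp [bd_apply h]
  · simp [bd_apply_not h]


theorem bd_neg (S : Functional X (k + 1)) : bd (-S) = -bd S := by
  funext f π
  by_cases h : IsTestPair f π
  · simp [bd_apply h]
  · simp [bd_apply_not h]

theorem bd_sub (S T : Functional X (k + 1)) : bd (S - T) = bd S - bd T := by
  funext f π
  by_cases h : IsTestPair f π
  · simp [bd_apply h]
  · simp [bd_apply_not h]

theorem bd_zero : bd (0 : Functional X (k + 1)) = 0 := by
  funext f π
  by_cases h : IsTestPair f π
  · simp [bd_apply h]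
  · simp [bd_apply_not h]

end Bd

/-! ### Supports -/

section Supp

variable {k : ℕ}

theorem isSupportedIn_add {K : Set X} {S T : Functional X k} (hS : IsSupportedIn K S)
    (hT : IsSupportedIn K T) : IsSupportedIn K (S + T) := by
  intro f π h hf
  simp [hS f π h hf, hT f π h hf]


theorem isSupportedIn_neg {K : Set X} {S : Functional X k} (hS : IsSupportedIn K S) :
    IsSupportedIn K (-S) := by
  intro f π h hf
  simp [hS f π h hf]

theorem isSupportedIn_sub {K : Set X} {S T : Functional X k} (hS : IsSupportedIn K S)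
    (hT : IsSupportedIn K T) : IsSupportedIn K (S - T) := by
  intro f π h hf
  simp [hS f π h hf, hT f π h hf]

theorem isSupportedIn_zero {K : Set X} : IsSupportedIn K (0 : Functional X k) := by
  intro f π h hf
  simp

theorem isSupportedIn_mono {K K' : Set X} (hKK' : K ⊆ K') {S : Functional X k}
    (hS : IsSupportedIn K S) : IsSupportedIn K' S :=
  fun f π h hf => hS f π h fun x hx => hf x (hKK' hx)

end Supp

/-! ### Currents form a vector space -/

section Current

variable [MeasurableSpace X] [BorelSpace X] {k : ℕ}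

theorem Controls.add {S T : Functional X k} {μ ν : Measure X} [IsFiniteMeasure μ]
    [IsFiniteMeasure ν] (hS : Controls S μ) (hT : Controls T ν) : Controls (S + T) (μ + ν) := by
  intro f π h hπ
  rw [integral_add_measure (IsTestPair.integrable h μ) (IsTestPair.integrable h ν)]
  simp only [Pi.add_apply]
  exact (abs_add_le _ _).trans (add_le_add (hS f π h hπ) (hT f π h hπ))

theorem Controls.mono {S : Functional X k} {μ ν : Measure X} [IsFiniteMeasure ν]
    (hS : Controls S μ) (h : μ ≤ ν) : Controls S ν := by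
  intro f π hf hπ
  exact (hS f π hf hπ).trans (integral_mono_measure h (Eventually.of_forall fun x => abs_nonneg _)
    (IsTestPair.integrable hf ν))

theorem Controls.smul {S : Functional X k} {μ : Measure X} (hS : Controls S μ) (c : ℝ) :
    Controls (c • S) (ENNReal.ofReal |c| • μ) := by
  intro f π h hπ
  rw [integral_smul_measure]
  simp only [Pi.smul_apply, smul_eq_mul, abs_mul, ENNReal.toReal_ofReal (abs_nonneg c)]
  exact mul_le_mul_of_nonneg_left (hS f π h hπ) (abs_nonneg c)

theorem Controls.neg {S : Functional X k} {μ : Measure X} (hS : Controls S μ) :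
    Controls (-S) μ := by
  intro f π h hπ
  simpa using hS f π h hπ

theorem Controls.sub {S T : Functional X k} {μ ν : Measure X} [IsFiniteMeasure μ]
    [IsFiniteMeasure ν] (hS : Controls S μ) (hT : Controls T ν) : Controls (S - T) (μ + ν) := by
  rw [sub_eq_add_neg]
  exact Controls.add hS (Controls.neg hT)

theorem controls_zero (μ : Measure X) : Controls (0 : Functional X k) μ := by
  intro f π h hπ
  simpa using integral_nonneg fun x => abs_nonneg (f x)

theorem IsCurrent.zero : IsCurrent (0 : Functional X k) where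
  eq_zero_of_not_test := by simp
  add_left := by simp
  smul_left := by simp
  add_coord := by simp
  smul_coord := by simp
  continuity := by simp
  locality := by simp
  finite_mass := ⟨0, inferInstance, controls_zero 0⟩

theorem IsCurrent.add {S T : Functional X k} (hS : IsCurrent S) (hT : IsCurrent T) :
    IsCurrent (S + T) where
  eq_zero_of_not_test f π h := by
    simp [hS.eq_zero_of_not_test f π h, hT.eq_zero_of_not_test f π h]
  add_left f g π hf hg := by
    simp only [Pi.add_apply, hS.add_left f g π hf hg, hT.add_left f g π hf hg]; ring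
  smul_left c f π hf := by
    simp only [Pi.add_apply, hS.smul_left c f π hf, hT.smul_left c f π hf]; ring
  add_coord f π i g hf hg := by
    simp only [Pi.add_apply, hS.add_coord f π i g hf hg, hT.add_coord f π i g hf hg]; ring
  smul_coord f π i c hf := by
    simp only [Pi.add_apply, hS.smul_coord f π i c hf, hT.smul_coord f π i c hf]; ring
  continuity f π πs hf hC hlim := by
    simpa using (hS.continuity f π πs hf hC hlim).add (hT.continuity f π πs hf hC hlim)
  locality f π hf h := by
    simp [hS.locality f π hf h, hT.locality f π hf h]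
  finite_mass := by
    obtain ⟨μ, hμ, hSμ⟩ := hS.finite_mass
    obtain ⟨ν, hν, hTν⟩ := hT.finite_mass
    exact ⟨μ + ν, inferInstance, Controls.add hSμ hTν⟩

theorem IsCurrent.smul {S : Functional X k} (hS : IsCurrent S) (c : ℝ) : IsCurrent (c • S) where
  eq_zero_of_not_test f π h := by
    simp [hS.eq_zero_of_not_test f π h]
  add_left f g π hf hg := by
    simp only [Pi.smul_apply, smul_eq_mul, hS.add_left f g π hf hg]; ring
  smul_left c' f π hf := by
    simp only [Pi.smul_apply, smul_eq_mul, hS.smul_left c' f π hf]; ring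
  add_coord f π i g hf hg := by
    simp only [Pi.smul_apply, smul_eq_mul, hS.add_coord f π i g hf hg]; ring
  smul_coord f π i c' hf := by
    simp only [Pi.smul_apply, smul_eq_mul, hS.smul_coord f π i c' hf]; ring
  continuity f π πs hf hC hlim := by
    simpa using (hS.continuity f π πs hf hC hlim).const_mul c
  locality f π hf h := by
    simp [hS.locality f π hf h]
  finite_mass := by
    obtain ⟨μ, hμ, hSμ⟩ := hS.finite_mass
    exact ⟨ENNReal.ofReal |c| • μ, Measure.smul_finite μ ENNReal.ofReal_ne_top,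
      Controls.smul hSμ c⟩

theorem IsCurrent.neg {S : Functional X k} (hS : IsCurrent S) : IsCurrent (-S) := by
  have := IsCurrent.smul hS (-1)
  simpa using this

theorem IsCurrent.sub {S T : Functional X k} (hS : IsCurrent S) (hT : IsCurrent T) :
    IsCurrent (S - T) := by
  rw [sub_eq_add_neg]
  exact IsCurrent.add hS (IsCurrent.neg hT)

end Current

/-! ### Mass is a norm -/

section Mass

variable [MeasurableSpace X] {k : ℕ}

theorem mass_set_bddBelow (T : Functional X k) :
    BddBelow {r : ℝ | ∃ μ : Measure X, IsFiniteMeasure μ ∧ Controls T μ ∧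
      r = (μ Set.univ).toReal} :=
  ⟨0, by rintro r ⟨μ, -, -, rfl⟩; exact ENNReal.toReal_nonneg⟩

theorem mass_nonneg (T : Functional X k) : 0 ≤ mass T :=
  Real.sInf_nonneg (by rintro r ⟨μ, -, -, rfl⟩; exact ENNReal.toReal_nonneg)

theorem mass_le {T : Functional X k} {μ : Measure X} [hμ : IsFiniteMeasure μ]
    (h : Controls T μ) : mass T ≤ (μ univ).toReal :=
  csInf_le (mass_set_bddBelow T) ⟨μ, hμ, h, rfl⟩

theorem exists_controls_lt {T : Functional X k} (hT : IsCurrent T) {c : ℝ} (hc : mass T < c) :
    ∃ μ : Measure X, IsFiniteMeasure μ ∧ Controls T μ ∧ (μ univ).toReal < c := by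
  obtain ⟨μ, hμ, hTμ⟩ := hT.finite_mass
  have hne : {r : ℝ | ∃ μ : Measure X, IsFiniteMeasure μ ∧ Controls T μ ∧
      r = (μ Set.univ).toReal}.Nonempty := ⟨_, μ, hμ, hTμ, rfl⟩
  obtain ⟨r, ⟨ν, hν, hTν, rfl⟩, hr⟩ := exists_lt_of_csInf_lt hne hc
  exact ⟨ν, hν, hTν, hr⟩

theorem le_mass {T : Functional X k} (hT : IsCurrent T) {c : ℝ}
    (h : ∀ μ : Measure X, IsFiniteMeasure μ → Controls T μ → c ≤ (μ univ).toReal) :
    c ≤ mass T := by
  obtain ⟨μ, hμ, hTμ⟩ := hT.finite_mass
  refine le_csInf ⟨_, μ, hμ, hTμ, rfl⟩ ?_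
  rintro r ⟨ν, hν, hTν, rfl⟩
  exact h ν hν hTν

theorem mass_zero : mass (0 : Functional X k) = 0 := by
  refine le_antisymm ?_ (mass_nonneg _)
  have h : Controls (0 : Functional X k) (0 : Measure X) := by
    intro f π _ _
    simp
  simpa using mass_le h

theorem mass_neg (T : Functional X k) : mass (-T) = mass T := by
  have key : ∀ (T : Functional X k) (μ : Measure X), Controls (-T) μ ↔ Controls T μ := by
    intro T μ
    constructor
    · intro h f π hf hπ
      simpa using h f π hf hπ
    · intro h f π hf hπ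
      simpa using h f π hf hπ
  unfold mass
  simp only [key]

variable [BorelSpace X]

theorem mass_add_le {S T : Functional X k} (hS : IsCurrent S) (hT : IsCurrent T) :
    mass (S + T) ≤ mass S + mass T := by
  refine le_of_forall_pos_le_add fun ε hε => ?_
  obtain ⟨μ, hμ, hSμ, h1⟩ := exists_controls_lt hS (c := mass S + ε / 2) (by linarith)
  obtain ⟨ν, hν, hTν, h2⟩ := exists_controls_lt hT (c := mass T + ε / 2) (by linarith)
  have h3 := mass_le (Controls.add hSμ hTν)
  rw [Measure.add_apply, ENNReal.toReal_add (measure_ne_top _ _) (measure_ne_top _ _)] at h3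
  linarith







/-! ### Estimates of the values by the mass -/

/-- If some coordinate is constant then the current vanishes. -/
theorem eq_zero_of_const {T : Functional X k} (hT : IsCurrent T) {f : X → ℝ}
    {π : Fin k → X → ℝ} (h : IsTestPair f π) (i : Fin k) (c : ℝ) (hc : ∀ x, π i x = c) :
    T f π = 0 :=
  hT.locality f π h ⟨i, univ, c, isOpen_univ, subset_univ _, fun x _ => hc x⟩

theorem smul_finset {T : Functional X k} (hT : IsCurrent T) {f : X → ℝ} {π : Fin k → X → ℝ}
    (h : IsTestPair f π) (c : Fin k → ℝ) (s : Finset (Fin k)) :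
    T f (fun i => if i ∈ s then c i • π i else π i) = (∏ i ∈ s, c i) * T f π := by
  classical
  induction s using Finset.induction_on with
  | empty => simp
  | @insert a s ha ih =>
    have htest : IsTestPair f (fun i => if i ∈ s then c i • π i else π i) := by
      refine ⟨h.1, h.2.1, fun i => ?_⟩
      by_cases hi : i ∈ s
      · simp only [hi, if_true]
        obtain ⟨K, hK⟩ := h.2.2 i
        have h0 : IsTestPair (0 : X → ℝ) (fun _ : Fin 1 => π i) :=
          isTestPair_zero fun _ => ⟨K, hK⟩
        refine ⟨‖c i‖₊ * K, ?_⟩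
        refine LipschitzWith.of_dist_le_mul fun x y => ?_
        simp only [Pi.smul_apply, smul_eq_mul, NNReal.coe_mul, coe_nnnorm, Real.norm_eq_abs,
          Real.dist_eq]
        rw [← mul_sub, abs_mul, mul_assoc]
        have := hK.dist_le_mul x y
        rw [Real.dist_eq] at this
        exact mul_le_mul_of_nonneg_left this (abs_nonneg _)
      · simpa only [hi, if_false] using h.2.2 i
    have h1 : (fun i => if i ∈ insert a s then c i • π i else π i) =
        Function.update (fun i => if i ∈ s then c i • π i else π i) a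
          (c a • (fun i => if i ∈ s then c i • π i else π i) a) := by
      funext i
      by_cases hi : i = a
      · subst hi; simp [ha]
      · simp [Function.update_of_ne hi, Finset.mem_insert, hi]
    rw [h1, hT.smul_coord _ _ a (c a) htest, ih, Finset.prod_insert ha]
    ring

theorem smul_all {T : Functional X k} (hT : IsCurrent T) {f : X → ℝ} {π : Fin k → X → ℝ}
    (h : IsTestPair f π) (c : Fin k → ℝ) :
    T f (fun i => c i • π i) = (∏ i, c i) * T f π := by
  have := smul_finset hT h c Finset.univ
  simpa using this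

theorem abs_le_of_controls {T : Functional X k} (hT : IsCurrent T) {μ : Measure X}
    (hμ : Controls T μ) {f : X → ℝ} {π : Fin k → X → ℝ} (h : IsTestPair f π) (L : Fin k → ℝ≥0)
    (hL : ∀ i, LipschitzWith (L i) (π i)) :
    |T f π| ≤ (∏ i, (L i : ℝ)) * ∫ x, |f x| ∂μ := by
  by_cases h0 : ∃ i, L i = 0
  · obtain ⟨i, hi⟩ := h0
    have hpi : T f π = 0 := by
      by_cases hX : Nonempty X
      · obtain ⟨x₀⟩ := hX
        refine eq_zero_of_const hT h i (π i x₀) fun x => ?_
        have := (hL i).dist_le_mul x x₀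
        rw [hi] at this
        simp only [NNReal.coe_zero, zero_mul] at this
        exact dist_le_zero.1 this
      · refine eq_zero_of_const hT h i 0 fun x => (hX ⟨x⟩).elim
    rw [hpi, abs_zero]
    exact mul_nonneg (Finset.prod_nonneg fun i _ => NNReal.coe_nonneg _)
      (integral_nonneg fun x => abs_nonneg _)
  · push Not at h0
    have hLpos : ∀ i, (0 : ℝ) < L i := fun i => by
      have := h0 i
      positivity
    have htest : IsTestPair f (fun i => ((L i : ℝ))⁻¹ • π i) := by
      refine ⟨h.1, h.2.1, fun i => ⟨1, ?_⟩⟩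
      refine LipschitzWith.of_dist_le_mul fun x y => ?_
      simp only [Pi.smul_apply, smul_eq_mul, Real.dist_eq, NNReal.coe_one, one_mul]
      rw [← mul_sub, abs_mul, abs_inv, abs_of_pos (hLpos i), inv_mul_le_iff₀ (hLpos i)]
      simpa [Real.dist_eq] using (hL i).dist_le_mul x y
    have h1 : ∀ i, LipschitzWith 1 (((L i : ℝ))⁻¹ • π i) := by
      intro i
      refine LipschitzWith.of_dist_le_mul fun x y => ?_
      simp only [Pi.smul_apply, smul_eq_mul, Real.dist_eq, NNReal.coe_one, one_mul]
      rw [← mul_sub, abs_mul, abs_inv, abs_of_pos (hLpos i), inv_mul_le_iff₀ (hLpos i)]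
      simpa [Real.dist_eq] using (hL i).dist_le_mul x y
    have h2 := smul_all hT htest (fun i => (L i : ℝ))
    have h3 : (fun i => (L i : ℝ) • ((L i : ℝ)⁻¹ • π i)) = π := by
      funext i
      rw [smul_smul, mul_inv_cancel₀ (hLpos i).ne', one_smul]
    rw [h3] at h2
    rw [h2, abs_mul, abs_of_nonneg (Finset.prod_nonneg fun i _ => NNReal.coe_nonneg (L i))]
    exact mul_le_mul_of_nonneg_left (hμ f _ htest h1)
      (Finset.prod_nonneg fun i _ => NNReal.coe_nonneg _)

theorem abs_le_mass {T : Functional X k} (hT : IsCurrent T) {f : X → ℝ} {π : Fin k → X → ℝ}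
    (h : IsTestPair f π) {C : ℝ} (hC : ∀ x, |f x| ≤ C) (hC0 : 0 ≤ C) (L : Fin k → ℝ≥0)
    (hL : ∀ i, LipschitzWith (L i) (π i)) :
    |T f π| ≤ C * (∏ i, (L i : ℝ)) * mass T := by
  have hP : 0 ≤ ∏ i, (L i : ℝ) := Finset.prod_nonneg fun i _ => NNReal.coe_nonneg _
  have key : ∀ ε > 0, |T f π| ≤ C * (∏ i, (L i : ℝ)) * (mass T + ε) := by
    intro ε hε
    obtain ⟨μ, hμ, hTμ, h1⟩ := exists_controls_lt hT (c := mass T + ε) (by linarith)
    calc |T f π| ≤ (∏ i, (L i : ℝ)) * ∫ x, |f x| ∂μ := abs_le_of_controls hT hTμ h L hL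
      _ ≤ (∏ i, (L i : ℝ)) * (C * (μ univ).toReal) :=
          mul_le_mul_of_nonneg_left (IsTestPair.integral_le h μ hC) hP
      _ ≤ (∏ i, (L i : ℝ)) * (C * (mass T + ε)) := by gcongr
      _ = C * (∏ i, (L i : ℝ)) * (mass T + ε) := by ring
  have h2 : Tendsto (fun ε : ℝ => C * (∏ i, (L i : ℝ)) * (mass T + ε)) (𝓝[>] 0)
      (𝓝 (C * (∏ i, (L i : ℝ)) * (mass T + 0))) := by
    refine Tendsto.mono_left ?_ nhdsWithin_le_nhds
    exact (continuous_const.mul (continuous_const.add continuous_id)).tendsto 0
  rw [add_zero] at h2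
  exact ge_of_tendsto h2 (eventually_nhdsWithin_of_forall fun ε hε => key ε hε)

theorem eq_zero_of_mass_eq_zero {T : Functional X k} (hT : IsCurrent T) (h : mass T = 0) :
    T = 0 := by
  funext f π
  by_cases hf : IsTestPair f π
  · obtain ⟨C, hC⟩ := hf.2.1
    choose L hL using hf.2.2
    have hC' : ∀ x, |f x| ≤ |C| := fun x => (hC x).trans (le_abs_self C)
    have := abs_le_mass hT hf hC' (abs_nonneg C) L hL
    rw [h, mul_zero] at this
    simpa using this
  · simp [hT.eq_zero_of_not_test f π hf]

end Mass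

end Crest.Agent.R241.B10
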