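import Mathlib
import Crest.Agent.R241.B10Mass

-- ▼ part R241/B10Lim
section

/-!
# R241, block B10: limits of currents (owner: helper502)

* `controls_restrict`: a current supported in a compact set `K` is controlled by `μ.restrict K`;
* `exists_controls_of_tendsto`, `mass_le_of_frequently`: lower semicontinuity of mass under
  pointwise convergence with supports in one compact set, along any filter;
* `exists_controls_eq_mass`: for compactly supported currents the mass is attained;
* `IsCurrent.of_tendsto_uniform`, `exists_limit`: a sequence of currents with summable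
  mass-distances converges to a current.
-/

set_option autoImplicit false

open MeasureTheory Filter Topology Set
open scoped ENNReal NNReal

universe u

namespace Crest.Agent.R241.B10

open Crest.GeometryTopology.MetricCurrent

variable {X : Type u} [MetricSpace X]

theorem exists_lipschitz_mul {f g : X → ℝ} {Kf Kg : ℝ≥0} {Cf Cg : ℝ} (hf : LipschitzWith Kf f)
    (hg : LipschitzWith Kg g) (hCf : ∀ x, |f x| ≤ Cf) (hCg : ∀ x, |g x| ≤ Cg) :
    ∃ K : ℝ≥0, LipschitzWith K (fun x => f x * g x) := by
  refine ⟨Real.toNNReal |Cf| * Kg + Real.toNNReal |Cg| * Kf, ?_⟩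
  refine LipschitzWith.of_dist_le_mul fun x y => ?_
  have h1 := hf.dist_le_mul x y
  have h2 := hg.dist_le_mul x y
  rw [Real.dist_eq] at h1 h2
  rw [Real.dist_eq]
  have e : f x * g x - f y * g y = f x * (g x - g y) + (f x - f y) * g y := by ring
  rw [e]
  refine (abs_add_le _ _).trans ?_
  rw [abs_mul, abs_mul]
  have h3 : |f x| ≤ |Cf| := (hCf x).trans (le_abs_self _)
  have h4 : |g y| ≤ |Cg| := (hCg y).trans (le_abs_self _)
  have h5 : ((Real.toNNReal |Cf| * Kg + Real.toNNReal |Cg| * Kf : ℝ≥0) : ℝ) * dist x y =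
      |Cf| * (Kg * dist x y) + (Kf * dist x y) * |Cg| := by
    push_cast
    rw [Real.coe_toNNReal _ (abs_nonneg _), Real.coe_toNNReal _ (abs_nonneg _)]
    ring
  rw [h5]
  gcongr

theorem isTestPair_mul {k : ℕ} {f g : X → ℝ} {π : Fin k → X → ℝ} (hf : IsTestPair f π)
    (hg : ∃ K : ℝ≥0, LipschitzWith K g) (hgb : ∃ C : ℝ, ∀ x, |g x| ≤ C) :
    IsTestPair (fun x => f x * g x) π := by
  obtain ⟨⟨Kf, hKf⟩, ⟨Cf, hCf⟩, hπ⟩ := hf
  obtain ⟨Kg, hKg⟩ := hg
  obtain ⟨Cg, hCg⟩ := hgb
  refine ⟨exists_lipschitz_mul hKf hKg hCf hCg, ⟨|Cf| * |Cg|, fun x => ?_⟩, hπ⟩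
  rw [abs_mul]
  have h3 : |f x| ≤ |Cf| := (hCf x).trans (le_abs_self _)
  have h4 : |g x| ≤ |Cg| := (hCg x).trans (le_abs_self _)
  gcongr

section

variable [MeasurableSpace X] [BorelSpace X] {k : ℕ}

theorem sub_left {T : Functional X k} (hT : IsCurrent T) {f g : X → ℝ} {π : Fin k → X → ℝ}
    (hf : IsTestPair f π) (hg : IsTestPair g π) : T (f - g) π = T f π - T g π := by
  have h1 : f - g = f + (-1 : ℝ) • g := by
    funext x; simp [sub_eq_add_neg]
  rw [h1, hT.add_left f _ π hf (isTestPair_smul (-1) hg), hT.smul_left (-1) g π hg]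
  ring

/-- Only the values of `f` on the support matter. -/
theorem eq_of_eqOn {T : Functional X k} (hT : IsCurrent T) {K : Set X} (hK : IsSupportedIn K T)
    {f g : X → ℝ} {π : Fin k → X → ℝ} (hf : IsTestPair f π) (hg : IsTestPair g π)
    (h : ∀ x ∈ K, f x = g x) : T f π = T g π := by
  have h1 := hK (f - g) π (isTestPair_sub hf hg) fun x hx => by simp [h x hx]
  rw [sub_left hT hf hg] at h1
  linarith

/-- A current supported in the closed set `K` is controlled by the restriction to `K` of any
controlling measure. -/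
theorem controls_restrict {T : Functional X k} (hT : IsCurrent T) {K : Set X}
    (hKc : IsClosed K) (hK : IsSupportedIn K T) {μ : Measure X} [IsFiniteMeasure μ]
    (hμ : Controls T μ) : Controls T (μ.restrict K) := by
  intro f π hf hπ
  set δ : ℕ → ℝ := fun n => 1 / ((n : ℝ) + 1) with hδ
  have hδpos : ∀ n, 0 < δ n := fun n => by rw [hδ]; positivity
  have hδlim : Tendsto δ atTop (𝓝 0) := tendsto_one_div_add_atTop_nhds_zero_nat
  set χ : ℕ → X → ℝ := fun n x => ((thickenedIndicator (hδpos n) K x : ℝ≥0) : ℝ) with hχ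
  have hχ0 : ∀ n x, 0 ≤ χ n x := fun n x => NNReal.coe_nonneg _
  have hχ1 : ∀ n x, χ n x ≤ 1 := fun n x => by
    have := thickenedIndicator_le_one (hδpos n) K x
    exact_mod_cast this
  have hχL : ∀ n, ∃ L : ℝ≥0, LipschitzWith L (χ n) := fun n =>
    ⟨_, (NNReal.isometry_coe).lipschitz.comp (lipschitzWith_thickenedIndicator (hδpos n) K)⟩
  have hχb : ∀ n, ∃ C : ℝ, ∀ x, |χ n x| ≤ C := fun n =>
    ⟨1, fun x => by rw [abs_of_nonneg (hχ0 n x)]; exact hχ1 n x⟩
  have hχlim : ∀ x, Tendsto (fun n => χ n x) atTop (𝓝 (K.indicator (fun _ => (1 : ℝ)) x)) := by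
    intro x
    have h1 := thickenedIndicator_tendsto_indicator_closure hδpos hδlim K
    rw [hKc.closure_eq] at h1
    have h2 := (tendsto_pi_nhds.1 h1 x)
    have h3 := (NNReal.continuous_coe.tendsto _).comp h2
    have e : ((K.indicator (fun _ => (1 : ℝ≥0)) x : ℝ≥0) : ℝ) = K.indicator (fun _ => (1 : ℝ)) x := by
      by_cases hx : x ∈ K <;> simp [hx]
    rw [e] at h3
    exact h3
  have htest : ∀ n, IsTestPair (fun x => f x * χ n x) π := fun n =>
    isTestPair_mul hf (hχL n) (hχb n)
  have h1 : ∀ n, |T f π| ≤ ∫ x, |f x * χ n x| ∂μ := by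
    intro n
    have h2 : T f π = T (fun x => f x * χ n x) π := by
      refine eq_of_eqOn hT hK hf (htest n) fun x hx => ?_
      have : χ n x = 1 := by
        simp only [hχ]
        rw [thickenedIndicator_one (hδpos n) K hx]
        simp
      simp [this]
    rw [h2]
    exact hμ _ π (htest n) hπ
  obtain ⟨C, hC⟩ := hf.2.1
  have h2 : Tendsto (fun n => ∫ x, |f x * χ n x| ∂μ) atTop
      (𝓝 (∫ x, |f x| * K.indicator (fun _ => (1 : ℝ)) x ∂μ)) := by
    refine tendsto_integral_of_dominated_convergence (fun _ => C) (fun n => ?_)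
      (integrable_const _) (fun n => ?_) ?_
    · exact (IsTestPair.continuous (htest n)).measurable.abs.aestronglyMeasurable
    · refine Eventually.of_forall fun x => ?_
      rw [Real.norm_eq_abs, abs_abs, abs_mul, abs_of_nonneg (hχ0 n x)]
      calc |f x| * χ n x ≤ |f x| * 1 := by gcongr; exact hχ1 n x
        _ ≤ C := by rw [mul_one]; exact hC x
    · refine Eventually.of_forall fun x => ?_
      have := (hχlim x).const_mul |f x|
      refine this.congr fun n => ?_
      rw [abs_mul, abs_of_nonneg (hχ0 n x)]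
  have h3 : ∫ x, |f x| * K.indicator (fun _ => (1 : ℝ)) x ∂μ = ∫ x in K, |f x| ∂μ := by
    rw [← integral_indicator hKc.measurableSet]
    congr 1
    funext x
    by_cases hx : x ∈ K <;> simp [hx]
  rw [h3] at h2
  exact ge_of_tendsto h2 (Eventually.of_forall h1)

/-- Weak-* compactness of controlling measures: along any (nontrivial) filter, if the currents
`S j` are supported in the compact set `K`, controlled by measures of mass `≤ c` and converge
pointwise to `T` on test pairs, then `T` is controlled by a measure on `K` of mass `≤ c`. -/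
theorem exists_controls_of_tendsto {ι : Type*} {l : Filter ι} [l.NeBot] {S : ι → Functional X k}
    {T : Functional X k} {K : Set X} (hKc : IsCompact K) (hS : ∀ᶠ j in l, IsCurrent (S j))
    (hSK : ∀ᶠ j in l, IsSupportedIn K (S j)) {c : ℝ}
    (hc : ∀ᶠ j in l, ∃ μ : Measure X, IsFiniteMeasure μ ∧ Controls (S j) μ ∧ (μ univ).toReal ≤ c)
    (hlim : ∀ f π, IsTestPair f π → Tendsto (fun j => S j f π) l (𝓝 (T f π))) :
    ∃ μ : Measure X, IsFiniteMeasure μ ∧ Controls T μ ∧ μ Kᶜ = 0 ∧ (μ univ).toReal ≤ c := by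
  classical
  have hc0 : 0 ≤ c := by
    obtain ⟨j, μ, -, -, hj⟩ := hc.exists
    exact ENNReal.toReal_nonneg.trans hj
  -- choose controlling measures on `K`
  have h1 : ∀ᶠ j in l, ∃ μ : FiniteMeasure X, Controls (S j) (μ : Measure X) ∧
      μ.mass ≤ Real.toNNReal c ∧ (μ : Measure X) Kᶜ = 0 := by
    filter_upwards [hS, hSK, hc] with j hSj hKj hcj
    obtain ⟨μ, hμ, hcont, hm⟩ := hcj
    refine ⟨⟨μ.restrict K, inferInstance⟩, controls_restrict hSj hKc.isClosed hKj hcont, ?_, ?_⟩
    · rw [← NNReal.coe_le_coe, Real.coe_toNNReal c hc0]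
      refine le_trans ?_ hm
      change ((μ.restrict K) univ).toReal ≤ _
      exact ENNReal.toReal_mono (measure_ne_top _ _)
        (Measure.restrict_apply_univ (μ := μ) K ▸ measure_mono (subset_univ K))
    · change (μ.restrict K) Kᶜ = 0
      rw [Measure.restrict_apply hKc.measurableSet.compl]
      simp
  set m : ι → FiniteMeasure X := fun j => if h : ∃ μ : FiniteMeasure X,
    Controls (S j) (μ : Measure X) ∧ μ.mass ≤ Real.toNNReal c ∧ (μ : Measure X) Kᶜ = 0
    then h.choose else 0 with hm
  have h2 : ∀ᶠ j in l, Controls (S j) (m j : Measure X) ∧ (m j).mass ≤ Real.toNNReal c ∧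
      (m j : Measure X) Kᶜ = 0 := by
    filter_upwards [h1] with j hj
    rw [hm]
    simp only [dif_pos hj]
    exact hj.choose_spec
  -- pass to an ultrafilter
  set U : Ultrafilter ι := Ultrafilter.of l with hU
  have hUl : (U : Filter ι) ≤ l := Ultrafilter.of_le l
  have hcomp := isCompact_setOfPred_finiteMeasure_le_of_isCompact (E := X) (Real.toNNReal c) hKc
  rw [isCompact_iff_ultrafilter_le_nhds'] at hcomp
  obtain ⟨ν, hν, hνlim⟩ := hcomp (U.map m) (by
    have h3 := hUl h2
    change m ⁻¹' _ ∈ (U : Filter ι)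
    refine Filter.mem_of_superset h3 fun j hj => ?_
    refine ⟨hj.2.1, ?_⟩
    have := hj.2.2
    exact (FiniteMeasure.null_iff_toMeasure_null _ _).2 this)
  have hνt : Tendsto m (U : Filter ι) (𝓝 ν) := hνlim
  refine ⟨(ν : Measure X), inferInstance, ?_, ?_, ?_⟩
  · intro f π hf hπ
    obtain ⟨C, hC⟩ := hf.2.1
    set F : BoundedContinuousFunction X ℝ := BoundedContinuousFunction.ofNormedAddCommGroup
      (fun x => |f x|) (IsTestPair.continuous hf).abs C (fun x => by simpa using hC x) with hF
    have h3 := FiniteMeasure.tendsto_iff_forall_integral_tendsto.1 hνt F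
    have h4 : Tendsto (fun j => |S j f π|) (U : Filter ι) (𝓝 |T f π|) :=
      ((hlim f π hf).mono_left hUl).abs
    refine le_of_tendsto_of_tendsto h4 h3 ?_
    filter_upwards [hUl h2] with j hj
    exact hj.1 f π hf hπ
  · exact (FiniteMeasure.null_iff_toMeasure_null _ _).1 hν.2
  · have h3 := hν.1
    rw [← NNReal.coe_le_coe, Real.coe_toNNReal c hc0] at h3
    exact h3

/-- Lower semicontinuity of mass, "frequently" form. -/
theorem exists_controls_of_frequently {ι : Type*} {l : Filter ι} {S : ι → Functional X k}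
    {T : Functional X k} {K : Set X} (hKc : IsCompact K) (hS : ∀ᶠ j in l, IsCurrent (S j))
    (hSK : ∀ᶠ j in l, IsSupportedIn K (S j)) {c : ℝ} (hc : ∃ᶠ j in l, mass (S j) < c)
    (hlim : ∀ f π, IsTestPair f π → Tendsto (fun j => S j f π) l (𝓝 (T f π))) :
    ∃ μ : Measure X, IsFiniteMeasure μ ∧ Controls T μ ∧ μ Kᶜ = 0 ∧ (μ univ).toReal ≤ c := by
  have hne : (l ⊓ 𝓟 {j | mass (S j) < c}).NeBot :=
    frequently_mem_iff_neBot.1 hc
  have hle : l ⊓ 𝓟 {j | mass (S j) < c} ≤ l := inf_le_left
  refine exists_controls_of_tendsto (l := l ⊓ 𝓟 {j | mass (S j) < c}) hKc (hle hS) (hle hSK) ?_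
    fun f π h => (hlim f π h).mono_left hle
  have h1 : ∀ᶠ j in l ⊓ 𝓟 {j | mass (S j) < c}, mass (S j) < c :=
    Filter.mem_inf_of_right (mem_principal_self _)
  filter_upwards [h1, hle hS] with j hj hSj
  obtain ⟨μ, hμ, hcont, hm⟩ := exists_controls_lt hSj hj
  exact ⟨μ, hμ, hcont, hm.le⟩

theorem mass_le_of_frequently {ι : Type*} {l : Filter ι} {S : ι → Functional X k}
    {T : Functional X k} {K : Set X} (hKc : IsCompact K) (hS : ∀ᶠ j in l, IsCurrent (S j))
    (hSK : ∀ᶠ j in l, IsSupportedIn K (S j)) {c : ℝ} (hc : ∃ᶠ j in l, mass (S j) ≤ c)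
    (hlim : ∀ f π, IsTestPair f π → Tendsto (fun j => S j f π) l (𝓝 (T f π))) :
    mass T ≤ c := by
  refine le_of_forall_pos_le_add fun ε hε => ?_
  obtain ⟨μ, hμ, hcont, -, hm⟩ := exists_controls_of_frequently hKc hS hSK (c := c + ε)
    (hc.mono fun j hj => by linarith) hlim
  exact (mass_le hcont).trans hm


end

end Crest.Agent.R241.B10
end

-- ▼ part R241/B10Complete

/-!
# R241, block B10: mass-convergent series, completeness (owner: helper502)
-/

set_option autoImplicit false
set_option linter.unusedSectionVars false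

open MeasureTheory Filter Topology Set
open scoped ENNReal NNReal

universe u

namespace Crest.Agent.R241.B10

open Crest.GeometryTopology.MetricCurrent

variable {X : Type u} [MetricSpace X] [MeasurableSpace X] [BorelSpace X] {k : ℕ}

/-- Uniform bound of the values by the mass, for one fixed `f` and all `π` with a given
Lipschitz constant. -/
theorem abs_le_pow_mass {T : Functional X k} (hT : IsCurrent T) {f : X → ℝ} {π : Fin k → X → ℝ}
    (h : IsTestPair f π) {C : ℝ} (hC : ∀ x, |f x| ≤ C) (hC0 : 0 ≤ C) {L : ℝ≥0}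
    (hL : ∀ i, LipschitzWith L (π i)) : |T f π| ≤ C * (L : ℝ) ^ k * mass T := by
  have := abs_le_mass hT h hC hC0 (fun _ => L) hL
  simpa using this

theorem exists_common_lip {f : X → ℝ} {π : Fin k → X → ℝ} (h : IsTestPair f π) :
    ∃ L : ℝ≥0, ∀ i, LipschitzWith L (π i) := by
  choose L hL using h.2.2
  exact ⟨∑ i, L i, fun i => (hL i).weaken
    (Finset.single_le_sum (f := L) (fun j _ => zero_le) (Finset.mem_univ i))⟩

theorem exists_bound {f : X → ℝ} {π : Fin k → X → ℝ} (h : IsTestPair f π) :
    ∃ C : ℝ, 0 ≤ C ∧ ∀ x, |f x| ≤ C := by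
  obtain ⟨C, hC⟩ := h.2.1
  exact ⟨|C|, abs_nonneg C, fun x => (hC x).trans (le_abs_self C)⟩

/-! ### Series -/

theorem controls_of_hasSum {T : ℕ → Functional X k} {S : Functional X k} {μ : ℕ → Measure X}
    (hμf : ∀ i, IsFiniteMeasure (μ i)) (hμ : ∀ i, Controls (T i) (μ i))
    (hsum : Summable fun i => (μ i univ).toReal)
    (hS : ∀ f π, IsTestPair f π → HasSum (fun i => T i f π) (S f π)) :
    IsFiniteMeasure (Measure.sum μ) ∧ Controls S (Measure.sum μ) ∧
      ((Measure.sum μ) univ).toReal = ∑' i, (μ i univ).toReal := by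
  have h1 : (Measure.sum μ) univ = ENNReal.ofReal (∑' i, (μ i univ).toReal) := by
    rw [Measure.sum_apply _ MeasurableSet.univ,
      ENNReal.ofReal_tsum_of_nonneg (fun i => ENNReal.toReal_nonneg) hsum]
    congr 1
    funext i
    rw [ENNReal.ofReal_toReal (measure_ne_top _ _)]
  have hfin : IsFiniteMeasure (Measure.sum μ) := ⟨by rw [h1]; exact ENNReal.ofReal_lt_top⟩
  refine ⟨hfin, ?_, ?_⟩
  · intro f π hf hπ
    have hint : Integrable (fun x => |f x|) (Measure.sum μ) := IsTestPair.integrable hf _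
    have h2 : HasSum (fun i => ∫ x, |f x| ∂(μ i)) (∫ x, |f x| ∂(Measure.sum μ)) :=
      hasSum_integral_measure hint
    have h3 := hS f π hf
    have h4 : Summable fun i => |T i f π| :=
      Summable.of_nonneg_of_le (fun i => abs_nonneg _) (fun i => hμ i f π hf hπ) h2.summable
    calc |S f π| = |∑' i, T i f π| := by rw [h3.tsum_eq]
      _ ≤ ∑' i, |T i f π| := by
          have := norm_tsum_le_tsum_norm (f := fun i => T i f π) (by simpa using h4)
          simpa using this
      _ ≤ ∑' i, ∫ x, |f x| ∂(μ i) :=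
          h4.tsum_le_tsum (fun i => hμ i f π hf hπ) h2.summable
      _ = ∫ x, |f x| ∂(Measure.sum μ) := h2.tsum_eq
  · rw [h1, ENNReal.toReal_ofReal (tsum_nonneg fun i => ENNReal.toReal_nonneg)]

/-- A mass-summable series is controlled by a measure of mass at most `∑ mass + ε`. -/
theorem exists_controls_of_hasSum {T : ℕ → Functional X k} {S : Functional X k}
    (hT : ∀ i, IsCurrent (T i)) {r : ℕ → ℝ} (hr : Summable r) (hm : ∀ i, mass (T i) ≤ r i)
    (hS : ∀ f π, IsTestPair f π → HasSum (fun i => T i f π) (S f π)) {ε : ℝ} (hε : 0 < ε) :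
    ∃ μ : Measure X, IsFiniteMeasure μ ∧ Controls S μ ∧ (μ univ).toReal ≤ (∑' i, r i) + ε := by
  obtain ⟨δ, hδpos, c, hδsum, hδε⟩ := posSumOfEncodable hε ℕ
  have h1 : ∀ i, ∃ μ : Measure X, IsFiniteMeasure μ ∧ Controls (T i) μ ∧
      (μ univ).toReal < r i + δ i := fun i =>
    exists_controls_lt (hT i) (by linarith [hm i, hδpos i])
  choose μ hμf hμc hμm using h1
  have hsum1 : Summable fun i => r i + δ i := hr.add hδsum.summable
  have hsum : Summable fun i => (μ i univ).toReal :=
    Summable.of_nonneg_of_le (fun i => ENNReal.toReal_nonneg) (fun i => (hμm i).le) hsum1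
  obtain ⟨hfin, hc, hm'⟩ := controls_of_hasSum hμf hμc hsum hS
  refine ⟨Measure.sum μ, hfin, hc, ?_⟩
  rw [hm']
  calc ∑' i, (μ i univ).toReal ≤ ∑' i, (r i + δ i) :=
        hsum.tsum_le_tsum (fun i => (hμm i).le) hsum1
    _ = (∑' i, r i) + ∑' i, δ i := hr.tsum_add hδsum.summable
    _ ≤ (∑' i, r i) + ε := by rw [hδsum.tsum_eq]; linarith

theorem mass_le_of_hasSum {T : ℕ → Functional X k} {S : Functional X k}
    (hT : ∀ i, IsCurrent (T i)) {r : ℕ → ℝ} (hr : Summable r) (hm : ∀ i, mass (T i) ≤ r i)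
    (hS : ∀ f π, IsTestPair f π → HasSum (fun i => T i f π) (S f π)) :
    mass S ≤ ∑' i, r i := by
  refine le_of_forall_pos_le_add fun ε hε => ?_
  obtain ⟨μ, hμ, hc, h⟩ := exists_controls_of_hasSum hT hr hm hS hε
  exact (mass_le hc).trans h

theorem summable_apply {T : ℕ → Functional X k} (hT : ∀ i, IsCurrent (T i))
    (hsum : Summable fun i => mass (T i)) {f : X → ℝ} {π : Fin k → X → ℝ} (h : IsTestPair f π) :
    Summable fun i => T i f π := by
  obtain ⟨C, hC0, hC⟩ := exists_bound h
  obtain ⟨L, hL⟩ := exists_common_lip h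
  refine Summable.of_norm_bounded (g := fun i => C * (L : ℝ) ^ k * mass (T i))
    (hsum.mul_left _) fun i => ?_
  rw [Real.norm_eq_abs]
  exact abs_le_pow_mass (hT i) h hC hC0 hL

/-- Mass-summable series of currents are currents. -/
theorem isCurrent_of_hasSum {T : ℕ → Functional X k} {S : Functional X k}
    (hT : ∀ i, IsCurrent (T i)) (hsum : Summable fun i => mass (T i))
    (hS : ∀ f π, IsTestPair f π → HasSum (fun i => T i f π) (S f π))
    (hS0 : ∀ f π, ¬ IsTestPair f π → S f π = 0) : IsCurrent S where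
  eq_zero_of_not_test := hS0
  add_left f g π hf hg := by
    refine (hS _ _ (isTestPair_add hf hg)).unique ?_
    refine ((hS f π hf).add (hS g π hg)).congr_fun ?_
    intro i
    exact ((hT i).add_left f g π hf hg)
  smul_left c f π hf := by
    refine (hS _ _ (isTestPair_smul c hf)).unique ?_
    refine ((hS f π hf).mul_left c).congr_fun ?_
    intro i
    exact ((hT i).smul_left c f π hf)
  add_coord f π i g hf hg := by
    have h1 : ∃ K : ℝ≥0, LipschitzWith K (π i + g) := by
      obtain ⟨K, hK⟩ := hf.2.2 i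
      obtain ⟨K', hK'⟩ := hg
      exact ⟨K + K', hK.add hK'⟩
    refine (hS _ _ (isTestPair_update hf i h1)).unique ?_
    refine ((hS f π hf).add (hS f _ (isTestPair_update hf i hg))).congr_fun ?_
    intro j
    exact ((hT j).add_coord f π i g hf hg)
  smul_coord f π i c hf := by
    have h1 : ∃ K : ℝ≥0, LipschitzWith K (c • π i) := by
      have h2 : IsTestPair (0 : X → ℝ) (fun _ : Fin 1 => π i) :=
        isTestPair_zero fun _ => hf.2.2 i
      obtain ⟨K, hK⟩ := hf.2.2 i
      refine ⟨‖c‖₊ * K, LipschitzWith.of_dist_le_mul fun x y => ?_⟩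
      simp only [Pi.smul_apply, smul_eq_mul, NNReal.coe_mul, coe_nnnorm, Real.norm_eq_abs,
        Real.dist_eq]
      rw [← mul_sub, abs_mul, mul_assoc]
      have := hK.dist_le_mul x y
      rw [Real.dist_eq] at this
      exact mul_le_mul_of_nonneg_left this (abs_nonneg _)
    refine (hS _ _ (isTestPair_update hf i h1)).unique ?_
    refine ((hS f π hf).mul_left c).congr_fun ?_
    intro j
    exact ((hT j).smul_coord f π i c hf)
  continuity f π πs hf hC hlim := by
    obtain ⟨L, hL⟩ := hC
    obtain ⟨C, hC0, hCf⟩ := exists_bound hf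
    have htest : ∀ j, IsTestPair f (πs j) := fun j => ⟨hf.1, hf.2.1, fun i => ⟨L, hL j i⟩⟩
    have h1 : ∀ j, S f (πs j) = ∑' i, T i f (πs j) := fun j => (hS f _ (htest j)).tsum_eq.symm
    have h2 : S f π = ∑' i, T i f π := (hS f π hf).tsum_eq.symm
    rw [h2]
    simp only [h1]
    refine tendsto_tsum_of_dominated_convergence
      (bound := fun i => C * (L : ℝ) ^ k * mass (T i)) (hsum.mul_left _) ?_ ?_
    · intro i
      exact (hT i).continuity f π πs hf ⟨L, hL⟩ hlim
    · refine Eventually.of_forall fun j i => ?_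
      rw [Real.norm_eq_abs]
      exact abs_le_pow_mass (hT i) (htest j) hCf hC0 (hL j)
  locality f π hf h := by
    have h1 : (fun i => T i f π) = fun _ => 0 := by
      funext i
      exact (hT i).locality f π hf h
    have h2 := hS f π hf
    rw [h1] at h2
    exact h2.unique hasSum_zero
  finite_mass := by
    obtain ⟨μ, hμ, hc, -⟩ := exists_controls_of_hasSum hT hsum (fun i => le_rfl) hS one_pos
    exact ⟨μ, hμ, hc⟩

/-- The limit functional of a mass-summable series. -/
theorem exists_series_limit {T : ℕ → Functional X k} (hT : ∀ i, IsCurrent (T i))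
    (hsum : Summable fun i => mass (T i)) :
    ∃ S : Functional X k, IsCurrent S ∧
      ∀ f π, IsTestPair f π → HasSum (fun i => T i f π) (S f π) := by
  refine ⟨fun f π => ∑' i, T i f π, ?_, ?_⟩
  · refine isCurrent_of_hasSum hT hsum (fun f π h => (summable_apply hT hsum h).hasSum) ?_
    intro f π h
    have : (fun i => T i f π) = fun _ => 0 := by
      funext i
      exact (hT i).eq_zero_of_not_test f π h
    simp [this]
  · intro f π h
    exact (summable_apply hT hsum h).hasSum


/-! ### Pointwise limits -/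

/-- A pointwise limit of currents which is continuous in the coordinates and controlled by a
finite measure is a current. -/
theorem isCurrent_of_tendsto {ι : Type*} {l : Filter ι} [l.NeBot] {S : ι → Functional X k}
    {T : Functional X k} (hS : ∀ᶠ j in l, IsCurrent (S j))
    (hlim : ∀ f π, IsTestPair f π → Tendsto (fun j => S j f π) l (𝓝 (T f π)))
    (hT0 : ∀ f π, ¬ IsTestPair f π → T f π = 0)
    (hcont : ∀ f π (πs : ℕ → Fin k → X → ℝ), IsTestPair f π →
      (∃ C : NNReal, ∀ j i, LipschitzWith C (πs j i)) →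
      (∀ i x, Tendsto (fun j => πs j i x) atTop (𝓝 (π i x))) →
      Tendsto (fun j => T f (πs j)) atTop (𝓝 (T f π)))
    (hmass : ∃ μ : Measure X, IsFiniteMeasure μ ∧ Controls T μ) : IsCurrent T where
  eq_zero_of_not_test := hT0
  add_left f g π hf hg := by
    refine tendsto_nhds_unique (hlim _ _ (isTestPair_add hf hg)) ?_
    refine ((hlim f π hf).add (hlim g π hg)).congr' ?_
    filter_upwards [hS] with j hj
    exact (hj.add_left f g π hf hg).symm
  smul_left c f π hf := by
    refine tendsto_nhds_unique (hlim _ _ (isTestPair_smul c hf)) ?_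
    refine ((hlim f π hf).const_mul c).congr' ?_
    filter_upwards [hS] with j hj
    exact (hj.smul_left c f π hf).symm
  add_coord f π i g hf hg := by
    have h1 : ∃ K : ℝ≥0, LipschitzWith K (π i + g) := by
      obtain ⟨K, hK⟩ := hf.2.2 i
      obtain ⟨K', hK'⟩ := hg
      exact ⟨K + K', hK.add hK'⟩
    refine tendsto_nhds_unique (hlim _ _ (isTestPair_update hf i h1)) ?_
    refine ((hlim f π hf).add (hlim f _ (isTestPair_update hf i hg))).congr' ?_
    filter_upwards [hS] with j hj
    exact (hj.add_coord f π i g hf hg).symm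
  smul_coord f π i c hf := by
    have h1 : ∃ K : ℝ≥0, LipschitzWith K (c • π i) := by
      obtain ⟨K, hK⟩ := hf.2.2 i
      refine ⟨‖c‖₊ * K, LipschitzWith.of_dist_le_mul fun x y => ?_⟩
      simp only [Pi.smul_apply, smul_eq_mul, NNReal.coe_mul, coe_nnnorm, Real.norm_eq_abs,
        Real.dist_eq]
      rw [← mul_sub, abs_mul, mul_assoc]
      have := hK.dist_le_mul x y
      rw [Real.dist_eq] at this
      exact mul_le_mul_of_nonneg_left this (abs_nonneg _)
    refine tendsto_nhds_unique (hlim _ _ (isTestPair_update hf i h1)) ?_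
    refine ((hlim f π hf).const_mul c).congr' ?_
    filter_upwards [hS] with j hj
    exact (hj.smul_coord f π i c hf).symm
  continuity := hcont
  locality f π hf h := by
    refine tendsto_nhds_unique (hlim f π hf) ?_
    refine tendsto_const_nhds.congr' ?_
    filter_upwards [hS] with j hj
    exact (hj.locality f π hf h).symm
  finite_mass := hmass

/-- The boundary of a current is continuous in the coordinates. -/
theorem bd_continuity {S : Functional X (k + 1)} (hS : IsCurrent S) (f : X → ℝ)
    (π : Fin k → X → ℝ) (πs : ℕ → Fin k → X → ℝ) (hf : IsTestPair f π)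
    (hC : ∃ C : NNReal, ∀ j i, LipschitzWith C (πs j i))
    (hlim : ∀ i x, Tendsto (fun j => πs j i x) atTop (𝓝 (π i x))) :
    Tendsto (fun j => bd S f (πs j)) atTop (𝓝 (bd S f π)) := by
  obtain ⟨C, hC⟩ := hC
  obtain ⟨Kf, hKf⟩ := hf.1
  have htest : ∀ j, IsTestPair f (πs j) := fun j => ⟨hf.1, hf.2.1, fun i => ⟨C, hC j i⟩⟩
  rw [bd_apply hf]
  simp only [bd_apply (htest _)]
  refine hS.continuity (fun _ => 1) (Fin.cons f π) (fun j => Fin.cons f (πs j))
    (isTestPair_cons hf) ⟨max C Kf, fun j i => ?_⟩ fun i x => ?_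
  · refine Fin.cases ?_ (fun i => ?_) i
    · simpa using hKf.weaken (le_max_right _ _)
    · simpa using (hC j i).weaken (le_max_left _ _)
  · refine Fin.cases ?_ (fun i => ?_) i
    · simp
    · simpa using hlim i x


/-! ### Supports of limits -/

theorem isSupportedIn_of_tendsto {ι : Type*} {l : Filter ι} [l.NeBot] {S : ι → Functional X k}
    {T : Functional X k} {K : Set X} (hSK : ∀ᶠ j in l, IsSupportedIn K (S j))
    (hlim : ∀ f π, IsTestPair f π → Tendsto (fun j => S j f π) l (𝓝 (T f π))) :
    IsSupportedIn K T := by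
  intro f π h hf
  refine tendsto_nhds_unique (hlim f π h) ?_
  refine tendsto_const_nhds.congr' ?_
  filter_upwards [hSK] with j hj
  exact (hj f π h hf).symm

end Crest.Agent.R241.B10
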