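import Crest.Agent.R241.B1Cur
import Mathlib
import Crest.Agent.R241.B1c1
import Crest.Agent.R241.G1c
import Crest.Agent.R241.B6
import Crest.Agent.R241.B10Complete

-- ▼ part R241/B4Split
section

/-!
R241 / B4: a Lipschitz chart `φ : E → X` splits into countably many bi-Lipschitz pieces and a
degenerate part on which all Jacobians vanish.
-/

set_option autoImplicit false

open MeasureTheory Filter Topology Metric Set Module
open scoped NNReal ENNReal

namespace Crest.Agent.R241.B4Split

open Crest.GeometryTopology.Submanifold (Euc)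
open Crest.GeometryTopology.MetricCurrent
open Crest.Agent.R241.B1Null Crest.Agent.R241.B1Weak Crest.Agent.R241.B1Density
open Crest.Agent.R241.B1Cur

noncomputable section

universe u

variable {k : ℕ}

/-- A family of Lipschitz functions with invertible Jacobian matrix splits a set into pieces where
it is co-Lipschitz. -/
theorem exists_partition_antilipschitz {F : Fin k → Euc k → ℝ} {s : Set (Euc k)}
    (hF : ∀ i, ∀ z ∈ s, DifferentiableAt ℝ (F i) z) (hdet : ∀ z ∈ s, (DM F z).det ≠ 0) :
    ∃ t : ℕ → Set (Euc k), (∀ n, MeasurableSet (t n)) ∧ s ⊆ ⋃ n, t n ∧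
      ∀ n, ∃ C : ℝ, 0 ≤ C ∧ ∀ z ∈ s ∩ t n, ∀ w ∈ s ∩ t n,
        dist z w ≤ C * dist (vec F z) (vec F w) := by
  classical
  rcases s.eq_empty_or_nonempty with hs | hs
  · subst hs
    exact ⟨fun _ => univ, fun _ => MeasurableSet.univ, by simp, fun _ => ⟨0, le_rfl, by simp⟩⟩
  set r : (Euc k →L[ℝ] Euc k) → ℝ≥0 := fun A =>
    if h : A.det ≠ 0 then
      (if ‖((A.toContinuousLinearEquivOfDetNeZero h).symm : Euc k →L[ℝ] Euc k)‖₊ = 0 then 1 else
        ‖((A.toContinuousLinearEquivOfDetNeZero h).symm : Euc k →L[ℝ] Euc k)‖₊⁻¹ / 2)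
    else 1 with hr
  have rpos : ∀ A, r A ≠ 0 := by
    intro A
    simp only [hr]
    split_ifs with h1 h2
    · exact one_ne_zero
    · exact div_ne_zero (inv_ne_zero h2) two_ne_zero
    · exact one_ne_zero
  obtain ⟨t, A, _, htm, hts, happ, hA⟩ :=
    exists_partition_approximatesLinearOn_of_hasFDerivWithinAt (vec F) s
      (fun z => fderiv ℝ (vec F) z)
      (fun z hz => (hasFDerivAt_vec fun i => hF i z hz).hasFDerivAt.hasFDerivWithinAt) r rpos
  refine ⟨t, htm, hts, fun n => ?_⟩
  obtain ⟨y, hy, hAy⟩ := hA hs n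
  have hdetA : (A n).det ≠ 0 := by
    rw [hAy, det_fderiv_vec (fun i => hF i y hy)]
    exact hdet y hy
  set e := (A n).toContinuousLinearEquivOfDetNeZero hdetA with he
  have hcoe : (e : Euc k →L[ℝ] Euc k) = A n := (A n).coe_toContinuousLinearEquivOfDetNeZero hdetA
  have happ' : ApproximatesLinearOn (vec F) (e : Euc k →L[ℝ] Euc k) (s ∩ t n) (r (A n)) := by
    rw [hcoe]; exact happ n
  have hc : Subsingleton (Euc k) ∨ r (A n) < ‖(e.symm : Euc k →L[ℝ] Euc k)‖₊⁻¹ := by
    rcases e.subsingleton_or_nnnorm_symm_pos with h | h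
    · exact Or.inl h
    · right
      have : r (A n) = ‖(e.symm : Euc k →L[ℝ] Euc k)‖₊⁻¹ / 2 := by
        simp only [hr]
        rw [dif_pos hdetA, if_neg h.ne']
      rw [this]
      exact half_lt_self (inv_pos.2 h)
  have hanti := happ'.antilipschitz hc
  refine ⟨((‖(e.symm : Euc k →L[ℝ] Euc k)‖₊⁻¹ - r (A n))⁻¹ : ℝ≥0), NNReal.coe_nonneg _, ?_⟩
  intro z hz w hw
  exact hanti.le_mul_dist ⟨z, hz⟩ ⟨w, hw⟩

variable {X : Type u} [MetricSpace X]

/-- Finite minima of `g (x m) + C dist (x m) ·`. -/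
def lowerApprox (x : ℕ → X) (g : X → ℝ) (C : ℝ) : ℕ → X → ℝ
  | 0 => fun y => g (x 0) + C * dist (x 0) y
  | (N + 1) => fun y => min (lowerApprox x g C N y) (g (x (N + 1)) + C * dist (x (N + 1)) y)

theorem lipschitz_cone (g0 : ℝ) (C : ℝ≥0) (x : X) :
    LipschitzWith C (fun y => g0 + C * dist x y) := by
  refine LipschitzWith.of_dist_le_mul fun a b => ?_
  rw [Real.dist_eq, add_sub_add_left_eq_sub, ← mul_sub, abs_mul, NNReal.abs_eq]
  gcongr
  rw [dist_comm x a, dist_comm x b]
  exact abs_dist_sub_le a b x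

theorem lipschitz_lowerApprox (x : ℕ → X) (g : X → ℝ) (C : ℝ≥0) (N : ℕ) :
    LipschitzWith C (lowerApprox x g C N) := by
  induction N with
  | zero => exact lipschitz_cone _ C _
  | succ N ih =>
    have := ih.min (lipschitz_cone (g (x (N + 1))) C (x (N + 1)))
    rw [max_self] at this
    exact this

theorem le_lowerApprox (x : ℕ → X) {g : X → ℝ} {C : ℝ≥0} (hg : LipschitzWith C g) (N : ℕ)
    (y : X) : g y ≤ lowerApprox x g C N y := by
  have h1 : ∀ m, g y ≤ g (x m) + C * dist (x m) y := by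
    intro m
    have := hg.dist_le_mul (x m) y
    rw [Real.dist_eq] at this
    linarith [neg_abs_le (g (x m) - g y)]
  induction N with
  | zero => exact h1 0
  | succ N ih => exact le_min ih (h1 _)

theorem lowerApprox_le (x : ℕ → X) (g : X → ℝ) (C : ℝ) {N m : ℕ} (h : m ≤ N) (y : X) :
    lowerApprox x g C N y ≤ g (x m) + C * dist (x m) y := by
  induction N with
  | zero =>
    have : m = 0 := Nat.le_zero.1 h
    subst this; exact le_rfl
  | succ N ih =>
    rcases Nat.lt_or_ge m (N + 1) with h1 | h1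
    · exact (min_le_left _ _).trans (ih (Nat.lt_succ_iff.1 h1))
    · have : m = N + 1 := le_antisymm h h1
      subst this; exact min_le_right _ _

theorem tendsto_lowerApprox {x : ℕ → X} (hx : DenseRange x) {g : X → ℝ} {C : ℝ≥0}
    (hg : LipschitzWith C g) (y : X) :
    Tendsto (fun N => lowerApprox x g C N y) atTop (𝓝 (g y)) := by
  rw [Metric.tendsto_atTop]
  intro ε hε
  obtain ⟨m, hm⟩ := hx.exists_dist_lt y (ε := ε / (2 * (C + 1))) (by positivity)
  refine ⟨m, fun N hN => ?_⟩
  have h1 := le_lowerApprox x hg N y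
  have h2 := lowerApprox_le x g C hN y
  have h3 := hg.dist_le_mul (x m) y
  rw [Real.dist_eq] at h3
  have h4 : dist y (x m) * (2 * (C + 1)) < ε := by rwa [lt_div_iff₀ (by positivity)] at hm
  rw [Real.dist_eq, abs_of_nonneg (by linarith)]
  have h5 := le_abs_self (g (x m) - g y)
  rw [dist_comm] at h4
  have h6 : 0 ≤ dist (x m) y := dist_nonneg
  nlinarith [C.2]

/-- The same minima at the level of extensions. -/
def lowerApproxE (c : ℕ → ℝ) (C : ℝ) (v : ℕ → Euc k → ℝ) : ℕ → Euc k → ℝ
  | 0 => fun z => c 0 + C * v 0 z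
  | (N + 1) => fun z => min (lowerApproxE c C v N z) (c (N + 1) + C * v (N + 1) z)

theorem lipschitz_lowerApproxE (c : ℕ → ℝ) (C : ℝ≥0) {v : ℕ → Euc k → ℝ} {L : ℝ≥0}
    (hv : ∀ m, LipschitzWith L (v m)) (N : ℕ) :
    LipschitzWith (C * L) (lowerApproxE c C v N) := by
  have h1 : ∀ m, LipschitzWith (C * L) (fun z => c m + C * v m z) := by
    intro m
    refine LipschitzWith.of_dist_le_mul fun a b => ?_
    rw [Real.dist_eq, add_sub_add_left_eq_sub, ← mul_sub, abs_mul, NNReal.abs_eq, NNReal.coe_mul,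
      mul_assoc]
    gcongr
    have := (hv m).dist_le_mul a b
    rwa [Real.dist_eq] at this
  induction N with
  | zero => exact h1 0
  | succ N ih =>
    have := ih.min (h1 (N + 1))
    rw [max_self] at this
    exact this

/-- a.e. the derivative of the minimum is one of the derivatives. -/
theorem ae_fderiv_lowerApproxE (c : ℕ → ℝ) (C : ℝ≥0) {v : ℕ → Euc k → ℝ} {L : ℝ≥0}
    (hv : ∀ m, LipschitzWith L (v m)) (N : ℕ) :
    ∀ᵐ z ∂(volume : Measure (Euc k)), ∃ m,
      fderiv ℝ (lowerApproxE c C v N) z = (C : ℝ) • fderiv ℝ (v m) z := by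
  have hone : ∀ m, ∀ z, DifferentiableAt ℝ (v m) z →
      fderiv ℝ (fun z => c m + C * v m z) z = (C : ℝ) • fderiv ℝ (v m) z := by
    intro m z hz
    have h1 : HasFDerivAt (fun z => c m + C * v m z) ((C : ℝ) • fderiv ℝ (v m) z) z := by
      have := (hz.hasFDerivAt.const_mul (C : ℝ)).const_add (c m)
      simpa using this
    exact h1.fderiv
  induction N with
  | zero =>
    filter_upwards [(hv 0).ae_differentiableAt] with z hz
    exact ⟨0, hone 0 z hz⟩
  | succ N ih =>
    set a : Euc k → ℝ := lowerApproxE c C v N with ha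
    set b : Euc k → ℝ := fun z => c (N + 1) + C * v (N + 1) z with hb
    have hmin : lowerApproxE c C v (N + 1) = fun z => min (a z) (b z) := rfl
    have hal := lipschitz_lowerApproxE c C hv N
    have hl := lipschitz_lowerApproxE c C hv (N + 1)
    have hbd : ∀ᵐ z ∂(volume : Measure (Euc k)), DifferentiableAt ℝ b z := by
      filter_upwards [(hv (N + 1)).ae_differentiableAt] with z hz
      exact (hz.const_mul (C : ℝ)).const_add _
    have hbm : Measurable b := by
      have := (hv (N + 1)).continuous.measurable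
      exact (this.const_mul _).const_add _
    have ham : Measurable a := hal.continuous.measurable
    set s : Set (Euc k) := {z | a z ≤ b z} with hs
    have hsm : MeasurableSet s := measurableSet_le ham hbm
    have h1 := ae_fderiv_eq_of_eqOn volume hsm (u := lowerApproxE c C v (N + 1)) (v := a)
      (fun z hz => by rw [hmin]; exact min_eq_left hz) hl.ae_differentiableAt
      hal.ae_differentiableAt
    have h2 := ae_fderiv_eq_of_eqOn volume hsm.compl (u := lowerApproxE c C v (N + 1)) (v := b)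
      (fun z hz => by rw [hmin]; exact min_eq_right (not_le.1 (show ¬ a z ≤ b z from hz)).le) hl.ae_differentiableAt hbd
    rw [ae_restrict_iff' hsm] at h1
    rw [ae_restrict_iff' hsm.compl] at h2
    filter_upwards [ih, h1, h2, (hv (N + 1)).ae_differentiableAt] with z hz h1 h2 hz'
    by_cases hzs : z ∈ s
    · obtain ⟨m, hm⟩ := hz
      exact ⟨m, by rw [h1 hzs, hm]⟩
    · exact ⟨N + 1, by rw [h2 hzs, hone _ z hz']⟩

/-- Comparison `lowerApprox` on `E`. -/
theorem lowerApprox_eqOn {E : Set (Euc k)} {φ : Euc k → X} {x : ℕ → X} {v : ℕ → Euc k → ℝ}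
    (hv : ∀ m, EqOn (fun w => dist (x m) (φ w)) (v m) E) (g : X → ℝ) (C : ℝ) (N : ℕ) :
    EqOn (fun w => lowerApprox x g C N (φ w)) (lowerApproxE (fun m => g (x m)) C v N) E := by
  intro z hz
  induction N with
  | zero =>
    show g (x 0) + C * dist (x 0) (φ z) = g (x 0) + C * v 0 z
    rw [← hv 0 hz]
  | succ N ih =>
    show min (lowerApprox x g C N (φ z)) (g (x (N + 1)) + C * dist (x (N + 1)) (φ z)) =
      min (lowerApproxE (fun m => g (x m)) C v N z) (g (x (N + 1)) + C * v (N + 1) z)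
    rw [← hv (N + 1) hz, ← ih]

/-- If all Jacobians of tuples of distance functions vanish a.e. on `Z`, then all Jacobians
vanish a.e. on `Z`. -/
theorem ae_jac_eq_zero_of_dist {E : Set (Euc k)} (hE : MeasurableSet E) {φ : Euc k → X}
    {L : ℝ≥0} (hφ : LipschitzOnWith L φ E) {x : ℕ → X} (hx : DenseRange x)
    {v : ℕ → Euc k → ℝ} (hvl : ∀ m, LipschitzWith L (v m))
    (hv : ∀ m, EqOn (fun w => dist (x m) (φ w)) (v m) E)
    {Z : Set (Euc k)} (hZ : MeasurableSet Z) (hZE : Z ⊆ E)
    (hdeg : ∀ J : Fin k → ℕ, ∀ᵐ z ∂(volume.restrict Z), (DM (fun i => v (J i)) z).det = 0)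
    {π : Fin k → X → ℝ} (hπ : ∀ i, ∃ C : ℝ≥0, LipschitzWith C (π i)) :
    ∀ᵐ z ∂(volume.restrict Z), jac E φ π z = 0 := by
  choose C' hC' using hπ
  set C : ℝ≥0 := ∑ i, C' i with hCdef
  have hC : ∀ i, LipschitzWith C (π i) := fun i =>
    (hC' i).weaken (Finset.single_le_sum (fun _ _ => zero_le) (Finset.mem_univ i))
  have hdegall : ∀ᵐ z ∂(volume.restrict Z), ∀ J : Fin k → ℕ,
      (DM (fun i => v (J i)) z).det = 0 := ae_all_iff.2 hdeg
  -- the approximations have zero Jacobian on `Z`
  have happ : ∀ N, ∀ᵐ z ∂(volume.restrict Z), jac E φ (fun i => lowerApprox x (π i) C N) z = 0 := by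
    intro N
    have h1 := ae_jac_eq hE (φ := φ) (π := fun i => lowerApprox x (π i) C N)
      (F := fun i => lowerApproxE (fun m => π i (x m)) C v N)
      (fun i => ⟨_, lipschitz_lowerApproxE _ C hvl N⟩)
      (fun i => lowerApprox_eqOn hv (π i) C N)
    have h1' := ae_restrict_of_ae_restrict_of_subset hZE h1
    have h2 : ∀ᵐ z ∂(volume : Measure (Euc k)), ∀ i, ∃ m,
        fderiv ℝ (lowerApproxE (fun m => π i (x m)) C v N) z = (C : ℝ) • fderiv ℝ (v m) z :=
      ae_all_iff.2 fun i => ae_fderiv_lowerApproxE _ C hvl N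
    filter_upwards [h1', ae_restrict_of_ae h2, hdegall] with z hz1 hz2 hz3
    rw [hz1]
    choose J hJ using hz2
    have h4 : DM (fun i => lowerApproxE (fun m => π i (x m)) C v N) z =
        (C : ℝ) • DM (fun i => v (J i)) z := by
      ext i j
      rw [DM_apply, hJ i, Matrix.smul_apply, DM_apply]
      rfl
    rw [h4, Matrix.det_smul, hz3 J, mul_zero]
  -- pass to the limit
  have hjm := aemeasurable_jac hE hφ (fun i => ⟨C, hC i⟩)
  obtain ⟨D, hD⟩ : ∃ D : ℝ, ∀ᵐ z ∂(volume.restrict E), |jac E φ π z| ≤ D :=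
    ⟨_, ae_abs_jac_le hE hφ hC⟩
  have hball : ∀ R : ℕ, ∀ᵐ z ∂(volume.restrict (Z ∩ closedBall 0 R)), jac E φ π z = 0 := by
    intro R
    set ZR : Set (Euc k) := Z ∩ closedBall 0 R with hZR
    have hZRm : MeasurableSet ZR := hZ.inter measurableSet_closedBall
    have hZRE : ZR ⊆ E := inter_subset_left.trans hZE
    have hfin : volume ZR ≠ ∞ :=
      (lt_of_le_of_lt (measure_mono inter_subset_right) measure_closedBall_lt_top).ne
    have hjR : AEStronglyMeasurable (jac E φ π) (volume.restrict ZR) :=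
      (hjm.mono_measure (Measure.restrict_mono hZRE le_rfl)).aestronglyMeasurable
    have hDR : ∀ᵐ z ∂(volume.restrict ZR), |jac E φ π z| ≤ D :=
      ae_restrict_of_ae_restrict_of_subset hZRE hD
    have : IsFiniteMeasure (volume.restrict ZR) := ⟨by
      rw [Measure.restrict_apply_univ]; exact hfin.lt_top⟩
    have hgR : IntegrableOn (jac E φ π) ZR := Integrable.of_bound hjR D hDR
    have hgR2 : IntegrableOn (fun z => jac E φ π z * jac E φ π z) ZR :=
      hgR.mul_bdd hjR hDR
    set g : Euc k → ℝ := ZR.indicator (jac E φ π) with hg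
    have hgi : IntegrableOn g E := ((integrable_indicator_iff hZRm).2 hgR).integrableOn
    have hlim := tendsto_general hE hφ hgi (π := π) (πs := fun N i => lowerApprox x (π i) C N)
      (C := C) hC (fun N i => lipschitz_lowerApprox x (π i) C N)
      (fun i y => tendsto_lowerApprox hx (hC i) y)
    have hind : ∀ σ : Euc k → ℝ, ∫ z in E, g z * σ z = ∫ z in ZR, jac E φ π z * σ z := by
      intro σ
      have h1 : (fun z => g z * σ z) = ZR.indicator (fun z => jac E φ π z * σ z) := by
        funext z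
        by_cases hz : z ∈ ZR
        · simp [hg, hz]
        · simp [hg, hz]
      rw [h1, setIntegral_indicator hZRm, inter_eq_self_of_subset_right hZRE]
    have hzero : ∀ N, ∫ z in E, g z * jac E φ (fun i => lowerApprox x (π i) C N) z = 0 := by
      intro N
      rw [hind]
      have h1 : ∀ᵐ z ∂(volume.restrict ZR),
          jac E φ (fun i => lowerApprox x (π i) C N) z = 0 :=
        ae_restrict_of_ae_restrict_of_subset inter_subset_left (happ N)
      rw [integral_congr_ae (g := fun _ => (0 : ℝ)), integral_zero]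
      filter_upwards [h1] with z hz
      rw [hz, mul_zero]
    simp_rw [hzero] at hlim
    have hsq : ∫ z in ZR, jac E φ π z * jac E φ π z = 0 := by
      rw [← hind]
      exact (tendsto_nhds_unique hlim tendsto_const_nhds)
    rw [integral_eq_zero_iff_of_nonneg (fun z => mul_self_nonneg _) hgR2] at hsq
    filter_upwards [hsq] with z hz
    exact mul_self_eq_zero.1 hz
  have hcover : Z = ⋃ R : ℕ, Z ∩ closedBall 0 R := by
    ext z
    simp only [mem_iUnion, mem_inter_iff, exists_and_left, mem_closedBall, dist_zero_right]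
    exact ⟨fun h => ⟨h, exists_nat_ge _⟩, fun h => h.1⟩
  rw [hcover, ae_restrict_iUnion_iff]
  exact hball

theorem dist_vec_le {F : Fin k → Euc k → ℝ} {z w : Euc k} {D : ℝ} (hD : 0 ≤ D)
    (h : ∀ i, |F i z - F i w| ≤ D) : dist (vec F z) (vec F w) ≤ k * D := by
  rw [EuclideanSpace.dist_eq]
  refine Real.sqrt_le_iff.2 ⟨by positivity, ?_⟩
  calc ∑ i, dist (vec F z i) (vec F w i) ^ 2
      ≤ ∑ _i : Fin k, D ^ 2 := by
        refine Finset.sum_le_sum fun i _ => ?_
        refine pow_le_pow_left₀ dist_nonneg ?_ 2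
        rw [Real.dist_eq]
        exact h i
    _ = k * D ^ 2 := by simp
    _ ≤ (k : ℝ) ^ 2 * D ^ 2 := by
        gcongr
        rcases Nat.eq_zero_or_pos k with h0 | h0
        · simp [h0]
        · have : (1 : ℝ) ≤ k := by exact_mod_cast h0
          nlinarith
    _ = (k * D) ^ 2 := by ring

/-- **Splitting theorem.** -/
theorem exists_split [TopologicalSpace.SeparableSpace X] {E : Set (Euc k)} (hE : MeasurableSet E)
    {φ : Euc k → X} {L : ℝ≥0} (hφ : LipschitzOnWith L φ E) :
    ∃ P : ℕ → Set (Euc k), (∀ j, MeasurableSet (P j)) ∧ (∀ j, P j ⊆ E) ∧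
      Pairwise (Function.onFun Disjoint P) ∧
      (∀ j, ∃ C : ℝ, 0 ≤ C ∧ ∀ z ∈ P j, ∀ w ∈ P j, dist z w ≤ C * dist (φ z) (φ w)) ∧
      ∀ π : Fin k → X → ℝ, (∀ i, ∃ C : ℝ≥0, LipschitzWith C (π i)) →
        ∀ᵐ z ∂(volume.restrict (E \ ⋃ j, P j)), jac E φ π z = 0 := by
  classical
  have hne : Nonempty X := ⟨φ 0⟩
  set x : ℕ → X := TopologicalSpace.denseSeq X with hxdef
  have hx : DenseRange x := TopologicalSpace.denseRange_denseSeq X
  have hext : ∀ m, ∃ v : Euc k → ℝ, LipschitzWith L v ∧
      EqOn (fun w => dist (x m) (φ w)) v E := by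
    intro m
    have h1 : LipschitzWith 1 (fun y => dist (x m) y) := LipschitzWith.dist_right (x m)
    have := exists_ext hφ h1
    simpa using this
  choose v hvl hv using hext
  set A : Set (Euc k) := E ∩ ⋂ m, {z | DifferentiableAt ℝ (v m) z} with hA
  have hAm : MeasurableSet A :=
    hE.inter (MeasurableSet.iInter fun m => measurableSet_of_differentiableAt ℝ (v m))
  set F : (Fin k → ℕ) → Fin k → Euc k → ℝ := fun J i => v (J i) with hF
  set D : (Fin k → ℕ) → Set (Euc k) := fun J => A ∩ {z | (DM (F J) z).det ≠ 0} with hD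
  have hDm : ∀ J, MeasurableSet (D J) := fun J =>
    hAm.inter ((measurable_det_DM (F J)) (measurableSet_singleton 0).compl)
  have hpart : ∀ J, ∃ t : ℕ → Set (Euc k), (∀ n, MeasurableSet (t n)) ∧ D J ⊆ ⋃ n, t n ∧
      ∀ n, ∃ C : ℝ, 0 ≤ C ∧ ∀ z ∈ D J ∩ t n, ∀ w ∈ D J ∩ t n,
        dist z w ≤ C * dist (vec (F J) z) (vec (F J) w) := by
    intro J
    refine exists_partition_antilipschitz (fun i z hz => ?_) (fun z hz => hz.2)
    exact mem_iInter.1 hz.1.2 (J i)
  choose t htm hts htC using hpart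
  obtain ⟨e, he⟩ := exists_surjective_nat ((Fin k → ℕ) × ℕ)
  set Q : ℕ → Set (Euc k) := fun n => D (e n).1 ∩ t (e n).1 (e n).2 with hQ
  have hQm : ∀ n, MeasurableSet (Q n) := fun n => (hDm _).inter (htm _ _)
  have hQE : ∀ n, Q n ⊆ E := fun n z hz => hz.1.1.1
  refine ⟨disjointed Q, fun j => MeasurableSet.disjointed hQm j,
    fun j => (disjointed_subset Q j).trans (hQE j), disjoint_disjointed Q, fun j => ?_, ?_⟩
  · obtain ⟨C, hC0, hC⟩ := htC (e j).1 (e j).2
    refine ⟨C * k, by positivity, fun z hz w hw => ?_⟩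
    have hz' := disjointed_subset Q j hz
    have hw' := disjointed_subset Q j hw
    refine (hC z hz' w hw').trans ?_
    rw [mul_assoc]
    gcongr
    refine dist_vec_le dist_nonneg fun i => ?_
    have h1 : F (e j).1 i z = dist (x ((e j).1 i)) (φ z) := (hv _ (hQE j hz')).symm
    have h2 : F (e j).1 i w = dist (x ((e j).1 i)) (φ w) := (hv _ (hQE j hw')).symm
    rw [h1, h2, dist_comm _ (φ z), dist_comm _ (φ w)]
    exact abs_dist_sub_le _ _ _
  · intro π hπ
    rw [iUnion_disjointed]
    have hUm : MeasurableSet (⋃ n, Q n) := MeasurableSet.iUnion hQm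
    refine ae_jac_eq_zero_of_dist hE hφ hx hvl hv (hE.diff hUm) sdiff_subset (fun J => ?_) hπ
    have h1 : ∀ᵐ z ∂(volume : Measure (Euc k)), ∀ m, DifferentiableAt ℝ (v m) z :=
      ae_all_iff.2 fun m => (hvl m).ae_differentiableAt
    filter_upwards [ae_restrict_of_ae h1, ae_restrict_mem (hE.diff hUm)] with z hz1 hz2
    by_contra hne
    have hzA : z ∈ A := ⟨hz2.1, mem_iInter.2 hz1⟩
    have hzD : z ∈ D J := ⟨hzA, hne⟩
    obtain ⟨n, hn⟩ := mem_iUnion.1 (hts J hzD)
    obtain ⟨m, hm⟩ := he (J, n)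
    refine hz2.2 (mem_iUnion.2 ⟨m, ?_⟩)
    show z ∈ D (e m).1 ∩ t (e m).1 (e m).2
    rw [hm]
    exact ⟨hzD, hn⟩

end

end Crest.Agent.R241.B4Split
end

-- ▼ part R241/B1c2
section

/-!
R241, block B1 (c3) (helper958): change of variables for chart actions under injective Lipschitz
maps (possibly with degenerate Jacobian) and under bi-Lipschitz maps.
-/

set_option autoImplicit false

open MeasureTheory Filter Topology Metric Set
open scoped NNReal ENNReal

namespace Crest.Agent.R241.B1c2

open Crest.GeometryTopology.MetricCurrent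
open Crest.GeometryTopology.Submanifold (Euc)
open Crest.Agent.R241.B1c1

universe u v

variable {X : Type u} [MetricSpace X] {k : ℕ}

theorem det_comp (A B : Euc k →L[ℝ] Euc k) : (A.comp B).det = A.det * B.det := by
  simp only [ContinuousLinearMap.det]
  exact LinearMap.det_comp _ _

/-- Chain rule for determinants of partial derivatives. -/
theorem det_DM_comp {ψ : Euc k → Euc k} {U : Fin k → Euc k → ℝ} {z : Euc k}
    (hψ : DifferentiableAt ℝ ψ z) (hU : ∀ i, DifferentiableAt ℝ (U i) (ψ z)) :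
    (B1Null.DM (fun i w => U i (ψ w)) z).det
      = (B1Null.DM U (ψ z)).det * (fderiv ℝ ψ z).det := by
  have h1 : ∀ i, DifferentiableAt ℝ (fun w => U i (ψ w)) z := fun i => (hU i).comp z hψ
  rw [← B1Null.det_fderiv_vec h1, ← B1Null.det_fderiv_vec hU, ← det_comp]
  congr 1
  exact fderiv_comp z (B1Null.hasFDerivAt_vec hU) hψ

/-- If `Dψ(z)` is degenerate, then so is the derivative of `U ∘ ψ` for Lipschitz `U`, even if `U`
is not differentiable at `ψ z`. -/
theorem det_DM_comp_eq_zero {ψ : Euc k → Euc k} {U : Fin k → Euc k → ℝ} {C : ℝ≥0}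
    (hU : ∀ i, LipschitzWith C (U i)) {z : Euc k} (hψ : DifferentiableAt ℝ ψ z)
    (h0 : (fderiv ℝ ψ z).det = 0) (hd : ∀ i, DifferentiableAt ℝ (fun w => U i (ψ w)) z) :
    (B1Null.DM (fun i w => U i (ψ w)) z).det = 0 := by
  obtain ⟨v, hv, hv0⟩ : ∃ v : Euc k, v ≠ 0 ∧ fderiv ℝ ψ z v = 0 := by
    have h1 := LinearMap.bot_lt_ker_of_det_eq_zero (f := (fderiv ℝ ψ z : Euc k →ₗ[ℝ] Euc k)) h0
    obtain ⟨v, hv, hv0⟩ := Submodule.exists_mem_ne_zero_of_ne_bot h1.ne'
    exact ⟨v, hv0, hv⟩
  have key : ∀ i, fderiv ℝ (fun w => U i (ψ w)) z v = 0 := by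
    intro i
    have h1 := ((hd i).hasFDerivAt.hasLineDerivAt v).tendsto_slope_zero
    have h2 := (hψ.hasFDerivAt.hasLineDerivAt v).tendsto_slope_zero
    rw [hv0] at h2
    have h3 : Tendsto (fun t : ℝ => (C : ℝ) * ‖t⁻¹ • (ψ (z + t • v) - ψ z)‖) (𝓝[≠] 0)
        (𝓝 ((C : ℝ) * ‖(0 : Euc k)‖)) := h2.norm.const_mul _
    rw [norm_zero, mul_zero] at h3
    refine tendsto_nhds_unique h1 (squeeze_zero_norm (fun t => ?_) h3)
    rw [norm_smul, norm_smul]
    have h4 := (hU i).dist_le_mul (ψ (z + t • v)) (ψ z)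
    rw [dist_eq_norm, dist_eq_norm] at h4
    calc ‖t⁻¹‖ * ‖U i (ψ (z + t • v)) - U i (ψ z)‖
        ≤ ‖t⁻¹‖ * (C * ‖ψ (z + t • v) - ψ z‖) := by gcongr
      _ = C * (‖t⁻¹‖ * ‖ψ (z + t • v) - ψ z‖) := by ring
  rw [← B1Null.det_fderiv_vec hd]
  have h5 : fderiv ℝ (B1Null.vec fun i w => U i (ψ w)) z v = 0 := by
    ext i
    rw [B1Null.fderiv_vec_apply hd]
    exact key i
  by_contra hne
  have h6 : IsUnit (LinearMap.det (fderiv ℝ (B1Null.vec fun i w => U i (ψ w)) z : Euc k →ₗ[ℝ] Euc k)) :=
    isUnit_iff_ne_zero.2 hne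
  have h7 := (LinearMap.equivOfIsUnitDet (M := Euc k) (f := (fderiv ℝ
    (B1Null.vec fun i w => U i (ψ w)) z : Euc k →ₗ[ℝ] Euc k)) h6).injective
  have h8 : (LinearMap.equivOfIsUnitDet (M := Euc k) (f := (fderiv ℝ
    (B1Null.vec fun i w => U i (ψ w)) z : Euc k →ₗ[ℝ] Euc k)) h6) v = 0 := by
    rw [LinearMap.equivOfIsUnitDet_apply]; exact h5
  exact hv (h7 (h8.trans (map_zero _).symm))

/-- Almost everywhere chain rule for the Jacobians within sets. -/
theorem ae_jac_comp {E E' : Set (Euc k)} (hE : MeasurableSet E) (hE' : MeasurableSet E')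
    {φ : Euc k → X} {L K M : ℝ≥0} (hφ : LipschitzOnWith L φ E) {ψ : Euc k → Euc k}
    (hψ : LipschitzWith M ψ) (hmaps : MapsTo ψ E' E) (hinj : InjOn ψ E')
    {π : Fin k → X → ℝ} (hπ : ∀ i, LipschitzWith K (π i)) :
    ∀ᵐ z ∂(volume.restrict E'),
      jac E' (fun w => φ (ψ w)) π z = jac E φ π (ψ z) * (fderiv ℝ ψ z).det := by
  obtain ⟨U, hU1, hU2, hU3⟩ := exists_ext_tuple hE hφ hπ
  -- the bad null set in `E`
  have hUd : ∀ᵐ w ∂(volume : Measure (Euc k)), ∀ i, DifferentiableAt ℝ (U i) w :=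
    ae_all_iff.2 fun i => (hU1 i).ae_differentiableAt
  have hbad : ∀ᵐ w ∂(volume : Measure (Euc k)),
      w ∈ E → (jacM E φ π w = B1Null.DM U w ∧ ∀ i, DifferentiableAt ℝ (U i) w) := by
    filter_upwards [(ae_restrict_iff' hE).1 hU3, hUd] with w h1 h2 hw
    exact ⟨h1 hw, h2⟩
  obtain ⟨N, hNsub, hNm, hN0⟩ := exists_measurable_superset_of_null (ae_iff.1 hbad)
  have hdet0 : ∀ᵐ z ∂(volume.restrict (E' ∩ ψ ⁻¹' N)), (fderiv ℝ ψ z).det = 0 := by
    have hm : MeasurableSet (E' ∩ ψ ⁻¹' N) := hE'.inter (hψ.continuous.measurable hNm)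
    have h1 := B1Null.area_eq hψ hm (hinj.mono inter_subset_left)
    have h2 : volume (ψ '' (E' ∩ ψ ⁻¹' N)) = 0 := by
      refine measure_mono_null ?_ hN0
      rintro _ ⟨z, hz, rfl⟩
      exact hz.2
    rw [h2, lintegral_eq_zero_iff] at h1
    · filter_upwards [h1] with z hz
      have : ENNReal.ofReal |(fderiv ℝ ψ z).det| = 0 := hz
      rw [ENNReal.ofReal_eq_zero] at this
      exact abs_eq_zero.1 (le_antisymm this (abs_nonneg _))
    · have : Measurable fun z => (fderiv ℝ ψ z).det :=
        ContinuousLinearMap.continuous_det.measurable.comp (measurable_fderiv ℝ ψ)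
      exact this.abs.ennreal_ofReal
  have hdet0' : ∀ᵐ z ∂(volume.restrict E'), ψ z ∈ N → (fderiv ℝ ψ z).det = 0 := by
    have hm : MeasurableSet (E' ∩ ψ ⁻¹' N) := hE'.inter (hψ.continuous.measurable hNm)
    rw [ae_restrict_iff' hm] at hdet0
    rw [ae_restrict_iff' hE']
    filter_upwards [hdet0] with z hz h1 h2
    exact hz ⟨h1, h2⟩
  -- derivatives of the composition
  have hc : ∀ᵐ z ∂((volume : Measure (Euc k)).restrict E'), ∀ i,
      fderivWithin ℝ (fun w => π i (φ (ψ w))) E' z = fderiv ℝ (fun w => U i (ψ w)) z :=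
    ae_all_iff.2 fun i => B1Density.ae_fderivWithin_eq_of_lipschitz volume hE'
      (fun w hw => hU2 i (hmaps hw)) ((hU1 i).comp hψ)
  have hcd : ∀ᵐ z ∂((volume : Measure (Euc k)).restrict E'), ∀ i,
      DifferentiableAt ℝ (fun w => U i (ψ w)) z :=
    ae_all_iff.2 fun i => ae_restrict_of_ae ((hU1 i).comp hψ).ae_differentiableAt
  have hψd : ∀ᵐ z ∂((volume : Measure (Euc k)).restrict E'), DifferentiableAt ℝ ψ z :=
    ae_restrict_of_ae hψ.ae_differentiableAt
  filter_upwards [hdet0', hc, hcd, hψd, ae_restrict_mem hE'] with z h0 h1 h2 h3 hz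
  have h4 : jacM E' (fun w => φ (ψ w)) π z = B1Null.DM (fun i w => U i (ψ w)) z := by
    ext i j
    simp only [jacM, Matrix.of_apply, B1Null.DM_apply, h1 i]
  rw [jac, h4]
  by_cases hN : ψ z ∈ N
  · rw [h0 hN, mul_zero]
    exact det_DM_comp_eq_zero hU1 h3 (h0 hN) h2
  · have h5 : jacM E φ π (ψ z) = B1Null.DM U (ψ z) ∧ ∀ i, DifferentiableAt ℝ (U i) (ψ z) := by
      by_contra hcon
      exact hN (hNsub fun h => hcon (h (hmaps hz)))
    rw [jac, h5.1, det_DM_comp h3 h5.2]

theorem measurableSet_image {E' : Set (Euc k)} (hE' : MeasurableSet E') {ψ : Euc k → Euc k}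
    {M : ℝ≥0} (hψ : LipschitzWith M ψ) (hinj : InjOn ψ E') : MeasurableSet (ψ '' E') :=
  hE'.image_of_continuousOn_injOn hψ.continuous.continuousOn hinj

/-- Change of variables in the Lebesgue integral for injective Lipschitz maps. -/
theorem integral_image {E' : Set (Euc k)} (hE' : MeasurableSet E') {ψ : Euc k → Euc k} {M : ℝ≥0}
    (hψ : LipschitzWith M ψ) (hinj : InjOn ψ E') (G : Euc k → ℝ) :
    ∫ w in ψ '' E', G w = ∫ z in E', |(fderiv ℝ ψ z).det| * G (ψ z) := by
  set t := E' ∩ {x | DifferentiableAt ℝ ψ x} with ht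
  have hdiff : ∀ᵐ x ∂(volume : Measure (Euc k)), DifferentiableAt ℝ ψ x := hψ.ae_differentiableAt
  have htm : MeasurableSet t := hE'.inter (measurableSet_of_differentiableAt ℝ ψ)
  have hae : t =ᵐ[volume] E' := by
    filter_upwards [hdiff] with x hx
    simp only [eq_iff_iff]
    exact ⟨fun h1 => h1.1, fun h1 => ⟨h1, hx⟩⟩
  have hnull : volume (E' \ {x | DifferentiableAt ℝ ψ x}) = 0 :=
    measure_mono_null (fun x hx => hx.2) (ae_iff.mp hdiff)
  have him : (ψ '' t : Set (Euc k)) =ᵐ[volume] ψ '' E' := by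
    refine ae_eq_set.2 ⟨?_, ?_⟩
    · rw [sdiff_eq_empty.2 (image_mono inter_subset_left), measure_empty]
    · refine measure_mono_null ?_ (B1Null.lipschitz_image_null hψ hnull)
      rintro _ ⟨⟨z, hz, rfl⟩, hzt⟩
      exact ⟨z, ⟨hz, fun hd => hzt ⟨z, ⟨hz, hd⟩, rfl⟩⟩, rfl⟩
  rw [← setIntegral_congr_set him, ← setIntegral_congr_set hae,
    integral_image_eq_integral_abs_det_fderiv_smul volume htm
      (fun x hx => (DifferentiableAt.hasFDerivAt hx.2).hasFDerivWithinAt)
      (hinj.mono inter_subset_left)]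
  simp only [smul_eq_mul]

/-- Integrability under change of variables for injective Lipschitz maps. -/
theorem integrableOn_image {E' : Set (Euc k)} (hE' : MeasurableSet E') {ψ : Euc k → Euc k}
    {M : ℝ≥0} (hψ : LipschitzWith M ψ) (hinj : InjOn ψ E') (G : Euc k → ℝ) :
    IntegrableOn G (ψ '' E') ↔ IntegrableOn (fun z => |(fderiv ℝ ψ z).det| * G (ψ z)) E' := by
  set t := E' ∩ {x | DifferentiableAt ℝ ψ x} with ht
  have hdiff : ∀ᵐ x ∂(volume : Measure (Euc k)), DifferentiableAt ℝ ψ x := hψ.ae_differentiableAt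
  have htm : MeasurableSet t := hE'.inter (measurableSet_of_differentiableAt ℝ ψ)
  have hae : t =ᵐ[volume] E' := by
    filter_upwards [hdiff] with x hx
    simp only [eq_iff_iff]
    exact ⟨fun h1 => h1.1, fun h1 => ⟨h1, hx⟩⟩
  have hnull : volume (E' \ {x | DifferentiableAt ℝ ψ x}) = 0 :=
    measure_mono_null (fun x hx => hx.2) (ae_iff.mp hdiff)
  have him : (ψ '' t : Set (Euc k)) =ᵐ[volume] ψ '' E' := by
    refine ae_eq_set.2 ⟨?_, ?_⟩
    · rw [sdiff_eq_empty.2 (image_mono inter_subset_left), measure_empty]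
    · refine measure_mono_null ?_ (B1Null.lipschitz_image_null hψ hnull)
      rintro _ ⟨⟨z, hz, rfl⟩, hzt⟩
      exact ⟨z, ⟨hz, fun hd => hzt ⟨z, ⟨hz, hd⟩, rfl⟩⟩, rfl⟩
  rw [← integrableOn_congr_set_ae him, ← integrableOn_congr_set_ae hae,
    integrableOn_image_iff_integrableOn_abs_det_fderiv_smul volume htm
      (fun x hx => (DifferentiableAt.hasFDerivAt hx.2).hasFDerivWithinAt)
      (hinj.mono inter_subset_left)]
  simp only [smul_eq_mul]

/-- **Change of variables for chart actions** under an injective Lipschitz map `ψ` (the Jacobian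
may degenerate): `chartR (ψ '' E') φ Θ = chartR E' (φ ∘ ψ) (sign (det Dψ) * Θ ∘ ψ)`. -/
theorem chartR_image {E' : Set (Euc k)} (hE' : MeasurableSet E') {ψ : Euc k → Euc k} {M : ℝ≥0}
    (hψ : LipschitzWith M ψ) (hinj : InjOn ψ E') {φ : Euc k → X} {L : ℝ≥0}
    (hφ : LipschitzOnWith L φ (ψ '' E')) (Θ : Euc k → ℝ) :
    chartR (ψ '' E') φ Θ = chartR E' (fun z => φ (ψ z))
      (fun z => (SignType.sign (fderiv ℝ ψ z).det : ℝ) * Θ (ψ z)) := by
  funext f π
  by_cases hfp : IsTestPair f π
  · rw [chartR_apply hfp, chartR_apply hfp, integral_image hE' hψ hinj]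
    obtain ⟨K, hK⟩ := exists_common hfp.2.2
    refine integral_congr_ae ?_
    filter_upwards [ae_jac_comp (measurableSet_image hE' hψ hinj) hE' hφ hψ
      (mapsTo_image ψ E') hinj hK] with z hz
    rw [hz]
    have h1 : |(fderiv ℝ ψ z).det| =
        (SignType.sign (fderiv ℝ ψ z).det : ℝ) * (fderiv ℝ ψ z).det :=
      (sign_mul_self _).symm
    rw [h1]
    ring
  · rw [chartR_of_not hfp, chartR_of_not hfp]


/-- The inverse direction: a chart action on `E'` through `φ ∘ ψ` with an arbitrary density `θ`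
is a chart action on `ψ '' E'`. -/
theorem chartR_comp {E' : Set (Euc k)} (hE' : MeasurableSet E') {ψ : Euc k → Euc k} {M : ℝ≥0}
    (hψ : LipschitzWith M ψ) (hinj : InjOn ψ E') {φ : Euc k → X} {L : ℝ≥0}
    (hφ : LipschitzOnWith L φ (ψ '' E')) (θ : Euc k → ℝ) :
    chartR E' (fun z => φ (ψ z)) θ = chartR (ψ '' E') φ
      (fun w => (SignType.sign (fderiv ℝ ψ (Function.invFunOn ψ E' w)).det : ℝ)
        * θ (Function.invFunOn ψ E' w)) := by
  rw [chartR_image hE' hψ hinj hφ]
  funext f π
  by_cases hfp : IsTestPair f π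
  · rw [chartR_apply hfp, chartR_apply hfp]
    obtain ⟨K, hK⟩ := exists_common hfp.2.2
    refine integral_congr_ae ?_
    filter_upwards [ae_jac_comp (measurableSet_image hE' hψ hinj) hE' hφ hψ
      (mapsTo_image ψ E') hinj hK, ae_restrict_mem hE'] with z hz hzE
    rw [hinj.leftInvOn_invFunOn hzE]
    by_cases h0 : (fderiv ℝ ψ z).det = 0
    · have : jac E' (fun w => φ (ψ w)) π z = 0 := by rw [hz, h0, mul_zero]
      rw [this]; ring
    · have h2 : (SignType.sign (fderiv ℝ ψ z).det : ℝ) * (SignType.sign (fderiv ℝ ψ z).det : ℝ)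
          = 1 := by
        rcases lt_or_gt_of_ne h0 with h | h
        · simp [sign_neg h]
        · simp [sign_pos h]
      rw [← mul_assoc, h2, one_mul]
  · rw [chartR_of_not hfp, chartR_of_not hfp]

theorem abs_det_fderiv_le {ψ : Euc k → Euc k} {M : ℝ≥0} (hψ : LipschitzWith M ψ) :
    ∀ᵐ z ∂(volume : Measure (Euc k)),
      |(fderiv ℝ ψ z).det| ≤ (k.factorial : ℝ) * (M : ℝ) ^ k := by
  filter_upwards [hψ.ae_differentiableAt (μ := (volume : Measure (Euc k)))] with z hz
  have hcomp : ∀ i, LipschitzWith M (fun w => ψ w i) := by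
    intro i
    refine LipschitzWith.of_dist_le_mul fun a b => ?_
    refine le_trans ?_ (hψ.dist_le_mul a b)
    rw [dist_eq_norm, dist_eq_norm, ← PiLp.sub_apply]
    exact PiLp.norm_apply_le (ψ a - ψ b) i
  have hd : ∀ i, DifferentiableAt ℝ (fun w => ψ w i) z := fun i =>
    (EuclideanSpace.proj (𝕜 := ℝ) i).differentiableAt.comp z hz
  have h1 : (fderiv ℝ ψ z).det = (B1Null.DM (fun i w => ψ w i) z).det := by
    rw [← B1Null.det_fderiv_vec hd]; rfl
  rw [h1]
  exact B1Null.abs_det_DM_le hcomp z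

/-- The transported density of `chartR_comp` is integrable. -/
theorem integrableOn_comp_density {E' : Set (Euc k)} (hE' : MeasurableSet E')
    {ψ : Euc k → Euc k} {M : ℝ≥0} (hψ : LipschitzWith M ψ) (hinj : InjOn ψ E')
    {θ : Euc k → ℝ} (hθ : IntegrableOn θ E') :
    IntegrableOn (fun w => (SignType.sign (fderiv ℝ ψ (Function.invFunOn ψ E' w)).det : ℝ)
        * θ (Function.invFunOn ψ E' w)) (ψ '' E') := by
  rw [integrableOn_image hE' hψ hinj]
  have h1 : IntegrableOn (fun z => (fderiv ℝ ψ z).det * θ z) E' := by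
    have hm : Measurable fun z => (fderiv ℝ ψ z).det :=
      ContinuousLinearMap.continuous_det.measurable.comp (measurable_fderiv ℝ ψ)
    refine Integrable.bdd_mul (c := (k.factorial : ℝ) * (M : ℝ) ^ k) hθ
      hm.aestronglyMeasurable ?_
    filter_upwards [ae_restrict_of_ae (abs_det_fderiv_le hψ)] with z hz
    rw [Real.norm_eq_abs]; exact hz
  refine h1.congr ?_
  filter_upwards [ae_restrict_mem hE'] with z hz
  rw [hinj.leftInvOn_invFunOn hz, ← mul_assoc, mul_comm |_|, sign_mul_abs]





end Crest.Agent.R241.B1c2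
end

-- ▼ part R241/B4Ext
section

/-!
R241 / B4: the extension of a chart action to bounded Borel functions, pieces (bi-Lipschitz charts),
restriction to Borel sets, mass lower bound.
-/

set_option autoImplicit false

open MeasureTheory Filter Topology Metric Set Module
open scoped NNReal ENNReal

namespace Crest.Agent.R241.B4Ext

open Crest.GeometryTopology.Submanifold (Euc)
open Crest.GeometryTopology.MetricCurrent
open Crest.Agent.R241.G1 (BL BM LipT ext ctrl)
open Crest.Agent.R241.B1c1 (jac chartR)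

noncomputable section

universe u

variable {X : Type u} [MetricSpace X] {k : ℕ}


variable [MeasurableSpace X] [BorelSpace X]

theorem isCurrent_chartR {E : Set (Euc k)} {φ : Euc k → X} {L : ℝ≥0} {ρ : Euc k → ℝ}
    (hE : MeasurableSet E) (hφ : LipschitzOnWith L φ E) (hρ : IntegrableOn ρ E) :
    IsCurrent (chartR E φ ρ) := B1Cur.isCurrent_chartR hE hφ hρ

theorem aemeasurable_comp {E : Set (Euc k)} {φ : Euc k → X} {L : ℝ≥0} (hE : MeasurableSet E)
    (hφ : LipschitzOnWith L φ E) {f : X → ℝ} (hf : Measurable f) :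
    AEMeasurable (fun z => f (φ z)) (volume.restrict E) :=
  hf.comp_aemeasurable (hφ.continuousOn.aemeasurable hE)

/-- The extension of a chart action to bounded Borel functions. -/
theorem chart_ext {E : Set (Euc k)} {φ : Euc k → X} {L : ℝ≥0} {ρ : Euc k → ℝ}
    (hE : MeasurableSet E) (hφ : LipschitzOnWith L φ E) (hρ : IntegrableOn ρ E)
    {f : X → ℝ} (hf : BM f) {π : Fin k → X → ℝ} (hπ : LipT π) :
    ext (chartR E φ ρ) f π = ∫ z in E, ρ z * f (φ z) * jac E φ π z := by
  have hT := isCurrent_chartR hE hφ hρ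
  obtain ⟨K, hK⟩ := B1c1.exists_common hπ
  have hjm := B1c1.aemeasurable_jac hE hφ hK
  have hjb := B1c1.ae_abs_jac_le hE hφ hK
  set r : Euc k → ℝ := fun z => ρ z * jac E φ π z with hr
  have hri : IntegrableOn r E := hρ.mul_bdd hjm.aestronglyMeasurable hjb
  set ν : Measure X := Measure.map φ ((volume.restrict E).withDensity
    fun z => ENNReal.ofReal |r z|) with hν
  have hfin1 : IsFiniteMeasure ((volume.restrict E).withDensity
      fun z => ENNReal.ofReal |r z|) := isFiniteMeasure_withDensity_ofReal hri.abs.2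
  have hfin : IsFiniteMeasure ν := by rw [hν]; infer_instance
  obtain ⟨C, hC⟩ := hf.2
  obtain ⟨g, hg1, hg2, hg3⟩ := G1.exists_seq_BL (ctrl (chartR E φ ρ) + ν) hf.1 hC
  have hgm : ∀ n, BM (g n) := fun n => (hg1 n).bm
  have hint : ∀ n (σ : Measure X) [IsFiniteMeasure σ], Integrable (fun x => |f x - g n x|) σ :=
    fun n σ _ => (hf.sub (hgm n)).abs.integrable σ
  have hs1 : Tendsto (fun n => ∫ x, |f x - g n x| ∂(ctrl (chartR E φ ρ))) atTop (𝓝 0) := by
    refine squeeze_zero (fun n => integral_nonneg fun x => abs_nonneg _) (fun n => ?_) hg3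
    exact integral_mono_measure (Measure.le_add_right le_rfl)
      (Eventually.of_forall fun x => abs_nonneg _) (hint n _)
  have hs2 : Tendsto (fun n => ∫ x, |f x - g n x| ∂ν) atTop (𝓝 0) := by
    refine squeeze_zero (fun n => integral_nonneg fun x => abs_nonneg _) (fun n => ?_) hg3
    exact integral_mono_measure (Measure.le_add_left le_rfl)
      (Eventually.of_forall fun x => abs_nonneg _) (hint n _)
  have hlim1 := G1.ext_tendsto_L1 hf hgm hs1 π
  have hφm : AEMeasurable φ (volume.restrict E) := hφ.continuousOn.aemeasurable hE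
  have hφm' : AEMeasurable φ ((volume.restrict E).withDensity fun z => ENNReal.ofReal |r z|) :=
    hφm.mono_ac (withDensity_absolutelyContinuous _ _)
  have hν_int : ∀ h : X → ℝ, Measurable h → ∫ x, h x ∂ν = ∫ z in E, |r z| * h (φ z) := by
    intro h hh
    rw [hν, integral_map hφm' hh.aestronglyMeasurable,
      integral_withDensity_eq_integral_toReal_smul₀]
    · refine integral_congr_ae (Eventually.of_forall fun z => ?_)
      simp only [smul_eq_mul]
      rw [ENNReal.toReal_ofReal (abs_nonneg _)]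
    · exact hri.abs.aestronglyMeasurable.aemeasurable.ennreal_ofReal
    · exact Eventually.of_forall fun z => ENNReal.ofReal_lt_top
  have hintB : ∀ h : X → ℝ, BM h → IntegrableOn (fun z => ρ z * h (φ z) * jac E φ π z) E := by
    intro h hh
    obtain ⟨D, hD⟩ := hh.2
    have h1 : IntegrableOn (fun z => r z * h (φ z)) E :=
      hri.mul_bdd (c := D) (aemeasurable_comp hE hφ hh.1).aestronglyMeasurable
        (Eventually.of_forall fun z => hD _)
    refine h1.congr (Eventually.of_forall fun z => ?_)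
    simp only [hr]; ring
  have hlim2 : Tendsto (fun n => ∫ z in E, ρ z * g n (φ z) * jac E φ π z) atTop
      (𝓝 (∫ z in E, ρ z * f (φ z) * jac E φ π z)) := by
    rw [tendsto_iff_dist_tendsto_zero]
    refine squeeze_zero (fun n => dist_nonneg) (fun n => ?_) hs2
    have hmabs : Measurable fun x => |f x - g n x| := by
      exact (hf.1.sub (hgm n).1).abs
    rw [hν_int (fun x => |f x - g n x|) hmabs, dist_comm, Real.dist_eq, ← integral_sub (hintB f hf) (hintB (g n) (hgm n)), ← Real.norm_eq_abs]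
    refine (norm_integral_le_integral_norm _).trans (le_of_eq ?_)
    refine integral_congr_ae (Eventually.of_forall fun z => ?_)
    simp only [hr, Real.norm_eq_abs]
    rw [← abs_mul]
    congr 1; ring
  refine tendsto_nhds_unique hlim1 (hlim2.congr fun n => ?_)
  rw [G1.ext_eq hT hπ (hg1 n), B1c1.chartR_apply ((hg1 n).isTestPair hπ)]

/-- A bi-Lipschitz chart with integer density. -/
structure Pc (X : Type u) [MetricSpace X] (k : ℕ) where
  P : Set (Euc k)
  φ : Euc k → X
  θ : Euc k → ℤ
  meas : MeasurableSet P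
  bdd : Bornology.IsBounded P
  L : ℝ≥0
  lip : LipschitzOnWith L φ P
  C : ℝ≥0
  colip : ∀ z ∈ P, ∀ w ∈ P, dist z w ≤ C * dist (φ z) (φ w)
  int : IntegrableOn (fun z => (θ z : ℝ)) P

namespace Pc

variable (p : Pc X k)

/-- the current of a piece -/
def cur : Functional X k := chartAction p.P p.φ p.θ

omit [MeasurableSpace X] [BorelSpace X] in
theorem cur_eq : p.cur = chartR p.P p.φ (fun z => (p.θ z : ℝ)) := rfl

theorem isCurrent : IsCurrent p.cur := isCurrent_chartR p.meas p.lip p.int

omit [MeasurableSpace X] [BorelSpace X] in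
theorem injOn : InjOn p.φ p.P := by
  intro z hz w hw h
  have := p.colip z hz w hw
  rw [h, dist_self, mul_zero] at this
  exact dist_le_zero.1 this

/-- the image -/
def im : Set X := p.φ '' p.P

theorem measurableSet_im : MeasurableSet p.im :=
  p.meas.image_of_continuousOn_injOn p.lip.continuousOn p.injOn

theorem measurableSet_image {Q : Set (Euc k)} (hQ : MeasurableSet Q) (h : Q ⊆ p.P) :
    MeasurableSet (p.φ '' Q) :=
  hQ.image_of_continuousOn_injOn (p.lip.continuousOn.mono h) (p.injOn.mono h)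

theorem _root_.Crest.Agent.R241.B4Ext.measurableSet_inter_preimage {E : Set (Euc k)}
    (hE : MeasurableSet E) {φ : Euc k → X} (hφ : ContinuousOn φ E) {B : Set X}
    (hB : MeasurableSet B) : MeasurableSet (E ∩ φ ⁻¹' B) := by
  have h1 : Measurable (E.domRestrict φ) := (continuousOn_iff_continuous_domRestrict.1 hφ).measurable
  have h2 : E ∩ φ ⁻¹' B = Subtype.val '' ((E.domRestrict φ) ⁻¹' B) := by
    ext z
    simp only [mem_inter_iff, mem_preimage, mem_image, Subtype.exists, exists_and_right,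
      exists_eq_right, domRestrict_apply]
    exact ⟨fun h => ⟨h.1, h.2⟩, fun ⟨h, h'⟩ => ⟨h, h'⟩⟩
  rw [h2]
  exact hE.subtype_image (h1 hB)

/-- restriction to a Borel set of `X` -/
def restr {B : Set X} (hB : MeasurableSet B) : Pc X k where
  P := p.P ∩ p.φ ⁻¹' B
  φ := p.φ
  θ := p.θ
  meas := measurableSet_inter_preimage p.meas p.lip.continuousOn hB
  bdd := p.bdd.subset inter_subset_left
  L := p.L
  lip := p.lip.mono inter_subset_left
  C := p.C
  colip := fun z hz w hw => p.colip z hz.1 w hw.1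
  int := p.int.mono_set inter_subset_left

theorem restr_im {B : Set X} (hB : MeasurableSet B) : (p.restr hB).im = p.im ∩ B := by
  unfold im restr
  simp only
  rw [image_inter_preimage]

theorem ext_cur {f : X → ℝ} (hf : BM f) {π : Fin k → X → ℝ} (hπ : LipT π) :
    ext p.cur f π = ∫ z in p.P, (p.θ z : ℝ) * f (p.φ z) * jac p.P p.φ π z :=
  chart_ext p.meas p.lip p.int hf hπ

theorem ext_restr {B : Set X} (hB : MeasurableSet B) {f : X → ℝ} (hf : BM f)
    {π : Fin k → X → ℝ} (hπ : LipT π) :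
    ext (p.restr hB).cur f π = ext p.cur (B.indicator f) π := by
  rw [ext_cur _ hf hπ, ext_cur _ (hf.indicator hB) hπ]
  obtain ⟨K, hK⟩ := B1c1.exists_common hπ
  have h1 := B1c1.ae_jacM_mono p.meas (p.restr hB).meas (inter_subset_left) p.lip hK
  have h2 : (∫ z in (p.restr hB).P, ((p.restr hB).θ z : ℝ) * f ((p.restr hB).φ z) *
      jac (p.restr hB).P (p.restr hB).φ π z) =
      ∫ z in p.P ∩ p.φ ⁻¹' B, (p.θ z : ℝ) * f (p.φ z) * jac p.P p.φ π z := by
    refine integral_congr_ae ?_
    filter_upwards [h1] with z hz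
    have : jac (p.restr hB).P (p.restr hB).φ π z = jac p.P p.φ π z := by
      show (B1c1.jacM (p.restr hB).P p.φ π z).det = _
      rw [hz]
      rfl
    rw [this]
    rfl
  rw [h2]
  have h3 : ∀ z ∈ p.P, (p.θ z : ℝ) * B.indicator f (p.φ z) * jac p.P p.φ π z =
      (p.P ∩ p.φ ⁻¹' B).indicator (fun z => (p.θ z : ℝ) * f (p.φ z) * jac p.P p.φ π z) z := by
    intro z hz
    by_cases hzB : p.φ z ∈ B
    · rw [indicator_of_mem hzB, indicator_of_mem (show z ∈ p.P ∩ p.φ ⁻¹' B from ⟨hz, hzB⟩)]
    · rw [indicator_of_notMem hzB, indicator_of_notMem (fun h => hzB h.2)]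
      ring
  have hm : MeasurableSet (p.P ∩ p.φ ⁻¹' B) := (p.restr hB).meas
  rw [setIntegral_congr_fun p.meas h3, setIntegral_indicator hm]
  congr 2
  exact (inter_eq_self_of_subset_right inter_subset_left).symm

/-- control of the restriction -/
theorem controls_restr {B : Set X} (hB : MeasurableSet B) {μ : Measure X} [IsFiniteMeasure μ]
    (hμ : Controls p.cur μ) : Controls (p.restr hB).cur (μ.restrict B) := by
  intro f π hfπ hπ
  obtain ⟨hf, hπ'⟩ := G1.isTestPair_iff.1 hfπ
  rw [← G1.ext_eq (p.restr hB).isCurrent hπ' hf, p.ext_restr hB hf.bm hπ']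
  have h1 := G1.abs_ext_le p.isCurrent hμ (hf.bm.indicator hB) (K := fun _ => 1) hπ
  simp only [NNReal.coe_one, Finset.prod_const_one, one_mul] at h1
  refine h1.trans (le_of_eq ?_)
  rw [← integral_indicator hB]
  refine integral_congr_ae (Eventually.of_forall fun x => ?_)
  simp only
  by_cases hx : x ∈ B
  · rw [indicator_of_mem hx, indicator_of_mem hx]
  · rw [indicator_of_notMem hx, indicator_of_notMem hx, abs_zero]

omit [MeasurableSpace X] [BorelSpace X] in
/-- Lipschitz functions inverting the chart -/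
theorem exists_inverse : ∃ π : Fin k → X → ℝ, (∀ i, LipschitzWith p.C (π i)) ∧
    ∀ i, ∀ z ∈ p.P, π i (p.φ z) = z i := by
  have h : ∀ i : Fin k, ∃ g : X → ℝ, LipschitzWith p.C g ∧
      EqOn (fun x => (Function.invFunOn p.φ p.P x) i) g (p.φ '' p.P) := by
    intro i
    refine LipschitzOnWith.extend_real (LipschitzOnWith.of_dist_le_mul ?_)
    rintro _ ⟨z, hz, rfl⟩ _ ⟨w, hw, rfl⟩
    rw [p.injOn.leftInvOn_invFunOn hz, p.injOn.leftInvOn_invFunOn hw]
    refine le_trans ?_ (p.colip z hz w hw)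
    rw [dist_eq_norm, dist_eq_norm, ← PiLp.sub_apply]
    exact PiLp.norm_apply_le (z - w) i
  choose g hg1 hg2 using h
  refine ⟨g, hg1, fun i z hz => ?_⟩
  rw [← hg2 i (mem_image_of_mem _ hz)]
  simp only
  rw [p.injOn.leftInvOn_invFunOn hz]

omit [MeasurableSpace X] [BorelSpace X] in
theorem ae_jac_inverse {π : Fin k → X → ℝ} (hπ : ∀ i, ∀ z ∈ p.P, π i (p.φ z) = z i) :
    ∀ᵐ z ∂(volume.restrict p.P), jac p.P p.φ π z = 1 := by
  filter_upwards [B1Density.ae_uniqueDiffWithinAt volume p.meas, ae_restrict_mem p.meas]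
    with z hz hzP
  have h1 : ∀ i, fderivWithin ℝ (fun w => π i (p.φ w)) p.P z =
      (EuclideanSpace.proj i : Euc k →L[ℝ] ℝ) := by
    intro i
    have h2 : EqOn (fun w => π i (p.φ w)) (EuclideanSpace.proj i : Euc k →L[ℝ] ℝ) p.P := by
      intro w hw
      exact hπ i w hw
    rw [fderivWithin_congr h2 (h2 hzP)]
    exact (EuclideanSpace.proj i : Euc k →L[ℝ] ℝ).hasFDerivAt.hasFDerivWithinAt.fderivWithin hz
  have h3 : B1c1.jacM p.P p.φ π z = 1 := by
    ext i j
    rw [B1c1.jacM, Matrix.of_apply, h1 i, Matrix.one_apply]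
    simp
  rw [jac, h3, Matrix.det_one]

theorem _root_.Crest.Agent.R241.B4Ext.exists_measurable_int {α : Type*} [MeasurableSpace α]
    {μ : Measure α} {θ : α → ℤ} (h : AEMeasurable (fun z => (θ z : ℝ)) μ) :
    ∃ θ' : α → ℤ, Measurable θ' ∧ θ =ᵐ[μ] θ' := by
  refine ⟨fun z => ⌊h.mk _ z⌋, Int.measurable_floor.comp h.measurable_mk, ?_⟩
  filter_upwards [h.ae_eq_mk] with z hz
  rw [← hz, Int.floor_intCast]

/-- Mass lower bound: the density is controlled by any controlling measure. -/
theorem integral_abs_le {μ : Measure X} [IsFiniteMeasure μ] (hμ : Controls p.cur μ) :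
    ∫ z in p.P, |(p.θ z : ℝ)| ≤ (p.C : ℝ) ^ k * (μ univ).toReal := by
  obtain ⟨π, hπ1, hπ2⟩ := p.exists_inverse
  have hπ : LipT π := fun i => ⟨_, hπ1 i⟩
  obtain ⟨θ', hθ'm, hθ'⟩ := exists_measurable_int p.int.aestronglyMeasurable.aemeasurable
  set Pp : Set (Euc k) := p.P ∩ θ' ⁻¹' (Ioi 0) with hPp
  set Pn : Set (Euc k) := p.P ∩ θ' ⁻¹' (Iio 0) with hPn
  have hPpm : MeasurableSet Pp := p.meas.inter (hθ'm measurableSet_Ioi)
  have hPnm : MeasurableSet Pn := p.meas.inter (hθ'm measurableSet_Iio)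
  have hIp := p.measurableSet_image hPpm inter_subset_left
  have hIn := p.measurableSet_image hPnm inter_subset_left
  set f : X → ℝ := fun x => (p.φ '' Pp).indicator (fun _ => (1 : ℝ)) x -
    (p.φ '' Pn).indicator (fun _ => (1 : ℝ)) x with hf
  have hfm : Measurable f := (measurable_const.indicator hIp).sub (measurable_const.indicator hIn)
  have hmem : ∀ z ∈ p.P, ∀ Q ⊆ p.P, (p.φ z ∈ p.φ '' Q ↔ z ∈ Q) := by
    intro z hz Q hQ
    refine ⟨fun ⟨w, hw, h⟩ => ?_, fun h => mem_image_of_mem _ h⟩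
    rw [← p.injOn (hQ hw) hz h]; exact hw
  have hfφ : ∀ z ∈ p.P, (θ' z : ℝ) * f (p.φ z) = |(θ' z : ℝ)| := by
    intro z hz
    have h1 := hmem z hz Pp inter_subset_left
    have h2 := hmem z hz Pn inter_subset_left
    rcases lt_trichotomy (θ' z) 0 with h | h | h
    · have hn : z ∈ Pn := ⟨hz, h⟩
      have hnp : z ∉ Pp := fun h' => absurd (mem_Ioi.1 h'.2) (not_lt.2 h.le)
      have : f (p.φ z) = -1 := by
        simp only [hf]
        rw [indicator_of_notMem (fun h' => hnp (h1.1 h')), indicator_of_mem (h2.2 hn)]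
        norm_num
      rw [this, abs_of_neg (by exact_mod_cast h)]; ring
    · rw [h]; simp
    · have hp : z ∈ Pp := ⟨hz, h⟩
      have hnn : z ∉ Pn := fun h' => absurd (mem_Iio.1 h'.2) (not_lt.2 h.le)
      have : f (p.φ z) = 1 := by
        simp only [hf]
        rw [indicator_of_mem (h1.2 hp), indicator_of_notMem (fun h' => hnn (h2.1 h'))]
        norm_num
      rw [this, abs_of_pos (by exact_mod_cast h)]; ring
  have hfb : ∀ x, |f x| ≤ 1 := by
    intro x
    simp only [hf]
    by_cases h1 : x ∈ p.φ '' Pp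
    · have h2 : x ∉ p.φ '' Pn := by
        obtain ⟨z, hz, rfl⟩ := h1
        intro h2
        have := (hmem z hz.1 Pn inter_subset_left).1 h2
        exact absurd (mem_Ioi.1 hz.2) (not_lt.2 (show θ' z < 0 from this.2).le)
      rw [indicator_of_mem h1, indicator_of_notMem h2]; norm_num
    · rw [indicator_of_notMem h1]
      by_cases h2 : x ∈ p.φ '' Pn
      · rw [indicator_of_mem h2]; norm_num
      · rw [indicator_of_notMem h2]; norm_num
  have hfBM : BM f := ⟨hfm, 1, hfb⟩
  have h1 := G1.abs_ext_le p.isCurrent hμ hfBM hπ1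
  rw [p.ext_cur hfBM hπ] at h1
  have h2 : (∫ z in p.P, (p.θ z : ℝ) * f (p.φ z) * jac p.P p.φ π z) =
      ∫ z in p.P, |(p.θ z : ℝ)| := by
    refine integral_congr_ae ?_
    filter_upwards [p.ae_jac_inverse hπ2, hθ', ae_restrict_mem p.meas] with z h3 h4 h5
    rw [h3, mul_one, h4, hfφ z h5]
  rw [h2, Finset.prod_const, Finset.card_univ, Fintype.card_fin] at h1
  refine (le_abs_self _).trans (h1.trans ?_)
  gcongr
  calc ∫ x, |f x| ∂μ ≤ ∫ _x, (1 : ℝ) ∂μ :=
        integral_mono (hfBM.abs.integrable μ) (integrable_const _) hfb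
    _ = (μ univ).toReal := by simp [Measure.real]

end Pc

end

end Crest.Agent.R241.B4Ext
end

-- ▼ part R241/B4Disj
section

/-!
R241 / B4: reparametrisation of pieces, sums on one chart, disjointification.
-/

set_option autoImplicit false

open MeasureTheory Filter Topology Metric Set Module
open scoped NNReal ENNReal

namespace Crest.Agent.R241.B4Disj

open Crest.GeometryTopology.Submanifold (Euc)
open Crest.GeometryTopology.MetricCurrent
open Crest.Agent.R241.G1 (BL BM LipT ext ctrl)
open Crest.Agent.R241.B1c1 (jac chartR)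
open Crest.Agent.R241.B4Ext

noncomputable section

universe u

variable {X : Type u} [MetricSpace X] {k : ℕ} [MeasurableSpace X] [BorelSpace X]

omit [MeasurableSpace X] [BorelSpace X] in
/-- A piece whose image is contained in the image of another one can be reparametrised by the
chart of the latter. -/
theorem exists_reparam (p q : Pc X k) (h : q.im ⊆ p.im) :
    ∃ r : Pc X k, r.φ = p.φ ∧ r.P ⊆ p.P ∧ r.C = p.C ∧ r.im = q.im ∧ r.cur = q.cur := by
  classical
  set ψ : Euc k → Euc k := fun z => Function.invFunOn p.φ p.P (q.φ z) with hψ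
  have hmem : ∀ z ∈ q.P, ψ z ∈ p.P ∧ p.φ (ψ z) = q.φ z := by
    intro z hz
    have h1 : q.φ z ∈ p.φ '' p.P := h (mem_image_of_mem _ hz)
    exact ⟨Function.invFunOn_mem h1, Function.invFunOn_eq h1⟩
  have hlip : LipschitzOnWith (p.C * q.L) ψ q.P := by
    refine LipschitzOnWith.of_dist_le_mul fun z hz w hw => ?_
    refine (p.colip _ (hmem z hz).1 _ (hmem w hw).1).trans ?_
    rw [(hmem z hz).2, (hmem w hw).2, NNReal.coe_mul, mul_assoc]
    gcongr
    exact q.lip.dist_le_mul z hz w hw
  obtain ⟨Ψ, hΨ1, hΨ2⟩ := hlip.extend_finite_dimension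
  have hmem' : ∀ z ∈ q.P, Ψ z ∈ p.P ∧ p.φ (Ψ z) = q.φ z := by
    intro z hz
    rw [← hΨ2 hz]
    exact hmem z hz
  have hinj : InjOn Ψ q.P := by
    intro z hz w hw hzw
    apply q.injOn hz hw
    rw [← (hmem' z hz).2, ← (hmem' w hw).2, hzw]
  have hsub : Ψ '' q.P ⊆ p.P := by
    rintro _ ⟨z, hz, rfl⟩
    exact (hmem' z hz).1
  refine ⟨{ P := Ψ '' q.P
            φ := p.φ
            θ := fun w => (SignType.sign (fderiv ℝ Ψ (Function.invFunOn Ψ q.P w)).det : ℤ)
              * q.θ (Function.invFunOn Ψ q.P w)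
            meas := B1c2.measurableSet_image q.meas hΨ1 hinj
            bdd := p.bdd.subset hsub
            L := p.L
            lip := p.lip.mono hsub
            C := p.C
            colip := fun z hz w hw => p.colip z (hsub hz) w (hsub hw)
            int := ?_ }, rfl, hsub, rfl, ?_, ?_⟩
  · have := B1c2.integrableOn_comp_density q.meas hΨ1 hinj q.int
    refine this.congr (Eventually.of_forall fun w => ?_)
    simp only
    push_cast
    rfl
  · show p.φ '' (Ψ '' q.P) = q.φ '' q.P
    rw [image_image]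
    exact image_congr fun z hz => (hmem' z hz).2
  · show chartAction (Ψ '' q.P) p.φ _ = chartAction q.P q.φ q.θ
    rw [B1c1.chartAction_eq, B1c1.chartAction_eq,
      B1c1.chartR_congr_on q.meas (φ' := fun z => p.φ (Ψ z)) (fun z hz => ((hmem' z hz).2).symm),
      B1c2.chartR_comp q.meas hΨ1 hinj (p.lip.mono hsub)]
    congr 1
    funext w
    push_cast
    rfl

/-- Sums of pieces on the same chart. -/
theorem exists_sum (p : Pc X k) (r : ℕ → Pc X k) (hφ : ∀ b, (r b).φ = p.φ)
    (hP : ∀ b, (r b).P ⊆ p.P) (hs : Summable fun b => ∫ z in (r b).P, |((r b).θ z : ℝ)|) :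
    ∃ θ : Euc k → ℤ, IntegrableOn (fun z => (θ z : ℝ)) p.P ∧ ∀ f π, IsTestPair f π →
      HasSum (fun b => (r b).cur f π) (chartAction p.P p.φ θ f π) := by
  classical
  have hv : ∀ b, ∃ θ' : Euc k → ℤ, Measurable θ' ∧
      (r b).θ =ᵐ[volume.restrict (r b).P] θ' := fun b =>
    exists_measurable_int (r b).int.aestronglyMeasurable.aemeasurable
  choose θ' hθ'm hθ' using hv
  set Θ : ℕ → Euc k → ℤ := fun b => (r b).P.indicator (θ' b) with hΘ
  have hΘm : ∀ b, Measurable (Θ b) := fun b => (hθ'm b).indicator (r b).meas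
  have hcast : ∀ b z, (Θ b z : ℝ) = (r b).P.indicator (fun z => (θ' b z : ℝ)) z := by
    intro b z
    by_cases hz : z ∈ (r b).P
    · simp [hΘ, hz]
    · simp [hΘ, hz]
  have hθ'i : ∀ b, IntegrableOn (fun z => (θ' b z : ℝ)) (r b).P := fun b =>
    (r b).int.congr (by filter_upwards [hθ' b] with z hz; rw [hz])
  have hΘi : ∀ b, Integrable (fun z => (Θ b z : ℝ)) (volume.restrict p.P) := by
    intro b
    have h1 : Integrable ((r b).P.indicator fun z => (θ' b z : ℝ)) :=
      (integrable_indicator_iff (r b).meas).2 (hθ'i b)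
    refine (h1.mono_measure Measure.restrict_le_self).congr (Eventually.of_forall fun z => ?_)
    simp only
    rw [hcast]
  have habs : ∀ b, ∫ z in p.P, |(Θ b z : ℝ)| = ∫ z in (r b).P, |((r b).θ z : ℝ)| := by
    intro b
    have h1 : ∀ z, |(Θ b z : ℝ)| = (r b).P.indicator (fun z => |(θ' b z : ℝ)|) z := by
      intro z
      rw [hcast]
      by_cases hz : z ∈ (r b).P
      · simp [hz]
      · simp [hz]
    simp_rw [h1]
    rw [setIntegral_indicator (r b).meas, inter_eq_self_of_subset_right (hP b)]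
    refine integral_congr_ae ?_
    filter_upwards [hθ' b] with z hz
    rw [hz]
  obtain ⟨T, hTm, hTi, -, -, -, hTG⟩ := B6.sum_int (μ := volume.restrict p.P) hΘm hΘi
    (by simp_rw [habs]; exact hs)
  refine ⟨T, hTi, fun f π hfπ => ?_⟩
  obtain ⟨hf, hπ⟩ := G1.isTestPair_iff.1 hfπ
  obtain ⟨K, hK⟩ := B1c1.exists_common hπ
  obtain ⟨Cf, hCf⟩ := hf.2
  have hjm := B1c1.aemeasurable_jac p.meas p.lip hK
  have hjb := B1c1.ae_abs_jac_le p.meas p.lip hK
  set D : ℝ := |Cf| * ((k.factorial : ℝ) * ((K : ℝ) * p.L) ^ k) with hD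
  have hD0 : 0 ≤ D := by positivity
  have hgm : AEMeasurable (fun z => f (p.φ z) * jac p.P p.φ π z) (volume.restrict p.P) :=
    (aemeasurable_comp p.meas p.lip hf.measurable).mul hjm
  have hgb : ∀ᵐ z ∂(volume.restrict p.P), |f (p.φ z) * jac p.P p.φ π z| ≤ D := by
    filter_upwards [hjb] with z hz
    rw [abs_mul, hD]
    exact mul_le_mul ((hCf _).trans (le_abs_self _)) hz (abs_nonneg _) (abs_nonneg _)
  set G : Euc k → ℝ := fun z => max (-D) (min D (hgm.mk _ z)) with hG
  have hGm : Measurable G := measurable_const.max (measurable_const.min hgm.measurable_mk)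
  have hGb : ∀ z, |G z| ≤ D := fun z => G1.abs_clamp_le hD0
  have hGe : ∀ᵐ z ∂(volume.restrict p.P), G z = f (p.φ z) * jac p.P p.φ π z := by
    filter_upwards [hgm.ae_eq_mk, hgb] with z h1 h2
    rw [hG]
    simp only
    rw [← h1]
    exact G1.clamp_eq h2
  have key := hTG G hGm ⟨D, hGb⟩
  have h1 : (∫ z in p.P, G z * (T z : ℝ)) = chartAction p.P p.φ T f π := by
    rw [B1c1.chartAction_eq, B1c1.chartR_apply hfπ]
    refine integral_congr_ae ?_
    filter_upwards [hGe] with z hz
    rw [hz]; ring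
  have h2 : ∀ b, (∫ z in p.P, G z * (Θ b z : ℝ)) = (r b).cur f π := by
    intro b
    rw [Pc.cur_eq, B1c1.chartR_apply hfπ, hφ b]
    have h3 : ∀ z, G z * (Θ b z : ℝ) =
        (r b).P.indicator (fun z => G z * (θ' b z : ℝ)) z := by
      intro z
      rw [hcast]
      by_cases hz : z ∈ (r b).P
      · simp [hz]
      · simp [hz]
    simp_rw [h3]
    rw [setIntegral_indicator (r b).meas, inter_eq_self_of_subset_right (hP b)]
    have h4 := B1c1.ae_jacM_mono p.meas (r b).meas (hP b) p.lip hK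
    have h5 := ae_restrict_of_ae_restrict_of_subset (hP b) hGe
    refine integral_congr_ae ?_
    filter_upwards [hθ' b, h4, h5] with z h6 h7 h8
    rw [h8, h6, jac, jac, h7]
    ring
  rw [← h1]
  simp_rw [← h2]
  exact key

omit [MetricSpace X] [BorelSpace X] in
/-- The family obtained by restricting to disjoint Borel sets. -/
theorem summable_measure_inter {μ : ℕ → Measure X} [∀ i, IsFiniteMeasure (μ i)]
    (hs : Summable fun i => (μ i univ).toReal) {M : ℕ → Set X} (hM : ∀ a, MeasurableSet (M a))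
    (hd : Pairwise (Function.onFun Disjoint M)) :
    Summable fun x : ℕ × ℕ => (μ x.1 (M x.2)).toReal := by
  have h1 : ∀ b, ∑' a, μ b (M a) ≤ μ b univ := fun b =>
    (measure_iUnion hd hM (μ := μ b)).symm.le.trans (measure_mono (subset_univ _))
  have hfin : ∀ b, ∑' a, μ b (M a) ≠ ∞ := fun b =>
    ((h1 b).trans_lt (measure_lt_top _ _)).ne
  refine (summable_prod_of_nonneg (fun x => ENNReal.toReal_nonneg)).2 ⟨fun b => ?_, ?_⟩
  · exact ENNReal.summable_toReal (hfin b)
  · refine Summable.of_nonneg_of_le (fun b => tsum_nonneg fun a => ENNReal.toReal_nonneg)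
      (fun b => ?_) hs
    have h2 : ∑' a, (μ b (M a)).toReal = (∑' a, μ b (M a)).toReal :=
      (ENNReal.tsum_toReal_eq fun a => (measure_lt_top _ _).ne).symm
    simp only
    rw [h2]
    exact ENNReal.toReal_mono (measure_lt_top _ _).ne (h1 b)

theorem abs_cur_le {T : Functional X k} (hT : IsCurrent T) {μ : Measure X} [IsFiniteMeasure μ]
    (hμ : Controls T μ) {f : X → ℝ} {π : Fin k → X → ℝ} {K : ℝ≥0} {Cf : ℝ}
    (hf : BL f) (hCf : ∀ x, |f x| ≤ Cf) (hK : ∀ i, LipschitzWith K (π i)) :
    |T f π| ≤ ((K : ℝ) ^ k * Cf) * (μ univ).toReal := by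
  have h1 := G1.abs_le_of_controls hT hμ hf (K := fun _ => K) hK
  rw [Finset.prod_const, Finset.card_univ, Fintype.card_fin] at h1
  refine h1.trans ?_
  rw [mul_assoc]
  gcongr
  calc ∫ x, |f x| ∂μ ≤ ∫ _x, Cf ∂μ :=
        integral_mono (hf.abs.integrable μ) (integrable_const _) hCf
    _ = Cf * (μ univ).toReal := by
        rw [integral_const, smul_eq_mul, Measure.real, mul_comm]

/-- **Disjointification.** -/
theorem disjointify (p : ℕ → Pc X k) (μ : ℕ → Measure X) [∀ i, IsFiniteMeasure (μ i)]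
    (hμ : ∀ i, Controls (p i).cur (μ i)) (hs : Summable fun i => (μ i univ).toReal) :
    ∃ r : ℕ → Pc X k, (∀ i j, i ≠ j → Disjoint (r i).im (r j).im) ∧
      (∀ i, Controls (r i).cur ((Measure.sum μ).restrict (r i).im)) ∧
      ∀ f π, IsTestPair f π → ∃ s, HasSum (fun i => (p i).cur f π) s ∧
        HasSum (fun i => (r i).cur f π) s := by
  classical
  set W : ℕ → Set X := fun i => (p i).im with hW
  have hWm : ∀ i, MeasurableSet (W i) := fun i => (p i).measurableSet_im
  set M : ℕ → Set X := disjointed W with hM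
  have hMm : ∀ i, MeasurableSet (M i) := fun i => MeasurableSet.disjointed hWm i
  have hMW : ∀ i, M i ⊆ W i := fun i => disjointed_subset W i
  have hMd : Pairwise (Function.onFun Disjoint M) := disjoint_disjointed W
  set q : ℕ → ℕ → Pc X k := fun a b => (p b).restr (hMm a) with hq
  set p' : ℕ → Pc X k := fun a => (p a).restr (hMm a) with hp'
  have hp'im : ∀ a, (p' a).im = M a := by
    intro a
    rw [hp']
    simp only
    rw [Pc.restr_im]
    exact inter_eq_self_of_subset_right (hMW a)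
  have hqim : ∀ a b, (q a b).im ⊆ (p' a).im := by
    intro a b
    rw [hp'im a, hq]
    simp only
    rw [Pc.restr_im]
    exact inter_subset_right
  choose s hs1 hs2 hs3 hs4 hs5 using fun a b => exists_reparam (p' a) (q a b) (hqim a b)
  have hqc : ∀ a b, Controls (q a b).cur ((μ b).restrict (M a)) := fun a b =>
    (p b).controls_restr (hMm a) (hμ b)
  have hint : ∀ a b, ∫ z in (s a b).P, |((s a b).θ z : ℝ)| ≤
      ((p' a).C : ℝ) ^ k * (μ b univ).toReal := by
    intro a b
    have h1 : Controls (s a b).cur ((μ b).restrict (M a)) := by rw [hs5 a b]; exact hqc a b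
    refine ((s a b).integral_abs_le h1).trans ?_
    rw [hs3 a b, Measure.restrict_apply_univ]
    gcongr
    · exact (measure_lt_top _ _).ne
    · exact subset_univ _
  have hsum : ∀ a, Summable fun b => ∫ z in (s a b).P, |((s a b).θ z : ℝ)| := fun a =>
    Summable.of_nonneg_of_le (fun b => integral_nonneg fun z => abs_nonneg _) (hint a)
      (hs.mul_left _)
  choose θ hθi hθs using fun a => exists_sum (p' a) (s a) (hs1 a) (hs2 a) (hsum a)
  set r : ℕ → Pc X k := fun a => { p' a with θ := θ a, int := hθi a } with hr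
  have hrim : ∀ a, (r a).im = M a := fun a => hp'im a
  have hrsum : ∀ a f π, IsTestPair f π → HasSum (fun b => (q a b).cur f π) ((r a).cur f π) := by
    intro a f π hfπ
    have := hθs a f π hfπ
    simp_rw [hs5 a] at this
    exact this
  refine ⟨r, fun i j hij => ?_, fun a => ?_, fun f π hfπ => ?_⟩
  · rw [hrim, hrim]
    exact hMd hij
  · rw [hrim, Measure.restrict_sum _ (hMm a)]
    have h1 : ∀ b, ((μ b).restrict (M a) univ).toReal ≤ (μ b univ).toReal := by
      intro b
      refine ENNReal.toReal_mono (measure_lt_top _ _).ne ?_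
      rw [Measure.restrict_apply_univ]
      exact measure_mono (subset_univ _)
    exact (B10.controls_of_hasSum (fun b => inferInstance) (hqc a)
      (Summable.of_nonneg_of_le (fun b => ENNReal.toReal_nonneg) h1 hs) (hrsum a)).2.1
  · obtain ⟨hf, hπ⟩ := G1.isTestPair_iff.1 hfπ
    obtain ⟨K, hK⟩ := B1c1.exists_common hπ
    obtain ⟨Cf, hCf⟩ := hf.2
    have hcol : ∀ b, HasSum (fun a => (q a b).cur f π) ((p b).cur f π) := by
      intro b
      have h1 := B1c1.hasSum_chartR (p b).meas (p b).lip (p b).int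
        (P := fun a => (p b).P ∩ (p b).φ ⁻¹' M a)
        (fun a => measurableSet_inter_preimage (p b).meas (p b).lip.continuousOn (hMm a))
        (fun i j hij => ?_) ?_ f π
      · exact h1
      · refine Disjoint.mono inter_subset_right inter_subset_right ?_
        exact (hMd hij).preimage _
      · rw [← inter_iUnion, ← preimage_iUnion, hM, iUnion_disjointed]
        refine inter_eq_self_of_subset_left fun z hz => ?_
        exact mem_iUnion.2 ⟨b, mem_image_of_mem _ hz⟩
    have hbd : ∀ x : ℕ × ℕ, ‖(q x.2 x.1).cur f π‖ ≤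
        ((K : ℝ) ^ k * Cf) * (μ x.1 (M x.2)).toReal := by
      intro x
      have := abs_cur_le (q x.2 x.1).isCurrent (hqc x.2 x.1) hf hCf hK
      rw [Measure.restrict_apply_univ] at this
      exact this
    have hS : Summable fun x : ℕ × ℕ => (q x.2 x.1).cur f π :=
      Summable.of_norm_bounded ((summable_measure_inter hs hMm hMd).mul_left _) hbd
    refine ⟨_, hS.hasSum.prod_fiberwise fun b => hcol b, ?_⟩
    have h2 : HasSum (fun x : ℕ × ℕ => (q x.1 x.2).cur f π)
        (∑' x : ℕ × ℕ, (q x.2 x.1).cur f π) := by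
      have := (Equiv.prodComm ℕ ℕ).hasSum_iff.2 hS.hasSum
      exact this
    exact h2.prod_fiberwise fun a => hrsum a f π hfπ

end

end Crest.Agent.R241.B4Disj
end

-- ▼ part R241/B4Norm

/-!
R241 / B4: the normal form theorem and closure properties of integer rectifiable currents.
-/

set_option autoImplicit false

open MeasureTheory Filter Topology Metric Set Module
open scoped NNReal ENNReal

namespace Crest.Agent.R241.B4Norm

open Crest.GeometryTopology.Submanifold (Euc)
open Crest.GeometryTopology.MetricCurrent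
open Crest.Agent.R241.G1 (BL BM LipT ext ctrl)
open Crest.Agent.R241.B1c1 (jac chartR)
open Crest.Agent.R241.B4Ext Crest.Agent.R241.B4Disj

noncomputable section

universe u

variable {X : Type u} [MetricSpace X] {k : ℕ} [MeasurableSpace X] [BorelSpace X]

/-- finite sum measure -/
theorem isFiniteMeasure_sum {α : Type*} [MeasurableSpace α] {μ : ℕ → Measure α}
    [∀ i, IsFiniteMeasure (μ i)] (hs : Summable fun i => (μ i univ).toReal) :
    IsFiniteMeasure (Measure.sum μ) := by
  refine ⟨?_⟩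
  rw [Measure.sum_apply _ MeasurableSet.univ]
  have h1 : ∀ i, μ i univ = ENNReal.ofReal ((μ i univ).toReal) := fun i =>
    (ENNReal.ofReal_toReal (measure_lt_top _ _).ne).symm
  rw [tsum_congr h1, ← ENNReal.ofReal_tsum_of_nonneg (fun i => ENNReal.toReal_nonneg) hs]
  exact ENNReal.ofReal_lt_top

theorem integral_sum_measure {μ : ℕ → Measure X} [∀ i, IsFiniteMeasure (μ i)]
    [IsFiniteMeasure (Measure.sum μ)] {f : X → ℝ} (hf : BM f) :
    HasSum (fun i => ∫ x, f x ∂(μ i)) (∫ x, f x ∂(Measure.sum μ)) :=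
  hasSum_integral_measure (hf.integrable _)

/-- The extension to bounded Borel functions is additive over mass-summable series. -/
theorem hasSum_ext {T : Functional X k} (hT : IsCurrent T) {S : ℕ → Functional X k}
    (hS : ∀ i, IsCurrent (S i)) {σ : ℕ → Measure X} [∀ i, IsFiniteMeasure (σ i)]
    (hσ : ∀ i, Controls (S i) (σ i)) (hs : Summable fun i => (σ i univ).toReal)
    (hsum : ∀ f π, IsTestPair f π → HasSum (fun i => S i f π) (T f π))
    {g : X → ℝ} (hg : BM g) {π : Fin k → X → ℝ} (hπ : LipT π) :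
    HasSum (fun i => ext (S i) g π) (ext T g π) := by
  have hfin := isFiniteMeasure_sum hs
  obtain ⟨K, hK⟩ := B1c1.exists_common hπ
  obtain ⟨C, hC⟩ := hg.2
  obtain ⟨h, hh1, hh2, hh3⟩ := G1.exists_seq_BL (ctrl T + Measure.sum σ) hg.1 hC
  have hhm : ∀ n, BM (h n) := fun n => (hh1 n).bm
  have hint : ∀ n (ν : Measure X) [IsFiniteMeasure ν], Integrable (fun x => |g x - h n x|) ν :=
    fun n ν _ => (hg.sub (hhm n)).abs.integrable ν
  have hs1 : Tendsto (fun n => ∫ x, |g x - h n x| ∂(ctrl T)) atTop (𝓝 0) := by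
    refine squeeze_zero (fun n => integral_nonneg fun x => abs_nonneg _) (fun n => ?_) hh3
    exact integral_mono_measure (Measure.le_add_right le_rfl)
      (Eventually.of_forall fun x => abs_nonneg _) (hint n _)
  have hs2 : Tendsto (fun n => ∫ x, |g x - h n x| ∂(Measure.sum σ)) atTop (𝓝 0) := by
    refine squeeze_zero (fun n => integral_nonneg fun x => abs_nonneg _) (fun n => ?_) hh3
    exact integral_mono_measure (Measure.le_add_left le_rfl)
      (Eventually.of_forall fun x => abs_nonneg _) (hint n _)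
  have hlim1 := G1.ext_tendsto_L1 hg hhm hs1 π
  set P : ℝ := ∏ _i : Fin k, (K : ℝ) with hP
  have hP0 : 0 ≤ P := Finset.prod_nonneg fun _ _ => K.coe_nonneg
  -- summability
  have hbound : ∀ (f : X → ℝ), BM f → ∀ i, |ext (S i) f π| ≤ P * ∫ x, |f x| ∂(σ i) :=
    fun f hf i => G1.abs_ext_le (hS i) (hσ i) hf hK
  have hsumm : ∀ (f : X → ℝ), BM f → Summable fun i => ext (S i) f π := by
    intro f hf
    refine Summable.of_norm_bounded (g := fun i => P * ∫ x, |f x| ∂(σ i))
      ((integral_sum_measure hf.abs).summable.mul_left P) (hbound f hf)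
  have hlim2 : Tendsto (fun n => ∑' i, ext (S i) (h n) π) atTop
      (𝓝 (∑' i, ext (S i) g π)) := by
    rw [tendsto_iff_dist_tendsto_zero]
    have hz : Tendsto (fun n => P * ∫ x, |g x - h n x| ∂(Measure.sum σ)) atTop (𝓝 0) := by
      simpa using hs2.const_mul P
    refine squeeze_zero (fun n => dist_nonneg) (fun n => ?_) hz
    rw [dist_comm, Real.dist_eq, ← (hsumm g hg).tsum_sub (hsumm _ (hhm n))]
    have h1 : ∀ i, ext (S i) g π - ext (S i) (h n) π = ext (S i) (g - h n) π := fun i =>
      (G1.ext_sub hg (hhm n) π).symm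
    simp_rw [h1]
    have hgh : BM (g - h n) := hg.sub (hhm n)
    have h2 := integral_sum_measure (μ := σ) hgh.abs
    have h3 : ‖∑' i, ext (S i) (g - h n) π‖ ≤ ∑' i, P * ∫ x, |(g - h n) x| ∂(σ i) :=
      tsum_of_norm_bounded (h2.summable.mul_left P).hasSum (hbound _ hgh)
    rw [tsum_mul_left, h2.tsum_eq] at h3
    exact h3
  have hlim3 : Tendsto (fun n => ∑' i, ext (S i) (h n) π) atTop (𝓝 (ext T g π)) := by
    refine hlim1.congr fun n => ?_
    rw [G1.ext_eq hT hπ (hh1 n)]
    have h4 : ∀ i, ext (S i) (h n) π = S i (h n) π := fun i => G1.ext_eq (hS i) hπ (hh1 n)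
    simp_rw [h4]
    exact (hsum _ _ ((hh1 n).isTestPair hπ)).tsum_eq.symm
  rw [← tendsto_nhds_unique hlim2 hlim3]
  exact (hsumm g hg).hasSum

/-- In a decomposition into pieces with disjoint images every piece is a restriction of the total
current: it is controlled by the restriction of any controlling measure. -/
theorem controls_piece {T : Functional X k} (hT : IsCurrent T) {ν : Measure X}
    [IsFiniteMeasure ν] (hν : Controls T ν) {r : ℕ → Pc X k}
    (hd : ∀ i j, i ≠ j → Disjoint (r i).im (r j).im)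
    {σ : ℕ → Measure X} [∀ i, IsFiniteMeasure (σ i)]
    (hσ : ∀ i, Controls (r i).cur (σ i)) (hs : Summable fun i => (σ i univ).toReal)
    (hsum : ∀ f π, IsTestPair f π → HasSum (fun i => (r i).cur f π) (T f π)) (a : ℕ) :
    Controls (r a).cur (ν.restrict (r a).im) := by
  intro f π hfπ hπ1
  obtain ⟨hf, hπ⟩ := G1.isTestPair_iff.1 hfπ
  have him := (r a).measurableSet_im
  have hfi : BM ((r a).im.indicator f) := hf.bm.indicator him
  have h1 := hasSum_ext hT (fun i => (r i).isCurrent) hσ hs hsum hfi hπ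
  have hzero : ∀ i, i ≠ a → ext (r i).cur ((r a).im.indicator f) π = 0 := by
    intro i hi
    rw [Pc.ext_cur _ hfi hπ]
    rw [setIntegral_congr_fun (r i).meas (g := fun _ => (0 : ℝ)) ?_, integral_zero]
    intro z hz
    show ((r i).θ z : ℝ) * (r a).im.indicator f ((r i).φ z) * jac (r i).P (r i).φ π z = 0
    rw [indicator_of_notMem, mul_zero, zero_mul]
    exact fun h => (hd i a hi).le_bot ⟨mem_image_of_mem _ hz, h⟩
  have hself : ext (r a).cur ((r a).im.indicator f) π = (r a).cur f π := by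
    rw [Pc.ext_cur _ hfi hπ, Pc.cur_eq, B1c1.chartR_apply hfπ]
    refine setIntegral_congr_fun (r a).meas fun z hz => ?_
    show ((r a).θ z : ℝ) * (r a).im.indicator f ((r a).φ z) * jac (r a).P (r a).φ π z = _
    rw [indicator_of_mem (show (r a).φ z ∈ (r a).im from mem_image_of_mem _ hz)]
  have h2 : ext T ((r a).im.indicator f) π = (r a).cur f π := by
    rw [← hself]
    exact h1.unique (hasSum_single a hzero)
  rw [← h2]
  have h3 := G1.abs_ext_le hT hν hfi (K := fun _ => 1) hπ1
  simp only [NNReal.coe_one, Finset.prod_const_one, one_mul] at h3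
  refine h3.trans (le_of_eq ?_)
  rw [← integral_indicator him]
  refine integral_congr_ae (Eventually.of_forall fun x => ?_)
  simp only
  by_cases hx : x ∈ (r a).im
  · rw [indicator_of_mem hx, indicator_of_mem hx]
  · rw [indicator_of_notMem hx, indicator_of_notMem hx, abs_zero]

/-- A normal form of `T` relative to the measure `ν`. -/
def NF (T : Functional X k) (ν : Measure X) (r : ℕ → Pc X k) : Prop :=
  (∀ i j, i ≠ j → Disjoint (r i).im (r j).im) ∧
  (∀ i, Controls (r i).cur (ν.restrict (r i).im)) ∧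
  ∀ f π, IsTestPair f π → HasSum (fun i => (r i).cur f π) (T f π)

theorem NF.summable_restrict {T : Functional X k} {ν : Measure X} [IsFiniteMeasure ν]
    {r : ℕ → Pc X k} (h : NF T ν r) :
    Summable fun i => (ν.restrict (r i).im univ).toReal := by
  simp_rw [Measure.restrict_apply_univ]
  refine ENNReal.summable_toReal ?_
  have h1 : ∑' i, ν (r i).im = ν (⋃ i, (r i).im) :=
    (measure_iUnion (fun i j hij => h.1 i j hij) fun i => (r i).measurableSet_im).symm
  rw [h1]
  exact (measure_lt_top _ _).ne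

theorem NF.tsum_restrict_le {T : Functional X k} {ν : Measure X} [IsFiniteMeasure ν]
    {r : ℕ → Pc X k} (h : NF T ν r) :
    ∑' i, (ν.restrict (r i).im univ).toReal ≤ (ν univ).toReal := by
  simp_rw [Measure.restrict_apply_univ]
  rw [← ENNReal.tsum_toReal_eq fun i => (measure_lt_top _ _).ne]
  refine ENNReal.toReal_mono (measure_lt_top _ _).ne ?_
  rw [← measure_iUnion (fun i j hij => h.1 i j hij) fun i => (r i).measurableSet_im]
  exact measure_mono (subset_univ _)

/-- From a normal form to the official definition. -/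
theorem NF.rect {T : Functional X k} {ν : Measure X} [IsFiniteMeasure ν]
    {r : ℕ → Pc X k} (h : NF T ν r) : IsIntegerRectifiable T := by
  refine ⟨fun i => (r i).P, fun i => (r i).φ, fun i => (r i).θ,
    fun i => ⟨(r i).meas, (r i).bdd⟩, fun i => ⟨_, (r i).lip⟩, fun i => ⟨_, (r i).colip⟩,
    fun i => (r i).int, h.1, fun i => (r i).isCurrent, ?_, fun f π hfπ => (h.2.2 f π hfπ).tsum_eq.symm⟩
  refine Summable.of_nonneg_of_le (fun i => B10.mass_nonneg _) (fun i => ?_) h.summable_restrict
  exact B10.mass_le (h.2.1 i)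

omit [BorelSpace X] in
/-- Existence of a controlling measure with almost minimal mass. -/
theorem exists_controls_le {T : Functional X k} (hT : IsCurrent T) {ε : ℝ} (hε : 0 < ε) :
    ∃ μ : Measure X, IsFiniteMeasure μ ∧ Controls T μ ∧ (μ univ).toReal ≤ mass T + ε := by
  obtain ⟨μ, h1, h2, h3⟩ := B10.exists_controls_lt hT (c := mass T + ε) (by linarith)
  exact ⟨μ, h1, h2, h3.le⟩

/-- The official definition gives a normal form relative to any controlling measure. -/
theorem exists_NF_of_rect {T : Functional X k} (hT : IsCurrent T) (hr : IsIntegerRectifiable T)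
    {ν : Measure X} [IsFiniteMeasure ν] (hν : Controls T ν) :
    ∃ r : ℕ → Pc X k, NF T ν r := by
  obtain ⟨E, φ, θ, h1, h2, h3, h4, h5, h6, h7, h8⟩ := hr
  choose L hL using h2
  choose C hC using h3
  set r : ℕ → Pc X k := fun i =>
    { P := E i
      φ := φ i
      θ := θ i
      meas := (h1 i).1
      bdd := (h1 i).2
      L := L i
      lip := hL i
      C := Real.toNNReal (C i)
      colip := fun z hz w hw => (hC i z hz w hw).trans
        (mul_le_mul_of_nonneg_right (Real.le_coe_toNNReal _) dist_nonneg)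
      int := h4 i } with hr
  have hsum : ∀ f π, IsTestPair f π → HasSum (fun i => (r i).cur f π) (T f π) := by
    intro f π hfπ
    rw [h8 f π hfπ]
    exact (B10.summable_apply h6 h7 hfπ).hasSum
  obtain ⟨ε, hε, c, hεs, hεc⟩ := posSumOfEncodable one_pos ℕ
  choose σ hσ1 hσ2 hσ3 using fun i => exists_controls_le (r i).isCurrent (hε i)
  refine ⟨r, h5, fun a => ?_, hsum⟩
  refine controls_piece (r := r) hT hν h5 hσ2 ?_ hsum a
  exact Summable.of_nonneg_of_le (fun i => ENNReal.toReal_nonneg) hσ3 (h7.add hεs.summable)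

/-- annuli -/
def ann (n : ℕ) : Set (Euc k) := disjointed (fun m : ℕ => closedBall (0 : Euc k) m) n

omit [MeasurableSpace X] [BorelSpace X] in
theorem measurableSet_ann (n : ℕ) : MeasurableSet (ann (k := k) n) :=
  MeasurableSet.disjointed (fun _ => measurableSet_closedBall) n

theorem bdd_ann (n : ℕ) : Bornology.IsBounded (ann (k := k) n) :=
  isBounded_closedBall.subset (disjointed_subset _ n)

theorem iUnion_ann : (⋃ n, ann (k := k) n) = univ := by
  unfold ann
  rw [iUnion_disjointed, eq_univ_iff_forall]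
  intro z
  obtain ⟨n, hn⟩ := exists_nat_ge ‖z‖
  exact mem_iUnion.2 ⟨n, by simpa using hn⟩

/-- Normal form of a single Lipschitz chart. -/
theorem exists_NF_chart [TopologicalSpace.SeparableSpace X] {E : Set (Euc k)}
    (hE : MeasurableSet E) {φ : Euc k → X} {L : ℝ≥0} (hφ : LipschitzOnWith L φ E)
    {θ : Euc k → ℤ} (hθ : IntegrableOn (fun z => (θ z : ℝ)) E)
    {ν : Measure X} [IsFiniteMeasure ν] (hν : Controls (chartAction E φ θ) ν) :
    ∃ r : ℕ → Pc X k, NF (chartAction E φ θ) ν r := by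
  obtain ⟨P, hPm, hPE, hPd, hPC, hPz⟩ := B4Split.exists_split hE hφ
  choose C hC0 hC using hPC
  set Q : ℕ → Set (Euc k) := fun n => P (Nat.unpair n).1 ∩ ann (Nat.unpair n).2 with hQ
  have hQm : ∀ n, MeasurableSet (Q n) := fun n => (hPm _).inter (measurableSet_ann _)
  have hQE : ∀ n, Q n ⊆ E := fun n => inter_subset_left.trans (hPE _)
  have hQd : Pairwise (Function.onFun Disjoint Q) := by
    intro i j hij
    by_cases h : (Nat.unpair i).1 = (Nat.unpair j).1
    · have h2 : (Nat.unpair i).2 ≠ (Nat.unpair j).2 := by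
        intro h2
        apply hij
        rw [← Nat.pair_unpair i, ← Nat.pair_unpair j, h, h2]
      exact Disjoint.mono inter_subset_right inter_subset_right
        ((disjoint_disjointed _) h2)
    · exact Disjoint.mono inter_subset_left inter_subset_left (hPd h)
  have hQU : (⋃ n, Q n) = ⋃ j, P j := by
    apply Subset.antisymm
    · exact iUnion_subset fun n => inter_subset_left.trans (subset_iUnion P _)
    · intro z hz
      obtain ⟨j, hj⟩ := mem_iUnion.1 hz
      obtain ⟨m, hm⟩ := mem_iUnion.1 (iUnion_ann (k := k) ▸ mem_univ z)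
      refine mem_iUnion.2 ⟨Nat.pair j m, ?_⟩
      show z ∈ P (Nat.unpair (Nat.pair j m)).1 ∩ ann (Nat.unpair (Nat.pair j m)).2
      rw [Nat.unpair_pair]
      exact ⟨hj, hm⟩
  set p : ℕ → Pc X k := fun n =>
    { P := Q n
      φ := φ
      θ := θ
      meas := hQm n
      bdd := (bdd_ann _).subset inter_subset_right
      L := L
      lip := hφ.mono (hQE n)
      C := ⟨C (Nat.unpair n).1, hC0 _⟩
      colip := fun z hz w hw => hC _ z hz.1 w hw.1
      int := hθ.mono_set (hQE n) } with hp
  have hfin : ∀ n, IsFiniteMeasure (B1Cur.ctrl (Q n) φ L (fun z => (θ z : ℝ))) := fun n =>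
    B1Cur.isFiniteMeasure_ctrl (hθ.mono_set (hQE n))
  have hctrl : ∀ n, Controls (p n).cur (B1Cur.ctrl (Q n) φ L (fun z => (θ z : ℝ))) := fun n =>
    B1Cur.controls_chartAction (hQm n) (hφ.mono (hQE n)) (hθ.mono_set (hQE n))
  have hmass : ∀ n, ((B1Cur.ctrl (Q n) φ L (fun z => (θ z : ℝ))) univ).toReal =
      (L : ℝ) ^ k * ∫ z in Q n, |(θ z : ℝ)| := by
    intro n
    have h1 := B1Cur.integral_ctrl (hQm n) (hφ.mono (hQE n)) (hθ.mono_set (hQE n))
      (f := fun _ => (1 : ℝ)) continuous_const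
    rw [integral_const, smul_eq_mul, mul_one] at h1
    rw [← Measure.real, h1, ← integral_const_mul]
    refine integral_congr_ae (Eventually.of_forall fun z => ?_)
    simp only
    ring
  have hsum : Summable fun n => ((B1Cur.ctrl (Q n) φ L (fun z => (θ z : ℝ))) univ).toReal := by
    simp_rw [hmass]
    refine Summable.mul_left _ ?_
    have habs : IntegrableOn (fun z => |(θ z : ℝ)|) E := Integrable.abs hθ
    have h1 : HasSum (fun n => ∫ z in Q n, |(θ z : ℝ)|) (∫ z in ⋃ n, Q n, |(θ z : ℝ)|) :=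
      hasSum_integral_iUnion hQm hQd (habs.mono_set (iUnion_subset hQE))
    exact h1.summable
  obtain ⟨r, hr1, hr2, hr3⟩ := disjointify p _ hctrl hsum
  have hUm : MeasurableSet (⋃ j, P j) := MeasurableSet.iUnion hPm
  have hUE : (⋃ j, P j) ⊆ E := iUnion_subset hPE
  -- the sum of the pieces is the chart action
  have hp_sum : ∀ f π, IsTestPair f π → HasSum (fun n => (p n).cur f π)
      (chartAction E φ θ f π) := by
    intro f π hfπ
    have h1 := B1c1.hasSum_chartR hUm (hφ.mono hUE) (θ := fun z => (θ z : ℝ))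
      (hθ.mono_set hUE) hQm hQd hQU f π
    have h2 : chartR (⋃ j, P j) φ (fun z => (θ z : ℝ)) f π = chartAction E φ θ f π := by
      rw [B1c1.chartAction_eq, B1c1.chartR_apply hfπ, B1c1.chartR_apply hfπ]
      obtain ⟨K, hK⟩ := B1c1.exists_common hfπ.2.2
      have h3 := B1c1.integrable_integrand hE hφ hθ hfπ
      have h4 : (∫ z in E \ ⋃ j, P j, (θ z : ℝ) * f (φ z) * jac E φ π z) = 0 := by
        rw [integral_congr_ae (g := fun _ => (0 : ℝ)), integral_zero]
        filter_upwards [hPz π hfπ.2.2] with z hz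
        have : jac E φ π z = 0 := hz
        rw [this, mul_zero]
      have h5 : (∫ z in ⋃ j, P j, (θ z : ℝ) * f (φ z) * jac (⋃ j, P j) φ π z) =
          ∫ z in ⋃ j, P j, (θ z : ℝ) * f (φ z) * jac E φ π z := by
        refine integral_congr_ae ?_
        filter_upwards [B1c1.ae_jacM_mono hE hUm hUE hφ hK] with z hz
        rw [jac, jac, hz]
      rw [h5]
      have h6 := integral_inter_add_sdiff hUm h3
      rw [h4, add_zero, inter_eq_self_of_subset_right hUE] at h6
      exact h6
    rw [← h2]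
    exact h1
  have hr_sum : ∀ f π, IsTestPair f π → HasSum (fun n => (r n).cur f π)
      (chartAction E φ θ f π) := by
    intro f π hfπ
    obtain ⟨s, hs1, hs2⟩ := hr3 f π hfπ
    rw [(hp_sum f π hfπ).unique hs1]
    exact hs2
  have hfinsum := isFiniteMeasure_sum hsum
  have hNF0 : NF (chartAction E φ θ)
      (Measure.sum fun n => B1Cur.ctrl (Q n) φ L (fun z => (θ z : ℝ))) r := ⟨hr1, hr2, hr_sum⟩
  refine ⟨r, hr1, fun a => ?_, hr_sum⟩
  exact controls_piece (B1Cur.isCurrent_chartAction hE hφ hθ) hν hr1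
    hNF0.2.1 hNF0.summable_restrict hr_sum a

/-- Normal form of a mass-summable series of currents with normal forms. -/
theorem exists_NF_of_hasSum {T : ℕ → Functional X k} {S : Functional X k} {ν : ℕ → Measure X}
    [∀ i, IsFiniteMeasure (ν i)] (hs : Summable fun i => (ν i univ).toReal)
    (hT : ∀ i, ∃ r : ℕ → Pc X k, NF (T i) (ν i) r)
    (hsum : ∀ f π, IsTestPair f π → HasSum (fun i => T i f π) (S f π)) :
    ∃ (σ : Measure X) (r : ℕ → Pc X k), IsFiniteMeasure σ ∧ NF S σ r := by
  choose r hr using hT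
  set p : ℕ → Pc X k := fun n => r (Nat.unpair n).1 (Nat.unpair n).2 with hp
  set μ : ℕ → Measure X := fun n =>
    (ν (Nat.unpair n).1).restrict (r (Nat.unpair n).1 (Nat.unpair n).2).im with hμ
  have hμc : ∀ n, Controls (p n).cur (μ n) := fun n => (hr _).2.1 _
  have hprod : Summable fun x : ℕ × ℕ => ((ν x.1).restrict (r x.1 x.2).im univ).toReal := by
    refine (summable_prod_of_nonneg (fun x => ENNReal.toReal_nonneg)).2 ⟨fun i => ?_, ?_⟩
    · exact (hr i).summable_restrict
    · exact Summable.of_nonneg_of_le (fun i => tsum_nonneg fun a => ENNReal.toReal_nonneg)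
        (fun i => (hr i).tsum_restrict_le) hs
  have hμs : Summable fun n => (μ n univ).toReal := by
    have := Nat.pairEquiv.symm.summable_iff.2 hprod
    exact this
  obtain ⟨q, hq1, hq2, hq3⟩ := disjointify p μ hμc hμs
  have hfin := isFiniteMeasure_sum hμs
  refine ⟨Measure.sum μ, q, hfin, hq1, hq2, fun f π hfπ => ?_⟩
  obtain ⟨s, hs1, hs2⟩ := hq3 f π hfπ
  have h1 : HasSum (fun x : ℕ × ℕ => (r x.1 x.2).cur f π) s := by
    have h2 : HasSum ((fun n => (p n).cur f π) ∘ Nat.pairEquiv) s :=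
      Nat.pairEquiv.hasSum_iff.2 hs1
    convert h2 using 1
    funext x
    show (r x.1 x.2).cur f π = (r (Nat.unpair (Nat.pair x.1 x.2)).1
      (Nat.unpair (Nat.pair x.1 x.2)).2).cur f π
    rw [Nat.unpair_pair]
  have h3 := h1.prod_fiberwise fun i => (hr i).2.2 f π hfπ
  rw [(hsum f π hfπ).unique h3]
  exact hs2

/-- **Mass-summable series of integer rectifiable currents are integer rectifiable.** -/
theorem rect_of_hasSum {T : ℕ → Functional X k} {S : Functional X k} (hT : ∀ i, IsCurrent (T i))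
    (hr : ∀ i, IsIntegerRectifiable (T i)) (hm : Summable fun i => mass (T i))
    (hsum : ∀ f π, IsTestPair f π → HasSum (fun i => T i f π) (S f π)) :
    IsIntegerRectifiable S := by
  obtain ⟨ε, hε, c, hεs, hεc⟩ := posSumOfEncodable one_pos ℕ
  choose ν hν1 hν2 hν3 using fun i => exists_controls_le (hT i) (hε i)
  have hs : Summable fun i => (ν i univ).toReal :=
    Summable.of_nonneg_of_le (fun i => ENNReal.toReal_nonneg) hν3 (hm.add hεs.summable)
  obtain ⟨σ, r, hσ, hNF⟩ := exists_NF_of_hasSum hs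
    (fun i => exists_NF_of_rect (hT i) (hr i) (hν2 i)) hsum
  exact hNF.rect

/-- Every Lipschitz chart action is integer rectifiable. -/
theorem rect_chartAction [TopologicalSpace.SeparableSpace X] {E : Set (Euc k)}
    (hE : MeasurableSet E) {φ : Euc k → X} {L : ℝ≥0} (hφ : LipschitzOnWith L φ E)
    {θ : Euc k → ℤ} (hθ : IntegrableOn (fun z => (θ z : ℝ)) E) :
    IsIntegerRectifiable (chartAction E φ θ) := by
  have hfin := B1Cur.isFiniteMeasure_ctrl (φ := φ) (L := L) hθ
  obtain ⟨r, hr⟩ := exists_NF_chart hE hφ hθ (B1Cur.controls_chartAction hE hφ hθ)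
  exact hr.rect

/-- Mass-summable series of Lipschitz chart actions are integer rectifiable. -/
theorem rect_of_charts [TopologicalSpace.SeparableSpace X] {E : ℕ → Set (Euc k)}
    (hE : ∀ i, MeasurableSet (E i)) {φ : ℕ → Euc k → X}
    (hφ : ∀ i, ∃ L : ℝ≥0, LipschitzOnWith L (φ i) (E i))
    {θ : ℕ → Euc k → ℤ} (hθ : ∀ i, IntegrableOn (fun z => (θ i z : ℝ)) (E i))
    (hm : Summable fun i => mass (chartAction (E i) (φ i) (θ i))) {S : Functional X k}
    (hsum : ∀ f π, IsTestPair f π →
      HasSum (fun i => chartAction (E i) (φ i) (θ i) f π) (S f π)) :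
    IsIntegerRectifiable S := by
  choose L hL using hφ
  exact rect_of_hasSum (fun i => B1Cur.isCurrent_chartAction (hE i) (hL i) (hθ i))
    (fun i => rect_chartAction (hE i) (hL i) (hθ i)) hm hsum

end

end Crest.Agent.R241.B4Norm
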