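import Crest.Agent.R241.B5bDens
import Crest.Agent.R241.B1Cur
import Crest.Agent.R241.G1m
import Crest.Agent.R241.B3a
import Crest.Agent.R241.B1Density
import Crest.Prelude.Def_MetricCurrent
import Crest.Agent.R241.B8LinAlg
import Crest.Agent.R241.G1c

-- ▼ part R241/B5bPre
section

/-!
# R241, block B5b, part 3: `A.PreData` of a countable family of charts with disjoint images
-/

set_option autoImplicit false

open MeasureTheory Measure Filter Set Topology Matrix Function
open scoped NNReal ENNReal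

universe u

namespace Crest.Agent.R241.B5b

open Crest.GeometryTopology.Submanifold (Euc)

variable {n : ℕ} {Y : Type u} [MetricSpace Y]

/-- a countable family of charts with disjoint images and finite total mass. -/
structure Fam (n : ℕ) (Y : Type u) [MetricSpace Y] where
  c : ℕ → Chart n Y
  disj : ∀ i j, i ≠ j → Disjoint ((c i).φ '' (c i).E) ((c j).φ '' (c j).E)
  summ : Summable fun i => ∫ z in (c i).E, (c i).ρ z

namespace Fam

variable (𝒞 : Fam n Y)

open Classical in
/-- the carré du champ of a family of charts -/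
noncomputable def G (f u : Y → ℝ) (y : Y) : ℝ :=
  if h : ∃ i, y ∈ (𝒞.c i).φ '' (𝒞.c i).E then
    (𝒞.c h.choose).Γ f u (invFunOn (𝒞.c h.choose).φ (𝒞.c h.choose).E y) else 0

/-- in a chart the carré du champ is the expected one. -/
theorem G_apply (f u : Y → ℝ) {i : ℕ} {z : Euc n} (hz : z ∈ (𝒞.c i).E) :
    𝒞.G f u ((𝒞.c i).φ z) = (𝒞.c i).Γ f u z := by
  have h : ∃ j, (𝒞.c i).φ z ∈ (𝒞.c j).φ '' (𝒞.c j).E := ⟨i, mem_image_of_mem _ hz⟩
  have hi : h.choose = i := by
    by_contra hne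
    exact Set.disjoint_left.1 (𝒞.disj _ _ hne) h.choose_spec (mem_image_of_mem _ hz)
  rw [G, dif_pos h, hi, (𝒞.c i).inj.leftInvOn_invFunOn hz]

variable [MeasurableSpace Y] [BorelSpace Y]

/-- the mass measure of the family -/
noncomputable def τ : Measure Y := Measure.sum fun i => (𝒞.c i).wvol.map (𝒞.c i).φ

omit [MeasurableSpace Y] [BorelSpace Y] in
theorem wvol_univ (c : Chart n Y) : c.wvol univ = ENNReal.ofReal (∫ z in c.E, c.ρ z) := by
  rw [Chart.wvol, withDensity_apply _ MeasurableSet.univ, Measure.restrict_univ]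
  exact (ofReal_integral_eq_lintegral_ofReal c.integ
    (Eventually.of_forall fun z => c.ρ_nonneg z)).symm

omit [MeasurableSpace Y] [BorelSpace Y] in
theorem integral_nonneg' (c : Chart n Y) : 0 ≤ ∫ z in c.E, c.ρ z :=
  integral_nonneg fun z => c.ρ_nonneg z

theorem τ_univ : 𝒞.τ univ = ENNReal.ofReal (∑' i, ∫ z in (𝒞.c i).E, (𝒞.c i).ρ z) := by
  rw [τ, Measure.sum_apply _ MeasurableSet.univ,
    ENNReal.ofReal_tsum_of_nonneg (fun i => integral_nonneg' _) 𝒞.summ]
  refine tsum_congr fun i => ?_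
  rw [Measure.map_apply_of_aemeasurable ((𝒞.c i).aemeasurable (𝒞.c i).wvol_compl)
    MeasurableSet.univ, preimage_univ, wvol_univ]


instance : IsFiniteMeasure 𝒞.τ := ⟨by rw [τ_univ]; exact ENNReal.ofReal_lt_top⟩

theorem ae_τ_iff {P : Y → Prop} :
    (∀ᵐ y ∂𝒞.τ, P y) ↔ ∀ i, ∀ᵐ z ∂(𝒞.c i).vol, (𝒞.c i).ρ z ≠ 0 → P ((𝒞.c i).φ z) := by
  rw [τ, Measure.ae_sum_iff]
  refine forall_congr' fun i => ?_
  rw [(𝒞.c i).ae_map_iff (𝒞.c i).wvol_compl, (𝒞.c i).ae_wvol_iff]

theorem ae_τ_of {P : Y → Prop} (h : ∀ i, ∀ᵐ z ∂(𝒞.c i).vol, P ((𝒞.c i).φ z)) :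
    ∀ᵐ y ∂𝒞.τ, P y :=
  𝒞.ae_τ_iff.2 fun i => (h i).mono fun _ hz _ => hz


omit [MeasurableSpace Y] [BorelSpace Y] in
theorem ae_mem_G (i : ℕ) (f u : Y → ℝ) :
    ∀ᵐ z ∂(𝒞.c i).vol, 𝒞.G f u ((𝒞.c i).φ z) = (𝒞.c i).Γ f u z := by
  filter_upwards [ae_restrict_mem (𝒞.c i).meas_E] with z hz
  exact 𝒞.G_apply f u hz

theorem G_aesm {f u : Y → ℝ} (hf : A.Lip f) (hu : A.Lip u) :
    AEStronglyMeasurable (𝒞.G f u) 𝒞.τ := by
  rw [τ, aestronglyMeasurable_sum_measure_iff]
  intro i
  rw [(𝒞.c i).aesm_map_iff (𝒞.c i).wvol_compl]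
  have h1 : AEMeasurable ((𝒞.c i).Γ f u) (𝒞.c i).wvol :=
    (Chart.aemeasurable_Γ hf hu).mono_ac (withDensity_absolutelyContinuous _ _)
  refine h1.aestronglyMeasurable.congr ?_
  filter_upwards [(𝒞.c i).ae_wvol_of (𝒞.ae_mem_G i f u)] with z hz
  exact hz.symm

end Fam

/-- **The `PreData` of a family of charts.** -/
noncomputable def Fam.preData {K : Type u} [MetricSpace K] [CompactSpace K] [MeasurableSpace K]
    [BorelSpace K] (𝒞 : Fam n K) (k : ℝ) : A.PreData n k K where
  τ := 𝒞.τ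
  fin := inferInstance
  G := 𝒞.G
  G_meas f g hf hg := 𝒞.G_aesm hf hg
  G_comm f g _ _ := by
    refine 𝒞.ae_τ_of fun i => ?_
    filter_upwards [𝒞.ae_mem_G i f g, 𝒞.ae_mem_G i g f, Chart.Γ_comm (c := 𝒞.c i) f g]
      with z h1 h2 h3
    rw [h1, h2, h3]
  G_add f g u hf hg _ := by
    refine 𝒞.ae_τ_of fun i => ?_
    filter_upwards [𝒞.ae_mem_G i (fun y => f y + g y) u, 𝒞.ae_mem_G i f u, 𝒞.ae_mem_G i g u,
      Chart.Γ_add (c := 𝒞.c i) u hf hg] with z h1 h2 h3 h4
    rw [h1, h2, h3, h4]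
  G_smul a f u hf _ := by
    refine 𝒞.ae_τ_of fun i => ?_
    filter_upwards [𝒞.ae_mem_G i (fun y => a * f y) u, 𝒞.ae_mem_G i f u,
      Chart.Γ_smul (c := 𝒞.c i) a u hf] with z h1 h2 h4
    rw [h1, h2, h4]
  G_mul f g u hf hg _ := by
    refine 𝒞.ae_τ_of fun i => ?_
    filter_upwards [𝒞.ae_mem_G i (fun y => f y * g y) u, 𝒞.ae_mem_G i f u, 𝒞.ae_mem_G i g u,
      Chart.Γ_mul (c := 𝒞.c i) u hf hg] with z h1 h2 h3 h4
    rw [h1, h2, h3, h4]
  G_chain f u ψ ψ' hf _ _ hψ _ := by
    refine 𝒞.ae_τ_of fun i => ?_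
    filter_upwards [𝒞.ae_mem_G i (fun y => ψ (f y)) u, 𝒞.ae_mem_G i f u,
      Chart.Γ_chain (c := 𝒞.c i) u hf hψ] with z h1 h2 h4
    rw [h1, h2, h4]
  G_nonneg f _ := by
    refine 𝒞.ae_τ_of fun i => ?_
    filter_upwards [𝒞.ae_mem_G i f f, Chart.Γ_nonneg (c := 𝒞.c i) f] with z h1 h2
    rw [h1]; exact h2
  G_bound f C hC := by
    refine 𝒞.ae_τ_of fun i => ?_
    filter_upwards [𝒞.ae_mem_G i f f, Chart.Γ_bound (c := 𝒞.c i) hC] with z h1 h2
    rw [h1]; exact h2
  G_z x := by
    refine 𝒞.ae_τ_of fun i => ?_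
    have hlip : LipschitzWith 1 (fun y : K => dist x y) := LipschitzWith.dist_right x
    have hl : A.Lip (fun y : K => dist x y) := ⟨1, hlip⟩
    have hψ : ∀ y : K, HasDerivAt (A.zk k) (A.snk k (dist x y)) (dist x y) := fun y =>
      A.hasDerivAt_zk k _
    filter_upwards [𝒞.ae_mem_G i (A.zd k x) (A.zd k x),
      Chart.Γ_chain (c := 𝒞.c i) (A.zd k x) hl hψ,
      Chart.Γ_chain (c := 𝒞.c i) (fun y => dist x y) hl hψ,
      Chart.Γ_comm (c := 𝒞.c i) (fun y => dist x y) (A.zd k x),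
      Chart.Γ_bound (c := 𝒞.c i) hlip] with z h1 h2 h3 h4 h5
    rw [h1]
    have e2 : (𝒞.c i).Γ (A.zd k x) (A.zd k x) z =
        A.snk k (dist x ((𝒞.c i).φ z)) * (𝒞.c i).Γ (fun y => dist x y) (A.zd k x) z := h2
    have e3 : (𝒞.c i).Γ (A.zd k x) (fun y => dist x y) z =
        A.snk k (dist x ((𝒞.c i).φ z)) *
          (𝒞.c i).Γ (fun y => dist x y) (fun y => dist x y) z := h3
    rw [e2, h4, e3]
    have e4 := A.snk_sq k (dist x ((𝒞.c i).φ z))
    have e5 : 2 * A.zd k x ((𝒞.c i).φ z) + k ^ 2 * A.zd k x ((𝒞.c i).φ z) ^ 2 =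
        A.snk k (dist x ((𝒞.c i).φ z)) ^ 2 := by
      rw [e4]; rfl
    rw [e5]
    have h6 : (𝒞.c i).Γ (fun y => dist x y) (fun y => dist x y) z ≤ 1 := by simpa using h5
    nlinarith [sq_nonneg (A.snk k (dist x ((𝒞.c i).φ z)))]
  dens := by
    refine 𝒞.ae_τ_iff.2 fun i => ?_
    filter_upwards [ae_dens (𝒞.c i) k] with z hz hρ θ hθ
    filter_upwards [hz hρ θ hθ] with r hr
    rw [Measure.real]
    refine (ENNReal.ofReal_le_iff_le_toReal (measure_ne_top _ _)).1 (hr.trans ?_)
    exact Measure.le_sum (fun i => (𝒞.c i).wvol.map (𝒞.c i).φ) i _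

@[simp] theorem Fam.preData_τ {K : Type u} [MetricSpace K] [CompactSpace K] [MeasurableSpace K]
    [BorelSpace K] (𝒞 : Fam n K) (k : ℝ) : (𝒞.preData k).τ = 𝒞.τ := rfl

@[simp] theorem Fam.preData_G {K : Type u} [MetricSpace K] [CompactSpace K] [MeasurableSpace K]
    [BorelSpace K] (𝒞 : Fam n K) (k : ℝ) : (𝒞.preData k).G = 𝒞.G := rfl

end Crest.Agent.R241.B5b
end

-- ▼ part R241/B5c1
section

/-!
# R241, block B5c, part 1: restriction of the charts of a rectifiable current to a closed set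
containing its support.
-/

set_option autoImplicit false

open MeasureTheory Measure Filter Set Topology
open scoped NNReal ENNReal

universe u

namespace Crest.Agent.R241.B5c

open Crest.GeometryTopology.Submanifold (Euc)
open Crest.GeometryTopology.MetricCurrent
open Crest.Agent.R241.G1

variable {X : Type u} [MetricSpace X] {k : ℕ}

/-- the part of `E` mapped to a closed set is measurable. -/
theorem measurableSet_inter_preimage {E : Set (Euc k)} (hE : MeasurableSet E) {φ : Euc k → X}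
    (hφ : ContinuousOn φ E) {K : Set X} (hK : IsClosed K) : MeasurableSet (E ∩ φ ⁻¹' K) := by
  obtain ⟨u, hu, hu2⟩ := (continuousOn_iff_isClosed.1 hφ) K hK
  rw [inter_comm, hu2]
  exact hu.measurableSet.inter hE

section

variable [MeasurableSpace X] [BorelSpace X]

/-- values of a current are bounded by the mass. -/
theorem abs_le_mass {T : Functional X k} (hT : IsCurrent T) {f : X → ℝ} (hf : BL f) {C : ℝ}
    (hC : ∀ x, |f x| ≤ C) {π : Fin k → X → ℝ} {L : Fin k → ℝ≥0}
    (hL : ∀ i, LipschitzWith (L i) (π i)) : |T f π| ≤ (∏ i, (L i : ℝ)) * (C * mass T) := by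
  refine le_of_forall_pos_le_add fun ε hε => ?_
  set P : ℝ := ∏ i, (L i : ℝ) with hP
  have hP0 : 0 ≤ P := Finset.prod_nonneg fun i _ => (L i).2
  rcases isEmpty_or_nonempty X with hX | ⟨⟨x₀⟩⟩
  · have h0 : T f π = 0 := by
      have := abs_le_of_controls hT (controls_ctrl hT) hf (K := L) hL
      rw [Measure.eq_zero_of_isEmpty (ctrl T)] at this
      simp only [integral_zero_measure, mul_zero] at this
      exact abs_eq_zero.1 (le_antisymm this (abs_nonneg _))
    have hm : mass T = 0 := by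
      refine le_antisymm ?_ (Real.sInf_nonneg (by rintro r ⟨μ, -, -, rfl⟩; exact ENNReal.toReal_nonneg))
      refine csInf_le ⟨0, by rintro r ⟨μ, -, -, rfl⟩; exact ENNReal.toReal_nonneg⟩
        ⟨ctrl T, inferInstance, controls_ctrl hT, ?_⟩
      rw [Measure.eq_zero_of_isEmpty (ctrl T)]
      simp
    rw [h0, hm]
    simp [hε.le]
  have hC0 : 0 ≤ C := (abs_nonneg _).trans (hC x₀)
  -- choose a controlling measure of almost minimal mass
  obtain ⟨μ₀, hμ₀, hTμ₀⟩ := hT.finite_mass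
  have hne : {r : ℝ | ∃ μ : Measure X, IsFiniteMeasure μ ∧ Controls T μ ∧
      r = (μ Set.univ).toReal}.Nonempty := ⟨_, μ₀, hμ₀, hTμ₀, rfl⟩
  obtain ⟨r, ⟨ν, hν, hTν, rfl⟩, hr⟩ :=
    exists_lt_of_csInf_lt hne (show sInf _ < mass T + ε / (P * C + 1) by
      have : 0 < ε / (P * C + 1) := by positivity
      exact lt_add_of_pos_right _ this)
  have h1 := abs_le_of_controls hT hTν hf (K := L) hL
  have h2 : ∫ x, |f x| ∂ν ≤ C * (ν univ).toReal := by
    have h1 : ∫ x, |f x| ∂ν ≤ ∫ _x, C ∂ν :=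
      integral_mono (hf.abs.integrable ν) (integrable_const _) fun x => hC x
    rw [integral_const] at h1
    simpa [Measure.real, mul_comm] using h1
  have h3 : P * (C * (ε / (P * C + 1))) ≤ ε := by
    rw [← mul_assoc, mul_div_assoc', div_le_iff₀ (by positivity)]
    nlinarith [mul_nonneg hP0 hC0]
  calc |T f π| ≤ P * ∫ x, |f x| ∂ν := h1
    _ ≤ P * (C * (ν univ).toReal) := mul_le_mul_of_nonneg_left h2 hP0
    _ ≤ P * (C * (mass T + ε / (P * C + 1))) := by gcongr
    _ = P * (C * mass T) + P * (C * (ε / (P * C + 1))) := by ring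
    _ ≤ P * (C * mass T) + ε := by linarith

/-- **Restriction of the charts to a closed set containing the support.** -/
theorem hasSum_restrict {T : Functional X k} {K : Set X} (hK : IsClosed K)
    (hs : IsSupportedIn K T) {E : ℕ → Set (Euc k)} {φ : ℕ → Euc k → X} {θ : ℕ → Euc k → ℤ}
    (hE : ∀ i, MeasurableSet (E i)) (hφ : ∀ i, ∃ L : ℝ≥0, LipschitzOnWith L (φ i) (E i))
    (hθ : ∀ i, Integrable (fun z => (θ i z : ℝ)) (volume.restrict (E i)))
    (hcur : ∀ i, IsCurrent (chartAction (E i) (φ i) (θ i)))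
    (hsum : Summable fun i => mass (chartAction (E i) (φ i) (θ i)))
    (hT : ∀ f π, IsTestPair f π → T f π = ∑' i, chartAction (E i) (φ i) (θ i) f π)
    (f : X → ℝ) (π : Fin k → X → ℝ) (h : IsTestPair f π) :
    HasSum (fun i => chartAction (E i ∩ φ i ⁻¹' K) (φ i) (θ i) f π) (T f π) := by
  classical
  obtain ⟨hf, hπ⟩ := isTestPair_iff.1 h
  choose L hL using hπ
  obtain ⟨C, hC⟩ := hf.2
  choose Lφ hLφ using hφ
  have hEK : ∀ i, MeasurableSet (E i ∩ φ i ⁻¹' K) := fun i =>
    measurableSet_inter_preimage (hE i) (hLφ i).continuousOn hK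
  -- the truncated functions
  set δ : ℕ → ℝ := fun n => 1 / ((n : ℝ) + 1) with hδ
  have hδpos : ∀ n, 0 < δ n := fun n => by positivity
  have hδlim : Tendsto δ atTop (𝓝 0) := tendsto_one_div_add_atTop_nhds_zero_nat
  set t : ℕ → X → ℝ := fun n x => ((thickenedIndicator (hδpos n) K x : ℝ≥0) : ℝ) with ht
  have ht1 : ∀ n x, x ∈ K → t n x = 1 := fun n x hx => by
    simp only [ht]
    rw [thickenedIndicator_one (hδpos n) K hx]; rfl
  have ht01 : ∀ n x, 0 ≤ t n x ∧ t n x ≤ 1 := fun n x =>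
    ⟨NNReal.coe_nonneg _, by exact_mod_cast thickenedIndicator_le_one (hδpos n) K x⟩
  have htlim : ∀ x, Tendsto (fun n => t n x) atTop (𝓝 (K.indicator (fun _ => (1 : ℝ)) x)) := by
    intro x
    have h1 := thickenedIndicator_tendsto_indicator_closure hδpos hδlim K
    rw [tendsto_pi_nhds] at h1
    have h2 := h1 x
    rw [hK.closure_eq] at h2
    have h3 : Tendsto (fun n => ((thickenedIndicator (hδpos n) K x : ℝ≥0) : ℝ)) atTop
        (𝓝 ((K.indicator (fun _ => (1 : ℝ≥0)) x : ℝ≥0) : ℝ)) :=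
      (NNReal.continuous_coe.tendsto _).comp h2
    convert h3 using 2
    by_cases hx : x ∈ K <;> simp [hx]
  set fn : ℕ → X → ℝ := fun n => f - f * t n with hfn
  have hfnBL : ∀ n, BL (fn n) := fun n => hf.sub (hf.mul (BL.thickened (hδpos n) K))
  have hfne : ∀ n x, fn n x = f x * (1 - t n x) := fun n x => by
    change f x - f x * t n x = _
    ring
  have hfn0 : ∀ n x, x ∈ K → fn n x = 0 := fun n x hx => by
    rw [hfne, ht1 n x hx]; ring
  have hfnC : ∀ n x, |fn n x| ≤ C := fun n x => by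
    rw [hfne, abs_mul]
    have h1 : |1 - t n x| ≤ 1 := by
      rw [abs_le]; constructor <;> linarith [(ht01 n x).1, (ht01 n x).2]
    calc |f x| * |1 - t n x| ≤ |f x| * 1 := by gcongr
      _ ≤ C := by rw [mul_one]; exact hC x
  set g : X → ℝ := Kᶜ.indicator f with hg
  have hfnlim : ∀ x, Tendsto (fun n => fn n x) atTop (𝓝 (g x)) := by
    intro x
    have h1 : Tendsto (fun n => f x - f x * t n x) atTop
        (𝓝 (f x - f x * K.indicator (fun _ => (1 : ℝ)) x)) :=
      tendsto_const_nhds.sub (tendsto_const_nhds.mul (htlim x))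
    have e : g x = f x - f x * K.indicator (fun _ => (1 : ℝ)) x := by
      by_cases hx : x ∈ K <;> simp [hg, hx]
    rw [e]
    exact h1
  have htp : ∀ n, IsTestPair (fn n) π := fun n => (hfnBL n).isTestPair (fun i => ⟨_, hL i⟩)
  have hTn : ∀ n, T (fn n) π = 0 := fun n => hs _ _ (htp n) (hfn0 n)
  -- the chart integrals
  set a : ℕ → (X → ℝ) → ℝ := fun i u =>
    ∫ z in E i, (θ i z : ℝ) * u (φ i z) * B1Cur.jac (E i) (φ i) π z with ha
  have hact : ∀ i u, IsTestPair u π → chartAction (E i) (φ i) (θ i) u π = a i u := fun i u hu => by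
    rw [B1Cur.chartAction_eq, B1Cur.chartR_of_test hu]
  have hint : ∀ i u, IsTestPair u π → IntegrableOn
      (fun z => (θ i z : ℝ) * u (φ i z) * B1Cur.jac (E i) (φ i) π z) (E i) := fun i u hu =>
    B1Cur.integrable_integrand (hE i) (hLφ i) (hθ i) hu
  -- bounds
  set P : ℝ := ∏ i, (L i : ℝ) with hP
  set B : ℕ → ℝ := fun i => P * (C * mass (chartAction (E i) (φ i) (θ i))) with hB
  have hBsum : Summable B := (hsum.mul_left C).mul_left P
  have hbd : ∀ i u, BL u → (∀ x, |u x| ≤ C) → |a i u| ≤ B i := fun i u hu huC => by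
    rw [← hact i u (hu.isTestPair (fun i => ⟨_, hL i⟩))]
    exact abs_le_mass (hcur i) hu huC hL
  -- pointwise limits of chart integrals
  have hintJ : ∀ i, IntegrableOn
      (fun z => (θ i z : ℝ) * B1Cur.jac (E i) (φ i) π z) (E i) := fun i => by
    have h1 := hint i (fun _ => 1) (BL.one.isTestPair (fun i => ⟨_, hL i⟩))
    simpa using h1
  have hlim : ∀ i, Tendsto (fun n => a i (fn n)) atTop (𝓝 (a i g)) := by
    intro i
    refine tendsto_integral_of_dominated_convergence
      (fun z => C * |(θ i z : ℝ) * B1Cur.jac (E i) (φ i) π z|) (fun n => ?_) ?_ (fun n => ?_) ?_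
    · exact (hint i (fn n) (htp n)).aestronglyMeasurable
    · exact (hintJ i).abs.const_mul C
    · refine Eventually.of_forall fun z => ?_
      rw [Real.norm_eq_abs]
      have e : (θ i z : ℝ) * fn n (φ i z) * B1Cur.jac (E i) (φ i) π z =
          fn n (φ i z) * ((θ i z : ℝ) * B1Cur.jac (E i) (φ i) π z) := by ring
      rw [e, abs_mul]
      exact mul_le_mul_of_nonneg_right (hfnC n _) (abs_nonneg _)
    · refine Eventually.of_forall fun z => ?_
      exact (tendsto_const_nhds.mul (hfnlim _)).mul_const _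
  have hlimsum : Tendsto (fun n => ∑' i, a i (fn n)) atTop (𝓝 (∑' i, a i g)) := by
    refine tendsto_tsum_of_dominated_convergence hBsum hlim (Eventually.of_forall fun n i => ?_)
    rw [Real.norm_eq_abs]
    exact hbd i (fn n) (hfnBL n) (hfnC n)
  have hzero : ∑' i, a i g = 0 := by
    refine tendsto_nhds_unique hlimsum ?_
    have : (fun n => ∑' i, a i (fn n)) = fun _ => (0 : ℝ) := by
      funext n
      rw [← hTn n, hT _ _ (htp n)]
      exact tsum_congr fun i => (hact i _ (htp n)).symm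
    rw [this]
    exact tendsto_const_nhds
  have hag : ∀ i, |a i g| ≤ B i := fun i =>
    le_of_tendsto (hlim i).abs (Eventually.of_forall fun n => hbd i (fn n) (hfnBL n) (hfnC n))
  have hgsum : Summable fun i => a i g :=
    Summable.of_norm_bounded hBsum (fun i => by rw [Real.norm_eq_abs]; exact hag i)
  have hfsum : Summable fun i => a i f :=
    Summable.of_norm_bounded hBsum (fun i => by rw [Real.norm_eq_abs]; exact hbd i f hf hC)
  have hTf : HasSum (fun i => a i f) (T f π) := by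
    rw [hT f π h]
    have := hfsum.hasSum
    convert this using 1
    exact tsum_congr fun i => hact i f h
  have hdiff : HasSum (fun i => a i f - a i g) (T f π - 0) := by
    rw [← hzero]
    exact hTf.sub hgsum.hasSum
  rw [sub_zero] at hdiff
  have hfin : (fun i => chartAction (E i ∩ φ i ⁻¹' K) (φ i) (θ i) f π) =
      fun i => a i f - a i g := by
    funext i
    have hgint : IntegrableOn
        (fun z => (θ i z : ℝ) * g (φ i z) * B1Cur.jac (E i) (φ i) π z) (E i) := by
      have e : (fun z => (θ i z : ℝ) * g (φ i z) * B1Cur.jac (E i) (φ i) π z) =ᵐ[volume.restrict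
          (E i)] fun z => (θ i z : ℝ) * f (φ i z) * B1Cur.jac (E i) (φ i) π z -
          (E i ∩ φ i ⁻¹' K).indicator
            (fun z => (θ i z : ℝ) * f (φ i z) * B1Cur.jac (E i) (φ i) π z) z := by
        filter_upwards [ae_restrict_mem (hE i)] with z hz
        by_cases hzK : φ i z ∈ K
        · simp [hg, hzK, hz]
        · simp [hg, hzK]
      rw [IntegrableOn, integrable_congr e]
      exact (hint i f h).sub ((hint i f h).indicator (hEK i))
    rw [B1Cur.chartAction_eq, B1Cur.chartR_of_test h]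
    have e1 : a i f - a i g = ∫ z in E i, (E i ∩ φ i ⁻¹' K).indicator
        (fun z => (θ i z : ℝ) * f (φ i z) * B1Cur.jac (E i) (φ i) π z) z := by
      rw [ha]
      simp only
      rw [← integral_sub (hint i f h) hgint]
      refine integral_congr_ae ?_
      filter_upwards [ae_restrict_mem (hE i)] with z hz
      by_cases hzK : φ i z ∈ K
      · simp [hg, hzK, hz]
      · simp [hg, hzK]
    rw [e1, setIntegral_indicator (hEK i), inter_eq_self_of_subset_right inter_subset_left]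
    refine integral_congr_ae ?_
    filter_upwards [B1Cur.ae_jac_mono (hEK i) inter_subset_left (hLφ i)
      (fun j => ⟨_, hL j⟩)] with z hz
    rw [hz]
  rw [hfin]
  exact hdiff

end

end Crest.Agent.R241.B5c
end

-- ▼ part R241/B3b
section

/-!
# R241, block B3b: metric differential of a Lipschitz map into a metric space
-/

set_option autoImplicit false

open MeasureTheory Measure Filter Set Metric
open scoped NNReal ENNReal Topology

namespace Crest.Agent.R241.B3b

open Crest.Agent.R241.B3a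

variable {F : Type*} [NormedAddCommGroup F] [NormedSpace ℝ F]
variable {X : Type*} [MetricSpace X]

/-- `N` is the (strong, two-point) metric differential of `φ` on `E` at `z`. -/
def IsMD (E : Set F) (φ : F → X) (z : F) (N : F → ℝ) : Prop :=
  ∀ ε > 0, ∃ δ > 0, ∀ w ∈ E, ∀ w' ∈ E, ‖w - z‖ < δ → ‖w' - z‖ < δ →
    |dist (φ w) (φ w') - N (w - w')| ≤ ε * (‖w - z‖ + ‖w' - z‖)

/-- bounded seminorms. -/
structure IsSN (L : ℝ≥0) (N : F → ℝ) : Prop where
  nonneg : ∀ v, 0 ≤ N v
  le : ∀ v, N v ≤ L * ‖v‖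
  add_le : ∀ v w, N (v + w) ≤ N v + N w
  smul : ∀ (t : ℝ) v, N (t • v) = |t| * N v

namespace IsSN

variable {L : ℝ≥0} {N : F → ℝ}

lemma zero (h : IsSN L N) : N 0 = 0 := by
  have := h.smul 0 0
  simpa using this

lemma neg (h : IsSN L N) (v : F) : N (-v) = N v := by
  have := h.smul (-1) v
  simpa using this

lemma sub_comm (h : IsSN L N) (v w : F) : N (v - w) = N (w - v) := by
  rw [← h.neg, neg_sub]

lemma le_add (h : IsSN L N) (v w : F) : N v ≤ N w + L * ‖v - w‖ := by
  have h1 := h.add_le w (v - w)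
  rw [add_sub_cancel] at h1
  exact h1.trans (add_le_add le_rfl (h.le _))

lemma abs_sub_le (h : IsSN L N) (v w : F) : |N v - N w| ≤ L * ‖v - w‖ := by
  rw [abs_le]
  have h1 := h.le_add v w
  have h2 := h.le_add w v
  rw [norm_sub_rev] at h2
  constructor <;> linarith

lemma lipschitz (h : IsSN L N) : LipschitzWith L N :=
  LipschitzWith.of_dist_le_mul fun v w => by
    rw [Real.dist_eq, dist_eq_norm]; exact h.abs_sub_le v w

lemma continuous (h : IsSN L N) : Continuous N := h.lipschitz.continuous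

end IsSN

lemma isSN_N {ι : Type*} {L : ℝ≥0} {U : ι → F → ℝ} (hU : ∀ j, LipschitzWith L (U j)) (z : F) :
    IsSN L (N U z) :=
  ⟨N_nonneg z, N_le hU z, N_add_le hU z, fun t v => N_smul z v t⟩

/-! ### blow-up sequences at density points -/

/-- a blow-up sequence of `E` at `z`: `z + d n v ∈ E`, `n • d n v → v`. -/
structure BlowUp (E : Set F) (z : F) (d : ℕ → F → F) : Prop where
  mem : ∀ n v, z + d n v ∈ E
  zero : ∀ n, d n 0 = 0
  lim : ∀ v, Tendsto (fun n : ℕ => (n : ℝ) • d n v) atTop (𝓝 v)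

omit [NormedSpace ℝ F] in
lemma Dens.nonempty {E : Set F} {z : F} (h : Dens E z) : E.Nonempty := by
  obtain ⟨δ, hδ, h⟩ := h 1 one_pos
  obtain ⟨y, hy, _⟩ := h z (by simpa using hδ)
  exact ⟨y, hy⟩

lemma exists_blowUp {E : Set F} {z : F} (h : Dens E z) (hz : z ∈ E) : ∃ d, BlowUp E z d := by
  classical
  suffices H : ∃ d : ℕ → F → F, (∀ n v, z + d n v ∈ E) ∧
      ∀ v, Tendsto (fun n : ℕ => (n : ℝ) • d n v) atTop (𝓝 v) by
    obtain ⟨d, h1, h2⟩ := H
    refine ⟨fun n u => if u = 0 then 0 else d n u, fun n u => ?_, fun n => by simp, fun u => ?_⟩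
    · by_cases h0 : u = 0
      · simpa [h0] using hz
      · simpa [h0] using h1 n u
    · by_cases h0 : u = 0
      · simp [h0]
      · simpa [h0] using h2 u
  have hne := Dens.nonempty h
  -- for every `v` and `n` choose an almost nearest point
  have H : ∀ (n : ℕ) (v : F), ∃ y ∈ E, dist (z + (1 / (n : ℝ)) • v) y <
      infDist (z + (1 / (n : ℝ)) • v) E + 1 / ((n : ℝ) + 1) ^ 2 := fun n v =>
    (infDist_lt_iff hne).1 (by
      have : (0 : ℝ) < 1 / ((n : ℝ) + 1) ^ 2 := by positivity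
      linarith)
  choose y hyE hy using H
  refine ⟨fun n v => y n v - z, fun n v => by simpa using hyE n v, fun v => ?_⟩
  rw [Metric.tendsto_atTop]
  intro ε hε
  obtain ⟨δ, hδ, hd⟩ := h (ε / (2 * (‖v‖ + 1))) (by positivity)
  have h1 : Tendsto (fun n : ℕ => (1 / (n : ℝ)) * ‖v‖) atTop (𝓝 0) := by
    have := tendsto_one_div_atTop_nhds_zero_nat (𝕜 := ℝ)
    simpa using this.mul_const ‖v‖
  have h2 := (tendsto_order.1 h1).2 δ hδ
  have h3 := (tendsto_order.1 (tendsto_one_div_atTop_nhds_zero_nat (𝕜 := ℝ))).2 (ε / 2)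
    (by positivity)
  obtain ⟨n₀, hn₀⟩ := eventually_atTop.1 (h2.and (h3.and (eventually_ge_atTop 1)))
  refine ⟨n₀, fun n hn => ?_⟩
  obtain ⟨g2, g3, g4⟩ := hn₀ n hn
  have hnpos : (0 : ℝ) < n := by exact_mod_cast g4
  have e1 : ‖z + (1 / (n : ℝ)) • v - z‖ = (1 / (n : ℝ)) * ‖v‖ := by
    rw [add_sub_cancel_left, norm_smul, Real.norm_eq_abs, abs_of_pos (by positivity)]
  obtain ⟨p, hpE, hp⟩ := hd (z + (1 / (n : ℝ)) • v) (by rw [e1]; exact g2)
  rw [e1] at hp
  have e2 : infDist (z + (1 / (n : ℝ)) • v) E ≤ ε / (2 * (‖v‖ + 1)) * (1 / (n : ℝ) * ‖v‖) := by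
    refine (infDist_le_dist_of_mem hpE).trans ?_
    rw [dist_comm, dist_eq_norm]; exact hp
  have e3 := hy n v
  have e4 : (n : ℝ) • (y n v - z) - v = (n : ℝ) • (y n v - (z + (1 / (n : ℝ)) • v)) := by
    rw [smul_sub, smul_sub, smul_add, smul_smul, mul_one_div_cancel hnpos.ne', one_smul]
    abel
  rw [dist_eq_norm, e4, norm_smul, Real.norm_eq_abs, abs_of_pos hnpos, ← dist_eq_norm, dist_comm]
  calc (n : ℝ) * dist (z + (1 / (n : ℝ)) • v) (y n v)
      < n * (ε / (2 * (‖v‖ + 1)) * (1 / (n : ℝ) * ‖v‖) + 1 / ((n : ℝ) + 1) ^ 2) := by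
        refine mul_lt_mul_of_pos_left ?_ hnpos
        linarith
    _ = (ε / 2) * (‖v‖ / (‖v‖ + 1)) + n * (1 / ((n : ℝ) + 1) ^ 2) := by
        field_simp
    _ ≤ ε / 2 * 1 + 1 / n := by
        gcongr
        · rw [div_le_one (by positivity)]; linarith
        · rw [mul_one_div, div_le_div_iff₀ (by positivity) hnpos]
          nlinarith
    _ < ε := by linarith

lemma BlowUp.norm_bound {E : Set F} {z : F} {d : ℕ → F → F} (h : BlowUp E z d) (v : F) :
    ∀ᶠ n : ℕ in atTop, (n : ℝ) * ‖d n v‖ ≤ ‖v‖ + 1 := by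
  have h1 := (h.lim v).norm
  have h2 := (tendsto_order.1 h1).2 (‖v‖ + 1) (by linarith)
  filter_upwards [h2] with n hn
  rw [norm_smul, Real.norm_eq_abs, abs_of_nonneg (Nat.cast_nonneg n)] at hn
  exact hn.le

lemma BlowUp.tendsto_zero {E : Set F} {z : F} {d : ℕ → F → F} (h : BlowUp E z d) (v : F) :
    Tendsto (fun n => d n v) atTop (𝓝 0) := by
  have h1 : Tendsto (fun n : ℕ => (1 / (n : ℝ)) * (‖v‖ + 1)) atTop (𝓝 0) := by
    have := tendsto_one_div_atTop_nhds_zero_nat (𝕜 := ℝ)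
    simpa using this.mul_const (‖v‖ + 1)
  refine squeeze_zero_norm' ?_ h1
  filter_upwards [h.norm_bound v, eventually_ge_atTop 1] with n hn h1n
  have hnpos : (0 : ℝ) < n := by exact_mod_cast h1n
  rw [one_div, ← div_eq_inv_mul, le_div_iff₀ hnpos, mul_comm]
  exact hn

/-- distances in the blow-up converge to the metric differential. -/
lemma IsMD.lim {E : Set F} {φ : F → X} {z : F} {N : F → ℝ} {L : ℝ≥0} (h : IsMD E φ z N)
    (hN : IsSN L N) {d : ℕ → F → F} (hd : BlowUp E z d) (v v' : F) :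
    Tendsto (fun n : ℕ => (n : ℝ) * dist (φ (z + d n v)) (φ (z + d n v'))) atTop
      (𝓝 (N (v - v'))) := by
  have h1 : Tendsto (fun n : ℕ => N ((n : ℝ) • d n v - (n : ℝ) • d n v')) atTop
      (𝓝 (N (v - v'))) := (hN.continuous.tendsto _).comp ((hd.lim v).sub (hd.lim v'))
  have h2 : Tendsto (fun n : ℕ => (n : ℝ) * dist (φ (z + d n v)) (φ (z + d n v')) -
      N ((n : ℝ) • d n v - (n : ℝ) • d n v')) atTop (𝓝 0) := by
    rw [Metric.tendsto_atTop]
    intro ε hε
    set C := ‖v‖ + 1 + (‖v'‖ + 1) with hC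
    have hCpos : 0 < C := by positivity
    obtain ⟨δ, hδ, hmd⟩ := h (ε / (2 * C)) (by positivity)
    have e1 : ∀ᶠ n : ℕ in atTop, ‖d n v‖ < δ := by
      have := (tendsto_order.1 (hd.tendsto_zero v).norm).2 δ (by simpa using hδ)
      exact this
    have e2 : ∀ᶠ n : ℕ in atTop, ‖d n v'‖ < δ := by
      have := (tendsto_order.1 (hd.tendsto_zero v').norm).2 δ (by simpa using hδ)
      exact this
    obtain ⟨n₀, hn₀⟩ := eventually_atTop.1
      (e1.and (e2.and ((hd.norm_bound v).and (hd.norm_bound v'))))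
    refine ⟨n₀, fun n hn => ?_⟩
    obtain ⟨g1, g2, g3, g4⟩ := hn₀ n hn
    have hn0 : (0 : ℝ) ≤ n := Nat.cast_nonneg n
    have g5 := hmd _ (hd.mem n v) _ (hd.mem n v') (by simpa using g1) (by simpa using g2)
    rw [add_sub_add_left_eq_sub, add_sub_cancel_left, add_sub_cancel_left] at g5
    rw [dist_zero_right, ← smul_sub, hN.smul, abs_of_nonneg hn0, ← mul_sub, Real.norm_eq_abs,
      abs_mul, abs_of_nonneg hn0]
    calc (n : ℝ) * |dist (φ (z + d n v)) (φ (z + d n v')) - N (d n v - d n v')|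
        ≤ n * (ε / (2 * C) * (‖d n v‖ + ‖d n v'‖)) := by gcongr
      _ = ε / (2 * C) * (n * ‖d n v‖ + n * ‖d n v'‖) := by ring
      _ ≤ ε / (2 * C) * C := mul_le_mul_of_nonneg_left (add_le_add g3 g4) (by positivity)
      _ = ε / 2 := by field_simp
      _ < ε := by linarith
  simpa using h2.add h1

lemma IsMD.lim' {E : Set F} {φ : F → X} {z : F} {N : F → ℝ} {L : ℝ≥0} (h : IsMD E φ z N)
    (hN : IsSN L N) {d : ℕ → F → F} (hd : BlowUp E z d) (v : F) :
    Tendsto (fun n : ℕ => (n : ℝ) * dist (φ (z + d n v)) (φ z)) atTop (𝓝 (N v)) := by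
  have := h.lim hN hd v 0
  simpa [hd.zero] using this

/-! ### facts at good points -/

section good

variable {E : Set F} {φ : F → X} {z : F} {N N' : F → ℝ} {L L' : ℝ≥0} {d : ℕ → F → F}

/-- chain inequality: derivatives of `f ∘ φ` are bounded by the metric differential. -/
lemma IsMD.abs_le (h : IsMD E φ z N) (hN : IsSN L N) (hd : BlowUp E z d) {f : X → ℝ} {K : ℝ≥0}
    (hf : LipschitzOnWith K f (φ '' E)) (hz : z ∈ E) {A : F →L[ℝ] ℝ}
    (hA : HasFDerivWithinAt (fun w => f (φ w)) A E z) (v : F) : |A v| ≤ K * N v := by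
  have h1 : Tendsto (fun n : ℕ => (n : ℝ) • (f (φ (z + d n v)) - f (φ z))) atTop (𝓝 (A v)) := by
    exact hA.lim (c := fun n : ℕ => (n : ℝ)) (d := fun n => d n v) (hd.tendsto_zero v)
      (Eventually.of_forall fun n => hd.mem n v) (hd.lim v)
  have h2 := h.lim' hN hd v
  refine le_of_tendsto_of_tendsto h1.abs (h2.const_mul (K : ℝ)) (Eventually.of_forall fun n => ?_)
  have h3 := hf.dist_le_mul _ (mem_image_of_mem φ (hd.mem n v)) _ (mem_image_of_mem φ hz)
  rw [Real.dist_eq] at h3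
  change |(n : ℝ) • (f (φ (z + d n v)) - f (φ z))| ≤ K * (n * dist (φ (z + d n v)) (φ z))
  rw [smul_eq_mul, abs_mul, Nat.abs_cast]
  calc (n : ℝ) * |f (φ (z + d n v)) - f (φ z)| ≤ n * (K * dist (φ (z + d n v)) (φ z)) := by gcongr
    _ = K * (n * dist (φ (z + d n v)) (φ z)) := by ring

/-- co-Lipschitz maps have nondegenerate metric differential. -/
lemma IsMD.norm_le (h : IsMD E φ z N) (hN : IsSN L N) (hd : BlowUp E z d) (hz : z ∈ E) {C : ℝ}
    (hC : ∀ w ∈ E, ∀ w' ∈ E, dist w w' ≤ C * dist (φ w) (φ w')) (v : F) : ‖v‖ ≤ C * N v := by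
  have h2 := (h.lim' hN hd v).const_mul C
  refine le_of_tendsto_of_tendsto (hd.lim v).norm h2 (Eventually.of_forall fun n => ?_)
  have h3 := hC _ (hd.mem n v) _ hz
  rw [dist_eq_norm, add_sub_cancel_left] at h3
  change ‖(n : ℝ) • d n v‖ ≤ _
  rw [norm_smul, Real.norm_eq_abs, Nat.abs_cast]
  calc (n : ℝ) * ‖d n v‖ ≤ n * (C * dist (φ (z + d n v)) (φ z)) := by gcongr
    _ = C * (n * dist (φ (z + d n v)) (φ z)) := by ring


/-- uniqueness of the metric differential at density points. -/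
lemma IsMD.unique (h : IsMD E φ z N) (hN : IsSN L N) (h' : IsMD E φ z N') (hN' : IsSN L' N')
    (hd : BlowUp E z d) : N = N' := by
  funext v
  exact tendsto_nhds_unique (h.lim' hN hd v) (h'.lim' hN' hd v)

omit [NormedSpace ℝ F] in
/-- monotonicity in the set. -/
lemma IsMD.mono (h : IsMD E φ z N) {E' : Set F} (hE : E' ⊆ E) : IsMD E' φ z N := by
  intro ε hε
  obtain ⟨δ, hδ, h2⟩ := h ε hε
  exact ⟨δ, hδ, fun w hw w' hw' => h2 w (hE hw) w' (hE hw')⟩

omit [NormedSpace ℝ F] in
/-- `φ` may be changed outside of `E`. -/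
lemma IsMD.congr (h : IsMD E φ z N) {φ' : F → X} (hE : EqOn φ φ' E) : IsMD E φ' z N := by
  intro ε hε
  obtain ⟨δ, hδ, h2⟩ := h ε hε
  exact ⟨δ, hδ, fun w hw w' hw' => by rw [← hE hw, ← hE hw']; exact h2 w hw w' hw'⟩

/-- the quadrilateral inequality of `X` passes to the metric differential, and gives the
parallelogram law. -/
lemma IsMD.parallelogram (h : IsMD E φ z N) (hN : IsSN L N) (hd : BlowUp E z d)
    (hX : ∀ a b c e : X, dist a c ^ 2 + dist b e ^ 2 ≤
      dist a b ^ 2 + dist b c ^ 2 + dist c e ^ 2 + dist e a ^ 2) (v w : F) :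
    N (v + w) ^ 2 + N (v - w) ^ 2 = 2 * N v ^ 2 + 2 * N w ^ 2 := by
  have key : ∀ v w : F, N (v + w) ^ 2 + N (v - w) ^ 2 ≤ 2 * N v ^ 2 + 2 * N w ^ 2 := by
    intro v w
    -- quadrilateral `0, v, v + w, w`
    have t1 := (h.lim hN hd 0 (v + w)).pow 2
    have t2 := (h.lim hN hd v w).pow 2
    have t3 := (h.lim hN hd 0 v).pow 2
    have t4 := (h.lim hN hd v (v + w)).pow 2
    have t5 := (h.lim hN hd (v + w) w).pow 2
    have t6 := (h.lim hN hd w 0).pow 2
    have hle := le_of_tendsto_of_tendsto (t1.add t2) (((t3.add t4).add t5).add t6)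
      (Eventually.of_forall fun n => by
        have := hX (φ (z + d n 0)) (φ (z + d n v)) (φ (z + d n (v + w))) (φ (z + d n w))
        simp only [mul_pow]
        have hn : (0 : ℝ) ≤ (n : ℝ) ^ 2 := by positivity
        nlinarith)
    have e1 : N (0 - (v + w)) = N (v + w) := by rw [zero_sub, hN.neg]
    have e3 : N (0 - v) = N v := by rw [zero_sub, hN.neg]
    have e4 : N (v - (v + w)) = N w := by rw [sub_add_cancel_left, hN.neg]
    have e5 : N (v + w - w) = N v := by rw [add_sub_cancel_right]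
    have e6 : N (w - 0) = N w := by rw [sub_zero]
    rw [e1, e3, e4, e5, e6] at hle
    linarith
  refine le_antisymm (key v w) ?_
  have h2 := key (v + w) (v - w)
  have e1 : v + w + (v - w) = (2 : ℝ) • v := by rw [two_smul]; abel
  have e2 : v + w - (v - w) = (2 : ℝ) • w := by rw [two_smul]; abel
  rw [e1, e2, hN.smul, hN.smul, abs_two] at h2
  nlinarith

end good

/-! ### existence -/

omit [NormedSpace ℝ F] in
lemma exists_seq_dense {E : Set F} {φ : F → X} [TopologicalSpace.SeparableSpace F]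
    (hφ : ContinuousOn φ E) (hE : E.Nonempty) : ∃ x : ℕ → X, (∀ j, x j ∈ φ '' E) ∧
      φ '' E ⊆ closure (range x) := by
  have : SecondCountableTopology F := UniformSpace.secondCountable_of_separable F
  have : Nonempty E := hE.to_subtype
  have h1 : TopologicalSpace.SeparableSpace E := inferInstance
  let e : ℕ → E := TopologicalSpace.denseSeq E
  have he : DenseRange e := TopologicalSpace.denseRange_denseSeq E
  refine ⟨fun j => φ (e j), fun j => mem_image_of_mem φ (e j).2, ?_⟩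
  rintro _ ⟨w, hw, rfl⟩
  have hc : Continuous (E.domRestrict φ) := continuousOn_iff_continuous_domRestrict.1 hφ
  have h2 : (⟨w, hw⟩ : E) ∈ closure (range e) := he _
  have h3 := image_closure_subset_closure_image hc (mem_image_of_mem (E.domRestrict φ) h2)
  refine closure_mono ?_ h3
  rintro _ ⟨_, ⟨j, rfl⟩, rfl⟩
  exact ⟨j, rfl⟩

lemma dist_eq_iSup {x : ℕ → X} {p q : X} (hp : p ∈ closure (range x)) :
    dist p q = ⨆ j, |dist (x j) p - dist (x j) q| := by
  have hb : ∀ j, |dist (x j) p - dist (x j) q| ≤ dist p q := fun j => by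
    rw [dist_comm (x j) p, dist_comm (x j) q]
    exact abs_dist_sub_le p q (x j)
  refine le_antisymm ?_ (Real.iSup_le hb dist_nonneg)
  refine le_of_forall_pos_le_add fun ε hε => ?_
  obtain ⟨_, ⟨j, rfl⟩, hj⟩ := Metric.mem_closure_iff.1 hp (ε / 2) (by positivity)
  have h1 : |dist (x j) p - dist (x j) q| ≤ ⨆ j, |dist (x j) p - dist (x j) q| :=
    le_ciSup (f := fun j => |dist (x j) p - dist (x j) q|)
      ⟨dist p q, by rintro _ ⟨j, rfl⟩; exact hb j⟩ j
  have h2 : dist p q ≤ dist p (x j) + dist (x j) q := dist_triangle _ _ _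
  have h3 := neg_abs_le (dist (x j) p - dist (x j) q)
  rw [dist_comm p (x j)] at h2 hj
  linarith

variable [FiniteDimensional ℝ F] [MeasurableSpace F] [BorelSpace F]

/-- **Metric differentiability** of Lipschitz maps, concrete form. -/
theorem exists_md_seq (μ : Measure F) [IsAddHaarMeasure μ] {E : Set F} {φ : F → X} {L : ℝ≥0}
    (hφ : LipschitzOnWith L φ E) {x : ℕ → X} (hx : φ '' E ⊆ closure (range x)) :
    ∃ U : ℕ → F → ℝ, (∀ j, LipschitzWith L (U j)) ∧
      (∀ j, EqOn (fun w => dist (x j) (φ w)) (U j) E) ∧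
      ∀ᵐ z ∂μ, (∀ j, DifferentiableAt ℝ (U j) z) ∧ IsMD E φ z (N U z) := by
  have h1 : ∀ j, LipschitzOnWith L (fun w => dist (x j) (φ w)) E := fun j => by
    have := (LipschitzWith.dist_right (x j)).comp_lipschitzOnWith hφ
    rw [one_mul] at this
    exact this
  choose U hU hUe using fun j => (h1 j).extend_real
  refine ⟨U, hU, hUe, ?_⟩
  filter_upwards [ae_strong_md (μ := μ) hU] with z hz
  refine ⟨hz.1, fun ε hε => ?_⟩
  obtain ⟨δ, hδ, h⟩ := hz.2 ε hε
  refine ⟨δ, hδ, fun w hw w' hw' h1 h2 => ?_⟩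
  have h3 := h w w' h1 h2
  have h4 : S U w w' = dist (φ w) (φ w') := by
    rw [dist_eq_iSup (hx (mem_image_of_mem φ hw))]
    unfold S
    congr 1
    funext j
    rw [← hUe j hw, ← hUe j hw']
  rwa [h4] at h3

/-- **Metric differentiability** of Lipschitz maps (Kirchheim). -/
theorem exists_md (μ : Measure F) [IsAddHaarMeasure μ] {E : Set F} {φ : F → X} {L : ℝ≥0}
    (hφ : LipschitzOnWith L φ E) :
    ∃ N : F → F → ℝ, (∀ z, IsSN L (N z)) ∧ (∀ v, Measurable fun z => N z v) ∧
      ∀ᵐ z ∂μ, IsMD E φ z (N z) := by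
  rcases E.eq_empty_or_nonempty with rfl | hE
  · refine ⟨fun _ _ => 0, fun z => ⟨fun v => le_rfl, fun v => by positivity, fun v w => by simp,
      fun t v => by simp⟩, fun v => measurable_const, ae_of_all _ fun z => ?_⟩
    intro ε hε
    exact ⟨1, one_pos, fun w hw => absurd hw (notMem_empty w)⟩
  obtain ⟨x, -, hx⟩ := exists_seq_dense hφ.continuousOn hE
  obtain ⟨U, hU, -, h⟩ := exists_md_seq μ hφ hx
  refine ⟨fun z => N U z, fun z => isSN_N hU z, fun v => measurable_N v, ?_⟩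
  filter_upwards [h] with z hz using hz.2

end Crest.Agent.R241.B3b
end

-- ▼ part R241/B3c
section

/-!
# R241, block B3c: the Gram matrix of the metric differential in `CAT(0)` spaces
-/

set_option autoImplicit false

open MeasureTheory Measure Filter Set Metric Matrix
open scoped NNReal ENNReal Topology

namespace Crest.Agent.R241.B3c

open Crest.Agent.R241.B3a Crest.Agent.R241.B3b
open Crest.GeometryTopology.Submanifold (Euc)

section bilin

variable {F : Type*} [NormedAddCommGroup F] [NormedSpace ℝ F] {L : ℝ≥0} {N : F → ℝ}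

/-- polarisation. -/
noncomputable def pol (N : F → ℝ) (v w : F) : ℝ := (N (v + w) ^ 2 - N (v - w) ^ 2) / 4

lemma pol_comm (hN : IsSN L N) (v w : F) : pol N v w = pol N w v := by
  unfold pol; rw [add_comm v w, hN.sub_comm v w]

lemma pol_self (hN : IsSN L N) (v : F) : pol N v v = N v ^ 2 := by
  unfold pol
  rw [sub_self, hN.zero, ← two_smul ℝ v, hN.smul, abs_two]
  ring

lemma pol_neg (hN : IsSN L N) (v w : F) : pol N (-v) w = -pol N v w := by
  unfold pol
  have e1 : -v + w = -(v - w) := by abel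
  have e2 : -v - w = -(v + w) := by abel
  rw [e1, e2, hN.neg, hN.neg]
  ring

lemma pol_add (hN : IsSN L N)
    (hp : ∀ v w, N (v + w) ^ 2 + N (v - w) ^ 2 = 2 * N v ^ 2 + 2 * N w ^ 2) (v v' w : F) :
    pol N (v + v') w = pol N v w + pol N v' w := by
  have key : ∀ v v' : F, pol N (v + v') w + pol N (v - v') w = 2 * pol N v w := by
    intro v v'
    have h1 := hp (v + w) v'
    have h2 := hp (v - w) v'
    unfold pol
    have e1 : v + v' + w = v + w + v' := by abel
    have e2 : v + v' - w = v - w + v' := by abel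
    have e3 : v - v' + w = v + w - v' := by abel
    have e4 : v - v' - w = v - w - v' := by abel
    rw [e1, e2, e3, e4]
    linarith
  have h1 := key v v'
  have h2 := key v' v
  have e : v' - v = -(v - v') := by abel
  rw [e, pol_neg hN, add_comm v' v] at h2
  linarith

lemma continuous_pol (hN : IsSN L N) (w : F) : Continuous fun v => pol N v w := by
  unfold pol
  exact (((hN.continuous.comp (continuous_add_const w)).pow 2).sub
    ((hN.continuous.comp (continuous_sub_right w)).pow 2)).div_const 4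

lemma pol_smul (hN : IsSN L N)
    (hp : ∀ v w, N (v + w) ^ 2 + N (v - w) ^ 2 = 2 * N v ^ 2 + 2 * N w ^ 2) (t : ℝ) (v w : F) :
    pol N (t • v) w = t * pol N v w := by
  let f : F →+ ℝ := AddMonoidHom.mk' (fun v => pol N v w) (fun a b => pol_add hN hp a b w)
  have h := (f.toRealLinearMap (continuous_pol hN w)).map_smul t v
  exact h

/-- the bilinear form. -/
noncomputable def bil (hN : IsSN L N)
    (hp : ∀ v w, N (v + w) ^ 2 + N (v - w) ^ 2 = 2 * N v ^ 2 + 2 * N w ^ 2) : F →ₗ[ℝ] F →ₗ[ℝ] ℝ :=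
  LinearMap.mk₂ ℝ (pol N) (fun a b w => pol_add hN hp a b w) (fun t v w => pol_smul hN hp t v w)
    (fun v a b => by rw [pol_comm hN, pol_add hN hp, pol_comm hN a, pol_comm hN b])
    (fun t v w => by rw [pol_comm hN, smul_eq_mul, pol_smul hN hp, pol_comm hN w])

end bilin

variable {k : ℕ}

/-- the Gram matrix of a (Euclidean) seminorm. -/
noncomputable def gram (N : Euc k → ℝ) : Matrix (Fin k) (Fin k) ℝ :=
  Matrix.of fun i j => pol N (EuclideanSpace.single i 1) (EuclideanSpace.single j 1)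

variable {L : ℝ≥0} {N : Euc k → ℝ}

lemma sum_single (v : Euc k) : v = ∑ i, v i • (EuclideanSpace.single i 1 : Euc k) := by
  have := (EuclideanSpace.basisFun (Fin k) ℝ).sum_repr v
  simp only [EuclideanSpace.basisFun_repr, EuclideanSpace.basisFun_apply] at this
  exact this.symm

lemma pol_eq_gram (hN : IsSN L N)
    (hp : ∀ v w, N (v + w) ^ 2 + N (v - w) ^ 2 = 2 * N v ^ 2 + 2 * N w ^ 2) (v w : Euc k) :
    pol N v w = v.ofLp ⬝ᵥ (gram N *ᵥ w.ofLp) := by
  have h : pol N v w = bil hN hp v w := rfl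
  rw [h]
  conv_lhs => rw [sum_single v, sum_single w]
  simp only [_root_.map_sum, LinearMap.sum_apply, map_smul, LinearMap.smul_apply, smul_eq_mul]
  simp only [dotProduct, mulVec, gram, Matrix.of_apply, Finset.mul_sum]
  refine (Finset.sum_comm).trans ?_
  refine Finset.sum_congr rfl fun i _ => Finset.sum_congr rfl fun j _ => ?_
  change w j * (v i * pol N _ _) = v i * (pol N _ _ * w j)
  ring

lemma sq_eq_gram (hN : IsSN L N)
    (hp : ∀ v w, N (v + w) ^ 2 + N (v - w) ^ 2 = 2 * N v ^ 2 + 2 * N w ^ 2) (v : Euc k) :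
    N v ^ 2 = v.ofLp ⬝ᵥ (gram N *ᵥ v.ofLp) := by
  rw [← pol_self hN, pol_eq_gram hN hp]

lemma gram_posSemidef (hN : IsSN L N)
    (hp : ∀ v w, N (v + w) ^ 2 + N (v - w) ^ 2 = 2 * N v ^ 2 + 2 * N w ^ 2) :
    (gram N).PosSemidef := by
  rw [Matrix.posSemidef_iff_dotProduct_mulVec]
  refine ⟨?_, fun v => ?_⟩
  · ext i j
    simp only [Matrix.conjTranspose_apply, gram, Matrix.of_apply, star_trivial]
    exact pol_comm hN _ _
  · have := sq_eq_gram hN hp (WithLp.toLp 2 v)
    simp only [star_trivial]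
    change 0 ≤ (WithLp.toLp 2 v).ofLp ⬝ᵥ (gram N *ᵥ (WithLp.toLp 2 v).ofLp)
    rw [← this]
    positivity

/-- the seminorm of a Gram matrix. -/
noncomputable def sn (G : Matrix (Fin k) (Fin k) ℝ) (v : Euc k) : ℝ :=
  √(v.ofLp ⬝ᵥ (G *ᵥ v.ofLp))

lemma eq_sn_gram (hN : IsSN L N)
    (hp : ∀ v w, N (v + w) ^ 2 + N (v - w) ^ 2 = 2 * N v ^ 2 + 2 * N w ^ 2) : N = sn (gram N) := by
  funext v
  unfold sn
  rw [← sq_eq_gram hN hp, Real.sqrt_sq (hN.nonneg v)]

lemma sn_sq {G : Matrix (Fin k) (Fin k) ℝ} (hG : G.PosSemidef) (v : Euc k) :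
    sn G v ^ 2 = v.ofLp ⬝ᵥ (G *ᵥ v.ofLp) := by
  unfold sn
  rw [Real.sq_sqrt]
  have := ((Matrix.posSemidef_iff_dotProduct_mulVec).1 hG).2 v.ofLp
  simpa using this


/-! ### existence of the Gram matrix -/

section exist

open Crest.GeometryTopology.MetricCurrent

variable {X : Type*} [MetricSpace X]

/-- the quadrilateral inequality in `CAT(0)` spaces. -/
lemma quadrilateral (h : IsCATZero X) (a b c e : X) :
    dist a c ^ 2 + dist b e ^ 2 ≤ dist a b ^ 2 + dist b c ^ 2 + dist c e ^ 2 + dist e a ^ 2 := by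
  obtain ⟨γ, h0, h1, hγ⟩ := h.1 a c
  have hm1 : dist a (γ (1 / 2)) = dist a c / 2 := by
    have := hγ 0 (by simp) (1 / 2) (by constructor <;> norm_num)
    rw [h0] at this
    rw [this]
    rw [show |(0 : ℝ) - 1 / 2| = 1 / 2 by norm_num [abs_of_neg]]
    ring
  have hm2 : dist c (γ (1 / 2)) = dist a c / 2 := by
    have := hγ 1 (by simp) (1 / 2) (by constructor <;> norm_num)
    rw [h1] at this
    rw [this]
    rw [show |(1 : ℝ) - 1 / 2| = 1 / 2 by norm_num]
    ring
  have e1 := h.2 b a c _ hm1 hm2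
  have e2 := h.2 e a c _ hm1 hm2
  have e3 : dist b e ≤ dist b (γ (1 / 2)) + dist e (γ (1 / 2)) := by
    rw [dist_comm e]; exact dist_triangle _ _ _
  have e4 : dist b e ^ 2 ≤ (dist b (γ (1 / 2)) + dist e (γ (1 / 2))) ^ 2 := by
    gcongr
  have e5 : 0 ≤ (dist b (γ (1 / 2)) - dist e (γ (1 / 2))) ^ 2 := sq_nonneg _
  rw [dist_comm a b, dist_comm c e]
  nlinarith

/-- squared form of metric differentiability. -/
lemma _root_.Crest.Agent.R241.B3b.IsMD.sq {F : Type*} [NormedAddCommGroup F] [NormedSpace ℝ F]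
    {E : Set F} {φ : F → X} {z : F} {L : ℝ≥0} {N : F → ℝ} (h : IsMD E φ z N) (hN : IsSN L N)
    {ε : ℝ} (hε : 0 < ε) : ∃ δ > 0, ∀ w ∈ E, ∀ w' ∈ E, ‖w - z‖ < δ → ‖w' - z‖ < δ →
      |dist (φ w) (φ w') ^ 2 - N (w - w') ^ 2| ≤ ε * (‖w - z‖ + ‖w' - z‖) ^ 2 := by
  have hL : (0 : ℝ) ≤ L := L.2
  set η : ℝ := min 1 (ε / (2 * L + 1)) with hη
  have hηpos : 0 < η := lt_min one_pos (by positivity)
  have hη1 : η ≤ 1 := min_le_left _ _
  have hηε : η * (2 * L + 1) ≤ ε := by
    have : η ≤ ε / (2 * L + 1) := min_le_right _ _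
    rwa [le_div_iff₀ (by positivity)] at this
  obtain ⟨δ, hδ, h2⟩ := h η hηpos
  refine ⟨δ, hδ, fun w hw w' hw' h3 h4 => ?_⟩
  have h5 := h2 w hw w' hw' h3 h4
  set s := ‖w - z‖ + ‖w' - z‖ with hs
  have hs0 : 0 ≤ s := by positivity
  have h6 : N (w - w') ≤ L * s := by
    refine (hN.le _).trans (mul_le_mul_of_nonneg_left ?_ hL)
    have e : w - w' = (w - z) - (w' - z) := by abel
    rw [e]
    exact norm_sub_le _ _
  have h7 := hN.nonneg (w - w')
  have h8 : dist (φ w) (φ w') ≤ N (w - w') + η * s := by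
    have := (abs_le.1 h5).2
    linarith
  have h9 : |dist (φ w) (φ w') + N (w - w')| ≤ (2 * L + 1) * s := by
    rw [abs_of_nonneg (by positivity)]
    have : η * s ≤ 1 * s := mul_le_mul_of_nonneg_right hη1 hs0
    linarith
  rw [sq_sub_sq, abs_mul]
  calc |dist (φ w) (φ w') + N (w - w')| * |dist (φ w) (φ w') - N (w - w')|
      ≤ ((2 * L + 1) * s) * (η * s) := by gcongr
    _ = (η * (2 * L + 1)) * s ^ 2 := by ring
    _ ≤ ε * s ^ 2 := by gcongr

/-- **Metric differential in `CAT(0)` spaces**: it is Euclidean, given by a measurable field of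
positive semidefinite matrices. -/
theorem exists_gram (hX : ∀ a b c e : X, dist a c ^ 2 + dist b e ^ 2 ≤
      dist a b ^ 2 + dist b c ^ 2 + dist c e ^ 2 + dist e a ^ 2)
    {E : Set (Euc k)} (hE : MeasurableSet E) {φ : Euc k → X} {L : ℝ≥0}
    (hφ : LipschitzOnWith L φ E) :
    ∃ G : Euc k → Matrix (Fin k) (Fin k) ℝ, (∀ i j, Measurable fun z => G z i j) ∧
      (∀ z, (G z).PosSemidef) ∧ (∀ z, IsSN L (sn (G z))) ∧
      ∀ᵐ z ∂(volume.restrict E), IsMD E φ z (sn (G z)) := by
  classical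
  obtain ⟨N, hN, hNm, hmd⟩ := exists_md (volume : Measure (Euc k)) hφ
  have hpar : ∀ᵐ z ∂(volume : Measure (Euc k)), z ∈ E →
      ∀ v w, N z (v + w) ^ 2 + N z (v - w) ^ 2 = 2 * N z v ^ 2 + 2 * N z w ^ 2 := by
    filter_upwards [hmd, ae_dens (μ := (volume : Measure (Euc k))) E] with z hz hd hzE v w
    obtain ⟨d, hd⟩ := exists_blowUp (hd hzE) hzE
    exact hz.parallelogram (hN z) hd hX v w
  -- the measurable set of good points
  set B : Set (Euc k) := toMeasurable volume {z | ¬ (z ∈ E →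
    ∀ v w, N z (v + w) ^ 2 + N z (v - w) ^ 2 = 2 * N z v ^ 2 + 2 * N z w ^ 2)} with hB
  have hB0 : volume B = 0 := by rw [hB, measure_toMeasurable]; exact hpar
  set T : Set (Euc k) := E \ B with hT
  have hTm : MeasurableSet T := hE.diff (measurableSet_toMeasurable _ _)
  have hTgood : ∀ z ∈ T, ∀ v w,
      N z (v + w) ^ 2 + N z (v - w) ^ 2 = 2 * N z v ^ 2 + 2 * N z w ^ 2 := by
    intro z hz
    have h1 : z ∉ {z | ¬ (z ∈ E →
        ∀ v w, N z (v + w) ^ 2 + N z (v - w) ^ 2 = 2 * N z v ^ 2 + 2 * N z w ^ 2)} :=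
      fun h => hz.2 (subset_toMeasurable _ _ h)
    simp only [mem_ofPred_eq, not_not] at h1
    exact h1 hz.1
  refine ⟨fun z => if z ∈ T then gram (N z) else 0, fun i j => ?_, fun z => ?_, fun z => ?_, ?_⟩
  · have h1 : (fun z => (if z ∈ T then gram (N z) else 0 : Matrix (Fin k) (Fin k) ℝ) i j) =
        fun z => if z ∈ T then gram (N z) i j else 0 := by
      funext z
      split_ifs <;> rfl
    rw [h1]
    refine Measurable.ite hTm ?_ measurable_const
    simp only [gram, Matrix.of_apply, pol]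
    exact (((hNm _).pow_const 2).sub ((hNm _).pow_const 2)).div_const 4
  · by_cases hz : z ∈ T
    · simpa [hz] using gram_posSemidef (hN z) (hTgood z hz)
    · simpa [hz] using Matrix.PosSemidef.zero
  · by_cases hz : z ∈ T
    · have := eq_sn_gram (hN z) (hTgood z hz)
      simp only [hz, if_true]
      rw [← this]
      exact hN z
    · simp only [hz, if_false]
      have h0 : sn (0 : Matrix (Fin k) (Fin k) ℝ) = fun _ => 0 := by
        funext v; simp [sn]
      rw [h0]
      exact ⟨fun v => le_rfl, fun v => by positivity, fun v w => by simp, fun t v => by simp⟩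
  · have hB' : ∀ᵐ z ∂(volume.restrict E), z ∉ B :=
      ae_restrict_of_ae (measure_eq_zero_iff_ae_notMem.1 hB0)
    filter_upwards [ae_restrict_of_ae hmd, ae_restrict_mem hE, hB'] with z hz hzE hzB
    have hzT : z ∈ T := ⟨hzE, hzB⟩
    simp only [hzT, if_true]
    rw [← eq_sn_gram (hN z) (hTgood z hzT)]
    exact hz

end exist

end Crest.Agent.R241.B3c
end

-- ▼ part R241/B5c2
section

/-!
# R241, block B5c, part 2: metric charts of a rectifiable current, and the induced family of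
charts of the compact set `K`.
-/

set_option autoImplicit false

open MeasureTheory Measure Filter Set Topology Matrix
open scoped NNReal ENNReal MatrixOrder

universe u

namespace Crest.Agent.R241.B5c

open Crest.GeometryTopology.Submanifold (Euc)
open Crest.GeometryTopology.MetricCurrent
open Crest.Agent.R241.B3a Crest.Agent.R241.B3b Crest.Agent.R241.B3c

variable {X : Type u} [MetricSpace X] {n : ℕ}

/-! ### consequences of the metric differential -/

/-- one-point upper bound for the square of the distance. -/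
theorem IsMD.sq_le {E : Set (Euc n)} {φ : Euc n → X} {z : Euc n} {G : Matrix (Fin n) (Fin n) ℝ}
    {L : ℝ≥0} (hG : G.PosSemidef) (hN : IsSN L (sn G)) (h : IsMD E φ z (sn G)) (hz : z ∈ E)
    {ε : ℝ} (hε : 0 < ε) : ∃ δ > (0 : ℝ), ∀ w ∈ E, ‖w - z‖ < δ →
      dist (φ w) (φ z) ^ 2 ≤ (w - z).ofLp ⬝ᵥ (G *ᵥ (w - z).ofLp) + ε * ‖w - z‖ ^ 2 := by
  set η : ℝ := min 1 (ε / (2 * L + 1)) with hη
  have hL : (0 : ℝ) ≤ L := L.2
  have hηpos : 0 < η := lt_min one_pos (by positivity)
  have hη1 : η ≤ 1 := min_le_left _ _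
  have hη2 : η * (2 * L + 1) ≤ ε := by
    have : η ≤ ε / (2 * L + 1) := min_le_right _ _
    rwa [le_div_iff₀ (by positivity)] at this
  obtain ⟨δ, hδ, hδ'⟩ := h η hηpos
  refine ⟨δ, hδ, fun w hw hwz => ?_⟩
  have h1 := hδ' w hw z hz hwz (by simpa using hδ)
  rw [sub_self, norm_zero, add_zero] at h1
  have h2 : dist (φ w) (φ z) ≤ sn G (w - z) + η * ‖w - z‖ := by
    have := (abs_le.1 h1).2
    linarith
  have h3 := hN.le (w - z)
  have h4 := hN.nonneg (w - z)
  have h5 := sn_sq hG (w - z)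
  rw [← h5]
  have hn : 0 ≤ ‖w - z‖ := norm_nonneg _
  calc dist (φ w) (φ z) ^ 2 ≤ (sn G (w - z) + η * ‖w - z‖) ^ 2 :=
        pow_le_pow_left₀ dist_nonneg h2 2
    _ = sn G (w - z) ^ 2 + 2 * η * sn G (w - z) * ‖w - z‖ + η ^ 2 * ‖w - z‖ ^ 2 := by ring
    _ ≤ sn G (w - z) ^ 2 + 2 * η * (L * ‖w - z‖) * ‖w - z‖ + η * ‖w - z‖ ^ 2 := by
        have e1 : 2 * η * sn G (w - z) * ‖w - z‖ ≤ 2 * η * (L * ‖w - z‖) * ‖w - z‖ := by gcongr
        have e2 : η ^ 2 * ‖w - z‖ ^ 2 ≤ η * ‖w - z‖ ^ 2 := by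
          have : η ^ 2 ≤ η := by nlinarith
          exact mul_le_mul_of_nonneg_right this (sq_nonneg _)
        linarith
    _ = sn G (w - z) ^ 2 + (η * (2 * L + 1)) * ‖w - z‖ ^ 2 := by ring
    _ ≤ sn G (w - z) ^ 2 + ε * ‖w - z‖ ^ 2 := by
        have := mul_le_mul_of_nonneg_right hη2 (sq_nonneg ‖w - z‖)
        linarith

/-- `dvec` applied to a vector is the derivative. -/
theorem dvec_dot (E : Set (Euc n)) (u : Euc n → ℝ) (z : Euc n) (v : Fin n → ℝ) :
    B5b.dvec E u z ⬝ᵥ v = fderivWithin ℝ u E z (WithLp.toLp 2 v) := by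
  have h := sum_single (WithLp.toLp 2 v)
  conv_rhs => rw [h, _root_.map_sum]
  simp only [B5b.dvec, dotProduct, map_smul, smul_eq_mul]
  exact Finset.sum_congr rfl fun i _ => mul_comm _ _

/-- gradient bound from the metric differential -/
theorem IsMD.dvec_sq_le {E : Set (Euc n)} {φ : Euc n → X} {z : Euc n}
    {G : Matrix (Fin n) (Fin n) ℝ} {L : ℝ≥0} (hG : G.PosSemidef) (hN : IsSN L (sn G))
    (h : IsMD E φ z (sn G)) (hz : z ∈ E) (hd : Dens E z) {f : X → ℝ}
    (hf : LipschitzOnWith 1 f (φ '' E))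
    (hdiff : DifferentiableWithinAt ℝ (fun w => f (φ w)) E z) (v : Fin n → ℝ) :
    (B5b.dvec E (fun w => f (φ w)) z ⬝ᵥ v) ^ 2 ≤ v ⬝ᵥ (G *ᵥ v) := by
  obtain ⟨d, hd'⟩ := exists_blowUp hd hz
  have h1 := IsMD.abs_le h hN hd' hf hz hdiff.hasFDerivWithinAt (WithLp.toLp 2 v)
  rw [NNReal.coe_one, one_mul] at h1
  rw [dvec_dot]
  have h2 := sn_sq hG (WithLp.toLp 2 v)
  have h3 : v ⬝ᵥ (G *ᵥ v) = sn G (WithLp.toLp 2 v) ^ 2 := h2.symm
  rw [h3, ← sq_abs]
  exact pow_le_pow_left₀ (abs_nonneg _) h1 2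

/-- nondegeneracy from the co-Lipschitz bound -/
theorem IsMD.posDef {E : Set (Euc n)} {φ : Euc n → X} {z : Euc n}
    {G : Matrix (Fin n) (Fin n) ℝ} {L : ℝ≥0} (hG : G.PosSemidef) (hN : IsSN L (sn G))
    (h : IsMD E φ z (sn G)) (hz : z ∈ E) (hd : Dens E z) {C : ℝ}
    (hC : ∀ w ∈ E, ∀ w' ∈ E, dist w w' ≤ C * dist (φ w) (φ w')) : G.PosDef := by
  obtain ⟨d, hd'⟩ := exists_blowUp hd hz
  refine PosDef.of_dotProduct_mulVec_pos hG.isHermitian fun x hx => ?_
  have h1 := IsMD.norm_le h hN hd' hz hC (WithLp.toLp 2 x)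
  have h2 : 0 < ‖WithLp.toLp 2 x‖ := by
    rw [norm_pos_iff]
    intro h0
    exact hx (congrArg WithLp.ofLp h0)
  have h3 : sn G (WithLp.toLp 2 x) ≠ 0 := by
    intro h0
    rw [h0, mul_zero] at h1
    linarith
  have h4 : 0 < sn G (WithLp.toLp 2 x) ^ 2 := by positivity
  rw [sn_sq hG] at h4
  simpa using h4

/-- `√det G ≤ L^n`. -/
theorem sqrt_det_le {G : Matrix (Fin n) (Fin n) ℝ} {L : ℝ≥0} (hG : G.PosSemidef)
    (hN : IsSN L (sn G)) : √G.det ≤ (L : ℝ) ^ n := by
  obtain ⟨B, hB⟩ := CStarAlgebra.nonneg_iff_eq_star_mul_self.mp hG.nonneg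
  rw [star_eq_conjTranspose, conjTranspose_eq_transpose_of_trivial] at hB
  have hd : G.det = B.det ^ 2 := by
    rw [hB, det_mul, det_transpose, sq]
  rw [hd, Real.sqrt_sq_eq_abs, ← det_transpose]
  refine (B8LinAlg.abs_det_le_prod Bᵀ).trans ?_
  have h1 : ∀ i, √(∑ j, Bᵀ i j ^ 2) ≤ (L : ℝ) := by
    intro i
    have h2 := hN.le (EuclideanSpace.single i 1)
    rw [PiLp.norm_single, norm_one, mul_one] at h2
    have h3 := sn_sq hG (EuclideanSpace.single i 1)
    rw [← B5b.mlin_norm_sq hB, EuclideanSpace.norm_sq_eq] at h3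
    have h4 : ∀ j, ‖(B5b.mlin B (EuclideanSpace.single i 1)) j‖ ^ 2 = Bᵀ i j ^ 2 := by
      intro j
      have := congrFun (B5b.mlin_apply B (EuclideanSpace.single i 1)) j
      rw [Real.norm_eq_abs, sq_abs]
      rw [this]
      simp [mulVec, dotProduct, PiLp.single_apply]
    rw [Finset.sum_congr rfl fun j _ => h4 j] at h3
    rw [← h3, Real.sqrt_sq (hN.nonneg _)]
    exact h2
  calc ∏ i, √(∑ j, Bᵀ i j ^ 2) ≤ ∏ _i : Fin n, (L : ℝ) :=
        Finset.prod_le_prod (fun i _ => Real.sqrt_nonneg _) fun i _ => h1 i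
    _ = (L : ℝ) ^ n := by simp

/-- a measurable version of the multiplicity. -/
theorem exists_mult {E : Set (Euc n)} {θ : Euc n → ℤ}
    (h : Integrable (fun z => (θ z : ℝ)) (volume.restrict E)) :
    ∃ m : Euc n → ℝ, Measurable m ∧ (∀ z, m z = 0 ∨ 1 ≤ m z) ∧
      ∀ᵐ z ∂(volume.restrict E), m z = |(θ z : ℝ)| := by
  classical
  have hm := h.abs.aestronglyMeasurable.aemeasurable
  set g := hm.mk _ with hg
  have hgm : Measurable g := hm.measurable_mk
  set S : Set ℝ := {0} ∪ Ici 1 with hS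
  have hSm : MeasurableSet S := (measurableSet_singleton 0).union measurableSet_Ici
  refine ⟨fun z => if g z ∈ S then g z else 0, Measurable.ite (hgm hSm) hgm measurable_const,
    fun z => ?_, ?_⟩
  · by_cases hz : g z ∈ S
    · simp only [if_pos hz]
      rcases hz with hz | hz
      · exact Or.inl hz
      · exact Or.inr hz
    · exact Or.inl (if_neg hz)
  · filter_upwards [hm.ae_eq_mk] with z hz
    have h1 : g z = |(θ z : ℝ)| := hz.symm
    have h2 : g z ∈ S := by
      rw [h1]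
      rcases eq_or_ne (θ z) 0 with h0 | h0
      · left; simp [h0]
      · right
        have : (1 : ℤ) ≤ |θ z| := Int.one_le_abs h0
        have h3 : ((1 : ℤ) : ℝ) ≤ ((|θ z| : ℤ) : ℝ) := by exact_mod_cast this
        simpa using h3
    simp only [if_pos h2]
    exact h1

end Crest.Agent.R241.B5c
end

-- ▼ part R241/B5a1
section

/-!
# R241, block B5a1: the Jacobian `√det G` is the supremum of the determinants of `k`-tuples of
covectors taken from a norming family.
-/

set_option autoImplicit false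

open Filter Topology Matrix Set
open scoped NNReal MatrixOrder

namespace Crest.Agent.R241.B5a1

variable {k : ℕ} {ι : Type*}

/-- Euclidean case. -/
lemma exists_tuple_one [Nonempty ι] (ℓ : ι → Fin k → ℝ)
    (hbd : ∀ j v, |ℓ j ⬝ᵥ v| ≤ √(v ⬝ᵥ v))
    (hsup : ∀ v : Fin k → ℝ, √(v ⬝ᵥ v) ≤ ⨆ j, |ℓ j ⬝ᵥ v|) {c : ℝ} (hc : c < 1) :
    ∃ J : Fin k → ι, c < |(Matrix.of fun i => ℓ (J i)).det| := by
  classical
  -- for each coordinate vector choose a sequence of almost optimal covectors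
  have H : ∀ (n : ℕ) (i : Fin k), ∃ j : ι, 1 - 1 / ((n : ℝ) + 1) < |ℓ j ⬝ᵥ Pi.single i 1| := by
    intro n i
    have h1 := hsup (Pi.single i 1)
    have h2 : √((Pi.single i 1 : Fin k → ℝ) ⬝ᵥ Pi.single i 1) = 1 := by simp
    rw [h2] at h1
    have h3 : 1 - 1 / ((n : ℝ) + 1) < ⨆ j, |ℓ j ⬝ᵥ (Pi.single i 1 : Fin k → ℝ)| := by
      have : 0 < 1 / ((n : ℝ) + 1) := by positivity
      linarith
    exact exists_lt_of_lt_ciSup h3
  choose J hJ using H
  -- signs
  set s : ℕ → Fin k → ℝ := fun n i => SignType.sign (ℓ (J n i) i) with hs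
  have hsabs : ∀ n i, s n i * ℓ (J n i) i = |ℓ (J n i) i| := fun n i => sign_mul_self _
  have hlast : ∀ (n : ℕ) (i : Fin k), 1 - 1 / ((n : ℝ) + 1) < |ℓ (J n i) i| := fun n i => by
    have := hJ n i
    simpa using this
  have hrow : ∀ j, ∑ l, ℓ j l ^ 2 ≤ 1 := by
    intro j
    have h := hbd j (ℓ j)
    have e : ℓ j ⬝ᵥ ℓ j = ∑ l, ℓ j l ^ 2 := by simp [dotProduct, sq]
    rw [e] at h
    have h0 : 0 ≤ ∑ l, ℓ j l ^ 2 := Finset.sum_nonneg fun _ _ => sq_nonneg _
    rw [abs_of_nonneg h0] at h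
    have h2 := Real.sq_sqrt h0
    have h3 := Real.sqrt_nonneg (∑ l, ℓ j l ^ 2)
    by_contra hcon
    push Not at hcon
    nlinarith
  -- the matrices with signs converge to the identity
  set M : ℕ → Matrix (Fin k) (Fin k) ℝ := fun n => Matrix.of fun i l => s n i * ℓ (J n i) l with hM
  have hlim : ∀ i l, Tendsto (fun n => M n i l) atTop (𝓝 ((1 : Matrix (Fin k) (Fin k) ℝ) i l)) := by
    intro i l
    have hone : Tendsto (fun n : ℕ => 1 - 1 / ((n : ℝ) + 1)) atTop (𝓝 1) := by
      have := tendsto_one_div_add_atTop_nhds_zero_nat (𝕜 := ℝ)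
      simpa using (tendsto_const_nhds (x := (1 : ℝ))).sub this
    rcases eq_or_ne i l with rfl | hne
    · rw [Matrix.one_apply_eq]
      refine tendsto_of_tendsto_of_tendsto_of_le_of_le hone tendsto_const_nhds (fun n => ?_)
        fun n => ?_
      · change 1 - 1 / ((n : ℝ) + 1) ≤ s n i * ℓ (J n i) i
        rw [hsabs]; exact (hlast n i).le
      · change s n i * ℓ (J n i) i ≤ 1
        rw [hsabs]
        have h1 := hrow (J n i)
        have h2 : ℓ (J n i) i ^ 2 ≤ ∑ l, ℓ (J n i) l ^ 2 :=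
          Finset.single_le_sum (f := fun l => ℓ (J n i) l ^ 2) (fun _ _ => sq_nonneg _)
            (Finset.mem_univ i)
        rw [abs_le_one_iff_mul_self_le_one]
        nlinarith
    · rw [Matrix.one_apply_ne hne]
      -- `ℓ_l² ≤ 1 - ℓ_i²`
      have hsq : Tendsto (fun n : ℕ => 1 - (1 - 1 / ((n : ℝ) + 1)) ^ 2) atTop (𝓝 0) := by
        have := (tendsto_const_nhds (x := (1 : ℝ))).sub (hone.pow 2)
        simpa using this
      have h0 : Tendsto (fun n => (M n i l) ^ 2) atTop (𝓝 0) := by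
        refine squeeze_zero (fun n => sq_nonneg _) (fun n => ?_) hsq
        change (s n i * ℓ (J n i) l) ^ 2 ≤ _
        have h1 := hrow (J n i)
        have h2 : ℓ (J n i) i ^ 2 + ℓ (J n i) l ^ 2 ≤ ∑ l, ℓ (J n i) l ^ 2 := by
          rw [← Finset.sum_pair (f := fun l => ℓ (J n i) l ^ 2) hne]
          exact Finset.sum_le_sum_of_subset_of_nonneg (Finset.subset_univ _)
            fun _ _ _ => sq_nonneg _
        have h3 : (1 - 1 / ((n : ℝ) + 1)) ^ 2 ≤ ℓ (J n i) i ^ 2 := by
          rw [← sq_abs (ℓ (J n i) i)]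
          have h4 : 0 ≤ 1 - 1 / ((n : ℝ) + 1) := by
            rw [sub_nonneg, div_le_one (by positivity)]
            have : (0 : ℝ) ≤ n := Nat.cast_nonneg n
            linarith
          exact pow_le_pow_left₀ h4 (hlast n i).le 2
        have h5 : (s n i) ^ 2 ≤ 1 := by
          have : |s n i| ≤ 1 := by
            simp only [hs]
            rcases SignType.trichotomy (SignType.sign (ℓ (J n i) i)) with h | h | h <;>
              rw [h] <;> simp
          rw [← sq_abs]
          exact pow_le_one₀ (abs_nonneg _) this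
        rw [mul_pow]
        have h6 : (0 : ℝ) ≤ ℓ (J n i) l ^ 2 := sq_nonneg _
        nlinarith
      have h1 : Tendsto (fun n => |M n i l|) atTop (𝓝 0) := by
        have := h0.sqrt
        simp only [Real.sqrt_sq_eq_abs, Real.sqrt_zero] at this
        exact this
      exact (tendsto_zero_iff_abs_tendsto_zero _).2 h1
  have hMlim : Tendsto M atTop (𝓝 (1 : Matrix (Fin k) (Fin k) ℝ)) := by
    refine tendsto_pi_nhds.2 fun i => ?_
    refine tendsto_pi_nhds.2 fun l => ?_
    exact hlim i l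
  have hdet : Tendsto (fun n => (M n).det) atTop (𝓝 1) := by
    have hc : Continuous fun A : Matrix (Fin k) (Fin k) ℝ => A.det := continuous_id.matrix_det
    have := (hc.tendsto (1 : Matrix (Fin k) (Fin k) ℝ)).comp hMlim
    rw [Matrix.det_one] at this
    exact this
  have hdet2 : ∀ n, (M n).det ≤ |(Matrix.of fun i => ℓ (J n i)).det| := by
    intro n
    have h1 : M n = Matrix.diagonal (s n) * Matrix.of fun i => ℓ (J n i) := by
      ext i l
      rw [Matrix.diagonal_mul]
      rfl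
    rw [h1, Matrix.det_mul, Matrix.det_diagonal]
    refine (le_abs_self _).trans ?_
    rw [abs_mul, Finset.abs_prod]
    refine mul_le_of_le_one_left (abs_nonneg _) (Finset.prod_le_one (fun _ _ => abs_nonneg _) ?_)
    intro i _
    simp only [hs]
    rcases SignType.trichotomy (SignType.sign (ℓ (J n i) i)) with h | h | h <;>
      rw [h] <;> simp
  obtain ⟨n, hn⟩ := ((tendsto_order.1 hdet).1 c hc).exists
  exact ⟨J n, hn.trans_le (hdet2 n)⟩

/-- general case. -/
theorem exists_tuple [Nonempty ι] {G : Matrix (Fin k) (Fin k) ℝ} (hG : G.PosSemidef)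
    (ℓ : ι → Fin k → ℝ) (hbd : ∀ j v, |ℓ j ⬝ᵥ v| ≤ √(v ⬝ᵥ (G *ᵥ v)))
    (hsup : ∀ v : Fin k → ℝ, √(v ⬝ᵥ (G *ᵥ v)) ≤ ⨆ j, |ℓ j ⬝ᵥ v|) {c : ℝ} (hc : c < √G.det) :
    ∃ J : Fin k → ι, c < |(Matrix.of fun i => ℓ (J i)).det| := by
  classical
  rcases lt_or_ge c 0 with hc0 | hc0
  · exact ⟨fun _ => Classical.arbitrary ι, hc0.trans_le (abs_nonneg _)⟩
  have hdet : G.det ≠ 0 := by
    intro h
    rw [h, Real.sqrt_zero] at hc
    exact absurd hc (not_lt.2 hc0)
  obtain ⟨B, hB⟩ := CStarAlgebra.nonneg_iff_eq_star_mul_self.mp hG.nonneg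
  have hB' : G = Bᵀ * B := by
    rw [hB, Matrix.star_eq_conjTranspose, Matrix.conjTranspose_eq_transpose_of_trivial]
  have hdetG : G.det = B.det ^ 2 := by
    rw [hB', Matrix.det_mul, Matrix.det_transpose]; ring
  have hBdet : B.det ≠ 0 := by
    intro h0
    apply hdet
    rw [hdetG, h0]; ring
  have hBu : IsUnit B.det := isUnit_iff_ne_zero.2 hBdet
  have hquad : ∀ u : Fin k → ℝ, (B⁻¹ *ᵥ u) ⬝ᵥ (G *ᵥ (B⁻¹ *ᵥ u)) = u ⬝ᵥ u := by
    intro u
    have hBv : B *ᵥ (B⁻¹ *ᵥ u) = u := by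
      rw [Matrix.mulVec_mulVec, Matrix.mul_nonsing_inv _ hBu, Matrix.one_mulVec]
    rw [hB', ← Matrix.mulVec_mulVec, Matrix.dotProduct_mulVec, Matrix.vecMul_transpose, hBv]
  set ℓ' : ι → Fin k → ℝ := fun j => ℓ j ᵥ* B⁻¹ with hℓ'
  have hdot : ∀ j u, ℓ' j ⬝ᵥ u = ℓ j ⬝ᵥ (B⁻¹ *ᵥ u) := fun j u => by
    rw [hℓ', Matrix.dotProduct_mulVec]
  have h1 : ∀ j v, |ℓ' j ⬝ᵥ v| ≤ √(v ⬝ᵥ v) := fun j v => by
    rw [hdot, ← hquad]; exact hbd j _
  have h2 : ∀ v : Fin k → ℝ, √(v ⬝ᵥ v) ≤ ⨆ j, |ℓ' j ⬝ᵥ v| := fun v => by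
    rw [← hquad]; simp only [hdot]; exact hsup _
  have hBpos : 0 < |B.det| := abs_pos.2 hBdet
  have hc' : c / |B.det| < 1 := by
    rw [div_lt_one hBpos]
    rwa [hdetG, Real.sqrt_sq_eq_abs] at hc
  obtain ⟨J, hJ⟩ := exists_tuple_one ℓ' h1 h2 hc'
  refine ⟨J, ?_⟩
  have hmul : (Matrix.of fun i => ℓ' (J i)) = (Matrix.of fun i => ℓ (J i)) * B⁻¹ := by
    ext i l
    rfl
  rw [hmul, Matrix.det_mul, abs_mul, Matrix.det_nonsing_inv, Ring.inverse_eq_inv', abs_inv,
    ← div_eq_mul_inv, div_lt_div_iff_of_pos_right hBpos] at hJ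
  exact hJ

end Crest.Agent.R241.B5a1
end

-- ▼ part R241/B5a2
section

/-!
# R241, block B5a2: mass of chart actions in terms of the metric differential: one chart
-/

set_option autoImplicit false

open MeasureTheory Measure Filter Topology Matrix Set
open scoped NNReal ENNReal MatrixOrder

namespace Crest.Agent.R241.B5a

open Crest.GeometryTopology.MetricCurrent
open Crest.GeometryTopology.Submanifold (Euc)
open Crest.Agent.R241.B3a Crest.Agent.R241.B3b Crest.Agent.R241.B3c
open Crest.Agent.R241.B1Cur (jac chartR)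

universe u

variable {k : ℕ}

/-! ### linear algebra -/

lemma row_dot (A : Euc k →L[ℝ] ℝ) (v : Fin k → ℝ) :
    (fun l => A (EuclideanSpace.single l 1)) ⬝ᵥ v = A (WithLp.toLp 2 v) := by
  conv_rhs => rw [sum_single (WithLp.toLp 2 v)]
  simp only [_root_.map_sum, map_smul, smul_eq_mul, dotProduct]
  refine Finset.sum_congr rfl fun i _ => ?_
  rw [mul_comm]

/-- `sn G` is a bounded seminorm. -/
lemma exists_isSN {G : Matrix (Fin k) (Fin k) ℝ} (hG : G.PosSemidef) :
    ∃ L : ℝ≥0, IsSN L (sn G) := by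
  obtain ⟨B, hB⟩ := CStarAlgebra.nonneg_iff_eq_star_mul_self.mp hG.nonneg
  have hB' : G = Bᵀ * B := by
    rw [hB, Matrix.star_eq_conjTranspose, Matrix.conjTranspose_eq_transpose_of_trivial]
  let A : Euc k →L[ℝ] Euc k := LinearMap.toContinuousLinearMap
    (Matrix.toEuclideanLin B)
  have hA : ∀ v : Euc k, sn G v = ‖A v‖ := by
    intro v
    unfold sn
    rw [EuclideanSpace.norm_eq]
    congr 1
    rw [hB', ← Matrix.mulVec_mulVec, Matrix.dotProduct_mulVec, Matrix.vecMul_transpose]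
    simp only [dotProduct, Real.norm_eq_abs, sq_abs]
    refine Finset.sum_congr rfl fun i _ => ?_
    have : (A v) i = (B *ᵥ v.ofLp) i := rfl
    rw [this, sq]
  refine ⟨‖A‖₊, fun v => ?_, fun v => ?_, fun v w => ?_, fun t v => ?_⟩
  · rw [hA]; exact norm_nonneg _
  · rw [hA]; exact A.le_opNorm v
  · rw [hA, hA, hA, map_add]; exact norm_add_le _ _
  · rw [hA, hA, map_smul, norm_smul, Real.norm_eq_abs]

lemma measurable_det {α : Type*} [MeasurableSpace α] {G : α → Matrix (Fin k) (Fin k) ℝ}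
    (hG : ∀ a b, Measurable fun z => G z a b) : Measurable fun z => (G z).det := by
  simp only [Matrix.det_apply]
  refine Finset.measurable_sum _ fun σ _ => ?_
  exact (Finset.measurable_prod _ fun i _ => hG _ _).const_smul _

/-! ### one chart -/

variable {X : Type u} [MetricSpace X]

/-- a chart with its (Euclidean) metric differential. -/
structure MChart (E : Set (Euc k)) (φ : Euc k → X) (G : Euc k → Matrix (Fin k) (Fin k) ℝ) :
    Prop where
  measE : MeasurableSet E
  lip : ∃ L : ℝ≥0, LipschitzOnWith L φ E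
  measG : ∀ a b, Measurable fun z => G z a b
  psd : ∀ z, (G z).PosSemidef
  md : ∀ᵐ z ∂(volume.restrict E), IsMD E φ z (sn (G z))

variable {E : Set (Euc k)} {φ : Euc k → X} {G : Euc k → Matrix (Fin k) (Fin k) ℝ}

/-- existence of blow-ups at almost every point. -/
lemma ae_blowUp (hE : MeasurableSet E) :
    ∀ᵐ z ∂(volume.restrict E), z ∈ E ∧ ∃ d, BlowUp E z d := by
  filter_upwards [ae_restrict_mem hE, ae_restrict_of_ae (ae_dens (μ := volume) E)] with z hz h
  exact ⟨hz, exists_blowUp (h hz) hz⟩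

namespace MChart

/-- derivatives of Lipschitz functions along the chart. -/
lemma ae_abs_fderivWithin_le (h : MChart E φ G) {f : X → ℝ} {K : ℝ≥0} (hf : LipschitzWith K f) :
    ∀ᵐ z ∂(volume.restrict E), ∀ v, |fderivWithin ℝ (fun w => f (φ w)) E z v| ≤
      K * sn (G z) v := by
  obtain ⟨L, hL⟩ := h.lip
  filter_upwards [ae_blowUp h.measE, h.md, B1Cur.ae_good h.measE hL ⟨K, hf⟩] with z hz hmd hg v
  obtain ⟨hzE, d, hd⟩ := hz
  obtain ⟨L', hL'⟩ := exists_isSN (h.psd z)
  exact hmd.abs_le hL' hd (hf.lipschitzOnWith) hzE hg.2.hasFDerivWithinAt v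

lemma ae_jac_le (h : MChart E φ G) {π : Fin k → X → ℝ} (hπ : ∀ i, LipschitzWith 1 (π i)) :
    ∀ᵐ z ∂(volume.restrict E), |jac E φ π z| ≤ √(G z).det := by
  have h1 : ∀ᵐ z ∂(volume.restrict E), ∀ i, ∀ v,
      |fderivWithin ℝ (fun w => π i (φ w)) E z v| ≤ (1 : ℝ≥0) * sn (G z) v :=
    ae_all_iff.2 fun i => h.ae_abs_fderivWithin_le (hπ i)
  filter_upwards [h1] with z hz
  refine B8LinAlg.abs_det_le_sqrt_det _ _ (h.psd z) fun i v => ?_
  have h2 := hz i (WithLp.toLp 2 v)
  rw [← row_dot, NNReal.coe_one, one_mul] at h2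
  have h3 : sn (G z) (WithLp.toLp 2 v) ^ 2 = v ⬝ᵥ (G z *ᵥ v) := sn_sq (h.psd z) _
  rw [← h3, ← sq_abs]
  exact pow_le_pow_left₀ (abs_nonneg _) h2 2

/-- the Jacobian is the supremum of the Jacobians of tuples of distance functions. -/
lemma ae_exists_jac (h : MChart E φ G) {x : ℕ → X} (hx : φ '' E ⊆ closure (range x)) :
    ∀ᵐ z ∂(volume.restrict E), ∀ c < √(G z).det, ∃ J : Fin k → ℕ,
      c < |jac E φ (fun i p => dist (x (J i)) p) z| := by
  obtain ⟨L, hL⟩ := h.lip
  obtain ⟨U, hU, hUe, hmd⟩ := exists_md_seq (volume : Measure (Euc k)) hL hx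
  have h1 : ∀ᵐ z ∂(volume.restrict E), ∀ j,
      fderivWithin ℝ (fun w => dist (x j) (φ w)) E z = fderiv ℝ (U j) z :=
    ae_all_iff.2 fun j => B1Density.ae_fderivWithin_eq_of_lipschitz volume h.measE (hUe j) (hU j)
  filter_upwards [ae_blowUp h.measE, h.md, ae_restrict_of_ae hmd, h1] with z hz hm1 hm2 hfd c hc
  obtain ⟨hzE, d, hd⟩ := hz
  obtain ⟨L', hL'⟩ := exists_isSN (h.psd z)
  have hNeq : sn (G z) = N U z := hm1.unique hL' hm2.2 (isSN_N hU z) hd
  set ℓ : ℕ → Fin k → ℝ := fun j l =>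
    fderivWithin ℝ (fun w => dist (x j) (φ w)) E z (EuclideanSpace.single l 1) with hℓ
  have hdot : ∀ j v, ℓ j ⬝ᵥ v = fderiv ℝ (U j) z (WithLp.toLp 2 v) := fun j v => by
    rw [← hfd j, ← row_dot]
  have hsn : ∀ v : Fin k → ℝ, √(v ⬝ᵥ (G z *ᵥ v)) = N U z (WithLp.toLp 2 v) := fun v => by
    rw [← hNeq]; rfl
  obtain ⟨J, hJ⟩ := B5a1.exists_tuple (h.psd z) ℓ (fun j v => by
    rw [hsn, hdot]; exact le_N hU z _ j) (fun v => by
    rw [hsn]; simp only [hdot]; exact le_rfl) hc
  exact ⟨J, hJ⟩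

lemma exists_seq (h : MChart E φ G) (hE : E.Nonempty) : ∃ x : ℕ → X,
    φ '' E ⊆ closure (range x) := by
  obtain ⟨L, hL⟩ := h.lip
  obtain ⟨x, -, hx⟩ := exists_seq_dense hL.continuousOn hE
  exact ⟨x, hx⟩

lemma ae_sqrt_det_le (h : MChart E φ G) {L : ℝ≥0} (hL : LipschitzOnWith L φ E) :
    ∀ᵐ z ∂(volume.restrict E), √(G z).det ≤ (L : ℝ) ^ k := by
  rcases E.eq_empty_or_nonempty with rfl | hE
  · simp
  obtain ⟨x, hx⟩ := h.exists_seq hE
  have h1 : ∀ᵐ z ∂(volume.restrict E), ∀ J : Fin k → ℕ,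
      |jac E φ (fun i p => dist (x (J i)) p) z| ≤ (L : ℝ) ^ k := by
    refine ae_all_iff.2 fun J => ?_
    have := B1Cur.ae_abs_jac_le h.measE hL (π := fun i p => dist (x (J i)) p) (C := fun _ => 1)
      (fun i => LipschitzWith.dist_right _)
    simpa using this
  filter_upwards [h1, h.ae_exists_jac hx] with z h2 h3
  by_contra hcon
  push Not at hcon
  obtain ⟨J, hJ⟩ := h3 _ hcon
  exact absurd hJ (not_lt.2 (h2 J))

lemma measurable_J (h : MChart E φ G) : Measurable fun z => √(G z).det :=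
  (measurable_det h.measG).sqrt

lemma integrable (h : MChart E φ G) {ρ : Euc k → ℝ} (hρ : IntegrableOn ρ E) :
    IntegrableOn (fun z => |ρ z| * √(G z).det) E := by
  obtain ⟨L, hL⟩ := h.lip
  have := hρ.abs.mul_bdd (c := (L : ℝ) ^ k) (g := fun z => √(G z).det)
    h.measurable_J.aestronglyMeasurable (by
      filter_upwards [h.ae_sqrt_det_le hL] with z hz
      rwa [Real.norm_eq_abs, abs_of_nonneg (Real.sqrt_nonneg _)])
  exact this

lemma aemeasurable (h : MChart E φ G) [MeasurableSpace X] [BorelSpace X] :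
    AEMeasurable φ (volume.restrict E) := by
  obtain ⟨L, hL⟩ := h.lip
  exact hL.continuousOn.aemeasurable h.measE

end MChart

end Crest.Agent.R241.B5a
end

-- ▼ part R241/B5a3
section

/-!
# R241, block B5a3: the mass measure of a sum of chart actions
-/

set_option autoImplicit false

open MeasureTheory Measure Filter Topology Matrix Set
open scoped NNReal ENNReal MatrixOrder

namespace Crest.Agent.R241.B5a

open Crest.GeometryTopology.MetricCurrent
open Crest.GeometryTopology.Submanifold (Euc)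
open Crest.Agent.R241.B3a Crest.Agent.R241.B3b Crest.Agent.R241.B3c
open Crest.Agent.R241.B1Cur (jac chartR)

universe u

/-! ### pure measure theory -/

section pure

variable {α : Type*} [MeasurableSpace α] {lam m : Measure α}

lemma withDensity_sup_le {f g : α → ℝ≥0∞} (hf : Measurable f) (hg : Measurable g)
    (h1 : lam.withDensity f ≤ m) (h2 : lam.withDensity g ≤ m) :
    lam.withDensity (f ⊔ g) ≤ m := by
  refine Measure.le_iff.2 fun s hs => ?_
  set t : Set α := {z | g z ≤ f z} with ht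
  have htm : MeasurableSet t := measurableSet_le hg hf
  rw [withDensity_apply _ hs, ← lintegral_inter_add_sdiff _ s htm]
  have e1 : ∫⁻ z in s ∩ t, (f ⊔ g) z ∂lam = ∫⁻ z in s ∩ t, f z ∂lam :=
    setLIntegral_congr_fun (hs.inter htm) fun z hz => sup_eq_left.2 hz.2
  have e2 : ∫⁻ z in s \ t, (f ⊔ g) z ∂lam = ∫⁻ z in s \ t, g z ∂lam :=
    setLIntegral_congr_fun (hs.diff htm) fun z hz => sup_eq_right.2 (le_of_lt (not_le.1 hz.2))
  rw [e1, e2, ← withDensity_apply _ (hs.inter htm), ← withDensity_apply _ (hs.diff htm)]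
  calc lam.withDensity f (s ∩ t) + lam.withDensity g (s \ t) ≤ m (s ∩ t) + m (s \ t) :=
        add_le_add (h1 _) (h2 _)
    _ = m s := measure_inter_add_sdiff s htm

lemma withDensity_iSup_le {g : ℕ → α → ℝ≥0∞} (hg : ∀ n, Measurable (g n))
    (h : ∀ n, lam.withDensity (g n) ≤ m) : lam.withDensity (fun z => ⨆ n, g n z) ≤ m := by
  have hm : ∀ n, Measurable (partialSups g n) := by
    intro n
    induction n with
    | zero => simpa using hg 0
    | succ n ih => rw [partialSups_add_one]; exact ih.sup (hg _)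
  have h1 : ∀ n, lam.withDensity (partialSups g n) ≤ m := by
    intro n
    induction n with
    | zero => simpa using h 0
    | succ n ih => rw [partialSups_add_one]; exact withDensity_sup_le (hm n) (hg _) ih (h _)
  have e : (fun z => ⨆ n, g n z) = fun z => ⨆ n, partialSups g n z := by
    have h2 := iSup_partialSups_eq g
    funext z
    have h3 := congrFun h2 z
    rw [iSup_apply, iSup_apply] at h3
    exact h3.symm
  rw [e]
  refine Measure.le_iff.2 fun s hs => ?_
  rw [withDensity_apply _ hs, lintegral_iSup hm fun a b hab => (partialSups g).monotone hab]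
  refine iSup_le fun n => ?_
  rw [← withDensity_apply _ hs]
  exact h1 n s

lemma withDensity_le_of_ae_le_iSup {ι : Type*} [Countable ι] [Nonempty ι] {g : ι → α → ℝ≥0∞}
    (hg : ∀ n, AEMeasurable (g n) lam) (h : ∀ n, lam.withDensity (g n) ≤ m) {f : α → ℝ≥0∞}
    (hf : ∀ᵐ z ∂lam, f z ≤ ⨆ n, g n z) : lam.withDensity f ≤ m := by
  obtain ⟨e, he⟩ := exists_surjective_nat ι
  have h1 : lam.withDensity (fun z => ⨆ n, (hg (e n)).mk (g (e n)) z) ≤ m := by
    refine withDensity_iSup_le (fun n => (hg (e n)).measurable_mk) fun n => ?_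
    rw [← withDensity_congr_ae (hg (e n)).ae_eq_mk]
    exact h (e n)
  refine le_trans (withDensity_mono ?_) h1
  have h2 : ∀ᵐ z ∂lam, ∀ n, g (e n) z = (hg (e n)).mk (g (e n)) z :=
    ae_all_iff.2 fun n => (hg (e n)).ae_eq_mk
  filter_upwards [hf, h2] with z hz h2z
  refine hz.trans ?_
  rw [← he.iSup_comp (g := fun n => g n z)]
  exact iSup_mono fun n => (h2z n).le

end pure

variable {k : ℕ} {X : Type u} [MetricSpace X] [MeasurableSpace X] [BorelSpace X]

/-- the mass measure of one chart. -/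
noncomputable def nu (E : Set (Euc k)) (φ : Euc k → X) (ρ : Euc k → ℝ)
    (G : Euc k → Matrix (Fin k) (Fin k) ℝ) : Measure X :=
  ((volume.restrict E).withDensity fun z => ENNReal.ofReal (|ρ z| * √(G z).det)).map φ

section one

variable {E : Set (Euc k)} {φ : Euc k → X} {G : Euc k → Matrix (Fin k) (Fin k) ℝ} {ρ : Euc k → ℝ}

omit [BorelSpace X] in
lemma MChart.isFinite (h : MChart E φ G) (hρ : IntegrableOn ρ E) :
    IsFiniteMeasure (nu E φ ρ G) := by
  have h1 : IsFiniteMeasure ((volume.restrict E).withDensity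
      fun z => ENNReal.ofReal (|ρ z| * √(G z).det)) := by
    refine isFiniteMeasure_withDensity_ofReal ?_
    exact (h.integrable hρ).2
  unfold nu
  infer_instance

lemma MChart.integral_nu (h : MChart E φ G) (hρ : IntegrableOn ρ E) {f : X → ℝ}
    (hf : Measurable f) :
    ∫ y, f y ∂(nu E φ ρ G) = ∫ z in E, |ρ z| * √(G z).det * f (φ z) := by
  have hint := h.integrable hρ
  have h1 : AEMeasurable (fun z => ENNReal.ofReal (|ρ z| * √(G z).det)) (volume.restrict E) :=
    hint.aestronglyMeasurable.aemeasurable.ennreal_ofReal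
  have h2 : AEMeasurable φ ((volume.restrict E).withDensity
      fun z => ENNReal.ofReal (|ρ z| * √(G z).det)) :=
    h.aemeasurable.mono_ac (withDensity_absolutelyContinuous _ _)
  unfold nu
  rw [integral_map h2 hf.aestronglyMeasurable,
    integral_withDensity_eq_integral_toReal_smul₀ h1 (ae_of_all _ fun z => ENNReal.ofReal_lt_top)]
  refine integral_congr_ae (ae_of_all _ fun z => ?_)
  change (ENNReal.ofReal _).toReal • f (φ z) = _
  rw [ENNReal.toReal_ofReal (by positivity), smul_eq_mul]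

lemma MChart.nu_univ (h : MChart E φ G) (hρ : IntegrableOn ρ E) :
    (nu E φ ρ G).real univ = ∫ z in E, |ρ z| * √(G z).det := by
  have := h.integral_nu hρ (f := fun _ => 1) measurable_const
  simpa [integral_const] using this

/-- the basic upper bound, for bounded measurable functions. -/
lemma MChart.abs_integral_le (h : MChart E φ G) (hρ : IntegrableOn ρ E) {f : X → ℝ}
    (hf : G1.BM f) {π : Fin k → X → ℝ} (hπ : ∀ i, LipschitzWith 1 (π i)) :
    |∫ z in E, ρ z * f (φ z) * jac E φ π z| ≤ ∫ y, |f y| ∂(nu E φ ρ G) := by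
  rw [h.integral_nu hρ hf.1.abs, ← Real.norm_eq_abs]
  obtain ⟨C, hC⟩ := hf.2
  have hfφ : AEMeasurable (fun z => f (φ z)) (volume.restrict E) := hf.1.comp_aemeasurable
    h.aemeasurable
  refine norm_integral_le_of_norm_le ?_ ?_
  · refine (h.integrable hρ).mul_bdd (c := C) (g := fun z => |f (φ z)|)
      hfφ.aestronglyMeasurable.norm (ae_of_all _ fun z => ?_)
    rw [Real.norm_eq_abs, abs_abs]; exact hC _
  · filter_upwards [h.ae_jac_le hπ] with z hz
    rw [Real.norm_eq_abs, abs_mul, abs_mul]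
    calc |ρ z| * |f (φ z)| * |jac E φ π z| ≤ |ρ z| * |f (φ z)| * √(G z).det := by gcongr
      _ = |ρ z| * √(G z).det * |f (φ z)| := by ring

lemma MChart.integrable_integrand (h : MChart E φ G) (hρ : IntegrableOn ρ E) {f : X → ℝ}
    (hf : G1.BM f) {π : Fin k → X → ℝ} (hπ : ∀ i, LipschitzWith 1 (π i)) :
    IntegrableOn (fun z => ρ z * f (φ z) * jac E φ π z) E := by
  obtain ⟨C, hC⟩ := hf.2
  have hfφ : AEMeasurable (fun z => f (φ z)) (volume.restrict E) := hf.1.comp_aemeasurable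
    h.aemeasurable
  obtain ⟨L, hL⟩ := h.lip
  have h1 : IntegrableOn (fun z => ρ z * f (φ z)) E :=
    hρ.mul_bdd (c := C) hfφ.aestronglyMeasurable (ae_of_all _ fun z => hC _)
  refine h1.mul_bdd (c := (L : ℝ) ^ k)
    (B1Cur.aemeasurable_jac h.measE hL fun i => ⟨1, hπ i⟩).aestronglyMeasurable ?_
  filter_upwards [h.ae_jac_le hπ, h.ae_sqrt_det_le hL] with z h1 h2
  rw [Real.norm_eq_abs]
  exact h1.trans h2


end one

/-! ### families of charts -/

section family

variable {ι : Type*} [Countable ι] {E : ι → Set (Euc k)} {φ : ι → Euc k → X}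
  {G : ι → Euc k → Matrix (Fin k) (Fin k) ℝ} {ρ : ι → Euc k → ℝ}

/-- the mass measure of a family of charts. -/
noncomputable def nuS (E : ι → Set (Euc k)) (φ : ι → Euc k → X) (ρ : ι → Euc k → ℝ)
    (G : ι → Euc k → Matrix (Fin k) (Fin k) ℝ) : Measure X :=
  Measure.sum fun i => nu (E i) (φ i) (ρ i) (G i)


/-- the extension of the functional to bounded measurable functions. -/
noncomputable def RR (E : ι → Set (Euc k)) (φ : ι → Euc k → X) (ρ : ι → Euc k → ℝ)
    (f : X → ℝ) (π : Fin k → X → ℝ) : ℝ :=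
  ∑' i, ∫ z in E i, ρ i z * f (φ i z) * jac (E i) (φ i) π z

omit [Countable ι] in
lemma hasSum_integral_nuS [IsFiniteMeasure (nuS E φ ρ G)] {f : X → ℝ} (hf : G1.BM f) :
    HasSum (fun i => ∫ y, |f y| ∂(nu (E i) (φ i) (ρ i) (G i))) (∫ y, |f y| ∂(nuS E φ ρ G)) :=
  hasSum_integral_measure (show Integrable (fun y => |f y|) (nuS E φ ρ G) from
    hf.abs.integrable _)

omit [Countable ι] in
lemma summable_RR (h : ∀ i, MChart (E i) (φ i) (G i)) (hρ : ∀ i, IntegrableOn (ρ i) (E i))
    [IsFiniteMeasure (nuS E φ ρ G)] {f : X → ℝ} (hf : G1.BM f) {π : Fin k → X → ℝ}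
    (hπ : ∀ i, LipschitzWith 1 (π i)) :
    Summable fun i => ∫ z in E i, ρ i z * f (φ i z) * jac (E i) (φ i) π z :=
  Summable.of_norm_bounded (hasSum_integral_nuS (E := E) (φ := φ) (ρ := ρ) (G := G) hf).summable
    fun i => (h i).abs_integral_le (hρ i) hf hπ

omit [Countable ι] in
lemma abs_RR_le (h : ∀ i, MChart (E i) (φ i) (G i)) (hρ : ∀ i, IntegrableOn (ρ i) (E i))
    [IsFiniteMeasure (nuS E φ ρ G)] {f : X → ℝ} (hf : G1.BM f) {π : Fin k → X → ℝ}
    (hπ : ∀ i, LipschitzWith 1 (π i)) :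
    |RR E φ ρ f π| ≤ ∫ y, |f y| ∂(nuS E φ ρ G) := by
  unfold RR
  rw [← Real.norm_eq_abs]
  exact tsum_of_norm_bounded (hasSum_integral_nuS (E := E) (φ := φ) (ρ := ρ) (G := G) hf)
    fun i => (h i).abs_integral_le (hρ i) hf hπ

omit [Countable ι] in
lemma RR_sub (h : ∀ i, MChart (E i) (φ i) (G i)) (hρ : ∀ i, IntegrableOn (ρ i) (E i))
    [IsFiniteMeasure (nuS E φ ρ G)] {f g : X → ℝ} (hf : G1.BM f) (hg : G1.BM g)
    {π : Fin k → X → ℝ} (hπ : ∀ i, LipschitzWith 1 (π i)) :
    RR E φ ρ (f - g) π = RR E φ ρ f π - RR E φ ρ g π := by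
  unfold RR
  rw [← (summable_RR h hρ hf hπ).tsum_sub (summable_RR h hρ hg hπ)]
  refine tsum_congr fun i => ?_
  rw [← integral_sub ((h i).integrable_integrand (hρ i) hf hπ)
    ((h i).integrable_integrand (hρ i) hg hπ)]
  refine integral_congr_ae (ae_of_all _ fun z => ?_)
  simp only [Pi.sub_apply]
  ring

omit [Countable ι] [MeasurableSpace X] [BorelSpace X] in
/-- the functional represented by the charts agrees with `RR`. -/
lemma tsum_chartR_eq {f : X → ℝ} {π : Fin k → X → ℝ} (h : IsTestPair f π) :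
    ∑' i, chartR (E i) (φ i) (ρ i) f π = RR E φ ρ f π :=
  tsum_congr fun _ => B1Cur.chartR_of_test h

omit [Countable ι] in
/-- **upper bound**: the mass measure controls the functional. -/
theorem controls_nuS {T : Functional X k} (h : ∀ i, MChart (E i) (φ i) (G i))
    (hρ : ∀ i, IntegrableOn (ρ i) (E i)) [IsFiniteMeasure (nuS E φ ρ G)]
    (hT : ∀ f π, IsTestPair f π → T f π = ∑' i, chartR (E i) (φ i) (ρ i) f π) :
    Controls T (nuS E φ ρ G) := by
  intro f π hfπ hπ
  rw [hT f π hfπ, tsum_chartR_eq hfπ]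
  exact abs_RR_le h hρ (G1.isTestPair_iff.1 hfπ).1.bm hπ

omit [Countable ι] in
/-- any controlling measure controls the extension to bounded measurable functions. -/
lemma abs_RR_le_of_controls {T : Functional X k} (h : ∀ i, MChart (E i) (φ i) (G i))
    (hρ : ∀ i, IntegrableOn (ρ i) (E i)) [IsFiniteMeasure (nuS E φ ρ G)]
    (hT : ∀ f π, IsTestPair f π → T f π = ∑' i, chartR (E i) (φ i) (ρ i) f π)
    {μ : Measure X} [IsFiniteMeasure μ] (hμ : Controls T μ)
    {f : X → ℝ} (hf : G1.BM f) {π : Fin k → X → ℝ} (hπ : ∀ i, LipschitzWith 1 (π i)) :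
    |RR E φ ρ f π| ≤ ∫ y, |f y| ∂μ := by
  obtain ⟨C, hC⟩ := hf.2
  obtain ⟨g, hg1, hg2, hg3⟩ := G1.exists_seq_BL (μ + nuS E φ ρ G) hf.1 hC
  have hgm : ∀ n, G1.BM (g n) := fun n => (hg1 n).bm
  have hLip : G1.LipT π := fun i => ⟨1, hπ i⟩
  have key : ∀ n, |RR E φ ρ f π| ≤ (∫ y, |f y| ∂μ) + ∫ y, |f y - g n y| ∂(μ + nuS E φ ρ G) := by
    intro n
    have h1 : |RR E φ ρ f π| ≤ |RR E φ ρ (f - g n) π| + |RR E φ ρ (g n) π| := by
      rw [RR_sub h hρ hf (hgm n) hπ]
      have := abs_add_le (RR E φ ρ f π - RR E φ ρ (g n) π) (RR E φ ρ (g n) π)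
      rwa [sub_add_cancel] at this
    have h2 : |RR E φ ρ (f - g n) π| ≤ ∫ y, |f y - g n y| ∂(nuS E φ ρ G) :=
      abs_RR_le h hρ (hf.sub (hgm n)) hπ
    have h3 : |RR E φ ρ (g n) π| ≤ ∫ y, |g n y| ∂μ := by
      have ht : IsTestPair (g n) π := (hg1 n).isTestPair hLip
      rw [← tsum_chartR_eq ht, ← hT _ _ ht]
      exact hμ _ _ ht hπ
    have h4 : ∫ y, |g n y| ∂μ ≤ (∫ y, |f y| ∂μ) + ∫ y, |f y - g n y| ∂μ := by
      have hi : Integrable (fun y => |f y - g n y|) μ := (hf.sub (hgm n)).abs.integrable μ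
      rw [← integral_add (hf.abs.integrable μ) hi]
      refine integral_mono ((hgm n).abs.integrable μ) ((hf.abs.integrable μ).add hi) fun y => ?_
      have := abs_sub_abs_le_abs_sub (g n y) (f y)
      rw [abs_sub_comm (g n y)] at this
      beta_reduce
      linarith
    have h5 : ∫ y, |f y - g n y| ∂(μ + nuS E φ ρ G) =
        (∫ y, |f y - g n y| ∂μ) + ∫ y, |f y - g n y| ∂(nuS E φ ρ G) :=
      integral_add_measure ((hf.sub (hgm n)).abs.integrable μ)
        ((hf.sub (hgm n)).abs.integrable _)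
    rw [h5]
    linarith
  have hlim : Tendsto (fun n => (∫ y, |f y| ∂μ) + ∫ y, |f y - g n y| ∂(μ + nuS E φ ρ G)) atTop
      (𝓝 ((∫ y, |f y| ∂μ) + 0)) := tendsto_const_nhds.add hg3
  rw [add_zero] at hlim
  exact ge_of_tendsto hlim (Eventually.of_forall key)

omit [Countable ι] [MeasurableSpace X] [BorelSpace X] in
/-- restriction to a piece of one chart. -/
lemma RR_indicator {i : ι} (h : ∀ i, MChart (E i) (φ i) (G i)) (hinj : InjOn (φ i) (E i))
    (hdisj : ∀ i j, i ≠ j → Disjoint (φ i '' E i) (φ j '' E j)) {B : Set (Euc k)}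
    (hBm : MeasurableSet B) (hB : B ⊆ E i) (π : Fin k → X → ℝ) :
    RR E φ ρ ((φ i '' B).indicator fun _ => 1) π = ∫ z in B, ρ i z * jac (E i) (φ i) π z := by
  classical
  unfold RR
  rw [tsum_eq_single i]
  · have e1 : (∫ z in E i, ρ i z * (φ i '' B).indicator (fun _ => (1 : ℝ)) (φ i z) *
        jac (E i) (φ i) π z) =
        ∫ z in E i, B.indicator (fun z => ρ i z * jac (E i) (φ i) π z) z := by
      refine setIntegral_congr_fun (h i).measE fun z hz => ?_
      by_cases hzB : z ∈ B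
      · have : φ i z ∈ φ i '' B := mem_image_of_mem _ hzB
        simp [this, hzB]
      · have : φ i z ∉ φ i '' B := by
          rintro ⟨z', hz', he⟩
          rw [hinj (hB hz') hz he] at hz'
          exact hzB hz'
        simp [this, hzB]
    rw [e1, setIntegral_indicator hBm, inter_eq_right.2 hB]
  · intro j hj
    have e1 : ∀ z ∈ E j, ρ j z * (φ i '' B).indicator (fun _ => (1 : ℝ)) (φ j z) *
        jac (E j) (φ j) π z = 0 := by
      intro z hz
      have : φ j z ∉ φ i '' B := fun hcon =>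
        (Set.disjoint_left.1 (hdisj j i hj)) (mem_image_of_mem _ hz) (image_mono hB hcon)
      simp [this]
    rw [setIntegral_congr_fun (h j).measE e1]
    simp

end family

end Crest.Agent.R241.B5a
end

-- ▼ part R241/B5a4
section

/-!
# R241, block B5a4: the mass measure is the least controlling measure; mass formula
-/

set_option autoImplicit false

open MeasureTheory Measure Filter Topology Matrix Set
open scoped NNReal ENNReal MatrixOrder

namespace Crest.Agent.R241.B5a

open Crest.GeometryTopology.MetricCurrent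
open Crest.GeometryTopology.Submanifold (Euc)
open Crest.Agent.R241.B3a Crest.Agent.R241.B3b Crest.Agent.R241.B3c
open Crest.Agent.R241.B1Cur (jac chartR)

universe u

variable {k : ℕ} {X : Type u} [MetricSpace X] [MeasurableSpace X] [BorelSpace X]

section pull

variable {E : Set (Euc k)} {φ : Euc k → X}

/-- pull back of a measure under a chart. -/
noncomputable def pull (E : Set (Euc k)) (φ : Euc k → X) (μ : Measure X) : Measure (Euc k) :=
  (μ.comap (E.domRestrict φ)).map Subtype.val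

lemma pull_apply (hE : MeasurableSet E) (hc : ContinuousOn φ E) (hinj : InjOn φ E) (μ : Measure X)
    {B : Set (Euc k)} (hB : MeasurableSet B) : pull E φ μ B = μ (φ '' (E ∩ B)) := by
  have he := hc.measurableEmbedding hE hinj
  unfold pull
  rw [map_apply measurable_subtype_coe hB, he.comap_apply]
  congr 1
  ext y
  constructor
  · rintro ⟨⟨z, hz⟩, hzB, rfl⟩
    exact ⟨z, ⟨hz, hzB⟩, rfl⟩
  · rintro ⟨z, ⟨hz, hzB⟩, rfl⟩
    exact ⟨⟨z, hz⟩, hzB, rfl⟩

lemma map_pull (hE : MeasurableSet E) (hc : ContinuousOn φ E) (hinj : InjOn φ E) (μ : Measure X) :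
    AEMeasurable φ (pull E φ μ) ∧ (pull E φ μ).map φ = μ.restrict (φ '' E) := by
  have he := hc.measurableEmbedding hE hinj
  have hv : MeasurableEmbedding (Subtype.val : E → Euc k) := MeasurableEmbedding.subtype_coe hE
  have h1 : AEMeasurable φ (pull E φ μ) := by
    unfold pull
    rw [hv.aemeasurable_map_iff]
    exact he.measurable.aemeasurable
  refine ⟨h1, ?_⟩
  have h2 : (pull E φ μ).map φ = (μ.comap (E.domRestrict φ)).map (φ ∘ Subtype.val) :=
    AEMeasurable.map_map_of_aemeasurable h1 measurable_subtype_coe.aemeasurable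
  rw [h2]
  have h3 : φ ∘ (Subtype.val : E → Euc k) = E.domRestrict φ := rfl
  rw [h3, he.map_comap]
  congr 1
  ext y
  constructor
  · rintro ⟨⟨z, hz⟩, rfl⟩
    exact ⟨z, hz, rfl⟩
  · rintro ⟨z, hz, rfl⟩
    exact ⟨⟨z, hz⟩, rfl⟩

end pull

section family

variable {ι : Type*} [Countable ι] {E : ι → Set (Euc k)} {φ : ι → Euc k → X}
  {G : ι → Euc k → Matrix (Fin k) (Fin k) ℝ} {ρ : ι → Euc k → ℝ}

omit [Countable ι] in
lemma withDensity_jac_le {T : Functional X k} (h : ∀ i, MChart (E i) (φ i) (G i))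
    (hρ : ∀ i, IntegrableOn (ρ i) (E i)) [IsFiniteMeasure (nuS E φ ρ G)]
    (hdisj : ∀ i j, i ≠ j → Disjoint (φ i '' E i) (φ j '' E j))
    (hT : ∀ f π, IsTestPair f π → T f π = ∑' i, chartR (E i) (φ i) (ρ i) f π)
    {μ : Measure X} [IsFiniteMeasure μ] (hμ : Controls T μ) {i : ι} (hinj : InjOn (φ i) (E i))
    {π : Fin k → X → ℝ} (hπ : ∀ i, LipschitzWith 1 (π i)) :
    (volume.restrict (E i)).withDensity
      (fun z => ENNReal.ofReal |ρ i z * jac (E i) (φ i) π z|) ≤ pull (E i) (φ i) μ := by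
  obtain ⟨L, hL⟩ := (h i).lip
  have hE := (h i).measE
  set g : Euc k → ℝ := fun z => ρ i z * jac (E i) (φ i) π z with hg
  have hgint : IntegrableOn g (E i) := by
    have := (h i).integrable_integrand (hρ i) (G1.BM.const (X := X) 1) hπ
    simpa [hg] using this
  set g' := hgint.aestronglyMeasurable.mk g with hg'
  have hg'm : StronglyMeasurable g' := hgint.aestronglyMeasurable.stronglyMeasurable_mk
  have hgg' : g =ᵐ[volume.restrict (E i)] g' := hgint.aestronglyMeasurable.ae_eq_mk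
  -- basic estimate on a Borel piece
  have key : ∀ B : Set (Euc k), MeasurableSet B → B ⊆ E i →
      |∫ z in B, g z| ≤ (μ (φ i '' B)).toReal := by
    intro B hBm hB
    have himg : MeasurableSet (φ i '' B) :=
      hBm.image_of_continuousOn_injOn (hL.continuousOn.mono hB) (hinj.mono hB)
    have h1 := abs_RR_le_of_controls h hρ hT hμ
      (f := (φ i '' B).indicator fun _ => 1) ((G1.BM.const 1).indicator himg) hπ
    rw [RR_indicator h hinj hdisj hBm hB π] at h1
    refine h1.trans (le_of_eq ?_)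
    have h2 : (fun y => |(φ i '' B).indicator (fun _ => (1 : ℝ)) y|) =
        (φ i '' B).indicator fun _ => (1 : ℝ) := by
      funext y
      by_cases hy : y ∈ φ i '' B <;> simp [hy]
    rw [h2, integral_indicator himg]
    simp [Measure.real]
  -- pieces where `g` has constant sign
  have key2 : ∀ B : Set (Euc k), MeasurableSet B →
      ((∀ z ∈ B, 0 ≤ g' z) ∨ (∀ z ∈ B, g' z ≤ 0)) →
      ∫⁻ z in B, ENNReal.ofReal |g z| ∂(volume.restrict (E i)) ≤ pull (E i) (φ i) μ B := by
    intro B hBm hs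
    rw [pull_apply hE hL.continuousOn hinj μ hBm, restrict_restrict hBm]
    have hBE : MeasurableSet (B ∩ E i) := hBm.inter hE
    have hint : IntegrableOn g (B ∩ E i) := hgint.mono_set inter_subset_right
    have h1 := key (B ∩ E i) hBE inter_subset_right
    have h2 : |∫ z in B ∩ E i, g z| = ∫ z in B ∩ E i, |g z| := by
      have hgg2 : g =ᵐ[volume.restrict (B ∩ E i)] g' :=
        ae_restrict_of_ae_restrict_of_subset inter_subset_right hgg'
      rcases hs with hs | hs
      · have e : (fun z => |g z|) =ᵐ[volume.restrict (B ∩ E i)] g := by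
          filter_upwards [hgg2, ae_restrict_mem hBE] with z hz hzB
          rw [hz, abs_of_nonneg (hs z hzB.1)]
        rw [integral_congr_ae e, abs_of_nonneg]
        rw [← integral_congr_ae e]
        exact integral_nonneg fun z => abs_nonneg _
      · have e : (fun z => |g z|) =ᵐ[volume.restrict (B ∩ E i)] fun z => -g z := by
          filter_upwards [hgg2, ae_restrict_mem hBE] with z hz hzB
          rw [hz, abs_of_nonpos (hs z hzB.1)]
        rw [integral_congr_ae e, integral_neg, abs_of_nonpos]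
        have h3 : 0 ≤ ∫ z in B ∩ E i, -g z := by
          rw [← integral_congr_ae e]
          exact integral_nonneg fun z => abs_nonneg _
        rw [integral_neg] at h3
        linarith
    rw [h2] at h1
    rw [← ofReal_integral_eq_lintegral_ofReal hint.abs (ae_of_all _ fun z => abs_nonneg _),
      inter_comm (E i)]
    exact ENNReal.ofReal_le_of_le_toReal h1
  refine Measure.le_iff.2 fun B hBm => ?_
  set P : Set (Euc k) := {z | 0 ≤ g' z} with hP
  have hPm : MeasurableSet P := measurableSet_le measurable_const hg'm.measurable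
  rw [withDensity_apply _ hBm, ← lintegral_inter_add_sdiff _ B hPm,
    ← measure_inter_add_sdiff B hPm]
  refine add_le_add (key2 _ (hBm.inter hPm) (Or.inl fun z hz => hz.2))
    (key2 _ (hBm.diff hPm) (Or.inr fun z hz => ?_))
  exact le_of_lt (not_le.1 hz.2)

omit [Countable ι] in
/-- **lower bound** on one chart. -/
theorem nu_le_restrict {T : Functional X k} (h : ∀ i, MChart (E i) (φ i) (G i))
    (hρ : ∀ i, IntegrableOn (ρ i) (E i)) [IsFiniteMeasure (nuS E φ ρ G)]
    (hdisj : ∀ i j, i ≠ j → Disjoint (φ i '' E i) (φ j '' E j))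
    (hT : ∀ f π, IsTestPair f π → T f π = ∑' i, chartR (E i) (φ i) (ρ i) f π)
    {μ : Measure X} [IsFiniteMeasure μ] (hμ : Controls T μ) {i : ι} (hinj : InjOn (φ i) (E i)) :
    nu (E i) (φ i) (ρ i) (G i) ≤ μ.restrict (φ i '' E i) := by
  obtain ⟨L, hL⟩ := (h i).lip
  have hE := (h i).measE
  rcases (E i).eq_empty_or_nonempty with hem | hne
  · have : nu (E i) (φ i) (ρ i) (G i) = 0 := by
      unfold nu
      rw [hem]
      simp
    rw [this]
    exact Measure.zero_le _
  obtain ⟨x, hx⟩ := (h i).exists_seq hne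
  have h1 : (volume.restrict (E i)).withDensity
      (fun z => ENNReal.ofReal (|ρ i z| * √(G i z).det)) ≤ pull (E i) (φ i) μ := by
    refine withDensity_le_of_ae_le_iSup (ι := Fin k → ℕ)
      (g := fun J z => ENNReal.ofReal |ρ i z * jac (E i) (φ i) (fun l p => dist (x (J l)) p) z|)
      (fun J => ?_) (fun J => ?_) ?_
    · have hm : AEMeasurable (fun z => ρ i z * jac (E i) (φ i) (fun l p => dist (x (J l)) p) z)
          (volume.restrict (E i)) :=
        (hρ i).aestronglyMeasurable.aemeasurable.mul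
          (B1Cur.aemeasurable_jac hE hL fun l => ⟨1, LipschitzWith.dist_right _⟩)
      exact (hm.abs).ennreal_ofReal
    · exact withDensity_jac_le h hρ hdisj hT hμ hinj fun l => LipschitzWith.dist_right _
    · filter_upwards [(h i).ae_exists_jac hx] with z hz
      by_contra hcon
      push Not at hcon
      set s : ℝ≥0∞ := ⨆ J : Fin k → ℕ,
        ENNReal.ofReal |ρ i z * jac (E i) (φ i) (fun l p => dist (x (J l)) p) z| with hs
      have hs_top : s ≠ ⊤ := (hcon.trans ENNReal.ofReal_lt_top).ne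
      have h2 : s.toReal < |ρ i z| * √(G i z).det := by
        rw [← ENNReal.ofReal_toReal hs_top] at hcon
        exact (ENNReal.ofReal_lt_ofReal_iff_of_nonneg ENNReal.toReal_nonneg).1 hcon
      have hρpos : 0 < |ρ i z| := by
        rcases (abs_nonneg (ρ i z)).lt_or_eq with h3 | h3
        · exact h3
        · rw [← h3, zero_mul] at h2
          exact absurd h2 (not_lt.2 ENNReal.toReal_nonneg)
      have h3 : s.toReal / |ρ i z| < √(G i z).det := by
        rw [div_lt_iff₀ hρpos, mul_comm]; exact h2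
      obtain ⟨J, hJ⟩ := hz _ h3
      rw [div_lt_iff₀ hρpos, mul_comm, ← abs_mul] at hJ
      have h4 : s < ENNReal.ofReal
          |ρ i z * jac (E i) (φ i) (fun l p => dist (x (J l)) p) z| := by
        conv_lhs => rw [← ENNReal.ofReal_toReal hs_top]
        exact (ENNReal.ofReal_lt_ofReal_iff_of_nonneg ENNReal.toReal_nonneg).2 hJ
      exact absurd (le_iSup (fun J : Fin k → ℕ =>
        ENNReal.ofReal |ρ i z * jac (E i) (φ i) (fun l p => dist (x (J l)) p) z|) J)
        (not_le.2 h4)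
  have h2 := map_pull hE hL.continuousOn hinj μ
  unfold nu
  rw [← h2.2]
  exact Measure.map_mono_of_aemeasurable h1 h2.1

/-- **lower bound**: the mass measure is the least controlling measure. -/
theorem nuS_le {T : Functional X k} (h : ∀ i, MChart (E i) (φ i) (G i))
    (hρ : ∀ i, IntegrableOn (ρ i) (E i)) [IsFiniteMeasure (nuS E φ ρ G)]
    (hdisj : ∀ i j, i ≠ j → Disjoint (φ i '' E i) (φ j '' E j))
    (hinj : ∀ i, InjOn (φ i) (E i))
    (hT : ∀ f π, IsTestPair f π → T f π = ∑' i, chartR (E i) (φ i) (ρ i) f π)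
    {μ : Measure X} [IsFiniteMeasure μ] (hμ : Controls T μ) : nuS E φ ρ G ≤ μ := by
  refine Measure.le_iff.2 fun A hA => ?_
  unfold nuS
  rw [Measure.sum_apply _ hA]
  have himg : ∀ i, MeasurableSet (φ i '' E i) := fun i => by
    obtain ⟨L, hL⟩ := (h i).lip
    exact (h i).measE.image_of_continuousOn_injOn hL.continuousOn (hinj i)
  calc ∑' i, nu (E i) (φ i) (ρ i) (G i) A ≤ ∑' i, μ (A ∩ φ i '' E i) := by
        refine ENNReal.tsum_le_tsum fun i => ?_
        have := nu_le_restrict h hρ hdisj hT hμ (hinj i) A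
        rwa [restrict_apply hA] at this
    _ = μ (⋃ i, A ∩ φ i '' E i) := by
        rw [measure_iUnion (fun i j hij => ?_) fun i => hA.inter (himg i)]
        exact (hdisj i j hij).mono inter_subset_right inter_subset_right
    _ ≤ μ A := measure_mono (iUnion_subset fun i => inter_subset_left)

/-- **mass formula**. -/
theorem mass_eq {T : Functional X k} (h : ∀ i, MChart (E i) (φ i) (G i))
    (hρ : ∀ i, IntegrableOn (ρ i) (E i)) [hfin : IsFiniteMeasure (nuS E φ ρ G)]
    (hdisj : ∀ i j, i ≠ j → Disjoint (φ i '' E i) (φ j '' E j))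
    (hinj : ∀ i, InjOn (φ i) (E i))
    (hT : ∀ f π, IsTestPair f π → T f π = ∑' i, chartR (E i) (φ i) (ρ i) f π) :
    mass T = (nuS E φ ρ G).real univ := by
  unfold mass
  refine le_antisymm (csInf_le ⟨0, ?_⟩ ⟨nuS E φ ρ G, hfin, controls_nuS h hρ hT, rfl⟩)
    (le_csInf ⟨_, nuS E φ ρ G, hfin, controls_nuS h hρ hT, rfl⟩ ?_)
  · rintro r ⟨μ, -, -, rfl⟩
    exact ENNReal.toReal_nonneg
  · rintro r ⟨μ, hμf, hμ, rfl⟩
    exact ENNReal.toReal_mono (measure_ne_top _ _) (nuS_le h hρ hdisj hinj hT hμ univ)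

end family

section single

variable {E : Set (Euc k)} {φ : Euc k → X} {G : Euc k → Matrix (Fin k) (Fin k) ℝ} {ρ : Euc k → ℝ}

/-- mass of one chart action. -/
theorem mass_chartR (h : MChart E φ G) (hρ : IntegrableOn ρ E) (hinj : InjOn φ E) :
    mass (chartR E φ ρ) = ∫ z in E, |ρ z| * √(G z).det := by
  have e : nuS (fun _ : Unit => E) (fun _ => φ) (fun _ => ρ) (fun _ => G) = nu E φ ρ G := by
    unfold nuS
    ext A hA
    rw [Measure.sum_apply _ hA, tsum_fintype]
    simp
  have hfin : IsFiniteMeasure (nu E φ ρ G) := h.isFinite hρ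
  have hfin' : IsFiniteMeasure
      (nuS (fun _ : Unit => E) (fun _ => φ) (fun _ => ρ) (fun _ => G)) := by rw [e]; exact hfin
  have := mass_eq (ι := Unit) (E := fun _ => E) (φ := fun _ => φ) (ρ := fun _ => ρ)
    (G := fun _ => G) (T := chartR E φ ρ) (fun _ => h) (fun _ => hρ)
    (fun i j hij => absurd (Subsingleton.elim i j) hij) (fun _ => hinj)
    (fun f π _ => by rw [tsum_fintype]; simp)
  rw [this, e, h.nu_univ hρ]

end single

end Crest.Agent.R241.B5a
end

-- ▼ part R241/B5a5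

/-!
# R241, block B5a5: the mass data of an integer rectifiable functional
-/

set_option autoImplicit false

open MeasureTheory Measure Filter Topology Matrix Set
open scoped NNReal ENNReal MatrixOrder

namespace Crest.Agent.R241.B5a

open Crest.GeometryTopology.MetricCurrent
open Crest.GeometryTopology.Submanifold (Euc)
open Crest.Agent.R241.B3a Crest.Agent.R241.B3b Crest.Agent.R241.B3c
open Crest.Agent.R241.B1Cur (jac chartR)

universe u

variable {k : ℕ} {X : Type u} [MetricSpace X] [MeasurableSpace X] [BorelSpace X]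

section family

variable {ι : Type*} [Countable ι] {E : ι → Set (Euc k)} {φ : ι → Euc k → X}
  {G : ι → Euc k → Matrix (Fin k) (Fin k) ℝ} {ρ : ι → Euc k → ℝ}

omit [Countable ι] in
lemma nuS_univ (h : ∀ i, MChart (E i) (φ i) (G i)) (hρ : ∀ i, IntegrableOn (ρ i) (E i)) :
    nuS E φ ρ G univ = ∑' i, ENNReal.ofReal (∫ z in E i, |ρ i z| * √(G i z).det) := by
  unfold nuS
  rw [Measure.sum_apply _ MeasurableSet.univ]
  refine tsum_congr fun i => ?_
  have := (h i).isFinite (hρ i)
  rw [← (h i).nu_univ (hρ i), Measure.real, ENNReal.ofReal_toReal (measure_ne_top _ _)]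

omit [Countable ι] in
lemma isFinite_of_summable (h : ∀ i, MChart (E i) (φ i) (G i))
    (hρ : ∀ i, IntegrableOn (ρ i) (E i))
    (hs : Summable fun i => ∫ z in E i, |ρ i z| * √(G i z).det) :
    IsFiniteMeasure (nuS E φ ρ G) := by
  refine ⟨?_⟩
  rw [nuS_univ h hρ, ← ENNReal.ofReal_tsum_of_nonneg (fun i => ?_) hs]
  · exact ENNReal.ofReal_lt_top
  · exact integral_nonneg fun z => by positivity





end family


/-- the mass data of an integer rectifiable functional in a space with the quadrilateral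
inequality (in particular `CAT(0)`). -/
structure MassData (T : Functional X k) where
  E : ℕ → Set (Euc k)
  φ : ℕ → Euc k → X
  θ : ℕ → Euc k → ℤ
  G : ℕ → Euc k → Matrix (Fin k) (Fin k) ℝ
  chart : ∀ i, MChart (E i) (φ i) (G i)
  bdd : ∀ i, Bornology.IsBounded (E i)
  colip : ∀ i, ∃ C : ℝ, ∀ z ∈ E i, ∀ w ∈ E i, dist z w ≤ C * dist (φ i z) (φ i w)
  inj : ∀ i, InjOn (φ i) (E i)
  intθ : ∀ i, IntegrableOn (fun z => (θ i z : ℝ)) (E i)
  disj : ∀ i j, i ≠ j → Disjoint (φ i '' E i) (φ j '' E j)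
  cur : ∀ i, IsCurrent (chartAction (E i) (φ i) (θ i))
  fin : IsFiniteMeasure (nuS E φ (fun i z => (θ i z : ℝ)) G)
  repr : ∀ f π, IsTestPair f π → HasSum (fun i => chartAction (E i) (φ i) (θ i) f π) (T f π)

namespace MassData

variable {T : Functional X k} (D : MassData T)

/-- the mass measure `‖T‖`. -/
noncomputable def τ : Measure X := nuS D.E D.φ (fun i z => (D.θ i z : ℝ)) D.G

instance isFiniteMeasure_tau : IsFiniteMeasure D.τ := D.fin


omit [BorelSpace X] in
lemma repr' (f : X → ℝ) (π : Fin k → X → ℝ) (h : IsTestPair f π) :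
    T f π = ∑' i, chartR (D.E i) (D.φ i) (fun z => (D.θ i z : ℝ)) f π :=
  (D.repr f π h).tsum_eq.symm



theorem mass_eq : mass T = D.τ.real univ :=
  haveI := D.fin
  B5a.mass_eq D.chart D.intθ D.disj D.inj D.repr'


omit [BorelSpace X] in
theorem integrable (i : ℕ) :
    Integrable (fun z => |(D.θ i z : ℝ)| * √(D.G i z).det) (volume.restrict (D.E i)) :=
  (D.chart i).integrable (D.intθ i)




end MassData


end Crest.Agent.R241.B5a
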