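import Crest.Agent.R241.B8Cone3
import Crest.Agent.R241.B5u
import Crest.Agent.R241.B4Norm
import Crest.Agent.R241.B5a5_Mg
import Crest.Agent.R241.B9Defs

-- ▼ part R241/B8Cone4
section

/-!
# R241, block B8: the cone, mass bound and final statement (owner: helper971)

* `chsOf F`: the chart family of `FVCharts`.
* `cone_of_charts`: the cone inequality for a cycle with chart data.
-/

set_option autoImplicit false
set_option linter.unusedSectionVars false
set_option linter.unusedSimpArgs false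

open MeasureTheory Filter Topology Set Asymptotics
open scoped ENNReal NNReal

universe u

namespace Crest.Agent.R241.B8Cone

open Crest.GeometryTopology.MetricCurrent
open Crest.GeometryTopology.Submanifold (Euc)
open Crest.Agent.R241.B8Fubini
open Crest.Agent.R241.B8
open Crest.Agent.R241.B9
open Crest.Agent.R241.B5u
open Crest.Agent.R241.G1 (BL LipT isTestPair_iff)
open Crest.Agent.R241.B1c1 (push push_apply push_of_not isTestPair_comp)
open Matrix

/-! ### quadratic forms -/

theorem abs_qf_le {n : ℕ} (G : Matrix (Fin n) (Fin n) ℝ) (v : Euc n) :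
    |qf G v| ≤ (∑ a, ∑ b, |G a b|) * ‖v‖ ^ 2 := by
  unfold qf
  simp only [dotProduct, mulVec, Finset.mul_sum, Finset.sum_mul]
  refine (Finset.abs_sum_le_sum_abs _ _).trans (Finset.sum_le_sum fun a _ => ?_)
  refine (Finset.abs_sum_le_sum_abs _ _).trans (Finset.sum_le_sum fun b _ => ?_)
  rw [abs_mul, abs_mul]
  have h1 : |v a| ≤ ‖v‖ := by
    have := EuclideanSpace.norm_sq_eq v
    have h2 : ‖v a‖ ^ 2 ≤ ‖v‖ ^ 2 := by
      rw [this]
      exact Finset.single_le_sum (f := fun i => ‖v i‖ ^ 2) (fun i _ => by positivity)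
        (Finset.mem_univ a)
    simpa using abs_le_of_sq_le_sq' h2 (norm_nonneg _)|>.2
  have h1' : |v b| ≤ ‖v‖ := by
    have := EuclideanSpace.norm_sq_eq v
    have h2 : ‖v b‖ ^ 2 ≤ ‖v‖ ^ 2 := by
      rw [this]
      exact Finset.single_le_sum (f := fun i => ‖v i‖ ^ 2) (fun i _ => by positivity)
        (Finset.mem_univ b)
    simpa using abs_le_of_sq_le_sq' h2 (norm_nonneg _)|>.2
  calc |v a| * (|G a b| * |v b|) ≤ ‖v‖ * (|G a b| * ‖v‖) := by gcongr
    _ = |G a b| * ‖v‖ ^ 2 := by ring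

/-! ### a.e. statements on product charts -/

theorem ae_prodSet_ne_zero {n : ℕ} (E : Set (Euc n)) :
    ∀ᵐ w ∂(volume.restrict (prodSet E)), w 0 ≠ 0 := by
  refine ae_restrict_of_ae ?_
  have h2 : ∀ᵐ q ∂(volume.prod volume : Measure (ℝ × Euc n)), q.1 ≠ 0 := by
    have := Measure.quasiMeasurePreserving_fst (μ := (volume : Measure ℝ))
      (ν := (volume : Measure (Euc n)))
    exact this.ae (Measure.ae_ne volume 0)
  exact (measurePreserving_splitE n).quasiMeasurePreserving.ae h2

theorem integrable_prodSet {n : ℕ} {E : Set (Euc n)} {a : ℝ → ℝ} {b : Euc n → ℝ}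
    (ha : IntegrableOn a (Icc (0 : ℝ) 1)) (hb : IntegrableOn b E) :
    IntegrableOn (fun w : Euc (n + 1) => a (w 0) * b (tl w)) (prodSet E) := by
  have h := (measurePreserving_splitE n).restrict_preimage_emb (splitE n).measurableEmbedding
    (Icc (0 : ℝ) 1 ×ˢ E)
  rw [← prodSet_eq, ← Measure.prod_restrict] at h
  exact (h.integrable_comp_emb (splitE n).measurableEmbedding).2 (ha.mul_prod hb)


/-! ### the chart family of `FVCharts` -/

variable {X : Type u} [MetricSpace X] [MeasurableSpace X] [BorelSpace X] {κ : ℝ} {K : Set X}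
  [CompactSpace K] {m : ℕ} {T : Functional X (m + 1)} {P : A.PreData (m + 1) κ K}

theorem real_muJ (F : FVCharts T P) (i : ℕ) :
    (muJ (F.E i) (F.φ i) (fun z => (F.θ i z : ℝ)) fun z => √(F.G i z).det).real univ
      = ∫ z in F.E i, |(F.θ i z : ℝ)| * √(F.G i z).det := by
  obtain ⟨L, hL⟩ := F.lipφ i
  exact real_univ_muJ (F.measE i) hL (F.intG i) (Eventually.of_forall fun z => Real.sqrt_nonneg _)

/-- the chart family. -/
noncomputable def chsOf (F : FVCharts T P) : Chs (m + 1) X where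
  E := F.E
  φ := F.φ
  θ := F.θ
  L := fun i => (F.lipφ i).choose
  μ := fun i => muJ (F.E i) (F.φ i) (fun z => (F.θ i z : ℝ)) fun z => √(F.G i z).det
  measE := F.measE
  lip := fun i => (F.lipφ i).choose_spec
  int := F.intθ
  cur := fun i => B1Cur.isCurrent_chartAction (F.measE i) (F.lipφ i).choose_spec (F.intθ i)
  fin := fun i => isFiniteMeasure_muJ (F.intG i)
  ctrl := fun i => controls_chartAction_det (F.measE i) (F.lipφ i).choose_spec (F.intθ i)
    (Eventually.of_forall fun z => F.psd i z) (F.md i) (F.intG i)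
  summ := F.summ.congr fun i => (real_muJ F i).symm

theorem chsOf_T (F : FVCharts T P) (hT : IsCurrent T) : (chsOf F).T = T := by
  funext f π
  by_cases hf : IsTestPair f π
  · exact (F.act f π hf).tsum_eq
  · rw [hT.eq_zero_of_not_test _ _ hf]
    simp [Chs.T, chartAction, hf]

/-- the total mass in the charts. -/
theorem tsum_eq_tau (F : FVCharts T P) :
    ∑' i, ∫ z in F.E i, |(F.θ i z : ℝ)| * √(F.G i z).det = P.τ.real univ := by
  have := P.fin
  have h1 : (P.τ.map (Subtype.val : K → X)) univ = P.τ univ := by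
    rw [Measure.map_apply measurable_subtype_coe MeasurableSet.univ, preimage_univ]
  rw [F.tau_eq, Measure.sum_apply _ MeasurableSet.univ] at h1
  have h2 : ∀ i, (((volume.restrict (F.E i)).withDensity
      fun z => ENNReal.ofReal (|(F.θ i z : ℝ)| * √(F.G i z).det)).map (F.φ i)) univ
      = ENNReal.ofReal (∫ z in F.E i, |(F.θ i z : ℝ)| * √(F.G i z).det) := by
    intro i
    have hf : IsFiniteMeasure (muJ (F.E i) (F.φ i) (fun z => (F.θ i z : ℝ))
      fun z => √(F.G i z).det) := isFiniteMeasure_muJ (F.intG i)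
    rw [← real_muJ F i, ofReal_measureReal]
    rfl
  simp_rw [h2] at h1
  rw [← ENNReal.ofReal_tsum_of_nonneg (fun i => integral_nonneg fun z => by positivity) F.summ]
    at h1
  rw [Measure.real, ← h1, ENNReal.toReal_ofReal]
  exact tsum_nonneg fun i => integral_nonneg fun z => by positivity

/-! ### the contraction -/

/-- contraction of the ball to its centre. -/
noncomputable def coneH {k : ℝ} (C : CATk k X) (x : X) (r s : ℝ) (y : X) : X :=
  C.geo x (Cat2.retr C x r y) s

theorem hLip_coneH {k : ℝ} (C : CATk k X) (x : X) {r : ℝ} (hr : 0 ≤ r) :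
    HLip (max 1 r.toNNReal) (coneH C x r) := by
  intro s hs s' hs' y y'
  unfold coneH
  have h1 := Cat1.dist_geo_geo' C x x (Cat2.retr C x r y) (Cat2.retr C x r y') hs hs'
  have h2 : dist (Cat2.retr C x r y) (Cat2.retr C x r y') ≤ dist y y' := by
    simpa using (Cat2.retr_lipschitz C x hr).dist_le_mul y y'
  have h3 : dist x (Cat2.retr C x r y') ≤ r := by
    have := Cat2.retr_mem C x hr y'
    rwa [Metric.mem_closedBall, dist_comm] at this
  rw [dist_self, mul_zero, zero_add] at h1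
  have e1 : (1 : ℝ) ≤ ((max 1 r.toNNReal : ℝ≥0) : ℝ) := by
    rw [NNReal.coe_max]; exact le_max_left _ _
  have e2 : r ≤ ((max 1 r.toNNReal : ℝ≥0) : ℝ) := by
    rw [NNReal.coe_max]; exact (Real.le_coe_toNNReal r).trans (le_max_right _ _)
  calc dist (C.geo x (Cat2.retr C x r y) s) (C.geo x (Cat2.retr C x r y') s')
      ≤ s * dist (Cat2.retr C x r y) (Cat2.retr C x r y') + |s - s'| * dist x (Cat2.retr C x r y') := h1
    _ ≤ 1 * dist y y' + |s - s'| * r := by
        have := hs.2
        have := hs.1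
        gcongr
    _ ≤ ((max 1 r.toNNReal : ℝ≥0) : ℝ) * dist y y'
        + |s - s'| * ((max 1 r.toNNReal : ℝ≥0) : ℝ) := by gcongr
    _ = _ := by ring

theorem coneH_mapsTo {k : ℝ} (C : CATk k X) (hK : C.IsConv K) {x : X} (hx : x ∈ K) {r : ℝ}
    (hr : 0 ≤ r) {s : ℝ} (hs : s ∈ Icc (0 : ℝ) 1) : MapsTo (coneH C x r s) K K := by
  intro y hy
  refine hK x hx _ ?_ s hs
  exact Cat3.pt_mem C hK hx hy (le_min hr dist_nonneg) (min_le_right _ _)

/-! ### the Jacobian -/

theorem ub_retr {k : ℝ} (C : CATk k X) (x : X) {r : ℝ} (hr : 0 ≤ r) {n : ℕ} {E : Set (Euc n)}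
    {φ : Euc n → X} {z : Euc n} {q : Euc n → ℝ} (h : UB E φ z q) :
    UB E (fun z => Cat2.retr C x r (φ z)) z q := by
  intro ε hε
  filter_upwards [h ε hε] with w hw
  refine le_trans ?_ hw
  have := (Cat2.retr_lipschitz C x hr).dist_le_mul (φ w) (φ z)
  rw [NNReal.coe_one, one_mul] at this
  exact pow_le_pow_left₀ dist_nonneg this 2

theorem good_cone {k : ℝ} (C : CATk k X) (x : X) {r : ℝ} (hr : 0 ≤ r) {n : ℕ} {E : Set (Euc n)}
    {φ : Euc n → X} {G : Matrix (Fin n) (Fin n) ℝ} (hG : G.PosSemidef) (hdet : G.det ≠ 0)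
    {w₀ : Euc (n + 1)} (hw₀ : w₀ ∈ prodSet E) (h0 : w₀ 0 ≠ 0) (h : UB E φ (tl w₀) (qf G))
    (hd : DifferentiableWithinAt ℝ (fun z => dist x (Cat2.retr C x r (φ z))) E (tl w₀)) :
    ∃ q, Good (prodSet E) (fun w => coneH C x r (w 0) (φ (tl w))) w₀
      (w₀ 0 ^ n * r * √G.det) q := by
  set ρ := dist x (Cat2.retr C x r (φ (tl w₀))) with hρ
  set ρ' := fderivWithin ℝ (fun z => dist x (Cat2.retr C x r (φ z))) E (tl w₀) with hρ'
  have hρr : ρ ≤ r := by
    have := Cat2.retr_mem C x hr (φ (tl w₀))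
    rwa [Metric.mem_closedBall, dist_comm] at this
  refine ⟨fun v => w₀ 0 ^ 2 * qf G (tl v) + v 0 * (ρ ^ 2 * v 0
        + w₀ 0 * (2 * ρ * ρ' (tl v))), ?_, ?_, ?_, ?_⟩
  · have h1 := (continuous_qf G).comp (continuous_tl (n := n))
    have h2 := ρ'.continuous.comp (continuous_tl (n := n))
    have h3 : Continuous fun v : Euc (n + 1) => v 0 := by fun_prop
    exact (continuous_const.mul h1).add (h3.mul ((continuous_const.mul h3).add
      (continuous_const.mul (continuous_const.mul h2))))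
  · intro t v
    have e1 : tl (t • v) = t • tl v := by ext i; simp [tl]
    have e2 : (t • v) 0 = t * v 0 := rfl
    simp only [e1, e2, qf_smul, map_smul, smul_eq_mul]
    ring
  · exact ub_cone C x hw₀ (abs_qf_le G) (ub_retr C x hr h) hd.hasFDerivWithinAt
  · intro R hR
    exact det_cone hG hdet (lt_of_le_of_ne hw₀.1.1 (Ne.symm h0)) dist_nonneg hρr ρ' R
      fun a v => hR a v

theorem integral_pow' (m : ℕ) : ∫ s in Icc (0 : ℝ) 1, s ^ (m + 1) = 1 / (m + 2 : ℝ) := by
  rw [integral_Icc_eq_integral_Ioc, ← intervalIntegral.integral_of_le zero_le_one,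
    _root_.integral_pow]
  norm_num
  ring

/-- mass of the cone over one chart. -/
theorem mass_piece_cone {k : ℝ} (C : CATk k X) (x : X) {r : ℝ} (hr : 0 ≤ r)
    (F : FVCharts T P) (i : ℕ) :
    mass ((chsOf F).piece (coneH C x r) i)
      ≤ r / (m + 2 : ℝ) * ∫ z in F.E i, |(F.θ i z : ℝ)| * √(F.G i z).det := by
  have hlip := (chsOf F).lipschitz_piece (hLip_coneH C x hr) i
  have hθ : Integrable (fun w => (F.θ i (tl w) : ℝ)) (volume.restrict (prodSet (F.E i))) :=
    (chsOf F).integrable_piece i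
  have hpow : IntegrableOn (fun s : ℝ => s ^ (m + 1) * r) (Icc (0 : ℝ) 1) :=
    (by fun_prop : Continuous fun s : ℝ => s ^ (m + 1) * r).continuousOn.integrableOn_compact
      isCompact_Icc
  have hint : IntegrableOn (fun w : Euc (m + 1 + 1) => |(F.θ i (tl w) : ℝ)| *
      (w 0 ^ (m + 1) * r * √(F.G i (tl w)).det)) (prodSet (F.E i)) := by
    refine (integrable_prodSet hpow (F.intG i)).congr_fun (fun w _ => ?_)
      (measurableSet_prodSet (F.measE i))
    simp only
    ring
  have hnn : ∀ᵐ w ∂(volume.restrict (prodSet (F.E i))),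
      0 ≤ w 0 ^ (m + 1) * r * √(F.G i (tl w)).det := by
    filter_upwards [ae_restrict_mem (measurableSet_prodSet (F.measE i))] with w hw
    have := hw.1.1
    positivity
  have hrl : ∃ L : ℝ≥0, LipschitzWith L fun y : X => dist x (Cat2.retr C x r y) :=
    ⟨1 * 1, (LipschitzWith.dist_right x).comp (Cat2.retr_lipschitz C x hr)⟩
  obtain ⟨L, hL⟩ := F.lipφ i
  have hgood : ∀ᵐ w ∂(volume.restrict (prodSet (F.E i))), ∃ q : Euc (m + 1 + 1) → ℝ,
      Good (prodSet (F.E i)) (fun w => coneH C x r (w 0) (F.φ i (tl w))) w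
        (w 0 ^ (m + 1) * r * √(F.G i (tl w)).det) q := by
    filter_upwards [ae_restrict_mem (measurableSet_prodSet (F.measE i)),
      ae_prodSet_ne_zero (F.E i), ae_prodSet_of_ae (F.md i), ae_prodSet_of_ae (F.det_ne i),
      ae_prodSet_of_ae (B1Cur.ae_good (F.measE i) hL hrl)] with w hw h0 h1 h2 h3
    exact good_cone C x hr (F.psd i (tl w)) h2 hw h0 h1 h3.2
  have h1 : mass ((chsOf F).piece (coneH C x r) i) ≤ ∫ w in prodSet (F.E i),
      |(F.θ i (tl w) : ℝ)| * (w 0 ^ (m + 1) * r * √(F.G i (tl w)).det) :=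
    mass_chartAction_le (measurableSet_prodSet (F.measE i)) hlip hθ hint hnn hgood
  refine h1.trans (le_of_eq ?_)
  rw [setIntegral_prodSet _ hint]
  simp only [consE_zero, tl_consE]
  have h4 : ∀ s : ℝ, ∫ z in F.E i, |(F.θ i z : ℝ)| * (s ^ (m + 1) * r * √(F.G i z).det)
      = s ^ (m + 1) * (r * ∫ z in F.E i, |(F.θ i z : ℝ)| * √(F.G i z).det) := by
    intro s
    rw [← integral_const_mul, ← integral_const_mul]
    exact integral_congr_ae (Eventually.of_forall fun z => by simp only; ring)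
  simp_rw [h4]
  rw [integral_mul_const, integral_pow']
  ring

/-- **The cone inequality** for a cycle with chart data. -/
theorem cone_of_charts [SecondCountableTopology X] {k : ℝ} (C : CATk k X) (hK : C.IsConv K)
    {x : X} (hx : x ∈ K) {r : ℝ} (hr : 0 ≤ r) (hT : IsCyc (K ∩ Metric.closedBall x r) T)
    (F : FVCharts T P) (hm : mass T = P.τ.real univ) :
    ∃ S : Functional X (m + 2), IsInt K S ∧ bd S = T ∧ mass S ≤ r / (m + 2 : ℝ) * mass T := by
  have hTT := chsOf_T F hT.int.cur
  have hcyc : bd (chsOf F).T = 0 := by rw [hTT]; exact hT.cyc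
  have hH := hLip_coneH C x hr
  refine ⟨(chsOf F).R (coneH C x r), ?_, ?_, ?_⟩
  · refine (chsOf F).isInt_R hcyc hH (K := K) F.mapsK (fun s hs => coneH_mapsTo C hK hx hr hs) ?_
    refine B4Norm.rect_of_charts (fun i => measurableSet_prodSet ((chsOf F).measE i))
      (fun i => ⟨_, (chsOf F).lipschitz_piece hH i⟩) (fun i => (chsOf F).integrable_piece i)
      ((chsOf F).summable_mass_piece hH) fun f π hf => (chsOf F).hasSum_R hH hf
  · rw [(chsOf F).bd_R_eq hcyc hH, hTT]
    have e0 : coneH C x r 0 = fun _ => x := by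
      funext y; exact C.geo_zero _ _
    have e1 : push (coneH C x r 1) T = T := by
      refine push_eq_self hT.int.cur hT.int.supp (Chs.lipschitz_H hH ⟨zero_le_one, le_rfl⟩)
        fun y hy => ?_
      unfold coneH
      rw [C.geo_one, Cat2.retr_eq C x hy.2]
    rw [e1, e0, push_const hT.int.cur, sub_zero]
  · have h1 := B10.mass_le_of_hasSum (fun i => (chsOf F).isCurrent_piece hH i)
      (F.summ.mul_left (r / (m + 2 : ℝ))) (mass_piece_cone C x hr F)
      (fun f π hf => (chsOf F).hasSum_R hH hf)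
    rwa [tsum_mul_left, tsum_eq_tau F, ← hm] at h1

/-- **CONE**, from the existence of chart data (block B5c). -/
theorem coneTarget [SecondCountableTopology X] {k : ℝ} (C : CATk k X) (hK : C.IsConv K)
    (hFV : ∀ T : Functional X (m + 1), IsCyc K T → ∃ (P : A.PreData (m + 1) κ K),
      Nonempty (FVCharts T P) ∧ mass T = P.τ.real univ) : ConeTarget X K m := by
  intro T x r hx hr hT
  have hT' : IsCyc K T := ⟨⟨hT.int.cur, hT.int.rect, hT.int.bdcur,
    B10.isSupportedIn_mono inter_subset_left hT.int.supp⟩, hT.cyc⟩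
  obtain ⟨P, ⟨F⟩, hm⟩ := hFV T hT'
  exact cone_of_charts C hK hx hr hT F hm

end Crest.Agent.R241.B8Cone
end

-- ▼ part R241/B5c
section

/-!
# R241, block B5c, part 3: from a rectifiable current supported in a compact set `K` of a space with
the quadrilateral inequality to `A.PreData` and helper992's `FVCharts`.
-/

set_option autoImplicit false

open MeasureTheory Measure Filter Set Topology Matrix
open scoped NNReal ENNReal MatrixOrder

universe u

namespace Crest.Agent.R241.B5c

open Crest.GeometryTopology.Submanifold (Euc)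
open Crest.GeometryTopology.MetricCurrent
open Crest.Agent.R241.B3a Crest.Agent.R241.B3b Crest.Agent.R241.B3c

variable {X : Type u} [MetricSpace X] {n : ℕ}

/-- metric charts of the current `T` with values in `K`. -/
structure MCh (K : Set X) (T : Functional X n) where
  E : ℕ → Set (Euc n)
  φ : ℕ → Euc n → X
  θ : ℕ → Euc n → ℤ
  G : ℕ → Euc n → Matrix (Fin n) (Fin n) ℝ
  measE : ∀ i, MeasurableSet (E i)
  bddE : ∀ i, Bornology.IsBounded (E i)
  lipφ : ∀ i, ∃ L : ℝ≥0, LipschitzOnWith L (φ i) (E i)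
  colip : ∀ i, ∃ C : ℝ, ∀ z ∈ E i, ∀ w ∈ E i, dist z w ≤ C * dist (φ i z) (φ i w)
  mapsK : ∀ i, MapsTo (φ i) (E i) K
  disj : ∀ i j, i ≠ j → Disjoint (φ i '' E i) (φ j '' E j)
  intθ : ∀ i, Integrable (fun z => (θ i z : ℝ)) (volume.restrict (E i))
  act : ∀ f π, IsTestPair f π → HasSum (fun i => chartAction (E i) (φ i) (θ i) f π) (T f π)
  measG : ∀ i a b, Measurable fun z => G i z a b
  psd : ∀ i z, (G i z).PosSemidef
  snG : ∀ i, ∃ L : ℝ≥0, ∀ z, IsSN L (B3c.sn (G i z))
  md : ∀ i, ∀ᵐ z ∂(volume.restrict (E i)), IsMD (E i) (φ i) z (B3c.sn (G i z))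


namespace MCh

variable {K : Set X} {T : Functional X n} (c : MCh K T)

theorem inj (i : ℕ) : InjOn (c.φ i) (c.E i) := by
  obtain ⟨C, hC⟩ := c.colip i
  intro z hz w hw h
  have := hC z hz w hw
  rw [h, dist_self, mul_zero] at this
  exact dist_le_zero.1 this

theorem ae_good (i : ℕ) : ∀ᵐ z ∂(volume.restrict (c.E i)),
    z ∈ c.E i ∧ Dens (c.E i) z ∧ IsMD (c.E i) (c.φ i) z (B3c.sn (c.G i z)) := by
  filter_upwards [ae_restrict_mem (c.measE i), c.md i,
    ae_restrict_of_ae (ae_dens (μ := (volume : Measure (Euc n))) (c.E i))] with z h1 h2 h3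
  exact ⟨h1, h3 h1, h2⟩

theorem posDef (i : ℕ) : ∀ᵐ z ∂(volume.restrict (c.E i)), (c.G i z).PosDef := by
  obtain ⟨L, hL⟩ := c.snG i
  obtain ⟨C, hC⟩ := c.colip i
  filter_upwards [c.ae_good i] with z hz
  exact IsMD.posDef (c.psd i z) (hL z) hz.2.2 hz.1 hz.2.1 hC

theorem intG (i : ℕ) :
    Integrable (fun z => |(c.θ i z : ℝ)| * √(c.G i z).det) (volume.restrict (c.E i)) := by
  obtain ⟨L, hL⟩ := c.snG i
  refine (c.intθ i).abs.mul_bdd (c := (L : ℝ) ^ n)
    (B1Null.measurable_det (c.measG i)).sqrt.aestronglyMeasurable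
    (Eventually.of_forall fun z => ?_)
  rw [Real.norm_eq_abs, abs_of_nonneg (Real.sqrt_nonneg _)]
  exact sqrt_det_le (c.psd i z) (hL z)

/-- the mass measure of the charts. -/
noncomputable def ν [MeasurableSpace X] : Measure X := Measure.sum fun i =>
  ((volume.restrict (c.E i)).withDensity
    fun z => ENNReal.ofReal (|(c.θ i z : ℝ)| * √(c.G i z).det)).map (c.φ i)

open Classical in
/-- the `K`-valued chart map. -/
noncomputable def φK [Nonempty K] (i : ℕ) (z : Euc n) : K :=
  if h : c.φ i z ∈ K then ⟨c.φ i z, h⟩ else Classical.arbitrary K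

theorem φK_coe [Nonempty K] {i : ℕ} {z : Euc n} (hz : c.φ i z ∈ K) :
    ((c.φK i z : K) : X) = c.φ i z := by
  rw [φK, dif_pos hz]

theorem φK_eq [Nonempty K] {i : ℕ} {z : Euc n} (hz : c.φ i z ∈ K) :
    c.φK i z = ⟨c.φ i z, hz⟩ := Subtype.ext (c.φK_coe hz)

theorem dist_φK [Nonempty K] {i : ℕ} {z w : Euc n} (hz : z ∈ c.E i) (hw : w ∈ c.E i) :
    dist (c.φK i z) (c.φK i w) = dist (c.φ i z) (c.φ i w) := by
  rw [Subtype.dist_eq, c.φK_coe (c.mapsK i hz), c.φK_coe (c.mapsK i hw)]

theorem isMD_φK [Nonempty K] {i : ℕ} {z : Euc n} {N : Euc n → ℝ}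
    (h : IsMD (c.E i) (c.φ i) z N) : IsMD (c.E i) (c.φK i) z N := by
  intro ε hε
  obtain ⟨δ, hδ, h'⟩ := h ε hε
  refine ⟨δ, hδ, fun w hw w' hw' h1 h2 => ?_⟩
  rw [c.dist_φK hw hw']
  exact h' w hw w' hw' h1 h2

/-- the chart of `K`. -/
noncomputable def chart [Nonempty K] (i : ℕ) : B5b.Chart n K where
  E := c.E i
  φ := c.φK i
  m := (exists_mult (c.intθ i)).choose
  g := c.G i
  meas_E := c.measE i
  lip := by
    obtain ⟨L, hL⟩ := c.lipφ i
    refine ⟨L, LipschitzOnWith.of_dist_le_mul fun z hz w hw => ?_⟩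
    rw [c.dist_φK hz hw]
    exact hL.dist_le_mul z hz w hw
  inj := fun z hz w hw h => c.inj i hz hw (by
    rw [← c.φK_coe (c.mapsK i hz), ← c.φK_coe (c.mapsK i hw), h])
  meas_m := (exists_mult (c.intθ i)).choose_spec.1
  m_one := (exists_mult (c.intθ i)).choose_spec.2.1
  meas_g := c.measG i
  posdef := c.posDef i
  grad f hf := by
    obtain ⟨L, hL⟩ := c.snG i
    obtain ⟨L', hL'⟩ := c.lipφ i
    have hlip : LipschitzOnWith L' (c.φK i) (c.E i) :=
      LipschitzOnWith.of_dist_le_mul fun z hz w hw => by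
        rw [c.dist_φK hz hw]
        exact hL'.dist_le_mul z hz w hw
    have hdiff := (hf.comp_lipschitzOnWith hlip).ae_differentiableWithinAt (c.measE i)
      (μ := (volume : Measure (Euc n)))
    filter_upwards [c.ae_good i, hdiff] with z hz hd v
    exact IsMD.dvec_sq_le (c.psd i z) (hL z) (c.isMD_φK hz.2.2) hz.1 hz.2.1
      hf.lipschitzOnWith hd v
  md := by
    obtain ⟨L, hL⟩ := c.snG i
    filter_upwards [c.ae_good i] with z hz ε hε
    exact IsMD.sq_le (c.psd i z) (hL z) (c.isMD_φK hz.2.2) hz.1 hε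
  integ := by
    refine (c.intG i).congr ?_
    filter_upwards [(exists_mult (c.intθ i)).choose_spec.2.2] with z hz
    rw [hz]

theorem chart_ρ [Nonempty K] (i : ℕ) : ∀ᵐ z ∂(volume.restrict (c.E i)),
    (c.chart i).ρ z = |(c.θ i z : ℝ)| * √(c.G i z).det := by
  filter_upwards [(exists_mult (c.intθ i)).choose_spec.2.2] with z hz
  change (exists_mult (c.intθ i)).choose z * √(c.G i z).det = _
  rw [hz]

/-- the family of charts of `K`. -/
noncomputable def fam [Nonempty K]
    (hsum : Summable fun i => ∫ z in c.E i, |(c.θ i z : ℝ)| * √(c.G i z).det) : B5b.Fam n K where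
  c := c.chart
  disj i j hij := by
    rw [Set.disjoint_left]
    rintro _ ⟨z, hz, rfl⟩ ⟨w, hw, h⟩
    refine Set.disjoint_left.1 (c.disj i j hij) (mem_image_of_mem _ hz) ⟨w, hw, ?_⟩
    rw [← c.φK_coe (c.mapsK i hz), ← c.φK_coe (c.mapsK j hw)]
    exact congrArg Subtype.val h
  summ := by
    refine hsum.congr fun i => ?_
    refine integral_congr_ae ?_
    filter_upwards [c.chart_ρ i] with z hz
    exact hz.symm

variable [MeasurableSpace X] [BorelSpace X]


/-- the mass measure on `K` pushes forward to the mass measure on `X`. -/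
theorem map_τ [Nonempty K]
    (hsum : Summable fun i => ∫ z in c.E i, |(c.θ i z : ℝ)| * √(c.G i z).det) :
    (c.fam hsum).τ.map (Subtype.val : K → X) = c.ν := by
  rw [B5b.Fam.τ, ν]
  have hm : AEMeasurable (Subtype.val : K → X)
      (Measure.sum fun i => ((c.fam hsum).c i).wvol.map ((c.fam hsum).c i).φ) :=
    measurable_subtype_coe.aemeasurable
  rw [Measure.map_sum hm]
  congr 1
  funext i
  have h1 : AEMeasurable (c.φK i) (c.chart i).wvol := (c.chart i).aemeasurable (c.chart i).wvol_compl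
  change Measure.map Subtype.val (Measure.map (c.φK i) (c.chart i).wvol) = _
  rw [AEMeasurable.map_map_of_aemeasurable measurable_subtype_coe.aemeasurable h1]
  have h2 : (c.chart i).wvol = (volume.restrict (c.E i)).withDensity
      fun z => ENNReal.ofReal (|(c.θ i z : ℝ)| * √(c.G i z).det) := by
    refine withDensity_congr_ae ?_
    filter_upwards [c.chart_ρ i] with z hz
    rw [hz]
  rw [h2]
  refine Measure.map_congr ?_
  refine (withDensity_absolutelyContinuous _ _).ae_eq ?_
  filter_upwards [ae_restrict_mem (c.measE i)] with z hz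
  exact c.φK_coe (c.mapsK i hz)

end MCh

/-- **The `PreData` of a rectifiable current and helper992's chart data.** -/
noncomputable def MCh.fvCharts {m : ℕ} {K : Set X} [CompactSpace K] [Nonempty K]
    [MeasurableSpace X] [BorelSpace X] {T : Functional X (m + 1)} (c : MCh K T) (k : ℝ)
    (hsum : Summable fun i => ∫ z in c.E i, |(c.θ i z : ℝ)| * √(c.G i z).det) :
    B9.FVCharts T ((c.fam hsum).preData k) where
  E := c.E
  φ := c.φ
  θ := c.θ
  G := c.G
  measE := c.measE
  bddE := c.bddE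
  lipφ := c.lipφ
  mapsK := c.mapsK
  intθ := c.intθ
  act := c.act
  measG := c.measG
  psd := c.psd
  det_ne i := by
    filter_upwards [c.posDef i] with z hz
    exact hz.det_pos.ne'
  md i := by
    obtain ⟨L, hL⟩ := c.snG i
    filter_upwards [c.ae_good i] with z hz ε hε
    obtain ⟨δ, hδ, h⟩ := IsMD.sq_le (c.psd i z) (hL z) hz.2.2 hz.1 hε
    rw [eventually_nhdsWithin_iff, Metric.eventually_nhds_iff]
    refine ⟨δ, hδ, fun w hw hwE => ?_⟩
    rw [dist_eq_norm] at hw
    exact h w hwE hw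
  summ := hsum
  intG := c.intG
  tau_eq := c.map_τ hsum
  G_eq i f g _ _ := by
    filter_upwards [ae_restrict_mem (c.measE i)] with z hz hzK
    have h1 := (c.fam hsum).G_apply (fun y : K => f y) (fun y : K => g y) (i := i) hz
    have h2 : ((c.fam hsum).c i).φ z = ⟨c.φ i z, hzK⟩ := c.φK_eq hzK
    rw [h2] at h1
    have h3 : ∀ u : X → ℝ, B5b.dvec (c.E i) (fun w => u (c.φK i w : K)) z =
        B9.pd (c.E i) (u ∘ c.φ i) z := by
      intro u
      funext l
      have h4 : EqOn (fun w => u (c.φK i w : K)) (u ∘ c.φ i) (c.E i) := fun w hw => by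
        simp only [Function.comp_apply]
        rw [c.φK_coe (c.mapsK i hw)]
      simp only [B5b.dvec, B9.pd]
      rw [fderivWithin_congr h4 (h4 hz)]
    rw [← h3 f, ← h3 g]
    exact h1

end Crest.Agent.R241.B5c
end

-- ▼ part R241/B5d

/-!
# R241, block B5d: the package `PreData` + `FVCharts` + mass formula of a rectifiable current
-/

set_option autoImplicit false

open MeasureTheory Measure Filter Set Topology Matrix
open scoped NNReal ENNReal MatrixOrder

universe u

namespace Crest.Agent.R241.B5d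

open Crest.GeometryTopology.Submanifold (Euc)
open Crest.GeometryTopology.MetricCurrent
open Crest.Agent.R241.B3a Crest.Agent.R241.B3b Crest.Agent.R241.B3c
open Crest.Agent.R241.B5c
open Crest.Agent.R241.B1Cur (jac chartR)

variable {X : Type u} [MetricSpace X] {n : ℕ} [MeasurableSpace X] [BorelSpace X]

/-- **Existence of metric charts with summable masses.** -/
theorem exists_MCh_summable
    (hX : ∀ a b c e : X, dist a c ^ 2 + dist b e ^ 2 ≤
      dist a b ^ 2 + dist b c ^ 2 + dist c e ^ 2 + dist e a ^ 2)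
    {K : Set X} (hK : IsClosed K) {T : Functional X n} (hT : IsIntegerRectifiable T)
    (hs : IsSupportedIn K T) :
    ∃ c : MCh K T, Summable fun i => ∫ z in c.E i, |(c.θ i z : ℝ)| * √(c.G i z).det := by
  obtain ⟨E, φ, θ, h1, h2, h3, h4, h5, h6, h7, h8⟩ := hT
  have hG : ∀ i, ∃ (L : ℝ≥0) (G : Euc n → Matrix (Fin n) (Fin n) ℝ),
      (∀ a b, Measurable fun z => G z a b) ∧
      (∀ z, (G z).PosSemidef) ∧ (∀ z, IsSN L (B3c.sn (G z))) ∧
      ∀ᵐ z ∂(volume.restrict (E i)), IsMD (E i) (φ i) z (B3c.sn (G z)) := fun i => by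
    obtain ⟨L, hL⟩ := h2 i
    obtain ⟨G, hG⟩ := exists_gram hX (h1 i).1 hL
    exact ⟨L, G, hG⟩
  choose L G hG1 hG2 hG3 hG4 using hG
  have hmE : ∀ i, MeasurableSet (E i ∩ φ i ⁻¹' K) := fun i => by
    obtain ⟨L, hL⟩ := h2 i
    exact measurableSet_inter_preimage (h1 i).1 hL.continuousOn hK
  have hch : ∀ i, B5a.MChart (E i) (φ i) (G i) := fun i =>
    ⟨(h1 i).1, h2 i, hG1 i, hG2 i, hG4 i⟩
  have hinj : ∀ i, InjOn (φ i) (E i) := by
    intro i z hz w hw hzw
    obtain ⟨C, hC⟩ := h3 i
    have := hC z hz w hw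
    rw [hzw, dist_self, mul_zero] at this
    exact dist_le_zero.1 this
  have hsumE : Summable fun i => ∫ z in E i, |(θ i z : ℝ)| * √(G i z).det := by
    refine h7.congr fun i => ?_
    exact B5a.mass_chartR (hch i) (h4 i) (hinj i)
  refine ⟨⟨fun i => E i ∩ φ i ⁻¹' K, φ, θ, G, hmE, fun i => (h1 i).2.subset inter_subset_left,
    fun i => ?_, fun i => ?_, fun i z hz => hz.2, fun i j hij => ?_, fun i => ?_, ?_, hG1, hG2,
    fun i => ⟨L i, hG3 i⟩, fun i => ?_⟩, ?_⟩
  · obtain ⟨L, hL⟩ := h2 i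
    exact ⟨L, hL.mono inter_subset_left⟩
  · obtain ⟨C, hC⟩ := h3 i
    exact ⟨C, fun z hz w hw => hC z hz.1 w hw.1⟩
  · exact (h5 i j hij).mono (image_mono inter_subset_left) (image_mono inter_subset_left)
  · exact (h4 i).mono_measure (Measure.restrict_mono inter_subset_left le_rfl)
  · exact hasSum_restrict hK hs (fun i => (h1 i).1) h2 h4 h6 h7 h8
  · filter_upwards [ae_restrict_of_ae_restrict_of_subset (s := E i ∩ φ i ⁻¹' K)
      inter_subset_left (hG4 i)] with z hz
    exact hz.mono inter_subset_left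
  · refine Summable.of_nonneg_of_le (fun i => integral_nonneg fun z => by positivity)
      (fun i => ?_) hsumE
    exact setIntegral_mono_set ((hch i).integrable (h4 i))
      (ae_of_all _ fun z => by positivity) (ae_of_all _ fun z hz => hz.1)

section mch

variable {K : Set X} {T : Functional X n} (c : MCh K T)

omit [MeasurableSpace X] [BorelSpace X] in
theorem mchart (i : ℕ) : B5a.MChart (c.E i) (c.φ i) (c.G i) :=
  ⟨c.measE i, c.lipφ i, c.measG i, c.psd i, c.md i⟩


omit [MeasurableSpace X] [BorelSpace X] in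
theorem repr (f : X → ℝ) (π : Fin n → X → ℝ) (h : IsTestPair f π) :
    T f π = ∑' i, chartR (c.E i) (c.φ i) (fun z => (c.θ i z : ℝ)) f π :=
  (c.act f π h).tsum_eq.symm

variable (hsum : Summable fun i => ∫ z in c.E i, |(c.θ i z : ℝ)| * √(c.G i z).det)

include hsum

theorem isFinite_ν : IsFiniteMeasure c.ν :=
  B5a.isFinite_of_summable (mchart c) c.intθ hsum

theorem controls_ν : Controls T c.ν :=
  haveI : IsFiniteMeasure (B5a.nuS c.E c.φ (fun i z => (c.θ i z : ℝ)) c.G) := isFinite_ν c hsum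
  B5a.controls_nuS (mchart c) c.intθ (repr c)

theorem ν_le {μ : Measure X} [IsFiniteMeasure μ] (hμ : Controls T μ) : c.ν ≤ μ :=
  haveI : IsFiniteMeasure (B5a.nuS c.E c.φ (fun i z => (c.θ i z : ℝ)) c.G) := isFinite_ν c hsum
  B5a.nuS_le (mchart c) c.intθ c.disj c.inj (repr c) hμ

theorem mass_eq : mass T = c.ν.real univ :=
  haveI : IsFiniteMeasure (B5a.nuS c.E c.φ (fun i z => (c.θ i z : ℝ)) c.G) := isFinite_ν c hsum
  B5a.mass_eq (mchart c) c.intθ c.disj c.inj (repr c)

end mch

/-- **The package (B5).** -/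
theorem exists_fvCharts {m : ℕ} (hX : ∀ a b c e : X, dist a c ^ 2 + dist b e ^ 2 ≤
      dist a b ^ 2 + dist b c ^ 2 + dist c e ^ 2 + dist e a ^ 2)
    {K : Set X} [CompactSpace K] [Nonempty K] {T : Functional X (m + 1)}
    (hT : IsIntegerRectifiable T) (hs : IsSupportedIn K T) (k : ℝ) :
    ∃ P : A.PreData (m + 1) k K, Nonempty (B9.FVCharts T P) ∧
      Controls T (P.τ.map (Subtype.val : K → X)) ∧ mass T = P.τ.real univ ∧
      ∀ (μ : Measure X) [IsFiniteMeasure μ], Controls T μ →
        P.τ.map (Subtype.val : K → X) ≤ μ := by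
  have hK : IsClosed K := (isCompact_iff_compactSpace.2 ‹_›).isClosed
  obtain ⟨c, hsum⟩ := exists_MCh_summable hX hK hT hs
  have hmap : ((c.fam hsum).preData k).τ.map (Subtype.val : K → X) = c.ν := c.map_τ hsum
  refine ⟨(c.fam hsum).preData k, ⟨c.fvCharts k hsum⟩, ?_, ?_, fun μ _ hμ => ?_⟩
  · rw [hmap]
    exact controls_ν c hsum
  · rw [mass_eq c hsum, ← hmap, Measure.real, Measure.real,
      Measure.map_apply measurable_subtype_coe MeasurableSet.univ, preimage_univ]
  · rw [hmap]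
    exact ν_le c hsum hμ

end Crest.Agent.R241.B5d
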