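import Crest.Prelude.Def_MetricCurrent
import Crest.Agent.R241.B1Null

/-!
# R241, block B8: Fubini on product charts `[0,1] × E ⊆ Euc (n+1)` (owner: helper971)
-/

set_option autoImplicit false

open MeasureTheory Filter Topology Metric Set Module
open scoped NNReal ENNReal

namespace Crest.Agent.R241.B8Fubini

open Crest.GeometryTopology.Submanifold (Euc)
open Crest.GeometryTopology.MetricCurrent
open Crest.Agent.R241.B1Null

noncomputable section

variable {n : ℕ}

/-- `(s, z) ↦ (s, z_1, …, z_n)`. -/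
def consE (s : ℝ) (z : Euc n) : Euc (n + 1) := WithLp.toLp 2 (Fin.cons s z.ofLp)

/-- the last `n` coordinates. -/
def tl (w : Euc (n + 1)) : Euc n := WithLp.toLp 2 (fun i => w i.succ)

@[simp] theorem consE_zero (s : ℝ) (z : Euc n) : consE s z 0 = s := rfl

@[simp] theorem consE_succ (s : ℝ) (z : Euc n) (i : Fin n) : consE s z i.succ = z i := rfl

@[simp] theorem tl_consE (s : ℝ) (z : Euc n) : tl (consE s z) = z := rfl

@[simp] theorem consE_tl (w : Euc (n + 1)) : consE (w 0) (tl w) = w := by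
  ext i
  refine Fin.cases rfl (fun i => rfl) i

/-- The product set `[0,1] × E`. -/
def prodSet (E : Set (Euc n)) : Set (Euc (n + 1)) := {w | w 0 ∈ Icc (0 : ℝ) 1 ∧ tl w ∈ E}

theorem mem_prodSet {E : Set (Euc n)} {w : Euc (n + 1)} :
    w ∈ prodSet E ↔ w 0 ∈ Icc (0 : ℝ) 1 ∧ tl w ∈ E := Iff.rfl

theorem consE_mem {E : Set (Euc n)} {s : ℝ} {z : Euc n} :
    consE s z ∈ prodSet E ↔ s ∈ Icc (0 : ℝ) 1 ∧ z ∈ E := Iff.rfl

/-- the measurable equivalence `Euc (n+1) ≃ ℝ × Euc n`. -/
def splitE (n : ℕ) : Euc (n + 1) ≃ᵐ ℝ × Euc n :=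
  ((MeasurableEquiv.toLp 2 (Fin (n + 1) → ℝ)).symm.trans
    (MeasurableEquiv.piFinSuccAbove (fun _ => ℝ) 0)).trans
    ((MeasurableEquiv.refl ℝ).prodCongr (MeasurableEquiv.toLp 2 (Fin n → ℝ)))

theorem splitE_apply (w : Euc (n + 1)) : splitE n w = (w 0, tl w) := rfl

theorem splitE_symm_apply (p : ℝ × Euc n) : (splitE n).symm p = consE p.1 p.2 := by
  rw [MeasurableEquiv.symm_apply_eq, splitE_apply]
  simp

theorem measurePreserving_splitE (n : ℕ) :
    MeasurePreserving (splitE n) volume (volume.prod volume) := by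
  have h1 : MeasurePreserving ((MeasurableEquiv.toLp 2 (Fin (n + 1) → ℝ)).symm) volume volume :=
    EuclideanSpace.volume_preserving_symm_measurableEquiv_toLp _
  have h2 := volume_preserving_piFinSuccAbove (fun _ : Fin (n + 1) => ℝ) 0
  have h3 : MeasurePreserving (MeasurableEquiv.toLp 2 (Fin n → ℝ)) volume volume :=
    (EuclideanSpace.volume_preserving_symm_measurableEquiv_toLp (Fin n)).symm
  have h4 := (MeasurePreserving.id (volume : Measure ℝ)).prod h3
  exact (h4.comp h2).comp h1

theorem continuous_tl : Continuous (tl : Euc (n + 1) → Euc n) := by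
  unfold tl
  fun_prop

theorem measurable_tl : Measurable (tl : Euc (n + 1) → Euc n) := continuous_tl.measurable

theorem measurable_coord0 : Measurable (fun w : Euc (n + 1) => w 0) := by
  fun_prop

theorem measurableSet_prodSet {E : Set (Euc n)} (hE : MeasurableSet E) :
    MeasurableSet (prodSet E) :=
  (measurable_coord0 measurableSet_Icc).inter (measurable_tl hE)

theorem prodSet_eq (E : Set (Euc n)) :
    prodSet E = splitE n ⁻¹' (Icc (0 : ℝ) 1 ×ˢ E) := by
  ext w
  rw [mem_preimage, splitE_apply, mem_prod, mem_prodSet]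


/-- Fubini on `[0,1] × E`. -/
theorem setIntegral_prodSet {E : Set (Euc n)} (g : Euc (n + 1) → ℝ)
    (hg : IntegrableOn g (prodSet E)) :
    ∫ w in prodSet E, g w = ∫ s in Icc (0 : ℝ) 1, ∫ z in E, g (consE s z) := by
  have h := (measurePreserving_splitE n)
  have h1 : ∫ w in prodSet E, g w
      = ∫ p in Icc (0 : ℝ) 1 ×ˢ E, g ((splitE n).symm p) ∂(volume.prod volume) := by
    rw [prodSet_eq, ← h.setIntegral_preimage_emb (splitE n).measurableEmbedding]
    simp
  have h2 : IntegrableOn (fun p => g ((splitE n).symm p)) (Icc (0 : ℝ) 1 ×ˢ E)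
      (volume.prod volume) := by
    rw [← h.integrableOn_comp_preimage (splitE n).measurableEmbedding, ← prodSet_eq]
    simpa [Function.comp_def] using hg
  rw [h1, setIntegral_prod _ h2]
  simp_rw [splitE_symm_apply]

/-- a property holding a.e. on `E` holds a.e. on `[0,1] × E` for the tail. -/
theorem ae_prodSet_of_ae {E : Set (Euc n)} {p : Euc n → Prop}
    (hp : ∀ᵐ z ∂(volume.restrict E), p z) :
    ∀ᵐ w ∂(volume.restrict (prodSet E)), p (tl w) := by
  have h := (measurePreserving_splitE n).restrict_preimage_emb (splitE n).measurableEmbedding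
    (Icc (0 : ℝ) 1 ×ˢ E)
  rw [← prodSet_eq] at h
  have h2 : ∀ᵐ q ∂((volume.prod volume : Measure (ℝ × Euc n)).restrict (Icc (0 : ℝ) 1 ×ˢ E)),
      p q.2 := by
    rw [← Measure.prod_restrict]
    have := Measure.quasiMeasurePreserving_snd
      (μ := (volume : Measure ℝ).restrict (Icc (0 : ℝ) 1)) (ν := (volume : Measure (Euc n)).restrict E)
    exact this.ae hp
  exact h.quasiMeasurePreserving.ae h2

/-- slices of a.e. properties. -/
theorem ae_ae_of_ae_prodSet {E : Set (Euc n)} {p : Euc (n + 1) → Prop}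
    (hp : ∀ᵐ w ∂(volume.restrict (prodSet E)), p w) :
    ∀ᵐ s ∂(volume.restrict (Icc (0 : ℝ) 1)), ∀ᵐ z ∂(volume.restrict E), p (consE s z) := by
  have h := (measurePreserving_splitE n).restrict_preimage_emb (splitE n).measurableEmbedding
    (Icc (0 : ℝ) 1 ×ˢ E)
  rw [← prodSet_eq] at h
  have h2 : ∀ᵐ q ∂((volume.prod volume : Measure (ℝ × Euc n)).restrict (Icc (0 : ℝ) 1 ×ˢ E)),
      p ((splitE n).symm q) := by
    have h3 := (h.symm (splitE n)).quasiMeasurePreserving.ae (p := p) hp
    exact h3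
  rw [← Measure.prod_restrict] at h2
  have h4 := Measure.ae_ae_of_ae_prod h2
  filter_upwards [h4] with s hs
  filter_upwards [hs] with z hz
  rwa [splitE_symm_apply] at hz

/-- the linear embedding of the last coordinates. -/
def inTl (n : ℕ) : Euc n →L[ℝ] Euc (n + 1) :=
  LinearMap.toContinuousLinearMap
    { toFun := fun z => consE 0 z
      map_add' := fun x y => by
        ext i; refine Fin.cases ?_ (fun i => ?_) i <;> simp
      map_smul' := fun c x => by
        ext i; refine Fin.cases ?_ (fun i => ?_) i <;> simp }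

theorem inTl_apply (z : Euc n) : inTl n z = consE 0 z := rfl

theorem inTl_single (j : Fin n) : inTl n (EuclideanSpace.single j 1) =
    EuclideanSpace.single j.succ 1 := by
  ext i
  refine Fin.cases ?_ (fun i => ?_) i
  · simp [inTl_apply]
  · simp [inTl_apply, PiLp.single_apply, Fin.succ_inj]

theorem consE_eq (s : ℝ) (z : Euc n) :
    consE s z = s • (EuclideanSpace.single 0 1 : Euc (n + 1)) + inTl n z := by
  ext i
  refine Fin.cases ?_ (fun i => ?_) i
  · simp [inTl_apply]
  · simp [inTl_apply]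

theorem hasDerivAt_consE (s : ℝ) (z : Euc n) :
    HasDerivAt (fun s : ℝ => consE s z) (EuclideanSpace.single 0 1 : Euc (n + 1)) s := by
  simp_rw [consE_eq]
  simpa using ((hasDerivAt_id s).smul_const (EuclideanSpace.single 0 1 : Euc (n + 1))).add_const
    (inTl n z)

theorem hasFDerivAt_consE (s : ℝ) (z : Euc n) :
    HasFDerivAt (fun z : Euc n => consE s z) (inTl n) z := by
  simp_rw [consE_eq]
  exact (inTl n).hasFDerivAt.const_add _

/-- the `s`-derivative. -/
theorem fderivWithin_prodSet_zero {E : Set (Euc n)} {G : Euc (n + 1) → ℝ} {s : ℝ} {z : Euc n}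
    (hs : s ∈ Icc (0 : ℝ) 1) (hz : z ∈ E)
    (hG : DifferentiableWithinAt ℝ G (prodSet E) (consE s z)) {d : ℝ}
    (hd : HasDerivWithinAt (fun s' => G (consE s' z)) d (Icc 0 1) s) :
    fderivWithin ℝ G (prodSet E) (consE s z) (EuclideanSpace.single 0 1) = d := by
  have h1 : HasDerivWithinAt (fun s' => G (consE s' z))
      (fderivWithin ℝ G (prodSet E) (consE s z) (EuclideanSpace.single 0 1)) (Icc 0 1) s :=
    hG.hasFDerivWithinAt.comp_hasDerivWithinAt s (hasDerivAt_consE s z).hasDerivWithinAt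
      (fun s' hs' => consE_mem.2 ⟨hs', hz⟩)
  exact ((uniqueDiffOn_Icc_zero_one s hs).eq_deriv _ h1 hd)

/-- the derivatives in the last coordinates. -/
theorem fderivWithin_prodSet_succ {E : Set (Euc n)} {G : Euc (n + 1) → ℝ} {s : ℝ} {z : Euc n}
    (hs : s ∈ Icc (0 : ℝ) 1) (hu : UniqueDiffWithinAt ℝ E z)
    (hG : DifferentiableWithinAt ℝ G (prodSet E) (consE s z)) (j : Fin n) :
    fderivWithin ℝ G (prodSet E) (consE s z) (EuclideanSpace.single j.succ 1)
      = fderivWithin ℝ (fun z' => G (consE s z')) E z (EuclideanSpace.single j 1) := by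
  have h1 : HasFDerivWithinAt (fun z' => G (consE s z'))
      ((fderivWithin ℝ G (prodSet E) (consE s z)).comp (inTl n)) E z :=
    hG.hasFDerivWithinAt.comp z (hasFDerivAt_consE s z).hasFDerivWithinAt
      (fun z' hz' => consE_mem.2 ⟨hs, hz'⟩)
  rw [h1.fderivWithin hu, ContinuousLinearMap.comp_apply, inTl_single]

theorem dist_tl_le (w w' : Euc (n + 1)) : dist (tl w) (tl w') ≤ dist w w' := by
  rw [EuclideanSpace.dist_eq, EuclideanSpace.dist_eq]
  apply Real.sqrt_le_sqrt
  rw [Fin.sum_univ_succ]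
  have : 0 ≤ dist (w 0) (w' 0) ^ 2 := by positivity
  simp only [tl]
  linarith

theorem dist_zero_le (w w' : Euc (n + 1)) : |w 0 - w' 0| ≤ dist w w' := by
  have := EuclideanSpace.dist_eq w w'
  rw [this]
  apply Real.le_sqrt_of_sq_le
  rw [Fin.sum_univ_succ]
  have h0 : 0 ≤ ∑ i : Fin n, dist (w i.succ) (w' i.succ) ^ 2 := by positivity
  rw [Real.dist_eq]
  linarith

/-- Composition of a jointly Lipschitz family with a Lipschitz chart is Lipschitz on `[0,1]×E`. -/
theorem lipschitzOn_comp_chart {X : Type*} [PseudoMetricSpace X] {E : Set (Euc n)}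
    {φ : Euc n → X} {L : ℝ≥0} (hφ : LipschitzOnWith L φ E) {P : ℝ → X → ℝ} {C : ℝ≥0}
    (hP : ∀ s ∈ Icc (0 : ℝ) 1, ∀ s' ∈ Icc (0 : ℝ) 1, ∀ x x',
      |P s x - P s' x'| ≤ C * (|s - s'| + dist x x')) :
    LipschitzOnWith (C * (1 + L)) (fun w => P (w 0) (φ (tl w))) (prodSet E) := by
  refine LipschitzOnWith.of_dist_le_mul fun w hw w' hw' => ?_
  rw [Real.dist_eq]
  refine (hP _ hw.1 _ hw'.1 _ _).trans ?_
  have h1 := dist_zero_le w w'
  have h2 := (hφ.dist_le_mul _ hw.2 _ hw'.2).trans
    (mul_le_mul_of_nonneg_left (dist_tl_le w w') L.2)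
  push_cast
  rw [mul_assoc]
  refine mul_le_mul_of_nonneg_left ?_ C.2
  linarith

/-- the derivatives within `E` of a family of functions Lipschitz on `E` are a.e. measurable and
bounded. -/
theorem ae_det_fderivWithin {k : ℕ} {E : Set (Euc k)} (hE : MeasurableSet E)
    {u : Fin k → Euc k → ℝ} {C : ℝ≥0} (hu : ∀ i, LipschitzOnWith C (u i) E) :
    ∃ J : Euc k → ℝ, Measurable J ∧ (∀ z, |J z| ≤ (k.factorial : ℝ) * (C : ℝ) ^ k) ∧
      ∀ᵐ z ∂(volume.restrict E), (Matrix.of fun i j =>
        fderivWithin ℝ (u i) E z (EuclideanSpace.single j 1)).det = J z := by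
  choose v hv hvu using fun i => (hu i).extend_real
  refine ⟨fun z => (DM v z).det, measurable_det_DM v, fun z => abs_det_DM_le hv z, ?_⟩
  have h : ∀ᵐ z ∂(volume.restrict E), ∀ i, fderivWithin ℝ (u i) E z = fderiv ℝ (v i) z := by
    rw [ae_all_iff]
    exact fun i => B1Density.ae_fderivWithin_eq_of_lipschitz volume hE (hvu i) (hv i)
  filter_upwards [h] with z hz
  congr 1
  ext i j
  simp [DM, hz i]

theorem isTestPair_mul {X : Type*} [MetricSpace X] {k : ℕ} {f g : X → ℝ} {π : Fin k → X → ℝ}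
    {K K' : ℝ≥0} (hf : LipschitzWith K f) (hg : LipschitzWith K' g) {B B' : ℝ}
    (hfB : ∀ x, |f x| ≤ B) (hgB : ∀ x, |g x| ≤ B') (hπ : ∀ i, ∃ K : ℝ≥0, LipschitzWith K (π i)) :
    IsTestPair (fun x => f x * g x) π := by
  have hB : 0 ≤ |B| := abs_nonneg _
  have hfB' : ∀ x, |f x| ≤ |B| := fun x => (hfB x).trans (le_abs_self _)
  have hgB' : ∀ x, |g x| ≤ |B'| := fun x => (hgB x).trans (le_abs_self _)
  refine ⟨⟨Real.toNNReal |B| * K' + Real.toNNReal |B'| * K, ?_⟩,
    ⟨|B| * |B'|, fun x => ?_⟩, hπ⟩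
  · refine LipschitzWith.of_dist_le_mul fun x y => ?_
    rw [Real.dist_eq]
    have h1 : f x * g x - f y * g y = f x * (g x - g y) + (f x - f y) * g y := by ring
    rw [h1]
    refine (abs_add_le _ _).trans ?_
    rw [abs_mul, abs_mul]
    have h2 : |g x - g y| ≤ K' * dist x y := by
      have := hg.dist_le_mul x y; rwa [Real.dist_eq] at this
    have h3 : |f x - f y| ≤ K * dist x y := by
      have := hf.dist_le_mul x y; rwa [Real.dist_eq] at this
    have h4 : |f x| * |g x - g y| ≤ |B| * (K' * dist x y) :=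
      mul_le_mul (hfB' x) h2 (abs_nonneg _) hB
    have h5 : |f x - f y| * |g y| ≤ (K * dist x y) * |B'| :=
      mul_le_mul h3 (hgB' y) (abs_nonneg _) (by positivity)
    push_cast
    rw [Real.coe_toNNReal _ (abs_nonneg _), Real.coe_toNNReal _ (abs_nonneg _)]
    nlinarith
  · rw [abs_mul]
    exact mul_le_mul (hfB' x) (hgB' x) (abs_nonneg _) hB

/-- The exterior derivative identity on a product chart: Fubini plus expansion along the
`s`-column. -/
theorem integral_prodSet_det {X : Type*} [MetricSpace X] {E : Set (Euc n)} (hE : MeasurableSet E)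
    {φ : Euc n → X} {L : ℝ≥0} (hφ : LipschitzOnWith L φ E)
    {θ : Euc n → ℤ} (hθ : Integrable (fun z => (θ z : ℝ)) (volume.restrict E))
    (P D : Fin (n + 1) → ℝ → X → ℝ) {C : ℝ≥0}
    (hP : ∀ a, ∀ s ∈ Icc (0 : ℝ) 1, ∀ s' ∈ Icc (0 : ℝ) 1, ∀ x x',
      |P a s x - P a s' x'| ≤ C * (|s - s'| + dist x x'))
    (hD : ∀ a, ∀ s ∈ Icc (0 : ℝ) 1, ∀ x, HasDerivWithinAt (fun s' => P a s' x) (D a s x)
      (Icc 0 1) s)
    (hDL : ∀ a, ∀ s ∈ Icc (0 : ℝ) 1, ∃ K : ℝ≥0, LipschitzWith K (D a s))
    (hDB : ∀ a, ∀ s ∈ Icc (0 : ℝ) 1, ∀ x, |D a s x| ≤ C)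
    (f : ℝ → X → ℝ) {B : ℝ} (hfB : ∀ s ∈ Icc (0 : ℝ) 1, ∀ x, |f s x| ≤ B)
    {Cf : ℝ≥0} (hfL : ∀ s ∈ Icc (0 : ℝ) 1, ∀ s' ∈ Icc (0 : ℝ) 1, ∀ x x',
      |f s x - f s' x'| ≤ Cf * (|s - s'| + dist x x')) :
    ∫ w in prodSet E, (θ (tl w) : ℝ) * f (w 0) (φ (tl w)) *
        (Matrix.of fun a j => fderivWithin ℝ (fun w => P a (w 0) (φ (tl w))) (prodSet E) w
          (EuclideanSpace.single j 1)).det
      = ∫ s in Icc (0 : ℝ) 1, ∑ a : Fin (n + 1), (-1 : ℝ) ^ (a : ℕ) *
          chartAction E φ θ (fun x => f s x * D a s x) (fun b => P (a.succAbove b) s) := by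
  have hPE := measurableSet_prodSet hE
  set G : Fin (n + 1) → Euc (n + 1) → ℝ := fun a w => P a (w 0) (φ (tl w)) with hGdef
  have hG : ∀ a, LipschitzOnWith (C * (1 + L)) (G a) (prodSet E) :=
    fun a => lipschitzOn_comp_chart hφ (hP a)
  -- Lipschitz slices
  have hPL : ∀ a, ∀ s ∈ Icc (0 : ℝ) 1, LipschitzWith C (P a s) := fun a s hs => by
    refine LipschitzWith.of_dist_le_mul fun x x' => ?_
    rw [Real.dist_eq]
    simpa using hP a s hs s hs x x'
  have hfLs : ∀ s ∈ Icc (0 : ℝ) 1, LipschitzWith Cf (f s) := fun s hs => by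
    refine LipschitzWith.of_dist_le_mul fun x x' => ?_
    rw [Real.dist_eq]
    simpa using hfL s hs s hs x x'
  -- the pointwise identity
  have key : ∀ᵐ w ∂(volume.restrict (prodSet E)),
      (Matrix.of fun a j => fderivWithin ℝ (G a) (prodSet E) w
          (EuclideanSpace.single j 1)).det
        = ∑ a : Fin (n + 1), (-1 : ℝ) ^ (a : ℕ) * D a (w 0) (φ (tl w)) *
          (Matrix.of fun b j => fderivWithin ℝ (fun z' => P (a.succAbove b) (w 0) (φ z')) E (tl w)
            (EuclideanSpace.single j 1)).det := by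
    have h1 : ∀ᵐ w ∂(volume.restrict (prodSet E)), ∀ a,
        DifferentiableWithinAt ℝ (G a) (prodSet E) w := by
      rw [ae_all_iff]
      exact fun a => (hG a).ae_differentiableWithinAt hPE
    have h2 := ae_prodSet_of_ae (B1Density.ae_uniqueDiffWithinAt volume hE)
    filter_upwards [h1, h2, ae_restrict_mem hPE] with w hw hu hwE
    rw [Matrix.det_succ_column_zero]
    refine Finset.sum_congr rfl fun a _ => ?_
    have e0 : (Matrix.of fun a j => fderivWithin ℝ (G a) (prodSet E) w
          (EuclideanSpace.single j 1)) a 0 = D a (w 0) (φ (tl w)) := by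
      simp only [Matrix.of_apply]
      have := fderivWithin_prodSet_zero (E := E) (G := G a) (s := w 0) (z := tl w) hwE.1 hwE.2
        (by rw [consE_tl]; exact hw a) (d := D a (w 0) (φ (tl w))) (by
          simpa [hGdef] using hD a (w 0) hwE.1 (φ (tl w)))
      rwa [consE_tl] at this
    rw [e0]
    congr 2
    ext b j
    simp only [Matrix.submatrix_apply, Matrix.of_apply]
    have := fderivWithin_prodSet_succ (E := E) (G := G (a.succAbove b)) (s := w 0) (z := tl w)
      hwE.1 hu (by rw [consE_tl]; exact hw _) j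
    rw [consE_tl] at this
    rw [this]
    rfl
  -- integrability of the left integrand
  have hθ' : Integrable (fun w => (θ (tl w) : ℝ)) (volume.restrict (prodSet E)) := by
    have h := (measurePreserving_splitE n).restrict_preimage_emb (splitE n).measurableEmbedding
      (Icc (0 : ℝ) 1 ×ˢ E)
    rw [← prodSet_eq, ← Measure.prod_restrict] at h
    exact (h.integrable_comp_emb (splitE n).measurableEmbedding).2
      (hθ.comp_snd (volume.restrict (Icc (0 : ℝ) 1)))
  obtain ⟨J, hJm, hJb, hJ⟩ := ae_det_fderivWithin hPE hG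
  have hfm : AEStronglyMeasurable (fun w => f (w 0) (φ (tl w))) (volume.restrict (prodSet E)) :=
    (lipschitzOn_comp_chart hφ hfL).continuousOn.aestronglyMeasurable hPE
  have hint : IntegrableOn (fun w => (θ (tl w) : ℝ) * f (w 0) (φ (tl w)) *
        (Matrix.of fun a j => fderivWithin ℝ (G a) (prodSet E) w
          (EuclideanSpace.single j 1)).det) (prodSet E) := by
    have h1 : Integrable (fun w => (θ (tl w) : ℝ) * f (w 0) (φ (tl w)))
        (volume.restrict (prodSet E)) := by
      refine hθ'.mul_bdd (c := B) hfm ?_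
      filter_upwards [ae_restrict_mem hPE] with w hw
      exact hfB _ hw.1 _
    have h2 : Integrable (fun w => (θ (tl w) : ℝ) * f (w 0) (φ (tl w)) * J w)
        (volume.restrict (prodSet E)) :=
      h1.mul_bdd hJm.aestronglyMeasurable (Eventually.of_forall fun w => hJb w)
    refine h2.congr ?_
    filter_upwards [hJ] with w hw
    rw [hw]
  rw [setIntegral_prodSet _ hint]
  -- a.e. slice
  refine integral_congr_ae ?_
  filter_upwards [ae_ae_of_ae_prodSet key, ae_restrict_mem measurableSet_Icc] with s hs hsI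
  have e1 : ∫ z in E, (θ (tl (consE s z)) : ℝ) * f (consE s z 0) (φ (tl (consE s z))) *
        (Matrix.of fun a j => fderivWithin ℝ (G a) (prodSet E) (consE s z)
          (EuclideanSpace.single j 1)).det
      = ∫ z in E, ∑ a : Fin (n + 1), (-1 : ℝ) ^ (a : ℕ) * ((θ z : ℝ) * (f s (φ z) * D a s (φ z)) *
          (Matrix.of fun b j => fderivWithin ℝ (fun z' => P (a.succAbove b) s (φ z')) E z
            (EuclideanSpace.single j 1)).det) := by
    refine integral_congr_ae ?_
    filter_upwards [hs] with z hz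
    rw [hz, Finset.mul_sum]
    refine Finset.sum_congr rfl fun a _ => ?_
    simp only [tl_consE, consE_zero]
    ring
  rw [e1, integral_finsetSum]
  · refine Finset.sum_congr rfl fun a _ => ?_
    rw [integral_const_mul]
    congr 1
    obtain ⟨K, hK⟩ := hDL a s hsI
    have htest : IsTestPair (fun x => f s x * D a s x) (fun b => P (a.succAbove b) s) :=
      isTestPair_mul (hfLs s hsI) hK (hfB s hsI) (hDB a s hsI) fun b => ⟨C, hPL _ s hsI⟩
    simp only [chartAction, if_pos htest]
  · intro a _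
    refine Integrable.const_mul ?_ _
    obtain ⟨K, hK⟩ := hDL a s hsI
    have hPφ : ∀ b, LipschitzOnWith (C * L) (fun z' => P (a.succAbove b) s (φ z')) E := fun b =>
      (hPL _ s hsI).comp_lipschitzOnWith hφ
    obtain ⟨J', hJm', hJb', hJ'⟩ := ae_det_fderivWithin hE hPφ
    have hm : AEStronglyMeasurable (fun z => f s (φ z) * D a s (φ z)) (volume.restrict E) :=
      (((hfLs s hsI).comp_lipschitzOnWith hφ).continuousOn.aestronglyMeasurable hE).mul
        ((hK.comp_lipschitzOnWith hφ).continuousOn.aestronglyMeasurable hE)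
    have h1 : Integrable (fun z => (θ z : ℝ) * (f s (φ z) * D a s (φ z))) (volume.restrict E) := by
      refine hθ.mul_bdd (c := |B| * C) hm (Eventually.of_forall fun z => ?_)
      rw [Real.norm_eq_abs, abs_mul]
      exact mul_le_mul ((hfB s hsI _).trans (le_abs_self _)) (hDB a s hsI _) (abs_nonneg _)
        (abs_nonneg _)
    have h2 : Integrable (fun z => (θ z : ℝ) * (f s (φ z) * D a s (φ z)) * J' z)
        (volume.restrict E) :=
      h1.mul_bdd hJm'.aestronglyMeasurable (Eventually.of_forall fun w => hJb' w)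
    refine h2.congr ?_
    filter_upwards [hJ'] with w hw
    rw [hw]

end

end Crest.Agent.R241.B8Fubini
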