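import Mathlib
import Crest.Agent.R241.Defs
import Crest.Agent.R241.B10Complete

/-!
# R241, block B10: completeness of the class of integral currents in `K` (owner: helper502)
-/

set_option autoImplicit false
set_option linter.unusedSectionVars false

open MeasureTheory Filter Topology Set
open scoped ENNReal NNReal

universe u

namespace Crest.Agent.R241.B10

open Crest.GeometryTopology.MetricCurrent

variable {X : Type u} [MetricSpace X] [MeasurableSpace X] [BorelSpace X] {k : ℕ}

/-- soft threshold -/
noncomputable def soft (ε t : ℝ) : ℝ := max (t - ε) 0 + min (t + ε) 0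

theorem soft_eq_zero {ε t : ℝ} (h : |t| ≤ ε) : soft ε t = 0 := by
  obtain ⟨h1, h2⟩ := abs_le.1 h
  unfold soft
  rw [max_eq_right (by linarith), min_eq_right (by linarith), add_zero]

theorem abs_soft_sub_le {ε : ℝ} (hε : 0 ≤ ε) (t : ℝ) : |soft ε t - t| ≤ ε := by
  unfold soft
  rcases le_total (t - ε) 0 with h | h <;> rcases le_total (t + ε) 0 with h' | h'
  · rw [max_eq_right h, min_eq_left h', abs_le]; constructor <;> linarith
  · rw [max_eq_right h, min_eq_right h', abs_le]; constructor <;> linarith
  · rw [max_eq_left h, min_eq_left h', abs_le]; constructor <;> linarith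
  · rw [max_eq_left h, min_eq_right h', abs_le]; constructor <;> linarith

theorem lipschitz_soft {ε : ℝ} {f : X → ℝ} {L : ℝ≥0} (hf : LipschitzWith L f) :
    LipschitzWith (L + L) (fun x => soft ε (f x)) := by
  have h1 : LipschitzWith L (fun x => f x - ε) := by
    have := hf.sub (LipschitzWith.const (α := X) ε)
    simpa using this
  have h2 : LipschitzWith L (fun x => f x + ε) := by
    have := hf.add (LipschitzWith.const (α := X) ε)
    simpa using this
  exact (h1.max_const 0).add (h2.min_const 0)

/-- Strengthened locality: a coordinate may be constant on the (closed) support only. -/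
theorem eq_zero_of_eqOn_support {T : Functional X k} (hT : IsCurrent T) {K : Set X}
    (hK : IsSupportedIn K T) {f : X → ℝ} {π : Fin k → X → ℝ} (hf : IsTestPair f π) (i : Fin k)
    (h0 : ∀ x ∈ K, π i x = 0) : T f π = 0 := by
  obtain ⟨L, hL⟩ := hf.2.2 i
  set δ : ℕ → ℝ := fun n => 1 / ((n : ℝ) + 1) with hδ
  have hδpos : ∀ n, 0 < δ n := fun n => by rw [hδ]; positivity
  have hδlim : Tendsto δ atTop (𝓝 0) := tendsto_one_div_add_atTop_nhds_zero_nat
  set πs : ℕ → Fin k → X → ℝ := fun n => Function.update π i (fun x => soft (δ n) (π i x)) with hπs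
  have hπsL : ∀ n, ∃ M : ℝ≥0, LipschitzWith M (fun x => soft (δ n) (π i x)) := fun n =>
    ⟨_, lipschitz_soft hL⟩
  have htest : ∀ n, IsTestPair f (πs n) := fun n => isTestPair_update hf i (hπsL n)
  obtain ⟨C, hC⟩ := exists_common_lip hf
  have hlim : Tendsto (fun n => T f (πs n)) atTop (𝓝 (T f π)) := by
    refine hT.continuity f π πs hf ⟨C + C, fun n j => ?_⟩ fun j x => ?_
    · by_cases hj : j = i
      · subst hj
        simp only [hπs, Function.update_self]
        exact lipschitz_soft (hC j)
      · simp only [hπs, Function.update_of_ne hj]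
        exact (hC j).weaken (le_add_of_nonneg_left zero_le)
    · by_cases hj : j = i
      · subst hj
        simp only [hπs, Function.update_self]
        rw [tendsto_iff_dist_tendsto_zero]
        refine squeeze_zero (fun n => dist_nonneg) (fun n => ?_) hδlim
        rw [Real.dist_eq]
        exact abs_soft_sub_le (hδpos n).le _
      · simp only [hπs, Function.update_of_ne hj]
        exact tendsto_const_nhds
  refine tendsto_nhds_unique hlim ?_
  refine tendsto_const_nhds.congr fun n => ?_
  -- each term vanishes
  symm
  have hη : 0 < δ n / ((L : ℝ) + 1) := div_pos (hδpos n) (by positivity)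
  set χ : X → ℝ := fun x => ((thickenedIndicator hη K x : ℝ≥0) : ℝ) with hχ
  have hχL : ∃ M : ℝ≥0, LipschitzWith M χ :=
    ⟨_, (NNReal.isometry_coe).lipschitz.comp (lipschitzWith_thickenedIndicator hη K)⟩
  have hχb : ∃ M : ℝ, ∀ x, |χ x| ≤ M := by
    refine ⟨1, fun x => ?_⟩
    rw [abs_of_nonneg (NNReal.coe_nonneg _)]
    have := thickenedIndicator_le_one hη K x
    exact_mod_cast this
  have htest2 : IsTestPair (fun x => f x * χ x) (πs n) := isTestPair_mul (htest n) hχL hχb
  have h1 : T f (πs n) = T (fun x => f x * χ x) (πs n) := by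
    refine eq_of_eqOn hT hK (htest n) htest2 fun x hx => ?_
    have : χ x = 1 := by
      simp only [hχ]
      rw [thickenedIndicator_one hη K hx]
      simp
    simp [this]
  rw [h1]
  refine hT.locality _ _ htest2 ⟨i, Metric.thickening (δ n / ((L : ℝ) + 1)) K, 0,
    Metric.isOpen_thickening, ?_, ?_⟩
  · intro x hx
    by_contra hx'
    apply hx
    have : χ x = 0 := by
      simp only [hχ]
      rw [thickenedIndicator_zero hη K hx']
      simp
    simp [this]
  · intro x hx
    simp only [hπs, Function.update_self]
    refine soft_eq_zero ?_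
    obtain ⟨z, hz, hxz⟩ := Metric.mem_thickening_iff.1 hx
    have h2 := hL.dist_le_mul x z
    rw [Real.dist_eq, h0 z hz, sub_zero] at h2
    refine h2.trans ?_
    calc (L : ℝ) * dist x z ≤ ((L : ℝ) + 1) * (δ n / ((L : ℝ) + 1)) := by
          apply mul_le_mul (by linarith) hxz.le dist_nonneg (by positivity)
      _ = δ n := by field_simp

/-- The boundary is supported where the current is. -/
theorem isSupportedIn_bd {S : Functional X (k + 1)} (hS : IsCurrent S) {K : Set X}
    (hK : IsSupportedIn K S) : IsSupportedIn K (bd S) := by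
  intro f π hf h0
  rw [bd_apply hf]
  exact eq_zero_of_eqOn_support hS hK (isTestPair_cons hf) 0 (by simpa using h0)



end Crest.Agent.R241.B10
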