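import Crest.Agent.R241.G1b
import Crest.Agent.R241.B1Weak
import Crest.Agent.R241.B8Fubini
import Crest.Agent.R241.B1c1
import Crest.Agent.R241.B1Cur
import Crest.Agent.R241.B10Int
import Crest.Agent.R241.B10Complete
import Crest.Agent.R241.Defs

-- ▼ part R241/B8Abs
section

/-!
# R241, block B8: the homotopy derivative formula for axiomatic currents (owner: helper971)

`U T Q = T (Q 0; Q 1, …, Q k)`.  For a family `P a s x` which is `C¹` in `s` with everything
uniformly Lipschitz, `d/ds U T (P · s) = ∑ a, U T (update (P · s) a (D a s))`, and for a cycle `T`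
(Leibniz rule + alternation) the `a`-th term is `(-1)^a T (D a s; P b s, b ≠ a)`.
-/

set_option autoImplicit false
set_option linter.unusedSectionVars false
set_option linter.unusedSimpArgs false

open MeasureTheory Filter Topology Set
open scoped ENNReal NNReal

namespace Crest.Agent.R241.B8Abs

open Crest.GeometryTopology.MetricCurrent
open Crest.Agent.R241.G1

universe u

variable {X : Type u} [MetricSpace X] [MeasurableSpace X] [BorelSpace X]

section U

variable {k : ℕ} {T : Functional X k}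

/-- `U T Q = T (Q 0; Q 1, …, Q k)`. -/
def U (T : Functional X k) (Q : Fin (k + 1) → X → ℝ) : ℝ := T (Q 0) (fun i => Q i.succ)

theorem tendsto_U (hT : IsCurrent T) {Q : Fin (k + 1) → X → ℝ}
    {Qs : ℕ → Fin (k + 1) → X → ℝ} {C : ℝ≥0} {B : ℝ}
    (hQs : ∀ j a, LipschitzWith C (Qs j a)) (hB : ∀ j x, |Qs j 0 x| ≤ B)
    (h : ∀ a x, Tendsto (fun j => Qs j a x) atTop (𝓝 (Q a x))) :
    Tendsto (fun j => U T (Qs j)) atTop (𝓝 (U T Q)) := by
  have hQ : ∀ a, LipschitzWith C (Q a) := fun a => by
    refine LipschitzWith.of_dist_le_mul fun x y => ?_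
    exact le_of_tendsto ((h a x).dist (h a y)) (Eventually.of_forall fun j =>
      (hQs j a).dist_le_mul x y)
  have hQB : ∀ x, |Q 0 x| ≤ B := fun x =>
    le_of_tendsto (h 0 x).abs (Eventually.of_forall fun j => hB j x)
  have hBL : BL (Q 0) := ⟨⟨C, hQ 0⟩, B, hQB⟩
  have hBLs : ∀ j, BL (Qs j 0) := fun j => ⟨⟨C, hQs j 0⟩, B, hB j⟩
  obtain ⟨μ, hμf, hμ⟩ := hT.finite_mass
  have hLT : LipT (fun i : Fin k => Q i.succ) := fun i => ⟨C, hQ _⟩
  have hLTs : ∀ j, LipT (fun i : Fin k => Qs j i.succ) := fun j i => ⟨C, hQs j _⟩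
  -- fixed first slot
  have h1 : Tendsto (fun j => T (Q 0) (fun i => Qs j i.succ)) atTop
      (𝓝 (T (Q 0) (fun i => Q i.succ))) :=
    hT.continuity _ _ _ (hBL.isTestPair hLT) ⟨C, fun j i => hQs j _⟩ fun i x => h _ x
  -- difference in the first slot
  have h2 : Tendsto (fun j => T (Qs j 0 - Q 0) (fun i => Qs j i.succ)) atTop (𝓝 0) := by
    have hI : Tendsto (fun j => ∫ x, |(Qs j 0 - Q 0) x| ∂μ) atTop (𝓝 0) := by
      have := tendsto_integral_of_dominated_convergence (μ := μ)
        (F := fun j x => |(Qs j 0 - Q 0) x|) (f := fun _ => (0 : ℝ)) (fun _ => B + B)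
        (fun j => ((hBLs j).sub hBL).abs.measurable.aestronglyMeasurable)
        (integrable_const _) (fun j => Eventually.of_forall fun x => by
          simp only [Pi.sub_apply, Real.norm_eq_abs, abs_abs]
          exact (abs_sub _ _).trans (add_le_add (hB j x) (hQB x)))
        (Eventually.of_forall fun x => by
          have := ((h 0 x).sub_const (Q 0 x)).abs
          simpa using this)
      simpa using this
    have hbound : ∀ j, ‖T (Qs j 0 - Q 0) (fun i => Qs j i.succ)‖
        ≤ (∏ _i : Fin k, (C : ℝ)) * ∫ x, |(Qs j 0 - Q 0) x| ∂μ := fun j =>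
      abs_le_of_controls hT hμ ((hBLs j).sub hBL) (fun i => hQs j _)
    refine squeeze_zero_norm hbound ?_
    simpa using hI.const_mul (∏ _i : Fin k, (C : ℝ))
  have h3 : ∀ j, U T (Qs j) = T (Q 0) (fun i => Qs j i.succ)
      + T (Qs j 0 - Q 0) (fun i => Qs j i.succ) := fun j => by
    rw [← hT.add_left _ _ _ (hBL.isTestPair (hLTs j)) (((hBLs j).sub hBL).isTestPair (hLTs j))]
    simp [U]
  simp_rw [h3]
  simpa [U] using h1.add h2

theorem update_zero_eq {α : Type*} (Q : Fin (k + 1) → α) (g : α) :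
    (fun i : Fin k => Function.update Q 0 g i.succ) = fun i => Q i.succ := by
  funext i
  simp [Function.update_of_ne (Fin.succ_ne_zero i)]

theorem update_succ_eq {α : Type*} (Q : Fin (k + 1) → α) (i : Fin k) (g : α) :
    (fun j : Fin k => Function.update Q i.succ g j.succ)
      = Function.update (fun j : Fin k => Q j.succ) i g := by
  funext j
  by_cases h : j = i
  · subst h; simp
  · simp [h, Fin.succ_inj]

/-- `U` is additive in every slot (differences). -/
theorem U_update_sub (hT : IsCurrent T) {Q : Fin (k + 1) → X → ℝ}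
    (hQ : ∀ a, ∃ K : ℝ≥0, LipschitzWith K (Q a)) (hQ0 : ∃ B, ∀ x, |Q 0 x| ≤ B)
    (a : Fin (k + 1)) {g g' : X → ℝ} (hg : BL g ∨ (a ≠ 0 ∧ ∃ K : ℝ≥0, LipschitzWith K g))
    (hg' : BL g' ∨ (a ≠ 0 ∧ ∃ K : ℝ≥0, LipschitzWith K g')) :
    U T (Function.update Q a g) - U T (Function.update Q a g')
      = U T (Function.update Q a (g - g')) := by
  have hQBL : BL (Q 0) := ⟨hQ 0, hQ0⟩
  revert hg hg'
  refine Fin.cases ?_ (fun i => ?_) a
  · intro hg hg'
    have hg := hg.resolve_right (by simp)
    have hg' := hg'.resolve_right (by simp)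
    simp only [U, Function.update_self, update_zero_eq]
    have hLT : LipT (fun i : Fin k => Q i.succ) := fun i => hQ _
    have := hT.add_left (g - g') g' (fun i => Q i.succ) ((hg.sub hg').isTestPair hLT)
      (hg'.isTestPair hLT)
    rw [sub_add_cancel] at this
    rw [this]; ring
  · intro hg hg'
    have hg : ∃ K : ℝ≥0, LipschitzWith K g := hg.elim (fun h => h.1) (fun h => h.2)
    have hg' : ∃ K : ℝ≥0, LipschitzWith K g' := hg'.elim (fun h => h.1) (fun h => h.2)
    have h0 : ∀ v : X → ℝ, Function.update Q i.succ v 0 = Q 0 := fun v =>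
      Function.update_of_ne (Fin.succ_ne_zero i).symm _ _
    simp only [U, h0, update_succ_eq]
    have hLT : LipT (fun i : Fin k => Q i.succ) := fun i => hQ _
    obtain ⟨K, hK⟩ := hg
    obtain ⟨K', hK'⟩ := hg'
    have := hT.add_coord (Q 0) (Function.update (fun j : Fin k => Q j.succ) i (g - g')) i g'
      (hQBL.isTestPair (hLT.update i ⟨_, hK.sub hK'⟩)) ⟨K', hK'⟩
    simp only [Function.update_self, sub_add_cancel, Function.update_idem] at this
    rw [this]; ring

/-- `U` is homogeneous in every slot. -/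
theorem U_update_smul (hT : IsCurrent T) {Q : Fin (k + 1) → X → ℝ}
    (hQ : ∀ a, ∃ K : ℝ≥0, LipschitzWith K (Q a)) (hQ0 : ∃ B, ∀ x, |Q 0 x| ≤ B)
    (a : Fin (k + 1)) {g : X → ℝ} (hg : BL g ∨ (a ≠ 0 ∧ ∃ K : ℝ≥0, LipschitzWith K g)) (c : ℝ) :
    U T (Function.update Q a (c • g)) = c * U T (Function.update Q a g) := by
  have hQBL : BL (Q 0) := ⟨hQ 0, hQ0⟩
  revert hg
  refine Fin.cases ?_ (fun i => ?_) a
  · intro hg
    have hg := hg.resolve_right (by simp)
    simp only [U, Function.update_self, update_zero_eq]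
    have hLT : LipT (fun i : Fin k => Q i.succ) := fun i => hQ _
    exact hT.smul_left c g _ (hg.isTestPair hLT)
  · intro hg
    have hg : ∃ K : ℝ≥0, LipschitzWith K g := hg.elim (fun h => h.1) (fun h => h.2)
    have h0 : ∀ v : X → ℝ, Function.update Q i.succ v 0 = Q 0 := fun v =>
      Function.update_of_ne (Fin.succ_ne_zero i).symm _ _
    simp only [U, h0, update_succ_eq]
    have hLT : LipT (fun i : Fin k => Q i.succ) := fun i => hQ _
    have := hT.smul_coord (Q 0) (Function.update (fun j : Fin k => Q j.succ) i g) i c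
      (hQBL.isTestPair (hLT.update i hg))
    simpa using this

/-- Data of a family of tuples depending in a `C¹` way on a parameter. -/
structure Fam (k : ℕ) (X : Type u) [MetricSpace X] where
  P : Fin (k + 1) → ℝ → X → ℝ
  D : Fin (k + 1) → ℝ → X → ℝ
  C : ℝ≥0
  K : ℝ≥0
  hP : ∀ a s s' x x', |P a s x - P a s' x'| ≤ C * (|s - s'| + dist x x')
  hPd : ∀ a s x, HasDerivAt (fun s => P a s x) (D a s x) s
  hDL : ∀ a s s' x x', |D a s x - D a s' x'| ≤ K * (|s - s'| + dist x x')
  hDB : ∀ a s x, |D a s x| ≤ C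

namespace Fam

variable (F : Fam k X)

omit [MeasurableSpace X] [BorelSpace X] in
theorem lipP (a : Fin (k + 1)) (s : ℝ) : LipschitzWith F.C (F.P a s) := by
  refine LipschitzWith.of_dist_le_mul fun x x' => ?_
  rw [Real.dist_eq]
  simpa using F.hP a s s x x'

omit [MeasurableSpace X] [BorelSpace X] in
theorem lipD (a : Fin (k + 1)) (s : ℝ) : LipschitzWith F.K (F.D a s) := by
  refine LipschitzWith.of_dist_le_mul fun x x' => ?_
  rw [Real.dist_eq]
  simpa using F.hDL a s s x x'

omit [MeasurableSpace X] [BorelSpace X] in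
theorem blD (a : Fin (k + 1)) (s : ℝ) : BL (F.D a s) := ⟨⟨_, F.lipD a s⟩, _, F.hDB a s⟩

omit [MeasurableSpace X] [BorelSpace X] in
theorem blP {B : ℝ} (hPB : ∀ s x, |F.P 0 s x| ≤ B) (s : ℝ) : BL (F.P 0 s) :=
  ⟨⟨_, F.lipP 0 s⟩, B, hPB s⟩

/-- difference quotients are Lipschitz in `x` -/
theorem lip_quot (a : Fin (k + 1)) (s s' : ℝ) :
    LipschitzWith F.K ((s' - s)⁻¹ • (F.P a s' - F.P a s)) := by
  refine LipschitzWith.of_dist_le_mul fun x x' => ?_
  rcases eq_or_ne s' s with rfl | hne
  · simp; positivity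
  have h1 : ∀ r ∈ (univ : Set ℝ), HasDerivWithinAt (fun r => F.P a r x - F.P a r x')
      (F.D a r x - F.D a r x') univ r := fun r _ =>
    ((F.hPd a r x).sub (F.hPd a r x')).hasDerivWithinAt
  have h2 : ∀ r ∈ (univ : Set ℝ), ‖F.D a r x - F.D a r x'‖ ≤ F.K * dist x x' := fun r _ => by
    simpa using F.hDL a r r x x'
  have h3 := convex_univ.norm_image_sub_le_of_norm_hasDerivWithin_le h1 h2 (mem_univ s)
    (mem_univ s')
  rw [Real.dist_eq]
  simp only [Pi.smul_apply, Pi.sub_apply, smul_eq_mul]
  rw [← mul_sub, abs_mul, abs_inv]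
  have h4 : 0 < |s' - s| := abs_pos.2 (sub_ne_zero.2 hne)
  rw [inv_mul_le_iff₀ h4]
  simp only [Real.norm_eq_abs] at h3
  calc |F.P a s' x - F.P a s x - (F.P a s' x' - F.P a s x')|
      = |F.P a s' x - F.P a s' x' - (F.P a s x - F.P a s x')| := by ring_nf
    _ ≤ F.K * dist x x' * |s' - s| := h3
    _ = |s' - s| * (F.K * dist x x') := by ring

/-- difference quotients are bounded -/
theorem abs_quot_le (a : Fin (k + 1)) (s s' : ℝ) (x : X) :
    |((s' - s)⁻¹ • (F.P a s' - F.P a s)) x| ≤ F.C := by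
  simp only [Pi.smul_apply, Pi.sub_apply, smul_eq_mul]
  rcases eq_or_ne s' s with rfl | hne
  · simp
  have h4 : 0 < |s' - s| := abs_pos.2 (sub_ne_zero.2 hne)
  rw [abs_mul, abs_inv, inv_mul_le_iff₀ h4]
  have := F.hP a s' s x x
  simp only [dist_self, add_zero] at this
  linarith

/-- hybrid tuples -/
def hyb (s s' : ℝ) (m : ℕ) : Fin (k + 1) → X → ℝ :=
  fun b => if (b : ℕ) < m then F.P b s' else F.P b s

omit [MeasurableSpace X] [BorelSpace X] in
theorem hyb_zero (s s' : ℝ) : F.hyb s s' 0 = fun a => F.P a s := by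
  funext b; simp [hyb]

omit [MeasurableSpace X] [BorelSpace X] in
theorem hyb_last (s s' : ℝ) : F.hyb s s' (k + 1) = fun a => F.P a s' := by
  funext b; simp [hyb, b.2]

omit [MeasurableSpace X] [BorelSpace X] in
theorem update_hyb (s s' : ℝ) (a : Fin (k + 1)) :
    Function.update (F.hyb s s' a) a (F.P a s) = F.hyb s s' a := by
  funext b
  by_cases h : b = a
  · subst h; simp [hyb]
  · simp [Function.update_of_ne h]

omit [MeasurableSpace X] [BorelSpace X] in
theorem update_hyb_succ (s s' : ℝ) (a : Fin (k + 1)) :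
    Function.update (F.hyb s s' a) a (F.P a s') = F.hyb s s' (a + 1) := by
  funext b
  by_cases h : b = a
  · subst h; simp [hyb]
  · rw [Function.update_of_ne h]
    have h' : (b : ℕ) ≠ a := fun h'' => h (Fin.ext h'')
    simp only [hyb]
    by_cases h1 : (b : ℕ) < a
    · rw [if_pos h1, if_pos (by omega)]
    · rw [if_neg h1, if_neg (by omega)]

omit [MeasurableSpace X] [BorelSpace X] in
theorem lip_hyb (s s' : ℝ) (m : ℕ) (b : Fin (k + 1)) : LipschitzWith F.C (F.hyb s s' m b) := by
  unfold hyb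
  split_ifs
  · exact F.lipP _ _
  · exact F.lipP _ _

omit [MeasurableSpace X] [BorelSpace X] in
theorem abs_hyb_le {B : ℝ} (hPB : ∀ s x, |F.P 0 s x| ≤ B) (s s' : ℝ) (m : ℕ) (x : X) :
    |F.hyb s s' m 0 x| ≤ B := by
  unfold hyb
  split_ifs
  · exact hPB _ _
  · exact hPB _ _

omit [MeasurableSpace X] [BorelSpace X] in
theorem bl_or {B : ℝ} (hPB : ∀ s x, |F.P 0 s x| ≤ B) (a : Fin (k + 1)) (s : ℝ) :
    BL (F.P a s) ∨ (a ≠ 0 ∧ ∃ K : ℝ≥0, LipschitzWith K (F.P a s)) := by
  by_cases h : a = 0
  · subst h; exact Or.inl (F.blP hPB s)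
  · exact Or.inr ⟨h, _, F.lipP a s⟩

theorem U_sub (hT : IsCurrent T) {B : ℝ} (hPB : ∀ s x, |F.P 0 s x| ≤ B) (s s' : ℝ) :
    U T (fun a => F.P a s') - U T (fun a => F.P a s)
      = ∑ a : Fin (k + 1), U T (Function.update (F.hyb s s' a) a (F.P a s' - F.P a s)) := by
  have h1 := Finset.sum_range_sub (fun m => U T (F.hyb s s' m)) (k + 1)
  rw [← hyb_last F s s', ← F.hyb_zero s s', ← h1, Finset.sum_range]
  refine Finset.sum_congr rfl fun a _ => ?_
  have h2 := U_update_sub hT (Q := F.hyb s s' a) (fun b => ⟨_, F.lip_hyb s s' a b⟩)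
    ⟨_, F.abs_hyb_le hPB s s' a⟩ a (F.bl_or hPB a s') (F.bl_or hPB a s)
  rw [F.update_hyb, F.update_hyb_succ] at h2
  exact h2

theorem hasDerivAt_U (hT : IsCurrent T) {B : ℝ} (hPB : ∀ s x, |F.P 0 s x| ≤ B) (s : ℝ) :
    HasDerivAt (fun s => U T (fun a => F.P a s))
      (∑ a : Fin (k + 1), U T (Function.update (fun b => F.P b s) a (F.D a s))) s := by
  rw [hasDerivAt_iff_tendsto_slope]
  refine tendsto_of_seq_tendsto fun u hu => ?_
  have hu1 : Tendsto u atTop (𝓝 s) := tendsto_nhds_of_tendsto_nhdsWithin hu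
  have hu2 : ∀ᶠ j in atTop, u j ≠ s := by
    have := hu (self_mem_nhdsWithin)
    exact this
  have e1 : ∀ᶠ j in atTop, (slope (fun s => U T (fun a => F.P a s)) s ∘ u) j
      = ∑ a : Fin (k + 1), U T (Function.update (F.hyb s (u j) a) a
        ((u j - s)⁻¹ • (F.P a (u j) - F.P a s))) := by
    filter_upwards [hu2] with j hj
    simp only [Function.comp_apply, slope_def_module, smul_eq_mul]
    rw [F.U_sub hT hPB, Finset.mul_sum]
    refine Finset.sum_congr rfl fun a _ => ?_
    refine (U_update_smul hT (fun b => ⟨_, F.lip_hyb s (u j) a b⟩)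
      ⟨_, F.abs_hyb_le hPB s (u j) a⟩ a ?_ _).symm
    by_cases h : a = 0
    · subst h; exact Or.inl ((F.blP hPB _).sub (F.blP hPB _))
    · exact Or.inr ⟨h, _, (F.lipP a _).sub (F.lipP a _)⟩
  rw [tendsto_congr' e1]
  refine tendsto_finsetSum _ fun a _ => ?_
  refine tendsto_U hT (C := F.C + F.K) (B := max B F.C) (fun j b => ?_) (fun j x => ?_)
    (fun b x => ?_)
  · by_cases h : b = a
    · subst h; rw [Function.update_self]
      exact (F.lip_quot _ _ _).weaken (by simp)
    · rw [Function.update_of_ne h]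
      exact (F.lip_hyb _ _ _ _).weaken (by simp)
  · by_cases h : (0 : Fin (k + 1)) = a
    · subst h; rw [Function.update_self]
      exact (F.abs_quot_le _ _ _ _).trans (le_max_right _ _)
    · rw [Function.update_of_ne h]
      exact (F.abs_hyb_le hPB _ _ _ _).trans (le_max_left _ _)
  · by_cases h : b = a
    · subst h
      simp only [Function.update_self]
      have := (hasDerivAt_iff_tendsto_slope.1 (F.hPd b s x)).comp hu
      refine this.congr fun j => ?_
      simp [slope_def_module]
    · simp only [Function.update_of_ne h]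
      have hc : Tendsto (fun j => F.P b (u j) x) atTop (𝓝 (F.P b s x)) :=
        (F.hPd b s x).continuousAt.tendsto.comp hu1
      simp only [hyb]
      split_ifs
      · exact hc
      · exact tendsto_const_nhds

theorem continuous_deriv (hT : IsCurrent T) {B : ℝ} (hPB : ∀ s x, |F.P 0 s x| ≤ B)
    (a : Fin (k + 1)) :
    Continuous (fun s => U T (Function.update (fun b => F.P b s) a (F.D a s))) := by
  rw [continuous_iff_continuousAt]
  intro s
  refine tendsto_of_seq_tendsto fun u hu => ?_
  refine tendsto_U hT (C := F.C + F.K) (B := max B F.C) (fun j b => ?_) (fun j x => ?_)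
    (fun b x => ?_)
  · by_cases h : b = a
    · subst h; rw [Function.update_self]
      exact (F.lipD _ _).weaken (by simp)
    · rw [Function.update_of_ne h]
      exact (F.lipP _ _).weaken (by simp)
  · by_cases h : (0 : Fin (k + 1)) = a
    · subst h; rw [Function.update_self]
      exact (F.hDB _ _ _).trans (le_max_right _ _)
    · rw [Function.update_of_ne h]
      exact (hPB _ _).trans (le_max_left _ _)
  · by_cases h : b = a
    · subst h
      simp only [Function.update_self]
      have hc : Continuous fun s => F.D b s x := by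
        refine (LipschitzWith.of_dist_le_mul (K := F.K) fun r r' => ?_).continuous
        rw [Real.dist_eq, Real.dist_eq]
        simpa using F.hDL b r r' x x
      exact (hc.tendsto s).comp hu
    · simp only [Function.update_of_ne h]
      exact (F.hPd b s x).continuousAt.tendsto.comp hu

theorem U_sub_eq_integral (hT : IsCurrent T) {B : ℝ} (hPB : ∀ s x, |F.P 0 s x| ≤ B)
    (s₀ s₁ : ℝ) :
    U T (fun a => F.P a s₁) - U T (fun a => F.P a s₀)
      = ∫ s in s₀..s₁, ∑ a : Fin (k + 1), U T (Function.update (fun b => F.P b s) a (F.D a s)) := by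
  symm
  refine intervalIntegral.integral_eq_sub_of_hasDerivAt (fun s _ => F.hasDerivAt_U hT hPB s) ?_
  exact (continuous_finsetSum _ fun a _ => F.continuous_deriv hT hPB a).intervalIntegrable _ _

end Fam

end U

/-! ### Cycles: moving the differentiated function to the first slot -/

section cycle

variable {k : ℕ} {T : Functional X (k + 1)}

/-- Leibniz rule for the constant function `1` in the first slot. -/
def Leib (T : Functional X (k + 1)) : Prop :=
  ∀ (u v : X → ℝ) (σ : Fin k → X → ℝ), BL u → BL v → LipT σ →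
    T (fun _ => 1) (Fin.cons (fun x => u x * v x) σ)
      = T u (Fin.cons v σ) + T v (Fin.cons u σ)

/-- Alternation. -/
def Alt (T : Functional X (k + 1)) : Prop :=
  ∀ (σ : Equiv.Perm (Fin (k + 1))) (f : X → ℝ) (π : Fin (k + 1) → X → ℝ), BL f → LipT π →
    T f (fun i => π (σ i)) = ((Equiv.Perm.sign σ : ℤ) : ℝ) * T f π

omit [MeasurableSpace X] [BorelSpace X] in
theorem LipT_cons {σ : Fin k → X → ℝ} (hσ : LipT σ) {u : X → ℝ}
    (hu : ∃ K : ℝ≥0, LipschitzWith K u) : LipT (Fin.cons u σ : Fin (k + 1) → X → ℝ) := by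
  intro i
  refine Fin.cases ?_ (fun i => ?_) i
  · simpa using hu
  · simpa using hσ i

theorem U_update_cycle (hL : Leib T) (hA : Alt T) (hc : bd T = 0)
    (Q : Fin (k + 2) → X → ℝ) (hQ : ∀ a, ∃ K : ℝ≥0, LipschitzWith K (Q a)) (hQ0 : BL (Q 0))
    (a : Fin (k + 2)) {D : X → ℝ} (hD : BL D) :
    U T (Function.update Q a D) = (-1 : ℝ) ^ (a : ℕ) * T D (fun b => Q (a.succAbove b)) := by
  refine Fin.cases ?_ (fun i => ?_) a
  · simp only [U, Function.update_self, update_zero_eq]
    simp [Fin.succAbove_zero]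
  · have h0 : Function.update Q i.succ D 0 = Q 0 := Function.update_of_ne (Fin.succ_ne_zero i).symm _ _
    simp only [U, h0, update_succ_eq]
    set π : Fin (k + 1) → X → ℝ := fun j => Q j.succ with hπ
    have hπL : LipT π := fun j => hQ _
    set τ : Fin k → X → ℝ := fun b => π (i.succAbove b) with hτ
    have hτL : LipT τ := fun b => hπL _
    have e1 : Function.update π i D
        = fun j => (Fin.cons D τ : Fin (k + 1) → X → ℝ) (i.cycleRange j) := by
      funext j
      rcases Fin.eq_self_or_eq_succAbove i j with h | ⟨b, h⟩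
      · subst h
        simp [Fin.cycleRange_self]
      · subst h
        rw [Function.update_of_ne (Fin.succAbove_ne i b), Fin.cycleRange_succAbove]
        simp [hτ]
    rw [e1, hA _ _ _ hQ0 (LipT_cons hτL hD.1), Fin.sign_cycleRange]
    have e2 : T (Q 0) (Fin.cons D τ) + T D (Fin.cons (Q 0) τ) = 0 := by
      rw [← hL (Q 0) D τ hQ0 hD hτL]
      have hBL : BL (fun x => Q 0 x * D x) := hQ0.mul hD
      have h1 : bd T (fun x => Q 0 x * D x) τ = 0 := by rw [hc]; rfl
      unfold bd at h1
      rw [if_pos (hBL.isTestPair hτL)] at h1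
      exact h1
    have e3 : (fun b => Q (i.succ.succAbove b)) = (Fin.cons (Q 0) τ : Fin (k + 1) → X → ℝ) := by
      funext b
      refine Fin.cases ?_ (fun b => ?_) b
      · simp
      · simp [hτ, hπ]
    rw [e3]
    have e4 : T (Q 0) (Fin.cons D τ) = - T D (Fin.cons (Q 0) τ) := by linarith
    rw [e4]
    push_cast
    simp only [Fin.val_succ, pow_succ]
    ring

/-- **Homotopy derivative formula for cycles.** -/
theorem cycle_U_sub (hT : IsCurrent T) (hL : Leib T) (hA : Alt T) (hc : bd T = 0)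
    (F : Fam (k + 1) X) {B : ℝ} (hPB : ∀ s x, |F.P 0 s x| ≤ B) (s₀ s₁ : ℝ) :
    U T (fun a => F.P a s₁) - U T (fun a => F.P a s₀)
      = ∫ s in s₀..s₁, ∑ a : Fin (k + 2),
        (-1 : ℝ) ^ (a : ℕ) * T (F.D a s) (fun b => F.P (a.succAbove b) s) := by
  rw [F.U_sub_eq_integral hT hPB]
  refine intervalIntegral.integral_congr fun s _ => ?_
  refine Finset.sum_congr rfl fun a _ => ?_
  exact U_update_cycle hL hA hc (fun b => F.P b s) (fun b => ⟨_, F.lipP b s⟩) (F.blP hPB s) a
    (F.blD a s)

end cycle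

end Crest.Agent.R241.B8Abs
end

-- ▼ part R241/B8Stek
section

/-!
# R241, block B8: Steklov averages (owner: helper971)
-/

set_option autoImplicit false
set_option linter.unusedSectionVars false

open MeasureTheory Filter Topology Set
open scoped ENNReal NNReal

namespace Crest.Agent.R241.B8Stek

open Crest.GeometryTopology.MetricCurrent
open Crest.GeometryTopology.Submanifold (Euc)
open Crest.Agent.R241.G1
open Crest.Agent.R241.B8Abs

universe u

variable {X : Type u} [MetricSpace X]

/-- Steklov average in the parameter. -/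
noncomputable def stek (ε : ℝ) (F : ℝ → X → ℝ) (s : ℝ) (x : X) : ℝ :=
  ∫ u in (0 : ℝ)..1, F (s + ε * u) x

/-- joint Lipschitz condition -/
def JL (C : ℝ≥0) (F : ℝ → X → ℝ) : Prop :=
  ∀ s s' x x', |F s x - F s' x'| ≤ C * (|s - s'| + dist x x')

theorem JL.continuous_left {C : ℝ≥0} {F : ℝ → X → ℝ} (hF : JL C F) (x : X) :
    Continuous fun s => F s x := by
  refine (LipschitzWith.of_dist_le_mul (K := C) fun s s' => ?_).continuous
  rw [Real.dist_eq, Real.dist_eq]
  simpa using hF s s' x x

theorem JL.intervalIntegrable {C : ℝ≥0} {F : ℝ → X → ℝ} (hF : JL C F) (x : X) (ε s a b : ℝ) :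
    IntervalIntegrable (fun u => F (s + ε * u) x) volume a b :=
  ((hF.continuous_left x).comp (by fun_prop : Continuous fun u : ℝ => s + ε * u)).intervalIntegrable
    _ _

theorem stek_JL {C : ℝ≥0} {F : ℝ → X → ℝ} (hF : JL C F) (ε : ℝ) : JL C (stek ε F) := by
  intro s s' x x'
  unfold stek
  rw [← intervalIntegral.integral_sub (hF.intervalIntegrable x ε s 0 1)
    (hF.intervalIntegrable x' ε s' 0 1)]
  have h := intervalIntegral.norm_integral_le_of_norm_le_const (a := (0 : ℝ)) (b := 1)
    (C := C * (|s - s'| + dist x x')) (f := fun u => F (s + ε * u) x - F (s' + ε * u) x')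
    (fun u _ => by
      rw [Real.norm_eq_abs]
      have := hF (s + ε * u) (s' + ε * u) x x'
      simpa using this)
  simpa using h

theorem abs_stek_le {F : ℝ → X → ℝ} {B : ℝ} (hB : ∀ s x, |F s x| ≤ B) (ε s : ℝ) (x : X) :
    |stek ε F s x| ≤ B := by
  have h := intervalIntegral.norm_integral_le_of_norm_le_const (a := (0 : ℝ)) (b := 1)
    (C := B) (f := fun u => F (s + ε * u) x) (fun u _ => hB _ _)
  simpa [stek] using h

theorem abs_stek_sub_le {C : ℝ≥0} {F : ℝ → X → ℝ} (hF : JL C F) {ε : ℝ} (hε : 0 ≤ ε) (s : ℝ)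
    (x : X) : |stek ε F s x - F s x| ≤ C * ε := by
  have h0 : stek ε F s x - F s x = ∫ u in (0 : ℝ)..1, (F (s + ε * u) x - F s x) := by
    unfold stek
    rw [intervalIntegral.integral_sub (hF.intervalIntegrable x ε s 0 1) (by simp)]
    simp
  rw [h0]
  have h := intervalIntegral.norm_integral_le_of_norm_le_const (a := (0 : ℝ)) (b := 1)
    (C := C * ε) (f := fun u => F (s + ε * u) x - F s x) (fun u hu => by
      rw [Real.norm_eq_abs]
      rw [uIoc_of_le zero_le_one] at hu
      have := hF (s + ε * u) s x x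
      simp only [add_sub_cancel_left, dist_self, add_zero] at this
      refine this.trans ?_
      rw [abs_of_nonneg (mul_nonneg hε hu.1.le)]
      have : ε * u ≤ ε * 1 := mul_le_mul_of_nonneg_left hu.2 hε
      have hC := C.coe_nonneg
      nlinarith)
  simpa using h

theorem hasDerivAt_stek {C : ℝ≥0} {F : ℝ → X → ℝ} (hF : JL C F) {ε : ℝ} (hε : 0 < ε) (s : ℝ)
    (x : X) : HasDerivAt (fun s => stek ε F s x) ((F (s + ε) x - F s x) / ε) s := by
  have hc := hF.continuous_left x
  have e : (fun s => stek ε F s x)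
      = fun s => ε⁻¹ * ((∫ u in (0 : ℝ)..(s + ε), F u x) - ∫ u in (0 : ℝ)..s, F u x) := by
    funext s
    unfold stek
    rw [intervalIntegral.integral_interval_sub_left (hc.intervalIntegrable _ _)
      (hc.intervalIntegrable _ _)]
    have := intervalIntegral.integral_comp_add_mul (fun u => F u x) (a := 0) (b := 1) hε.ne' s
    rw [this]
    simp
  rw [e]
  have h1 : HasDerivAt (fun s => ∫ u in (0 : ℝ)..s, F u x) (F s x) s :=
    intervalIntegral.integral_hasDerivAt_right (hc.intervalIntegrable _ _)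
      (hc.stronglyMeasurableAtFilter _ _) hc.continuousAt
  have h2 : HasDerivAt (fun s => ∫ u in (0 : ℝ)..s, F u x) (F (s + ε) x) (s + ε) :=
    intervalIntegral.integral_hasDerivAt_right (hc.intervalIntegrable _ _)
      (hc.stronglyMeasurableAtFilter _ _) hc.continuousAt
  have h3 : HasDerivAt (fun s => ∫ u in (0 : ℝ)..(s + ε), F u x) (F (s + ε) x) s := by
    have := h2.comp_add_const s ε
    exact this
  have h4 := (h3.sub h1).const_mul ε⁻¹
  refine h4.congr_deriv ?_
  rw [div_eq_inv_mul]

/-- the family of Steklov averages of a tuple. -/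
noncomputable def fam {k : ℕ} (Q : Fin (k + 1) → ℝ → X → ℝ) {C : ℝ≥0} (hQ : ∀ a, JL C (Q a))
    (ε : ℝ≥0) (hε : 0 < ε) : Fam k X where
  P a := stek ε (Q a)
  D a s x := (Q a (s + ε) x - Q a s x) / ε
  C := C
  K := 2 * C / ε
  hP a := stek_JL (hQ a) ε
  hPd a s x := hasDerivAt_stek (hQ a) (by exact_mod_cast hε) s x
  hDL a s s' x x' := by
    have hε' : (0 : ℝ) < ε := by exact_mod_cast hε
    have h1 := hQ a (s + ε) (s' + ε) x x'
    have h2 := hQ a s s' x x'
    simp only [add_sub_add_right_eq_sub] at h1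
    rw [← sub_div, abs_div, abs_of_pos hε', div_le_iff₀ hε']
    push_cast
    have h3 : 2 * (C : ℝ) / ε * (|s - s'| + dist x x') * ε
        = C * (|s - s'| + dist x x') + C * (|s - s'| + dist x x') := by
      field_simp; ring
    rw [h3]
    calc |Q a (s + ε) x - Q a s x - (Q a (s' + ε) x' - Q a s' x')|
        = |(Q a (s + ε) x - Q a (s' + ε) x') - (Q a s x - Q a s' x')| := by ring_nf
      _ ≤ |Q a (s + ε) x - Q a (s' + ε) x'| + |Q a s x - Q a s' x'| := abs_sub _ _
      _ ≤ _ := add_le_add h1 h2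
  hDB a s x := by
    have hε' : (0 : ℝ) < ε := by exact_mod_cast hε
    have h1 := hQ a (s + ε) s x x
    simp only [add_sub_cancel_left, dist_self, add_zero, abs_of_pos hε'] at h1
    rw [abs_div, abs_of_pos hε', div_le_iff₀ hε']
    exact h1

/-! ### Weak continuity of Jacobians within a set -/

open Crest.Agent.R241.B1Null in
theorem weak_within {k : ℕ} {E : Set (Euc k)} (hE : MeasurableSet E) {g : Euc k → ℝ}
    (hg : IntegrableOn g E) {C : ℝ≥0} {u : ℕ → Fin k → Euc k → ℝ} {v : Fin k → Euc k → ℝ}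
    (hu : ∀ n i, LipschitzOnWith C (u n i) E) (hv : ∀ i, LipschitzOnWith C (v i) E)
    {ε : ℕ → ℝ} (hε : Tendsto ε atTop (𝓝 0))
    (h : ∀ n i, ∀ z ∈ E, |u n i z - v i z| ≤ ε n) :
    Tendsto (fun n => ∫ z in E, g z * (Matrix.of fun i j =>
        fderivWithin ℝ (u n i) E z (EuclideanSpace.single j 1)).det) atTop
      (𝓝 (∫ z in E, g z * (Matrix.of fun i j =>
        fderivWithin ℝ (v i) E z (EuclideanSpace.single j 1)).det)) := by
  rcases Set.eq_empty_or_nonempty E with rfl | ⟨z₀, hz₀⟩
  · simp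
  rcases Nat.eq_zero_or_pos k with hk | hk
  · subst hk
    simp [Matrix.det_isEmpty]
  have hε0 : ∀ n, 0 ≤ ε n := fun n => (abs_nonneg _).trans (h n ⟨0, hk⟩ z₀ hz₀)
  choose V hV hVE using fun i => (hv i).extend_real
  choose W hW hWE using fun n i => (hu n i).extend_real
  set W' : ℕ → Fin k → Euc k → ℝ := fun n i z => max (V i z - ε n) (min (V i z + ε n) (W n i z))
    with hW'
  have hW'L : ∀ n i, LipschitzWith C (W' n i) := fun n i => by
    have h1 : LipschitzWith C (fun z => V i z - ε n) := by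
      refine LipschitzWith.of_dist_le_mul fun x y => ?_
      simpa using (hV i).dist_le_mul x y
    have h2 : LipschitzWith C (fun z => V i z + ε n) := by
      refine LipschitzWith.of_dist_le_mul fun x y => ?_
      simpa using (hV i).dist_le_mul x y
    have h3 := h2.min (hW n i)
    rw [max_self] at h3
    have h4 := h1.max h3
    rwa [max_self] at h4
  have hW'E : ∀ n i, EqOn (u n i) (W' n i) E := fun n i z hz => by
    have h1 := h n i z hz
    rw [abs_le] at h1
    simp only [hW']
    rw [← hWE n i hz, ← hVE i hz, min_eq_right (by linarith), max_eq_right (by linarith)]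
  have hclose : ∀ n i z, |W' n i z - V i z| ≤ ε n := fun n i z => by
    simp only [hW']
    have h0 := hε0 n
    rw [abs_le]
    constructor
    · have := le_max_left (V i z - ε n) (min (V i z + ε n) (W n i z))
      linarith
    · have : max (V i z - ε n) (min (V i z + ε n) (W n i z)) ≤ V i z + ε n :=
        max_le (by linarith) (min_le_left _ _)
      linarith
  have hg' : Integrable (E.indicator g) := (integrable_indicator_iff hE).2 hg
  have key := B1Weak.tendsto_integral_mul_det hg' hW'L hV hε hclose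
  have e1 : ∀ (a b : Fin k → Euc k → ℝ), (∀ i, EqOn (a i) (b i) E) → (∀ i, LipschitzWith C (b i)) →
      ∫ z, E.indicator g z * (DM b z).det = ∫ z in E, g z * (Matrix.of fun i j =>
        fderivWithin ℝ (a i) E z (EuclideanSpace.single j 1)).det := by
    intro a b hab hb
    rw [← integral_indicator hE]
    have h1 : ∀ᵐ z ∂(volume.restrict E), ∀ i, fderivWithin ℝ (a i) E z = fderiv ℝ (b i) z := by
      rw [ae_all_iff]
      exact fun i => B1Density.ae_fderivWithin_eq_of_lipschitz volume hE (hab i) (hb i)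
    rw [ae_restrict_iff' hE] at h1
    refine integral_congr_ae ?_
    filter_upwards [h1] with z hz
    by_cases hzE : z ∈ E
    · rw [indicator_of_mem hzE, indicator_of_mem hzE]
      congr 2
      ext i j
      simp [DM, hz hzE i]
    · rw [indicator_of_notMem hzE, indicator_of_notMem hzE, zero_mul]
  rw [← e1 v V hVE hV]
  simp_rw [fun n => (e1 (u n) (W' n) (hW'E n) (hW'L n)).symm]
  exact key

end Crest.Agent.R241.B8Stek
end

-- ▼ part R241/B8
section

/-!
# R241, block B8: the homotopy formula for sums of chart actions (owner: helper971)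

`Chs k X`: a countable family of Lipschitz charts with integer densities and summable controlling
measures.  `c.T` the current, `c.R H` the `(k+1)`-dimensional functional obtained by sweeping with
`H : ℝ → X → Y` over `[0,1]`.

* `Chs.homotopy`: if `bd c.T = 0` then `bd (c.R H) = (H 1)_# c.T - (H 0)_# c.T` on test pairs.
* `Chs.abs_piece_le`, `Chs.controls_piece`: the pieces of `c.R H` are controlled by
  `(k+1) C^(k+1) H_#(ds × μ_i)`.
-/

set_option autoImplicit false
set_option linter.unusedSectionVars false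
set_option linter.unusedSimpArgs false

open MeasureTheory Filter Topology Set
open scoped ENNReal NNReal

namespace Crest.Agent.R241.B8

open Crest.GeometryTopology.MetricCurrent
open Crest.GeometryTopology.Submanifold (Euc)
open Crest.Agent.R241.G1
open Crest.Agent.R241.B8Abs
open Crest.Agent.R241.B8Stek
open Crest.Agent.R241.B8Fubini

universe u v

variable {X : Type u} [MetricSpace X] [MeasurableSpace X] [BorelSpace X]
variable {Y : Type v} [MetricSpace Y] [MeasurableSpace Y] [BorelSpace Y]

/-- The chart action is alternating. -/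
theorem chart_alt {k : ℕ} (E : Set (Euc k)) (φ : Euc k → X) (θ : Euc k → ℤ)
    (σ : Equiv.Perm (Fin k)) (f : X → ℝ) (π : Fin k → X → ℝ) (hf : BL f) (hπ : LipT π) :
    chartAction E φ θ f (fun i => π (σ i))
      = ((Equiv.Perm.sign σ : ℤ) : ℝ) * chartAction E φ θ f π := by
  have h1 : IsTestPair f π := hf.isTestPair hπ
  have h2 : IsTestPair f (fun i => π (σ i)) := hf.isTestPair fun i => hπ _
  simp only [chartAction, if_pos h1, if_pos h2]
  rw [← integral_const_mul]
  refine integral_congr_ae (Eventually.of_forall fun z => ?_)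
  simp only
  have := Matrix.det_permute σ (Matrix.of fun i j =>
          fderivWithin ℝ (fun w => π i (φ w)) E z (EuclideanSpace.single j 1))
  have e : (Matrix.of fun i j =>
          fderivWithin ℝ (fun w => π i (φ w)) E z (EuclideanSpace.single j 1)).submatrix σ id
      = Matrix.of fun i j =>
          fderivWithin ℝ (fun w => π (σ i) (φ w)) E z (EuclideanSpace.single j 1) := by
    ext i j; rfl
  rw [e] at this
  rw [this]
  ring

/-- The chart action satisfies the Leibniz rule. -/
theorem chart_leib {k : ℕ} {E : Set (Euc (k + 1))} (hE : MeasurableSet E)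
    {φ : Euc (k + 1) → X} {L : ℝ≥0} (hφ : LipschitzOnWith L φ E) {θ : Euc (k + 1) → ℤ}
    (hθ : Integrable (fun z => (θ z : ℝ)) (volume.restrict E))
    (u v : X → ℝ) (σ : Fin k → X → ℝ) (hu : BL u) (hv : BL v) (hσ : LipT σ) :
    chartAction E φ θ (fun _ => 1) (Fin.cons (fun x => u x * v x) σ)
      = chartAction E φ θ u (Fin.cons v σ) + chartAction E φ θ v (Fin.cons u σ) := by
  have huv : BL (fun x => u x * v x) := hu.mul hv
  have t1 : IsTestPair (fun _ : X => (1 : ℝ)) (Fin.cons (fun x => u x * v x) σ : Fin (k + 1) → X → ℝ) :=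
    BL.one.isTestPair (LipT_cons hσ huv.1)
  have t2 : IsTestPair u (Fin.cons v σ : Fin (k + 1) → X → ℝ) := hu.isTestPair (LipT_cons hσ hv.1)
  have t3 : IsTestPair v (Fin.cons u σ : Fin (k + 1) → X → ℝ) := hv.isTestPair (LipT_cons hσ hu.1)
  simp only [chartAction, if_pos t1, if_pos t2, if_pos t3]
  -- the derivative matrices
  set M : (X → ℝ) → Euc (k + 1) → Matrix (Fin (k + 1)) (Fin (k + 1)) ℝ := fun w z =>
    Matrix.of fun i j => fderivWithin ℝ (fun y => (Fin.cons w σ : Fin (k + 1) → X → ℝ) i (φ y)) E z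
      (EuclideanSpace.single j 1) with hM
  have hMu : ∀ (w w' : X → ℝ) z, M w z = (M w' z).updateRow 0
      (fun j => fderivWithin ℝ (fun y => w (φ y)) E z (EuclideanSpace.single j 1)) := by
    intro w w' z
    ext i j
    refine Fin.cases ?_ (fun i => ?_) i
    · simp [hM]
    · simp [hM, Matrix.updateRow_ne (Fin.succ_ne_zero i)]
  obtain ⟨Ku, hKu⟩ := hu.1
  obtain ⟨Kv, hKv⟩ := hv.1
  have hlip : ∀ w : X → ℝ, (∃ K : ℝ≥0, LipschitzWith K w) → ∀ᵐ z ∂(volume.restrict E),
      DifferentiableWithinAt ℝ (fun y => w (φ y)) E z := fun w ⟨K, hK⟩ =>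
    (hK.comp_lipschitzOnWith hφ).ae_differentiableWithinAt hE
  have key : ∀ᵐ z ∂(volume.restrict E), (θ z : ℝ) * 1 * (M (fun x => u x * v x) z).det
      = (θ z : ℝ) * u (φ z) * (M v z).det + (θ z : ℝ) * v (φ z) * (M u z).det := by
    filter_upwards [hlip u hu.1, hlip v hv.1, B1Density.ae_uniqueDiffWithinAt volume hE]
      with z h1 h2 h3
    have e1 : (fun j => fderivWithin ℝ (fun y => u (φ y) * v (φ y)) E z
          (EuclideanSpace.single j (1 : ℝ)))
        = u (φ z) • (fun j => fderivWithin ℝ (fun y => v (φ y)) E z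
            (EuclideanSpace.single j (1 : ℝ)))
          + v (φ z) • (fun j => fderivWithin ℝ (fun y => u (φ y)) E z
            (EuclideanSpace.single j (1 : ℝ))) := by
      funext j
      rw [fderivWithin_fun_mul h3 h1 h2]
      simp
    rw [hMu (fun x => u x * v x) 0 z, hMu v 0 z, hMu u 0 z, e1, Matrix.det_updateRow_add,
      Matrix.det_updateRow_smul, Matrix.det_updateRow_smul]
    ring
  -- integrability
  have hint : ∀ (f w : X → ℝ), BL f → (∃ K : ℝ≥0, LipschitzWith K w) →
      Integrable (fun z => (θ z : ℝ) * f (φ z) * (M w z).det) (volume.restrict E) := by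
    intro f w hf hw
    choose K hK using LipT_cons hσ hw
    have hu' : ∀ i, LipschitzOnWith ((∑ i, K i) * L)
        (fun y => (Fin.cons w σ : Fin (k + 1) → X → ℝ) i (φ y)) E := fun i =>
      ((hK i).weaken (Finset.single_le_sum (f := K) (fun _ _ => zero_le)
        (Finset.mem_univ i))).comp_lipschitzOnWith hφ
    obtain ⟨J, hJm, hJb, hJ⟩ := ae_det_fderivWithin hE hu'
    obtain ⟨Kf, hKf⟩ := hf.1
    obtain ⟨B, hB⟩ := hf.2
    have h1 : Integrable (fun z => (θ z : ℝ) * f (φ z)) (volume.restrict E) :=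
      hθ.mul_bdd (c := B) ((hKf.comp_lipschitzOnWith hφ).continuousOn.aestronglyMeasurable hE)
        (Eventually.of_forall fun z => hB _)
    have h2 := h1.mul_bdd hJm.aestronglyMeasurable (Eventually.of_forall fun z => hJb z)
    refine h2.congr ?_
    filter_upwards [hJ] with z hz
    rw [hz]
  rw [← integral_add (hint u v hu hv.1) (hint v u hv hu.1)]
  exact integral_congr_ae key

/-- A countable family of Lipschitz charts with integer densities and summable controlling
measures. -/
structure Chs (k : ℕ) (X : Type u) [MetricSpace X] [MeasurableSpace X] [BorelSpace X] where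
  E : ℕ → Set (Euc k)
  φ : ℕ → Euc k → X
  θ : ℕ → Euc k → ℤ
  L : ℕ → ℝ≥0
  μ : ℕ → Measure X
  measE : ∀ i, MeasurableSet (E i)
  lip : ∀ i, LipschitzOnWith (L i) (φ i) (E i)
  int : ∀ i, Integrable (fun z => (θ i z : ℝ)) (volume.restrict (E i))
  cur : ∀ i, IsCurrent (chartAction (E i) (φ i) (θ i))
  fin : ∀ i, IsFiniteMeasure (μ i)
  ctrl : ∀ i, Controls (chartAction (E i) (φ i) (θ i)) (μ i)
  summ : Summable fun i => (μ i univ).toReal

namespace Chs

variable {k : ℕ}

attribute [instance] Chs.fin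

/-- the current represented by the family -/
noncomputable def T (c : Chs k X) : Functional X k :=
  fun f π => ∑' i, chartAction (c.E i) (c.φ i) (c.θ i) f π

/-- the `i`-th piece of the swept functional. -/
noncomputable def piece (c : Chs k X) (H : ℝ → X → Y) (i : ℕ) : Functional Y (k + 1) :=
  chartAction (prodSet (c.E i)) (fun w => H (w 0) (c.φ i (tl w))) (fun w => c.θ i (tl w))

/-- the swept functional -/
noncomputable def R (c : Chs k X) (H : ℝ → X → Y) : Functional Y (k + 1) :=
  fun f π => ∑' i, c.piece H i f π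

theorem abs_chart_le (c : Chs k X) (i : ℕ) {f : X → ℝ} {π : Fin k → X → ℝ} (hf : BL f)
    {K : ℝ≥0} (hK : ∀ j, LipschitzWith K (π j)) :
    |chartAction (c.E i) (c.φ i) (c.θ i) f π| ≤ (K : ℝ) ^ k * ∫ x, |f x| ∂(c.μ i) := by
  have := abs_le_of_controls (c.cur i) (c.ctrl i) hf hK
  simpa using this

theorem summable_chart (c : Chs k X) {f : X → ℝ} {π : Fin k → X → ℝ} (hf : BL f) (hπ : LipT π) :
    Summable fun i => chartAction (c.E i) (c.φ i) (c.θ i) f π := by
  obtain ⟨B, hB⟩ := hf.2
  choose K hK using hπ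
  have hK' : ∀ j, LipschitzWith (∑ i, K i) (π j) := fun j =>
    (hK j).weaken (Finset.single_le_sum (f := K) (fun _ _ => zero_le) (Finset.mem_univ j))
  refine Summable.of_norm_bounded (g := fun i => ((∑ i, K i : ℝ≥0) : ℝ) ^ k *
    (|B| * (c.μ i univ).toReal)) ((c.summ.mul_left _).mul_left _) fun i => ?_
  rw [Real.norm_eq_abs]
  refine (c.abs_chart_le i hf hK').trans ?_
  refine mul_le_mul_of_nonneg_left ?_ (by positivity)
  calc ∫ x, |f x| ∂(c.μ i) ≤ ∫ _x, |B| ∂(c.μ i) :=
        integral_mono (hf.abs.integrable _) (integrable_const _) fun x =>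
          (hB x).trans (le_abs_self _)
    _ = |B| * (c.μ i univ).toReal := by
        rw [integral_const, smul_eq_mul, mul_comm]; rfl

theorem alt (c : Chs (k + 1) X) : Alt c.T := by
  intro σ f π hf hπ
  simp only [T]
  rw [← tsum_mul_left]
  exact tsum_congr fun i => chart_alt _ _ _ σ f π hf hπ

theorem leib (c : Chs (k + 1) X) : Leib c.T := by
  intro u v σ hu hv hσ
  simp only [T]
  rw [← (c.summable_chart hu (LipT_cons hσ hv.1)).tsum_add
    (c.summable_chart hv (LipT_cons hσ hu.1))]
  exact tsum_congr fun i => chart_leib (c.measE i) (c.lip i) (c.int i) u v σ hu hv hσ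

end Chs

/-! ### The clamped homotopy -/

/-- clamp to `[0,1]`. -/
def cl (s : ℝ) : ℝ := max 0 (min 1 s)

theorem cl_mem (s : ℝ) : cl s ∈ Icc (0 : ℝ) 1 :=
  ⟨le_max_left _ _, max_le zero_le_one (min_le_left _ _)⟩

theorem cl_of_mem {s : ℝ} (hs : s ∈ Icc (0 : ℝ) 1) : cl s = s := by
  rw [cl, min_eq_right hs.2, max_eq_right hs.1]

theorem abs_cl_sub_le (s s' : ℝ) : |cl s - cl s'| ≤ |s - s'| := by
  have h1 : LipschitzWith 1 cl := by
    have h2 := (LipschitzWith.const (α := ℝ) (1 : ℝ)).min LipschitzWith.id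
    have h3 := (LipschitzWith.const (α := ℝ) (0 : ℝ)).max h2
    have e : max (0 : ℝ≥0) (max 0 1) = 1 := by simp
    rw [e] at h3
    exact h3
  have := h1.dist_le_mul s s'
  simpa [Real.dist_eq] using this

/-- joint Lipschitz condition for the homotopy on `[0,1] × X`. -/
def HLip (C : ℝ≥0) (H : ℝ → X → Y) : Prop :=
  ∀ s ∈ Icc (0 : ℝ) 1, ∀ s' ∈ Icc (0 : ℝ) 1, ∀ x x',
    dist (H s x) (H s' x') ≤ C * (|s - s'| + dist x x')

theorem JL_comp {C K : ℝ≥0} {H : ℝ → X → Y} (hH : HLip C H) {q : Y → ℝ}
    (hq : LipschitzWith K q) : JL (K * C) (fun s x => q (H (cl s) x)) := by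
  intro s s' x x'
  have h1 := hq.dist_le_mul (H (cl s) x) (H (cl s') x')
  rw [Real.dist_eq] at h1
  refine h1.trans ?_
  have h2 := hH _ (cl_mem s) _ (cl_mem s') x x'
  have h3 := abs_cl_sub_le s s'
  push_cast
  rw [mul_assoc]
  refine mul_le_mul_of_nonneg_left (h2.trans ?_) K.coe_nonneg
  exact mul_le_mul_of_nonneg_left (by linarith) C.coe_nonneg

theorem continuous_cl_H {C : ℝ≥0} {H : ℝ → X → Y} (hH : HLip C H) :
    Continuous fun p : ℝ × X => H (cl p.1) p.2 := by
  have : LipschitzWith (C * 2) fun p : ℝ × X => H (cl p.1) p.2 := by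
    refine LipschitzWith.of_dist_le_mul fun p q => ?_
    refine (hH _ (cl_mem _) _ (cl_mem _) _ _).trans ?_
    push_cast
    rw [mul_assoc]
    refine mul_le_mul_of_nonneg_left ?_ C.coe_nonneg
    have h1 : |p.1 - q.1| ≤ dist p q := by
      rw [← Real.dist_eq]; exact le_max_left _ _
    have h2 : dist p.2 q.2 ≤ dist p q := le_max_right _ _
    have h3 := abs_cl_sub_le p.1 q.1
    linarith
  exact this.continuous

/-- continuity in `s` of `∫ |f s x| dμ`. -/
theorem continuous_integral_abs {C : ℝ≥0} {f : ℝ → X → ℝ} (hf : JL C f) {B : ℝ}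
    (hB : ∀ s x, |f s x| ≤ B) (μ : Measure X) [IsFiniteMeasure μ] :
    Continuous fun s => ∫ x, |f s x| ∂μ := by
  refine continuous_of_dominated (bound := fun _ => B) (fun s => ?_) (fun s => ?_)
    (integrable_const _) (Eventually.of_forall fun x => ?_)
  · have : LipschitzWith C (f s) := by
      refine LipschitzWith.of_dist_le_mul fun x x' => ?_
      rw [Real.dist_eq]
      simpa using hf s s x x'
    exact (this.continuous.abs.measurable).aestronglyMeasurable
  · exact Eventually.of_forall fun x => by simpa using hB s x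
  · exact (hf.continuous_left x).abs

namespace Chs

variable {k : ℕ}

/-- Jacobian determinant of a family on the product chart. -/
noncomputable def jac (c : Chs k X) (i : ℕ) (P : Fin (k + 1) → ℝ → X → ℝ) (w : Euc (k + 1)) : ℝ :=
  (Matrix.of fun a j => fderivWithin ℝ (fun w => P a (w 0) (c.φ i (tl w))) (prodSet (c.E i)) w
          (EuclideanSpace.single j 1)).det

theorem jac_integral (c : Chs k X) (i : ℕ) (F : Fam k X) {f : ℝ → X → ℝ} {Cf : ℝ≥0}
    (hf : JL Cf f) {B : ℝ} (hB : ∀ s x, |f s x| ≤ B) :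
    ∫ w in prodSet (c.E i), (c.θ i (tl w) : ℝ) * f (w 0) (c.φ i (tl w)) * c.jac i F.P w
      = ∫ s in Icc (0 : ℝ) 1, ∑ a : Fin (k + 1), (-1 : ℝ) ^ (a : ℕ) *
          chartAction (c.E i) (c.φ i) (c.θ i) (fun x => f s x * F.D a s x)
            (fun b => F.P (a.succAbove b) s) :=
  integral_prodSet_det (c.measE i) (c.lip i) (c.int i) F.P F.D
    (fun a s _ s' _ x x' => F.hP a s s' x x')
    (fun a s _ x => (F.hPd a s x).hasDerivWithinAt) (fun a s _ => ⟨_, F.lipD a s⟩)
    (fun a s _ x => F.hDB a s x) f (fun s _ x => hB s x) (fun s _ s' _ x x' => hf s s' x x')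

theorem abs_term_le (c : Chs k X) (i : ℕ) (F : Fam k X) {f : ℝ → X → ℝ} {Cf : ℝ≥0}
    (hf : JL Cf f) {B : ℝ} (hB : ∀ s x, |f s x| ≤ B) (s : ℝ) (a : Fin (k + 1)) :
    |chartAction (c.E i) (c.φ i) (c.θ i) (fun x => f s x * F.D a s x)
        (fun b => F.P (a.succAbove b) s)| ≤ (F.C : ℝ) ^ (k + 1) * ∫ x, |f s x| ∂(c.μ i) := by
  have hfs : BL (f s) := by
    refine ⟨⟨Cf, LipschitzWith.of_dist_le_mul fun x x' => ?_⟩, B, hB s⟩
    rw [Real.dist_eq]
    simpa using hf s s x x'
  have h1 := c.abs_chart_le i (f := fun x => f s x * F.D a s x)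
    (π := fun b => F.P (a.succAbove b) s) (hfs.mul (F.blD a s)) (fun b => F.lipP _ s)
  refine h1.trans ?_
  rw [pow_succ, mul_assoc]
  refine mul_le_mul_of_nonneg_left ?_ (by positivity)
  rw [← integral_const_mul]
  refine integral_mono ((hfs.mul (F.blD a s)).abs.integrable _)
    ((hfs.abs.integrable _).const_mul _) fun x => ?_
  simp only [abs_mul]
  rw [mul_comm]
  exact mul_le_mul_of_nonneg_right (F.hDB a s x) (abs_nonneg _)

theorem abs_jac_integral_le (c : Chs k X) (i : ℕ) (F : Fam k X) {f : ℝ → X → ℝ} {Cf : ℝ≥0}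
    (hf : JL Cf f) {B : ℝ} (hB : ∀ s x, |f s x| ≤ B) :
    |∫ w in prodSet (c.E i), (c.θ i (tl w) : ℝ) * f (w 0) (c.φ i (tl w)) * c.jac i F.P w|
      ≤ (k + 1) * (F.C : ℝ) ^ (k + 1) * ∫ s in Icc (0 : ℝ) 1, ∫ x, |f s x| ∂(c.μ i) := by
  rw [c.jac_integral i F hf hB, ← Real.norm_eq_abs, ← integral_const_mul]
  refine norm_integral_le_of_norm_le ?_ (Eventually.of_forall fun s => ?_)
  · exact ((continuous_integral_abs hf hB (c.μ i)).const_mul _).continuousOn.integrableOn_compact
      isCompact_Icc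
  · rw [Real.norm_eq_abs]
    refine (Finset.abs_sum_le_sum_abs _ _).trans ?_
    refine (Finset.sum_le_sum (g := fun _ => (F.C : ℝ) ^ (k + 1) * ∫ x, |f s x| ∂(c.μ i))
      fun a _ => ?_).trans_eq ?_
    · rw [abs_mul, abs_pow, abs_neg, abs_one, one_pow, one_mul]
      exact c.abs_term_le i F hf hB s a
    · simp [Finset.sum_const]
      ring

variable {H : ℝ → X → Y} {C : ℝ≥0}

/-- the sequence of Steklov families attached to a tuple on `Y`. -/
noncomputable def sfam (hH : HLip C H) (Q : Fin (k + 1) → Y → ℝ) {K : ℝ≥0}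
    (hQ : ∀ a, LipschitzWith K (Q a)) (n : ℕ) : Fam k X :=
  fam (fun a s x => Q a (H (cl s) x)) (fun a => JL_comp hH (hQ a))
    (1 / ((n : ℝ≥0) + 1)) (by positivity)

theorem tendsto_eps (A : ℝ) : Tendsto (fun n : ℕ => A * ((1 / ((n : ℝ≥0) + 1) : ℝ≥0) : ℝ)) atTop
    (𝓝 0) := by
  have := (tendsto_one_div_add_atTop_nhds_zero_nat (𝕜 := ℝ)).const_mul A
  simpa using this

/-- convergence of the Steklov approximations on a product chart. -/
theorem tendsto_piece (c : Chs k X) (hH : HLip C H) (i : ℕ) (Q : Fin (k + 1) → Y → ℝ) {K : ℝ≥0}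
    (hQ : ∀ a, LipschitzWith K (Q a))
    {f : Y → ℝ} (hf : BL f) :
    Tendsto (fun n => ∫ w in prodSet (c.E i), (c.θ i (tl w) : ℝ) *
        f (H (cl (w 0)) (c.φ i (tl w))) * c.jac i (sfam hH Q hQ n).P w) atTop
      (𝓝 (∫ w in prodSet (c.E i), (c.θ i (tl w) : ℝ) * f (H (w 0) (c.φ i (tl w))) *
        (Matrix.of fun a j => fderivWithin ℝ (fun w => Q a (H (w 0) (c.φ i (tl w))))
          (prodSet (c.E i)) w (EuclideanSpace.single j 1)).det)) := by
  have hPE := measurableSet_prodSet (c.measE i)
  obtain ⟨Kf, hKf⟩ := hf.1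
  obtain ⟨Bf, hBf⟩ := hf.2
  have hfJL : JL (Kf * C) (fun s x => f (H (cl s) x)) := JL_comp hH hKf
  have hθ' : Integrable (fun w => (c.θ i (tl w) : ℝ)) (volume.restrict (prodSet (c.E i))) := by
    have h := (measurePreserving_splitE k).restrict_preimage_emb (splitE k).measurableEmbedding
      (Icc (0 : ℝ) 1 ×ˢ (c.E i))
    rw [← prodSet_eq, ← Measure.prod_restrict] at h
    exact (h.integrable_comp_emb (splitE k).measurableEmbedding).2
      ((c.int i).comp_snd (volume.restrict (Icc (0 : ℝ) 1)))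
  have hg : IntegrableOn (fun w => (c.θ i (tl w) : ℝ) * f (H (cl (w 0)) (c.φ i (tl w))))
      (prodSet (c.E i)) := by
    refine hθ'.mul_bdd (c := Bf) ?_ (Eventually.of_forall fun w => hBf _)
    exact (lipschitzOn_comp_chart (c.lip i) (P := fun s x => f (H (cl s) x))
      (fun s _ s' _ x x' => hfJL s s' x x')).continuousOn.aestronglyMeasurable hPE
  have hlim : ∀ w ∈ prodSet (c.E i), cl (w 0) = w 0 := fun w hw => cl_of_mem hw.1
  have e1 : ∫ w in prodSet (c.E i), (c.θ i (tl w) : ℝ) * f (H (w 0) (c.φ i (tl w))) *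
        (Matrix.of fun a j => fderivWithin ℝ (fun w => Q a (H (w 0) (c.φ i (tl w))))
          (prodSet (c.E i)) w (EuclideanSpace.single j 1)).det
      = ∫ w in prodSet (c.E i), (c.θ i (tl w) : ℝ) * f (H (cl (w 0)) (c.φ i (tl w))) *
        (Matrix.of fun a j => fderivWithin ℝ (fun w => Q a (H (cl (w 0)) (c.φ i (tl w))))
          (prodSet (c.E i)) w (EuclideanSpace.single j 1)).det := by
    refine setIntegral_congr_fun hPE fun w hw => ?_
    simp only
    rw [hlim w hw]
    congr 2
    ext a j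
    simp only [Matrix.of_apply]
    have : fderivWithin ℝ (fun w => Q a (H (w 0) (c.φ i (tl w)))) (prodSet (c.E i)) w
        = fderivWithin ℝ (fun w => Q a (H (cl (w 0)) (c.φ i (tl w)))) (prodSet (c.E i)) w := by
      refine fderivWithin_congr (fun w' hw' => ?_) ?_
      · simp only [hlim w' hw']
      · simp only [hlim w hw]
    rw [this]
  rw [e1]
  have key := weak_within hPE hg (C := (K * C) * (1 + c.L i))
    (u := fun n a w => (sfam hH Q hQ n).P a (w 0) (c.φ i (tl w)))
    (v := fun a w => Q a (H (cl (w 0)) (c.φ i (tl w))))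
    (fun n a => lipschitzOn_comp_chart (c.lip i)
      (fun s _ s' _ x x' => (sfam hH Q hQ n).hP a s s' x x'))
    (fun a => lipschitzOn_comp_chart (c.lip i) (P := fun s x => Q a (H (cl s) x))
      (fun s _ s' _ x x' => JL_comp hH (hQ a) s s' x x'))
    (tendsto_eps ((K * C : ℝ≥0) : ℝ))
    (fun n a w hw => abs_stek_sub_le (JL_comp hH (hQ a)) (NNReal.coe_nonneg _) _ _)
  exact key

/-- **Control of the swept pieces.** -/
theorem abs_piece_le (c : Chs k X) (hH : HLip C H) (i : ℕ) {K : ℝ≥0} {f : Y → ℝ} (hf : BL f)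
    {Q : Fin (k + 1) → Y → ℝ} (hQ : ∀ a, LipschitzWith K (Q a)) :
    |c.piece H i f Q| ≤ (k + 1) * ((K * C : ℝ≥0) : ℝ) ^ (k + 1) *
      ∫ s in Icc (0 : ℝ) 1, ∫ x, |f (H (cl s) x)| ∂(c.μ i) := by
  obtain ⟨Kf, hKf⟩ := hf.1
  obtain ⟨Bf, hBf⟩ := hf.2
  have h1 := (c.tendsto_piece hH i Q hQ hf).abs
  have htest : IsTestPair f Q := hf.isTestPair fun a => ⟨K, hQ a⟩
  have e : c.piece H i f Q = ∫ w in prodSet (c.E i), (c.θ i (tl w) : ℝ) *
        f (H (w 0) (c.φ i (tl w))) *
        (Matrix.of fun a j => fderivWithin ℝ (fun w => Q a (H (w 0) (c.φ i (tl w))))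
          (prodSet (c.E i)) w (EuclideanSpace.single j 1)).det := by
    simp only [piece, chartAction, if_pos htest]
  rw [e]
  refine le_of_tendsto h1 (Eventually.of_forall fun n => ?_)
  have h2 := c.abs_jac_integral_le i (sfam hH Q hQ n) (f := fun s x => f (H (cl s) x))
    (JL_comp hH hKf) (fun s x => hBf _)
  exact h2

/-- controlling measure of the swept pieces. -/
noncomputable def sweepMeas (c : Chs k X) (C : ℝ≥0) (H : ℝ → X → Y) (i : ℕ) : Measure Y :=
  (((k : ℝ≥0) + 1) * C ^ (k + 1)) •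
    Measure.map (fun p : ℝ × X => H (cl p.1) p.2)
      ((volume.restrict (Icc (0 : ℝ) 1)).prod (c.μ i))

instance (c : Chs k X) (C : ℝ≥0) (H : ℝ → X → Y) (i : ℕ) :
    IsFiniteMeasure (c.sweepMeas C H i) := by
  unfold sweepMeas; infer_instance

theorem integral_sweepMeas [SecondCountableTopology X] (c : Chs k X) (hH : HLip C H) (i : ℕ)
    {f : Y → ℝ} (hf : BL f) :
    ∫ y, |f y| ∂(c.sweepMeas C H i) = (k + 1) * (C : ℝ) ^ (k + 1) *
      ∫ s in Icc (0 : ℝ) 1, ∫ x, |f (H (cl s) x)| ∂(c.μ i) := by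
  obtain ⟨Kf, hKf⟩ := hf.1
  obtain ⟨Bf, hBf⟩ := hf.2
  have hcont := continuous_cl_H hH
  rw [sweepMeas, integral_smul_nnreal_measure, integral_map hcont.measurable.aemeasurable
    hf.abs.measurable.aestronglyMeasurable, integral_prod]
  · simp [NNReal.smul_def]
  · refine Integrable.of_bound (C := Bf) ?_ (Eventually.of_forall fun p => ?_)
    · exact (hf.abs.measurable.comp hcont.measurable).aestronglyMeasurable
    · simpa using hBf _

theorem controls_piece [SecondCountableTopology X] (c : Chs k X) (hH : HLip C H) (i : ℕ) :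
    Controls (c.piece H i) (c.sweepMeas C H i) := by
  intro f Q hfQ hQ
  have hf : BL f := (isTestPair_iff.1 hfQ).1
  rw [c.integral_sweepMeas hH i hf]
  have := c.abs_piece_le hH i (K := 1) hf hQ
  simpa using this

theorem sweepMeas_univ_le [SecondCountableTopology X] (c : Chs k X) (hH : HLip C H) (i : ℕ) :
    ((c.sweepMeas C H i) univ).toReal ≤ (k + 1) * (C : ℝ) ^ (k + 1) * (c.μ i univ).toReal := by
  have h := c.integral_sweepMeas hH i (f := fun _ => 1) BL.one
  simp only [abs_one, integral_const, smul_eq_mul, mul_one] at h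
  have e : ((c.sweepMeas C H i) univ).toReal = (c.sweepMeas C H i).real univ := rfl
  rw [e, h]
  refine le_of_eq ?_
  congr 1
  simp [Measure.real]

theorem summable_sweepMeas [SecondCountableTopology X] (c : Chs k X) (hH : HLip C H) :
    Summable fun i => ((c.sweepMeas C H i) univ).toReal :=
  Summable.of_nonneg_of_le (fun i => ENNReal.toReal_nonneg) (c.sweepMeas_univ_le hH)
    (c.summ.mul_left _)

theorem continuous_T {k : ℕ} {T : Functional X k} (hT : IsCurrent T) {f : ℝ → X → ℝ}
    {π : Fin k → ℝ → X → ℝ} {K K' : ℝ≥0} {B : ℝ} (hf : JL K f) (hπ : ∀ i, JL K' (π i))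
    (hB : ∀ s x, |f s x| ≤ B) : Continuous fun s => T (f s) (fun i => π i s) := by
  rw [continuous_iff_continuousAt]
  intro s
  refine tendsto_of_seq_tendsto fun u hu => ?_
  have hl : ∀ {K : ℝ≥0} {g : ℝ → X → ℝ} (hg : JL K g) s, LipschitzWith K (g s) := fun hg s => by
    refine LipschitzWith.of_dist_le_mul fun x x' => ?_
    rw [Real.dist_eq]
    simpa using hg s s x x'
  have := tendsto_U hT (Q := Fin.cons (f s) (fun i => π i s))
    (Qs := fun j => Fin.cons (f (u j)) (fun i => π i (u j))) (C := K + K') (B := B)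
    (fun j a => by
      refine Fin.cases ?_ (fun i => ?_) a
      · simpa using (hl hf (u j)).weaken (by simp)
      · simpa using (hl (hπ i) (u j)).weaken (by simp))
    (fun j x => by simpa using hB _ x)
    (fun a x => by
      refine Fin.cases ?_ (fun i => ?_) a
      · simpa [Function.comp_def] using ((hf.continuous_left x).tendsto s).comp hu
      · simpa [Function.comp_def] using (((hπ i).continuous_left x).tendsto s).comp hu)
  simpa [U, Function.comp_def] using this

/-- **Homotopy formula** for cycles. -/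
theorem homotopy (c : Chs (k + 1) X) (hT : IsCurrent c.T) (hc : bd c.T = 0) (hH : HLip C H)
    {f : Y → ℝ} {π : Fin (k + 1) → Y → ℝ} (hfπ : IsTestPair f π) :
    bd (c.R H) f π = c.T (fun x => f (H 1 x)) (fun i x => π i (H 1 x))
      - c.T (fun x => f (H 0 x)) (fun i x => π i (H 0 x)) := by
  obtain ⟨hf, hπ⟩ := isTestPair_iff.1 hfπ
  obtain ⟨B, hB⟩ := hf.2
  set Q : Fin (k + 2) → Y → ℝ := Fin.cons f π with hQdef
  have hQ' : LipT Q := LipT_cons hπ hf.1
  choose K' hK' using hQ'
  set K : ℝ≥0 := ∑ i, K' i with hK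
  have hQ : ∀ a, LipschitzWith K (Q a) := fun a =>
    (hK' a).weaken (Finset.single_le_sum (f := K') (fun _ _ => zero_le) (Finset.mem_univ a))
  set F : ℕ → Fam (k + 1) X := fun n => sfam hH Q hQ n with hF
  have hFC : ∀ n, (F n).C = K * C := fun n => rfl
  have hPB : ∀ n s x, |(F n).P 0 s x| ≤ B := fun n s x =>
    abs_stek_le (F := fun s x => Q 0 (H (cl s) x)) (fun s x => hB _) _ _ _
  -- the pieces
  set A : ℕ → ℕ → ℝ := fun n i => ∫ w in prodSet (c.E i), (c.θ i (tl w) : ℝ) * 1 *
    c.jac i (F n).P w with hA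
  have hA1 : ∀ n i, A n i = ∫ s in Icc (0 : ℝ) 1, ∑ a : Fin (k + 2), (-1 : ℝ) ^ (a : ℕ) *
      chartAction (c.E i) (c.φ i) (c.θ i) ((F n).D a s) (fun b => (F n).P (a.succAbove b) s) := by
    intro n i
    have := c.jac_integral i (F n) (f := fun _ _ => 1) (Cf := 0) (B := 1)
      (fun s s' x x' => by simp) (fun s x => by simp)
    simp only [one_mul] at this
    exact this
  have hM : ∀ n i, ∀ s a, |chartAction (c.E i) (c.φ i) (c.θ i) ((F n).D a s)
      (fun b => (F n).P (a.succAbove b) s)| ≤
        ((K * C : ℝ≥0) : ℝ) ^ (k + 2) * (c.μ i univ).toReal := by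
    intro n i s a
    have := c.abs_term_le i (F n) (f := fun _ _ => 1) (Cf := 0) (B := 1)
      (fun s s' x x' => by simp) (fun s x => by simp) s a
    simpa [hFC, Measure.real] using this
  have hM' : ∀ n i s, ‖∑ a : Fin (k + 2), (-1 : ℝ) ^ (a : ℕ) *
      chartAction (c.E i) (c.φ i) (c.θ i) ((F n).D a s) (fun b => (F n).P (a.succAbove b) s)‖ ≤
        (k + 2 : ℝ) * (((K * C : ℝ≥0) : ℝ) ^ (k + 2) * (c.μ i univ).toReal) := by
    intro n i s
    rw [Real.norm_eq_abs]
    refine (Finset.abs_sum_le_sum_abs _ _).trans ?_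
    refine (Finset.sum_le_sum (g := fun _ => ((K * C : ℝ≥0) : ℝ) ^ (k + 2) *
      (c.μ i univ).toReal) fun a _ => ?_).trans_eq ?_
    · rw [abs_mul, abs_pow, abs_neg, abs_one, one_pow, one_mul]
      exact hM n i s a
    · simp [Finset.sum_const]
  have hcontD : ∀ n i a, Continuous fun s => chartAction (c.E i) (c.φ i) (c.θ i) ((F n).D a s)
      (fun b => (F n).P (a.succAbove b) s) := fun n i a =>
    continuous_T (c.cur i) (f := fun s => (F n).D a s)
      (π := fun b s => (F n).P (a.succAbove b) s)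
      (fun s s' x x' => (F n).hDL a s s' x x') (fun b s s' x x' => (F n).hP _ s s' x x')
      (fun s x => (F n).hDB a s x)
  have hcont : ∀ n i, Continuous fun s => ∑ a : Fin (k + 2), (-1 : ℝ) ^ (a : ℕ) *
      chartAction (c.E i) (c.φ i) (c.θ i) ((F n).D a s) (fun b => (F n).P (a.succAbove b) s) :=
    fun n i => continuous_finsetSum _ fun a _ => (hcontD n i a).const_mul _
  have hsumM : Summable fun i => (k + 2 : ℝ) * (((K * C : ℝ≥0) : ℝ) ^ (k + 2) *
      (c.μ i univ).toReal) := (c.summ.mul_left _).mul_left _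
  have hI : ∀ n i, ∫ s in Icc (0 : ℝ) 1, ‖∑ a : Fin (k + 2), (-1 : ℝ) ^ (a : ℕ) *
      chartAction (c.E i) (c.φ i) (c.θ i) ((F n).D a s) (fun b => (F n).P (a.succAbove b) s)‖
        ≤ (k + 2 : ℝ) * (((K * C : ℝ≥0) : ℝ) ^ (k + 2) * (c.μ i univ).toReal) := by
    intro n i
    refine (integral_mono ((hcont n i).norm.continuousOn.integrableOn_compact isCompact_Icc)
      (integrable_const _) fun s => hM' n i s).trans_eq ?_
    simp [Measure.real]
  -- exchange of sum and integral
  have hU : ∀ n, U c.T (fun a => (F n).P a 1) - U c.T (fun a => (F n).P a 0) = ∑' i, A n i := by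
    intro n
    rw [cycle_U_sub hT c.leib c.alt hc (F n) (hPB n),
      intervalIntegral.integral_of_le zero_le_one, ← integral_Icc_eq_integral_Ioc]
    have h1 := hasSum_integral_of_summable_integral_norm
      (μ := volume.restrict (Icc (0 : ℝ) 1))
      (F := fun i s => ∑ a : Fin (k + 2), (-1 : ℝ) ^ (a : ℕ) *
        chartAction (c.E i) (c.φ i) (c.θ i) ((F n).D a s) (fun b => (F n).P (a.succAbove b) s))
      (fun i => (hcont n i).continuousOn.integrableOn_compact isCompact_Icc)
      (Summable.of_nonneg_of_le (fun i => integral_nonneg fun s => norm_nonneg _) (hI n) hsumM)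
    simp_rw [hA1]
    rw [h1.tsum_eq]
    refine integral_congr_ae (Eventually.of_forall fun s => ?_)
    simp only
    have hs : ∀ a, Summable fun i => chartAction (c.E i) (c.φ i) (c.θ i) ((F n).D a s)
        (fun b => (F n).P (a.succAbove b) s) := fun a =>
      c.summable_chart ((F n).blD a s) fun b => ⟨_, (F n).lipP _ s⟩
    rw [Summable.tsum_finsetSum fun a _ => (hs a).mul_left _]
    refine Finset.sum_congr rfl fun a _ => ?_
    rw [tsum_mul_left]
    rfl
  -- limits
  have hlimR : Tendsto (fun n => ∑' i, A n i) atTop (𝓝 (∑' i, c.piece H i (fun _ => 1) Q)) := by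
    refine tendsto_tsum_of_dominated_convergence hsumM (fun i => ?_)
      (Eventually.of_forall fun n i => ?_)
    · have h1 := c.tendsto_piece hH i Q hQ (f := fun _ => 1) BL.one
      have htest : IsTestPair (fun _ : Y => (1 : ℝ)) Q := BL.one.isTestPair fun a => ⟨K, hQ a⟩
      simp only [piece, chartAction, if_pos htest]
      exact h1
    · rw [hA1]
      exact (norm_integral_le_integral_norm _).trans (hI n i)
  have hlimL : ∀ t ∈ Icc (0 : ℝ) 1, Tendsto (fun n => U c.T (fun a => (F n).P a t)) atTop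
      (𝓝 (U c.T (fun a x => Q a (H t x)))) := by
    intro t ht
    refine tendsto_U hT (C := K * C) (B := B) (fun n a => (F n).lipP a t)
      (fun n x => hPB n t x) (fun a x => ?_)
    have h1 : ∀ n, |(F n).P a t x - Q a (H t x)| ≤
        ((K * C : ℝ≥0) : ℝ) * ((1 / ((n : ℝ≥0) + 1) : ℝ≥0) : ℝ) := fun n => by
      have := abs_stek_sub_le (JL_comp hH (hQ a)) (NNReal.coe_nonneg (1 / ((n : ℝ≥0) + 1))) t x
      rw [cl_of_mem ht] at this
      exact this
    have h2 : Tendsto (fun n => (F n).P a t x - Q a (H t x)) atTop (𝓝 0) :=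
      squeeze_zero_norm h1 (tendsto_eps _)
    simpa using h2.add_const (Q a (H t x))
  have hfin := tendsto_nhds_unique
    (((hlimL 1 ⟨zero_le_one, le_rfl⟩).sub (hlimL 0 ⟨le_rfl, zero_le_one⟩)).congr hU) hlimR
  have e1 : bd (c.R H) f π = ∑' i, c.piece H i (fun _ => 1) Q := by
    unfold bd
    rw [if_pos hfπ]
    rfl
  rw [e1, ← hfin]
  simp [U, hQdef]

end Chs

end Crest.Agent.R241.B8
end

-- ▼ part R241/B8Int

/-!
# R241, block B8: the swept functional is an integral current (owner: helper971)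

* `isCurrent_push`, `controls_push`: push-forward under Lipschitz maps.
* `Chs.isCurrent_T`, `Chs.isCurrent_piece`, `Chs.isCurrent_R`.
* `Chs.bd_R_eq`: `bd (c.R H) = push (H 1) c.T - push (H 0) c.T`.
* `Chs.isInt_R`: `IsInt K (c.R H)` given integer rectifiability of `c.R H` (block B4).
-/

set_option autoImplicit false
set_option linter.unusedSectionVars false
set_option linter.unusedSimpArgs false

open MeasureTheory Filter Topology Set
open scoped ENNReal NNReal

namespace Crest.Agent.R241.B8

open Crest.GeometryTopology.MetricCurrent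
open Crest.GeometryTopology.Submanifold (Euc)
open Crest.Agent.R241.G1
open Crest.Agent.R241.B8Abs
open Crest.Agent.R241.B8Stek
open Crest.Agent.R241.B8Fubini
open Crest.Agent.R241.B1c1 (push push_apply push_of_not isTestPair_comp)

universe u v

variable {X : Type u} [MetricSpace X] [MeasurableSpace X] [BorelSpace X]
variable {Y : Type v} [MetricSpace Y] [MeasurableSpace Y] [BorelSpace Y]

theorem controls_push {k : ℕ} {T : Functional X k} (hT : IsCurrent T) {F : X → Y} {L : ℝ≥0}
    (hF : LipschitzWith L F) {μ : Measure X} [IsFiniteMeasure μ] (hμ : Controls T μ) :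
    Controls (push F T) ((L ^ k) • Measure.map F μ) := by
  intro f π hfπ hπ
  have hf : BL f := (isTestPair_iff.1 hfπ).1
  have hfF : BL (fun x => f (F x)) := (isTestPair_iff.1 (isTestPair_comp hF hfπ)).1
  rw [push_apply hfπ, integral_smul_nnreal_measure,
    integral_map hF.continuous.measurable.aemeasurable hf.abs.measurable.aestronglyMeasurable]
  have h := G1.abs_le_of_controls hT hμ hfF (π := fun i x => π i (F x)) (K := fun _ => L)
    (fun i => by have := (hπ i).comp hF; rw [one_mul] at this; exact this)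
  simpa [NNReal.smul_def] using h

theorem isCurrent_push {k : ℕ} {T : Functional X k} (hT : IsCurrent T) {F : X → Y} {L : ℝ≥0}
    (hF : LipschitzWith L F) : IsCurrent (push F T) where
  eq_zero_of_not_test f π h := push_of_not h
  add_left f g π hf hg := by
    rw [push_apply (B10.isTestPair_add hf hg), push_apply hf, push_apply hg]
    exact hT.add_left _ _ _ (isTestPair_comp hF hf) (isTestPair_comp hF hg)
  smul_left c f π hf := by
    rw [push_apply (B10.isTestPair_smul c hf), push_apply hf]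
    exact hT.smul_left c _ _ (isTestPair_comp hF hf)
  add_coord f π i g hf hg := by
    obtain ⟨Kg, hKg⟩ := hg
    have h1 : ∃ K : ℝ≥0, LipschitzWith K (π i + g) := by
      obtain ⟨K, hK⟩ := hf.2.2 i
      exact ⟨K + Kg, hK.add hKg⟩
    rw [push_apply (B10.isTestPair_update hf i h1), push_apply hf,
      push_apply (B10.isTestPair_update hf i ⟨Kg, hKg⟩)]
    have e : ∀ u : Y → ℝ, (fun j x => Function.update π i u j (F x))
        = Function.update (fun j x => π j (F x)) i (fun x => u (F x)) := fun u => by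
      funext j x
      by_cases hj : j = i
      · subst hj; simp
      · simp [Function.update_of_ne hj]
    rw [e, e]
    exact hT.add_coord _ _ i _ (isTestPair_comp hF hf) ⟨_, hKg.comp hF⟩
  smul_coord f π i c hf := by
    have h1 : ∃ K : ℝ≥0, LipschitzWith K (c • π i) := by
      obtain ⟨K, hK⟩ := hf.2.2 i
      exact ⟨_, lipschitzWith_smul hK c⟩
    rw [push_apply (B10.isTestPair_update hf i h1), push_apply hf]
    have e : ∀ u : Y → ℝ, (fun j x => Function.update π i u j (F x))
        = Function.update (fun j x => π j (F x)) i (fun x => u (F x)) := fun u => by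
      funext j x
      by_cases hj : j = i
      · subst hj; simp
      · simp [Function.update_of_ne hj]
    rw [e]
    exact hT.smul_coord _ _ i c (isTestPair_comp hF hf)
  continuity f π πs hf hC hlim := by
    obtain ⟨C, hC⟩ := hC
    have hts : ∀ j, IsTestPair f (πs j) := fun j => ⟨hf.1, hf.2.1, fun i => ⟨C, hC j i⟩⟩
    simp_rw [push_apply hf, fun j => push_apply (F := F) (T := T) (hts j)]
    exact hT.continuity _ _ _ (isTestPair_comp hF hf) ⟨C * L, fun j i => (hC j i).comp hF⟩
      fun i x => hlim i (F x)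
  locality f π hf h := by
    obtain ⟨i, U, c, hU, hsupp, hc⟩ := h
    rw [push_apply hf]
    refine hT.locality _ _ (isTestPair_comp hF hf) ⟨i, F ⁻¹' U, c, hU.preimage hF.continuous,
      fun x hx => hsupp ?_, fun x hx => hc _ hx⟩
    simpa using hx
  finite_mass := by
    obtain ⟨μ, hμf, hμ⟩ := hT.finite_mass
    exact ⟨_, inferInstance, controls_push hT hF hμ⟩

namespace Chs

variable {k : ℕ}

theorem mass_chart_le (c : Chs k X) (i : ℕ) :
    mass (chartAction (c.E i) (c.φ i) (c.θ i)) ≤ (c.μ i univ).toReal := B10.mass_le (c.ctrl i)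

theorem isCurrent_T (c : Chs k X) : IsCurrent c.T := by
  refine B10.isCurrent_of_hasSum c.cur ?_ (fun f π hf => ?_) (fun f π hf => ?_)
  · exact Summable.of_nonneg_of_le (fun i => B10.mass_nonneg _) c.mass_chart_le c.summ
  · obtain ⟨h1, h2⟩ := isTestPair_iff.1 hf
    exact (c.summable_chart h1 h2).hasSum
  · simp [T, chartAction, hf]

variable {H : ℝ → X → Y} {C : ℝ≥0}

theorem integrable_piece (c : Chs k X) (i : ℕ) :
    Integrable (fun w => (c.θ i (tl w) : ℝ)) (volume.restrict (prodSet (c.E i))) := by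
  have h := (measurePreserving_splitE k).restrict_preimage_emb (splitE k).measurableEmbedding
    (Icc (0 : ℝ) 1 ×ˢ (c.E i))
  rw [← prodSet_eq, ← Measure.prod_restrict] at h
  exact (h.integrable_comp_emb (splitE k).measurableEmbedding).2
    ((c.int i).comp_snd (volume.restrict (Icc (0 : ℝ) 1)))

theorem lipschitz_piece (c : Chs k X) (hH : HLip C H) (i : ℕ) :
    LipschitzOnWith (C * (1 + c.L i)) (fun w : Euc (k + 1) => H (w 0) (c.φ i (tl w)))
      (prodSet (c.E i)) := by
  refine LipschitzOnWith.of_dist_le_mul fun w hw w' hw' => ?_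
  refine (hH _ hw.1 _ hw'.1 _ _).trans ?_
  have h1 := dist_zero_le w w'
  have h2 := ((c.lip i).dist_le_mul _ hw.2 _ hw'.2).trans
    (mul_le_mul_of_nonneg_left (dist_tl_le w w') (c.L i).2)
  push_cast
  rw [mul_assoc]
  refine mul_le_mul_of_nonneg_left ?_ C.2
  linarith

theorem isCurrent_piece (c : Chs k X) (hH : HLip C H) (i : ℕ) : IsCurrent (c.piece H i) :=
  B1Cur.isCurrent_chartAction (measurableSet_prodSet (c.measE i)) (c.lipschitz_piece hH i)
    (c.integrable_piece i)

theorem mass_piece_le [SecondCountableTopology X] (c : Chs k X) (hH : HLip C H) (i : ℕ) :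
    mass (c.piece H i) ≤ ((c.sweepMeas C H i) univ).toReal := B10.mass_le (c.controls_piece hH i)

theorem summable_mass_piece [SecondCountableTopology X] (c : Chs k X) (hH : HLip C H) :
    Summable fun i => mass (c.piece H i) :=
  Summable.of_nonneg_of_le (fun i => B10.mass_nonneg _) (c.mass_piece_le hH)
    (c.summable_sweepMeas hH)

theorem hasSum_R [SecondCountableTopology X] (c : Chs k X) (hH : HLip C H) {f : Y → ℝ}
    {π : Fin (k + 1) → Y → ℝ} (hf : IsTestPair f π) :
    HasSum (fun i => c.piece H i f π) (c.R H f π) :=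
  (B10.summable_apply (c.isCurrent_piece hH) (c.summable_mass_piece hH) hf).hasSum

theorem isCurrent_R [SecondCountableTopology X] (c : Chs k X) (hH : HLip C H) :
    IsCurrent (c.R H) := by
  refine B10.isCurrent_of_hasSum (c.isCurrent_piece hH) (c.summable_mass_piece hH)
    (fun f π hf => c.hasSum_R hH hf) (fun f π hf => ?_)
  simp [R, piece, chartAction, hf]

theorem lipschitz_H (hH : HLip C H) {s : ℝ} (hs : s ∈ Icc (0 : ℝ) 1) : LipschitzWith C (H s) := by
  refine LipschitzWith.of_dist_le_mul fun x y => ?_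
  simpa using hH s hs s hs x y

/-- **Boundary of the swept functional.** -/
theorem bd_R_eq (c : Chs (k + 1) X) (hc : bd c.T = 0) (hH : HLip C H) :
    bd (c.R H) = push (H 1) c.T - push (H 0) c.T := by
  funext f π
  by_cases hf : IsTestPair f π
  · rw [c.homotopy c.isCurrent_T hc hH hf, Pi.sub_apply, Pi.sub_apply, push_apply hf,
      push_apply hf]
  · rw [Pi.sub_apply, Pi.sub_apply, push_of_not hf, push_of_not hf, B10.bd_apply_not hf, sub_zero]

theorem isCurrent_bd_R (c : Chs (k + 1) X) (hc : bd c.T = 0) (hH : HLip C H) :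
    IsCurrent (bd (c.R H)) := by
  rw [c.bd_R_eq hc hH]
  exact B10.IsCurrent.sub
    (isCurrent_push c.isCurrent_T (lipschitz_H hH ⟨zero_le_one, le_rfl⟩))
    (isCurrent_push c.isCurrent_T (lipschitz_H hH ⟨le_rfl, zero_le_one⟩))

theorem supp_R (c : Chs k X) {K : Set X} {K' : Set Y} (hK : ∀ i, MapsTo (c.φ i) (c.E i) K)
    (hHK : ∀ s ∈ Icc (0 : ℝ) 1, MapsTo (H s) K K') : IsSupportedIn K' (c.R H) := by
  intro f π hf h0
  simp only [R]
  refine (tsum_congr fun i => ?_).trans tsum_zero
  simp only [piece, chartAction, if_pos hf]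
  refine (setIntegral_congr_fun (measurableSet_prodSet (c.measE i)) fun w hw => ?_).trans
    (integral_zero _ _)
  rw [h0 _ (hHK _ hw.1 (hK i hw.2))]
  simp

/-- The swept functional of a cycle is an integral current. -/
theorem isInt_R [SecondCountableTopology X] (c : Chs (k + 1) X) (hc : bd c.T = 0)
    (hH : HLip C H) {K : Set X} {K' : Set Y} (hK : ∀ i, MapsTo (c.φ i) (c.E i) K)
    (hHK : ∀ s ∈ Icc (0 : ℝ) 1, MapsTo (H s) K K') (hrect : IsIntegerRectifiable (c.R H)) :
    IsInt K' (c.R H) where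
  cur := c.isCurrent_R hH
  rect := hrect
  bdcur := c.isCurrent_bd_R hc hH
  supp := c.supp_R hK hHK

end Chs

end Crest.Agent.R241.B8
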