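import Crest.Agent.R241.B9c
import Crest.Agent.R241.B8LinAlg
import Crest.Agent.R241.B1Density
import Crest.Agent.R241.B8Fubini
import Crest.Agent.R241.B5u
import Mathlib
import Crest.Agent.R241.ADefs
import Crest.Agent.R241.B9Defs
import Crest.Agent.R241.B8Int
import Crest.Agent.R241.B10Mass
import Crest.Agent.R241.B4Norm
import Crest.Agent.R241.B5b
import Crest.Agent.R241.ABasic

-- ▼ part R241/B9d
section

/-!
# R241, block B9 (first variation), part d: algebraic bounds and determinants (helper992)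
-/

set_option autoImplicit false

open Set Filter Topology

namespace Crest.Agent.R241.B9d

open B9a B9b B9 B9c

theorem QH_eq {k T Z : ℝ} (hg : gg k T Z ≠ 0) (a b c : ℝ) :
    QH k T Z a b c = gg k T Z * c + (SS k Z * a ^ 2 - 2 * (1 - 2 * T * (1 + k ^ 2 * Z)) * (a * b)
      - T ^ 2 * k ^ 2 * (2 - 4 * T * (1 + k ^ 2 * Z) + T ^ 2 * k ^ 2 * SS k Z) * b ^ 2)
        / gg k T Z := by
  have h2 : gg k T Z = 1 - 2 * T * (1 + k ^ 2 * Z) + T ^ 2 * k ^ 2 * SS k Z := rfl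
  have h1 : QH k T Z a b c = gg k T Z * c + (SS k Z * ggD k T Z a b ^ 2 / 4
      + (ggD k T Z a b * (1 + k ^ 2 * Z) * b - k ^ 2 * zaD k T Z a b ^ 2
        + gg k T Z * (k ^ 2 * b ^ 2)) * gg k T Z) / gg k T Z := by
    unfold QH; field_simp; ring
  rw [h1]
  congr 2
  simp only [ggD, zaD, h2, SS]
  ring

theorem QH_le {k T Z : ℝ} (hZ : 0 ≤ Z) (hT : 0 ≤ T) (hTZ : 2 * (T * (2 + k ^ 2 * Z)) ≤ 1)
    (a b c : ℝ) :
    QH k T Z a b c ≤ (1 - 2 * T * (1 + k ^ 2 * Z) + T ^ 2 * k ^ 2 * SS k Z) * c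
      + SS k Z * a ^ 2 * (gg k T Z)⁻¹ - 2 * (a * b)
      + 2 * (T ^ 2 * k ^ 2 * SS k Z) * (a * b) * (gg k T Z)⁻¹ := by
  have hg := gg_pos (k := k) (T := T) (Z := Z) hTZ ⟨hT, le_rfl⟩ ⟨hZ, le_rfl⟩
  have hg0 : 0 < gg k T Z := by linarith
  have hkZ : 0 ≤ k ^ 2 * Z := by positivity
  have hS := SS_nonneg (k := k) hZ
  rw [QH_eq hg0.ne']
  set g := gg k T Z with hgd
  have h2 : g = 1 - 2 * T * (1 + k ^ 2 * Z) + T ^ 2 * k ^ 2 * SS k Z := rfl
  have h3 : 0 ≤ T ^ 2 * k ^ 2 * (2 - 4 * T * (1 + k ^ 2 * Z) + T ^ 2 * k ^ 2 * SS k Z) * b ^ 2 := by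
    have : 0 ≤ 2 - 4 * T * (1 + k ^ 2 * Z) + T ^ 2 * k ^ 2 * SS k Z := by
      have h5 : 0 ≤ T ^ 2 * k ^ 2 * SS k Z := by positivity
      have h6 : 4 * T * (1 + k ^ 2 * Z) ≤ 2 := by nlinarith
      linarith
    positivity
  have h4 : 1 - 2 * T * (1 + k ^ 2 * Z) = g - T ^ 2 * k ^ 2 * SS k Z := by rw [h2]; ring
  rw [h4, sub_add_cancel]
  have h5 : (SS k Z * a ^ 2 - 2 * (g - T ^ 2 * k ^ 2 * SS k Z) * (a * b)
      - T ^ 2 * k ^ 2 * (2 - 4 * T * (1 + k ^ 2 * Z) + T ^ 2 * k ^ 2 * SS k Z) * b ^ 2) / g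
      ≤ (SS k Z * a ^ 2 - 2 * (g - T ^ 2 * k ^ 2 * SS k Z) * (a * b)) / g :=
    div_le_div_of_nonneg_right (by linarith) hg0.le
  have h6 : (SS k Z * a ^ 2 - 2 * (g - T ^ 2 * k ^ 2 * SS k Z) * (a * b)) / g
      = SS k Z * a ^ 2 * g⁻¹ - 2 * (a * b) + 2 * (T ^ 2 * k ^ 2 * SS k Z) * (a * b) * g⁻¹ := by
    field_simp; ring
  linarith [h5, h6.le]

section Bounds

variable {k M A Zb : ℝ}

theorem SS_mono {z z' : ℝ} (hz : 0 ≤ z) (h : z ≤ z') : SS k z ≤ SS k z' := by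
  unfold SS
  have : z ^ 2 ≤ z' ^ 2 := pow_le_pow_left₀ hz h 2
  have := mul_le_mul_of_nonneg_left this (sq_nonneg k)
  linarith

theorem small_of {t φ Z : ℝ} (ht0 : 0 ≤ t) (hφ : φ ∈ Icc (0 : ℝ) M)
    (hZ : Z ∈ Icc (0 : ℝ) Zb) (ht : 2 * (t * M * (2 + k ^ 2 * Zb)) ≤ 1) :
    2 * (t * φ * (2 + k ^ 2 * Z)) ≤ 1 := by
  have h1 : k ^ 2 * Z ≤ k ^ 2 * Zb := mul_le_mul_of_nonneg_left hZ.2 (sq_nonneg k)
  have h0 : 0 ≤ k ^ 2 * Z := mul_nonneg (sq_nonneg k) hZ.1
  have hM : 0 ≤ M := hφ.1.trans hφ.2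
  have h2 : t * φ * (2 + k ^ 2 * Z) ≤ t * M * (2 + k ^ 2 * Zb) := by
    have := hφ.2
    have := mul_nonneg ht0 hM
    gcongr
  linarith

/-- constant in `QH_le_one`. -/
def K1 (k M A Zb : ℝ) : ℝ :=
  M ^ 2 * k ^ 2 * SS k Zb + 4 * SS k Zb * A ^ 2 + 4 * (M ^ 2 * k ^ 2 * SS k Zb) * (A ^ 2 + SS k Zb)

set_option maxHeartbeats 1000000 in
theorem QH_le_one {t φ Z α β c : ℝ} (ht0 : 0 ≤ t) (ht1 : t ≤ 1) (hφ : φ ∈ Icc (0 : ℝ) M)
    (hZ : Z ∈ Icc (0 : ℝ) Zb) (ht : 2 * (t * M * (2 + k ^ 2 * Zb)) ≤ 1) (hc : 0 ≤ c)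
    (hα : α ^ 2 ≤ A ^ 2 * c) (hβ : β ^ 2 ≤ SS k Z * c) :
    QH k (t * φ) Z (t * α) β c ≤
      (1 - 2 * t * φ * (1 + k ^ 2 * Z) + K1 k M A Zb * t ^ 2) * c - 2 * t * (α * β) := by
  have hT0 : 0 ≤ t * φ := mul_nonneg ht0 hφ.1
  have hsm := small_of ht0 hφ hZ ht
  have hg := gg_pos (k := k) (T := t * φ) (Z := Z) hsm ⟨hT0, le_rfl⟩ ⟨hZ.1, le_rfl⟩
  have hg0 : 0 < gg k (t * φ) Z := by linarith
  have hS := SS_nonneg (k := k) hZ.1
  have hSb := SS_mono (k := k) hZ.1 hZ.2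
  have hSb0 : 0 ≤ SS k Zb := hS.trans hSb
  have hM0 : 0 ≤ M := hφ.1.trans hφ.2
  refine (QH_le hZ.1 hT0 hsm _ _ _).trans ?_
  set S := SS k Z with hSd
  set Sb := SS k Zb with hSbd
  set u := (gg k (t * φ) Z)⁻¹ with hu
  have hu0 : 0 ≤ u := by positivity
  have hu4 : u ≤ 4 := by
    rw [hu]
    calc (gg k (t * φ) Z)⁻¹ ≤ (1 / 4)⁻¹ := inv_anti₀ (by norm_num) hg
      _ = 4 := by norm_num
  have hT2 : (t * φ) ^ 2 ≤ t ^ 2 * M ^ 2 := by
    rw [mul_pow]
    exact mul_le_mul_of_nonneg_left (pow_le_pow_left₀ hφ.1 hφ.2 2) (sq_nonneg t)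
  have hX : (t * φ) ^ 2 * k ^ 2 * S ≤ t ^ 2 * (M ^ 2 * k ^ 2 * Sb) := by
    calc (t * φ) ^ 2 * k ^ 2 * S ≤ (t ^ 2 * M ^ 2) * k ^ 2 * Sb := by gcongr
      _ = _ := by ring
  have hX0 : 0 ≤ (t * φ) ^ 2 * k ^ 2 * S := by positivity
  -- the three error terms
  have e1 : (t * φ) ^ 2 * k ^ 2 * S * c ≤ t ^ 2 * (M ^ 2 * k ^ 2 * Sb) * c :=
    mul_le_mul_of_nonneg_right hX hc
  have e2 : S * (t * α) ^ 2 * u ≤ t ^ 2 * (4 * Sb * A ^ 2) * c := by
    calc S * (t * α) ^ 2 * u = t ^ 2 * (S * α ^ 2 * u) := by ring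
      _ ≤ t ^ 2 * (Sb * (A ^ 2 * c) * 4) := by gcongr
      _ = _ := by ring
  have e3 : 2 * ((t * φ) ^ 2 * k ^ 2 * S) * (t * α * β) * u ≤
      t ^ 2 * (4 * (M ^ 2 * k ^ 2 * Sb) * (A ^ 2 + Sb)) * c := by
    have f1 : 2 * (t * α * β) ≤ (A ^ 2 + Sb) * c := by
      have h3 : 2 * |α * β| ≤ α ^ 2 + β ^ 2 := by
        rw [abs_mul]
        nlinarith [sq_nonneg (|α| - |β|), sq_abs α, sq_abs β]
      have h4 : 2 * (t * α * β) ≤ 2 * |α * β| := by
        have : t * α * β ≤ |α * β| := by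
          calc t * α * β = t * (α * β) := by ring
            _ ≤ t * |α * β| := mul_le_mul_of_nonneg_left (le_abs_self _) ht0
            _ ≤ 1 * |α * β| := mul_le_mul_of_nonneg_right ht1 (abs_nonneg _)
            _ = _ := one_mul _
        linarith
      have h5 : S * c ≤ Sb * c := mul_le_mul_of_nonneg_right hSb hc
      linarith
    calc 2 * ((t * φ) ^ 2 * k ^ 2 * S) * (t * α * β) * u
        = ((t * φ) ^ 2 * k ^ 2 * S) * u * (2 * (t * α * β)) := by ring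
      _ ≤ ((t * φ) ^ 2 * k ^ 2 * S) * u * ((A ^ 2 + Sb) * c) :=
          mul_le_mul_of_nonneg_left f1 (by positivity)
      _ ≤ (t ^ 2 * (M ^ 2 * k ^ 2 * Sb)) * 4 * ((A ^ 2 + Sb) * c) := by gcongr
      _ = _ := by ring
  simp only [K1, ← hSbd]
  have e4 : (1 - 2 * (t * φ) * (1 + k ^ 2 * Z) + (t * φ) ^ 2 * k ^ 2 * S) * c
      = (1 - 2 * t * φ * (1 + k ^ 2 * Z)) * c + (t * φ) ^ 2 * k ^ 2 * S * c := by ring
  have e5 : (1 - 2 * t * φ * (1 + k ^ 2 * Z) + (M ^ 2 * k ^ 2 * Sb + 4 * Sb * A ^ 2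
      + 4 * (M ^ 2 * k ^ 2 * Sb) * (A ^ 2 + Sb)) * t ^ 2) * c
      = (1 - 2 * t * φ * (1 + k ^ 2 * Z)) * c + t ^ 2 * (M ^ 2 * k ^ 2 * Sb) * c
        + t ^ 2 * (4 * Sb * A ^ 2) * c
        + t ^ 2 * (4 * (M ^ 2 * k ^ 2 * Sb) * (A ^ 2 + Sb)) * c := by ring
  rw [e4, e5]
  linarith [e1, e2, e3]

/-- constant in `QH_le_two`. -/
def K2 (k M A Zb : ℝ) : ℝ :=
  SS k Zb * (M ^ 2 + 2 * A ^ 2) + 16 * M * (1 + k ^ 2 * Zb) * SS k Zb * (M ^ 2 + A ^ 2)
    + (A ^ 2 + SS k Zb) + 8 * (M ^ 2 * k ^ 2 * SS k Zb) * (M ^ 2 + A ^ 2 + SS k Zb)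

set_option maxHeartbeats 1000000 in
theorem QH_le_two {s φ Z σ α β c : ℝ} (hs0 : 0 ≤ s) (hs1 : s ≤ 1) (hφ : φ ∈ Icc (0 : ℝ) M)
    (hZ : Z ∈ Icc (0 : ℝ) Zb) (hs : 2 * (s * M * (2 + k ^ 2 * Zb)) ≤ 1) (hc : 0 ≤ c)
    (hα : α ^ 2 ≤ A ^ 2 * c) (hβ : β ^ 2 ≤ SS k Z * c) :
    QH k (s * φ) Z (φ * σ + s * α) β c ≤
      (1 + K2 k M A Zb * s) * c + (SS k Z * φ ^ 2 + K2 k M A Zb * s) * σ ^ 2
        - 2 * φ * σ * β := by
  have hT0 : 0 ≤ s * φ := mul_nonneg hs0 hφ.1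
  have hsm := small_of hs0 hφ hZ hs
  have hg := gg_pos (k := k) (T := s * φ) (Z := Z) hsm ⟨hT0, le_rfl⟩ ⟨hZ.1, le_rfl⟩
  have hg0 : 0 < gg k (s * φ) Z := by linarith
  have hS := SS_nonneg (k := k) hZ.1
  have hSb := SS_mono (k := k) hZ.1 hZ.2
  have hSb0 : 0 ≤ SS k Zb := hS.trans hSb
  have hM0 : 0 ≤ M := hφ.1.trans hφ.2
  have hkZ : 0 ≤ k ^ 2 * Z := mul_nonneg (sq_nonneg k) hZ.1
  have hkZb : k ^ 2 * Z ≤ k ^ 2 * Zb := mul_le_mul_of_nonneg_left hZ.2 (sq_nonneg k)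
  refine (QH_le hZ.1 hT0 hsm _ _ _).trans ?_
  have hg1 : gg k (s * φ) Z ≤ 1 := gg_le_one hZ.1 hT0 (by linarith [mul_nonneg hT0 (by linarith : (0:ℝ) ≤ 2 + k ^ 2 * Z)])
  have hgd : gg k (s * φ) Z = 1 - 2 * (s * φ) * (1 + k ^ 2 * Z)
    + (s * φ) ^ 2 * k ^ 2 * SS k Z := rfl
  rw [← hgd]
  set g := gg k (s * φ) Z with hgdef
  set S := SS k Z with hSd
  set Sb := SS k Zb with hSbd
  set u := g⁻¹ with hu
  have hgu : g * u = 1 := mul_inv_cancel₀ hg0.ne'
  have hu0 : 0 ≤ u := by positivity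
  have hu4 : u ≤ 4 := by
    rw [hu]
    calc g⁻¹ ≤ (1 / 4)⁻¹ := inv_anti₀ (by norm_num) hg
      _ = 4 := by norm_num
  have hX0 : 0 ≤ (s * φ) ^ 2 * k ^ 2 * S := by positivity
  have hTM : s * φ ≤ s * M := mul_le_mul_of_nonneg_left hφ.2 hs0
  have hu1 : u ≤ 1 + 8 * s * M * (1 + k ^ 2 * Zb) := by
    have f1 : u - 1 = (1 - g) * u := by linarith
    have f2 : 1 - g ≤ 2 * (s * φ) * (1 + k ^ 2 * Z) := by rw [hgd]; linarith
    have f3 : 2 * (s * φ) * (1 + k ^ 2 * Z) ≤ 2 * (s * M) * (1 + k ^ 2 * Zb) := by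
      have : 0 ≤ s * M := mul_nonneg hs0 hM0
      gcongr
    have f4 : (1 - g) * u ≤ (2 * (s * M) * (1 + k ^ 2 * Zb)) * 4 :=
      mul_le_mul (f2.trans f3) hu4 hu0 (by
        have : 0 ≤ s * M := mul_nonneg hs0 hM0
        have : 0 ≤ 1 + k ^ 2 * Zb := by linarith
        positivity)
    linarith
  set a := φ * σ + s * α with ha
  have ha1 : a ^ 2 ≤ φ ^ 2 * σ ^ 2 + s * (M ^ 2 * σ ^ 2 + 2 * A ^ 2 * c) := by
    have f1 : 2 * (φ * σ * α) ≤ M ^ 2 * σ ^ 2 + A ^ 2 * c := by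
      have h1 : 2 * (φ * σ * α) ≤ (φ * σ) ^ 2 + α ^ 2 := by
        have := two_mul_le_add_sq (φ * σ) α
        linarith
      have h2 : (φ * σ) ^ 2 ≤ M ^ 2 * σ ^ 2 := by
        rw [mul_pow]
        exact mul_le_mul_of_nonneg_right (pow_le_pow_left₀ hφ.1 hφ.2 2) (sq_nonneg σ)
      linarith
    have f2 : s ^ 2 * α ^ 2 ≤ s * (A ^ 2 * c) := by
      have : s ^ 2 ≤ s := by nlinarith
      exact mul_le_mul this hα (sq_nonneg _) hs0
    have f3 := mul_le_mul_of_nonneg_left f1 hs0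
    have f4 : a ^ 2 = φ ^ 2 * σ ^ 2 + s * (2 * (φ * σ * α)) + s ^ 2 * α ^ 2 := by rw [ha]; ring
    rw [f4]; linarith
  have ha2 : a ^ 2 ≤ 2 * (M ^ 2 * σ ^ 2 + A ^ 2 * c) := by
    have f1 : a ^ 2 ≤ 2 * ((φ * σ) ^ 2 + (s * α) ^ 2) := by
      have := two_mul_le_add_sq (φ * σ) (s * α)
      have e : a ^ 2 = (φ * σ) ^ 2 + 2 * (φ * σ) * (s * α) + (s * α) ^ 2 := by rw [ha]; ring
      linarith
    have h2 : (φ * σ) ^ 2 ≤ M ^ 2 * σ ^ 2 := by
      rw [mul_pow]
      exact mul_le_mul_of_nonneg_right (pow_le_pow_left₀ hφ.1 hφ.2 2) (sq_nonneg σ)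
    have f2 : (s * α) ^ 2 ≤ A ^ 2 * c := by
      rw [mul_pow]
      have : s ^ 2 ≤ 1 := by nlinarith
      calc s ^ 2 * α ^ 2 ≤ 1 * (A ^ 2 * c) := mul_le_mul this hα (sq_nonneg _) zero_le_one
        _ = _ := one_mul _
    linarith
  -- the four error terms
  have e0 : g * c ≤ c := by nlinarith
  have e1 : S * a ^ 2 * u ≤ S * φ ^ 2 * σ ^ 2 + Sb * (s * (M ^ 2 * σ ^ 2 + 2 * A ^ 2 * c))
      + Sb * (2 * (M ^ 2 * σ ^ 2 + A ^ 2 * c)) * (8 * s * M * (1 + k ^ 2 * Zb)) := by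
    have h1kZb : 0 ≤ 1 + k ^ 2 * Zb := by linarith
    calc S * a ^ 2 * u ≤ S * a ^ 2 * (1 + 8 * s * M * (1 + k ^ 2 * Zb)) :=
          mul_le_mul_of_nonneg_left hu1 (by positivity)
      _ = S * a ^ 2 + S * a ^ 2 * (8 * s * M * (1 + k ^ 2 * Zb)) := by ring
      _ ≤ S * (φ ^ 2 * σ ^ 2 + s * (M ^ 2 * σ ^ 2 + 2 * A ^ 2 * c))
          + Sb * (2 * (M ^ 2 * σ ^ 2 + A ^ 2 * c)) * (8 * s * M * (1 + k ^ 2 * Zb)) := by
          gcongr
      _ = S * φ ^ 2 * σ ^ 2 + S * (s * (M ^ 2 * σ ^ 2 + 2 * A ^ 2 * c))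
          + Sb * (2 * (M ^ 2 * σ ^ 2 + A ^ 2 * c)) * (8 * s * M * (1 + k ^ 2 * Zb)) := by ring
      _ ≤ _ := by gcongr
  have e2 : -2 * (a * β) ≤ - 2 * φ * σ * β + s * ((A ^ 2 + Sb) * c) := by
    have f1 : -2 * (α * β) ≤ (A ^ 2 + Sb) * c := by
      have h4 : -2 * (α * β) ≤ α ^ 2 + β ^ 2 := by
        have := two_mul_le_add_sq α (-β)
        rw [neg_sq] at this
        linarith
      have h5 : S * c ≤ Sb * c := mul_le_mul_of_nonneg_right hSb hc
      linarith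
    have f2 := mul_le_mul_of_nonneg_left f1 hs0
    rw [ha]; linarith
  have e3 : 2 * ((s * φ) ^ 2 * k ^ 2 * S) * (a * β) * u ≤
      s * (M ^ 2 * k ^ 2 * Sb) * 4 * (2 * (M ^ 2 * σ ^ 2 + A ^ 2 * c) + Sb * c) := by
    have f1 : 2 * (a * β) ≤ 2 * (M ^ 2 * σ ^ 2 + A ^ 2 * c) + Sb * c := by
      have : 2 * (a * β) ≤ a ^ 2 + β ^ 2 := by
        have := two_mul_le_add_sq a β
        linarith
      have h5 : S * c ≤ Sb * c := mul_le_mul_of_nonneg_right hSb hc
      linarith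
    have f2 : (s * φ) ^ 2 * k ^ 2 * S ≤ s * (M ^ 2 * k ^ 2 * Sb) := by
      have g1 : (s * φ) ^ 2 ≤ s * M ^ 2 := by
        rw [mul_pow]
        have : s ^ 2 ≤ s := by nlinarith
        exact mul_le_mul this (pow_le_pow_left₀ hφ.1 hφ.2 2) (sq_nonneg _) hs0
      calc (s * φ) ^ 2 * k ^ 2 * S ≤ (s * M ^ 2) * k ^ 2 * Sb := by gcongr
        _ = _ := by ring
    calc 2 * ((s * φ) ^ 2 * k ^ 2 * S) * (a * β) * u
        = ((s * φ) ^ 2 * k ^ 2 * S) * u * (2 * (a * β)) := by ring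
      _ ≤ ((s * φ) ^ 2 * k ^ 2 * S) * u * (2 * (M ^ 2 * σ ^ 2 + A ^ 2 * c) + Sb * c) :=
          mul_le_mul_of_nonneg_left f1 (by positivity)
      _ ≤ (s * (M ^ 2 * k ^ 2 * Sb)) * 4 * (2 * (M ^ 2 * σ ^ 2 + A ^ 2 * c) + Sb * c) := by
          gcongr
      _ = _ := by ring
  have hsum : g * c + S * a ^ 2 * u - 2 * (a * β)
      + 2 * ((s * φ) ^ 2 * k ^ 2 * S) * (a * β) * u ≤
      c + (S * φ ^ 2 * σ ^ 2 + Sb * (s * (M ^ 2 * σ ^ 2 + 2 * A ^ 2 * c))
      + Sb * (2 * (M ^ 2 * σ ^ 2 + A ^ 2 * c)) * (8 * s * M * (1 + k ^ 2 * Zb)))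
      + (- 2 * φ * σ * β + s * ((A ^ 2 + Sb) * c))
      + s * (M ^ 2 * k ^ 2 * Sb) * 4 * (2 * (M ^ 2 * σ ^ 2 + A ^ 2 * c) + Sb * c) := by
    linarith
  refine hsum.trans ?_
  -- compare coefficients
  have h1kZb : 0 ≤ 1 + k ^ 2 * Zb := by linarith
  have hσ := sq_nonneg σ
  have r1 : 0 ≤ Sb * (2 * A ^ 2) * (s * σ ^ 2) := by positivity
  have r2 : 0 ≤ Sb * M ^ 2 * (s * c) := by positivity
  have r3 : 0 ≤ 16 * M * (1 + k ^ 2 * Zb) * Sb * A ^ 2 * (s * σ ^ 2) := by positivity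
  have r4 : 0 ≤ 16 * M * (1 + k ^ 2 * Zb) * Sb * M ^ 2 * (s * c) := by positivity
  have r5 : 0 ≤ (A ^ 2 + Sb) * (s * σ ^ 2) := by positivity
  have r6 : 0 ≤ 8 * (M ^ 2 * k ^ 2 * Sb) * (A ^ 2 + Sb) * (s * σ ^ 2) := by positivity
  have r7 : 0 ≤ 8 * (M ^ 2 * k ^ 2 * Sb) * M ^ 2 * (s * c) := by positivity
  have r8 : 0 ≤ 4 * (M ^ 2 * k ^ 2 * Sb) * Sb * (s * c) := by positivity
  simp only [K2, ← hSbd]
  linarith [r1, r2, r3, r4, r5, r6, r7, r8]

end Bounds

end Crest.Agent.R241.B9d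
end

-- ▼ part R241/B9e
section

/-!
# R241, block B9 (first variation), part e: determinants (helper992)
-/

set_option autoImplicit false

open Set Filter Topology Matrix
open scoped MatrixOrder

namespace Crest.Agent.R241.B9e

open B8LinAlg

theorem det_le_exp {n : ℕ} {M : Matrix (Fin n) (Fin n) ℝ} (hM : M.PosSemidef) :
    M.det ≤ Real.exp (M.trace - n) := by
  have hH := hM.1
  rw [hH.det_eq_prod_eigenvalues, hH.trace_eq_sum_eigenvalues]
  simp only [RCLike.ofReal_real_eq_id, id]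
  have : ∑ i, hH.eigenvalues i - n = ∑ i : Fin n, (hH.eigenvalues i - 1) := by simp
  rw [this, Real.exp_sum]
  apply Finset.prod_le_prod
  · intro i _; exact hM.eigenvalues_nonneg i
  · intro i _
    have := Real.add_one_le_exp (hH.eigenvalues i - 1)
    linarith

theorem det_le_det_mul_exp {n : ℕ} {G M : Matrix (Fin n) (Fin n) ℝ} (hG : G.PosSemidef)
    (hdet : G.det ≠ 0) (hM : M.PosSemidef) :
    M.det ≤ G.det * Real.exp ((G⁻¹ * M).trace - n) := by
  obtain ⟨B, hB⟩ := CStarAlgebra.nonneg_iff_eq_star_mul_self.mp hG.nonneg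
  have hB' : G = Bᵀ * B := by
    rw [hB, Matrix.star_eq_conjTranspose, Matrix.conjTranspose_eq_transpose_of_trivial]
  have hdetG : G.det = B.det ^ 2 := by
    rw [hB', Matrix.det_mul, Matrix.det_transpose]; ring
  have hBdet : B.det ≠ 0 := by
    intro h0
    apply hdet
    rw [hdetG, h0]; ring
  have hBu : IsUnit B.det := isUnit_iff_ne_zero.2 hBdet
  have hN := hM.conjTranspose_mul_mul_same B⁻¹
  rw [Matrix.conjTranspose_eq_transpose_of_trivial] at hN
  have h1 := det_le_exp hN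
  have h2 : (B⁻¹ᵀ * M * B⁻¹).trace = (G⁻¹ * M).trace := by
    rw [Matrix.mul_assoc, Matrix.trace_mul_comm, Matrix.mul_assoc, Matrix.trace_mul_comm, hB',
      Matrix.mul_inv_rev, Matrix.transpose_nonsing_inv]
  have h3 : (B⁻¹ᵀ * M * B⁻¹).det = M.det / G.det := by
    rw [Matrix.det_mul, Matrix.det_mul, Matrix.det_transpose, Matrix.det_nonsing_inv,
      Ring.inverse_eq_inv', hdetG]
    field_simp
  rw [h2, h3] at h1
  have hGpos : 0 < G.det := by rw [hdetG]; positivity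
  rw [div_le_iff₀ hGpos] at h1
  linarith

theorem trace_mul_vecMulVec {n : ℕ} (N : Matrix (Fin n) (Fin n) ℝ) (a b : Fin n → ℝ) :
    (N * vecMulVec a b).trace = b ⬝ᵥ (N *ᵥ a) := by
  rw [Matrix.mul_vecMulVec, Matrix.trace_vecMulVec, dotProduct_comm]

theorem inv_symm {n : ℕ} {G : Matrix (Fin n) (Fin n) ℝ} (hG : G.PosSemidef) (a b : Fin n → ℝ) :
    b ⬝ᵥ (G⁻¹ *ᵥ a) = a ⬝ᵥ (G⁻¹ *ᵥ b) := by
  have h1 : G⁻¹ᵀ = G⁻¹ := by
    have := hG.inv.1
    rwa [Matrix.IsHermitian, Matrix.conjTranspose_eq_transpose_of_trivial] at this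
  rw [Matrix.dotProduct_mulVec, ← Matrix.mulVec_transpose, h1, dotProduct_comm]

theorem quad_eq {n : ℕ} (G : Matrix (Fin n) (Fin n) ℝ) (c t : ℝ) (al be v : Fin n → ℝ) :
    v ⬝ᵥ ((c • G - t • (vecMulVec al be + vecMulVec be al)) *ᵥ v) =
      c * (v ⬝ᵥ (G *ᵥ v)) - 2 * t * ((al ⬝ᵥ v) * (be ⬝ᵥ v)) := by
  rw [Matrix.sub_mulVec, Matrix.smul_mulVec, Matrix.smul_mulVec, Matrix.add_mulVec,
    Matrix.vecMulVec_mulVec, Matrix.vecMulVec_mulVec]
  simp only [dotProduct_sub, dotProduct_smul, dotProduct_add, smul_eq_mul,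
    MulOpposite.smul_eq_mul_unop, MulOpposite.unop_op]
  rw [dotProduct_comm v al, dotProduct_comm v be]
  ring

theorem abs_det_le_one {n : ℕ} (hn : 0 < n) (R G : Matrix (Fin n) (Fin n) ℝ)
    (hG : G.PosSemidef) (hdet : G.det ≠ 0) (al be : Fin n → ℝ) (c t : ℝ)
    (h : ∀ (i : Fin n) (v : Fin n → ℝ), (R i ⬝ᵥ v) ^ 2 ≤
      c * (v ⬝ᵥ (G *ᵥ v)) - 2 * t * ((al ⬝ᵥ v) * (be ⬝ᵥ v))) :
    |R.det| ≤ √G.det * Real.exp (n * (c - 1) / 2 - t * (al ⬝ᵥ (G⁻¹ *ᵥ be))) := by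
  set M : Matrix (Fin n) (Fin n) ℝ := c • G - t • (vecMulVec al be + vecMulVec be al) with hM
  have hGs : Gᵀ = G := by
    have := hG.1
    rwa [Matrix.IsHermitian, Matrix.conjTranspose_eq_transpose_of_trivial] at this
  have hMs : Mᵀ = M := by
    rw [hM]
    simp only [transpose_sub, transpose_smul, transpose_add, hGs, transpose_vecMulVec]
    rw [add_comm (vecMulVec be al)]
  have hMp : M.PosSemidef := by
    rw [Matrix.posSemidef_iff_dotProduct_mulVec]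
    refine ⟨?_, fun v => ?_⟩
    · rw [Matrix.IsHermitian, Matrix.conjTranspose_eq_transpose_of_trivial, hMs]
    · have h1 := h ⟨0, hn⟩ v
      rw [star_trivial, hM, quad_eq]
      exact (sq_nonneg _).trans h1
  have h1 := abs_det_le_sqrt_det R M hMp fun i v => by rw [hM, quad_eq]; exact h i v
  have h2 := det_le_det_mul_exp hG hdet hMp
  have h3 : (G⁻¹ * M).trace = n * c - 2 * t * (al ⬝ᵥ (G⁻¹ *ᵥ be)) := by
    rw [hM, Matrix.mul_sub, Matrix.mul_smul, Matrix.mul_smul, Matrix.mul_add,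
      Matrix.nonsing_inv_mul _ (isUnit_iff_ne_zero.2 hdet), Matrix.trace_sub, Matrix.trace_smul,
      Matrix.trace_smul, Matrix.trace_add, trace_mul_vecMulVec, trace_mul_vecMulVec,
      inv_symm hG al be, Matrix.trace_one]
    simp only [Fintype.card_fin, smul_eq_mul]
    ring
  rw [h3] at h2
  refine h1.trans ((Real.sqrt_le_sqrt h2).trans (le_of_eq ?_))
  rw [Real.sqrt_mul hG.det_nonneg, Real.sqrt_eq_rpow (Real.exp _), ← Real.exp_mul]
  congr 2
  ring

theorem abs_det_le_two {n : ℕ} (R : Matrix (Fin (n + 1)) (Fin (n + 1)) ℝ)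
    (G : Matrix (Fin n) (Fin n) ℝ) (hG : G.PosSemidef) (hdet : G.det ≠ 0) (b : Fin n → ℝ)
    {a c : ℝ} (hc : 0 < c)
    (h : ∀ (i : Fin (n + 1)) (w : Fin (n + 1) → ℝ), (R i ⬝ᵥ w) ^ 2 ≤
      c * (Fin.tail w ⬝ᵥ (G *ᵥ Fin.tail w)) + a * w 0 ^ 2 + 2 * w 0 * (b ⬝ᵥ Fin.tail w)) :
    |R.det| ≤ √(c ^ n * G.det) * √(a - (b ⬝ᵥ (G⁻¹ *ᵥ b)) / c) := by
  have hcu : IsUnit c := isUnit_iff_ne_zero.2 hc.ne'
  have hdet' : (c • G).det = c ^ n * G.det := by
    rw [Matrix.det_smul, Fintype.card_fin]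
  have h1 := abs_det_le_of_bordered R a b (c • G) (hG.smul hc.le)
    (by rw [hdet']; exact mul_ne_zero (pow_ne_zero _ hc.ne') hdet) (fun i w => by
      have := h i w
      rw [Matrix.smul_mulVec, dotProduct_smul, smul_eq_mul]
      linarith)
  rw [hdet'] at h1
  have h2 : (c • G)⁻¹ = c⁻¹ • G⁻¹ := by
    have := Matrix.inv_smul' (A := G) (Units.mk0 c hc.ne') (isUnit_iff_ne_zero.2 hdet)
    simpa [Units.smul_def] using this
  rw [h2, Matrix.smul_mulVec, dotProduct_smul, smul_eq_mul, inv_mul_eq_div] at h1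
  exact h1

end Crest.Agent.R241.B9e
end

-- ▼ part R241/B9f
section

/-!
# R241, block B9 (first variation), part f: pointwise Jacobian bounds (helper992)
-/

set_option autoImplicit false
set_option linter.unusedSectionVars false

open Set Filter Topology Asymptotics Matrix
open scoped NNReal

universe u

namespace Crest.Agent.R241.B9f

open B9a B9b B9 B9c B9d B9e
open Crest.GeometryTopology.Submanifold (Euc)

section General

variable {V : Type*} [NormedAddCommGroup V] [NormedSpace ℝ V]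

theorem sq_le_of_UB {X : Type*} [PseudoMetricSpace X] {E : Set V} {z : V}
    (htc : tangentConeAt ℝ E z = univ) {φ : V → X} {q : V → ℝ} (hq : Continuous q)
    (hq2 : ∀ (c : ℝ) (v : V), q (c • v) = c ^ 2 * q v) (h : UB E φ z q) {u : V → ℝ}
    {u' : V →L[ℝ] ℝ} (hu : HasFDerivWithinAt u u' E z) {κ : ℝ}
    (hκ : ∀ᶠ w in 𝓝[E] z, |u w - u z| ≤ κ * dist (φ w) (φ z)) (v : V) :
    (u' v) ^ 2 ≤ κ ^ 2 * q v := by
  have hv : v ∈ tangentConeAt ℝ E z := by rw [htc]; trivial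
  obtain ⟨ι, l, hl, c, d, hd, hds, hcd⟩ := exists_fun_of_mem_tangentConeAt hv
  have hlim := hu.lim hd hds hcd
  have hto : Tendsto (fun n => z + d n) l (𝓝[E] z) := by
    rw [tendsto_nhdsWithin_iff]
    exact ⟨by simpa using tendsto_const_nhds.add hd, hds⟩
  have key : ∀ ε : ℝ, 0 < ε → (u' v) ^ 2 ≤ κ ^ 2 * (q v + ε * ‖v‖ ^ 2) := by
    intro ε hε
    have h1 : Tendsto (fun n => (c n • (u (z + d n) - u z)) ^ 2) l (𝓝 ((u' v) ^ 2)) := hlim.pow 2
    have h2 : Tendsto (fun n => κ ^ 2 * (q (c n • d n) + ε * ‖c n • d n‖ ^ 2)) l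
        (𝓝 (κ ^ 2 * (q v + ε * ‖v‖ ^ 2))) :=
      (((hq.tendsto v).comp hcd).add ((hcd.norm.pow 2).const_mul ε)).const_mul _
    refine le_of_tendsto_of_tendsto h1 h2 ?_
    filter_upwards [hto.eventually (h ε hε), hto.eventually hκ] with n h3 h4
    rw [add_sub_cancel_left] at h3
    have h5 : (u (z + d n) - u z) ^ 2 ≤ κ ^ 2 * (q (d n) + ε * ‖d n‖ ^ 2) := by
      rw [← sq_abs (u (z + d n) - u z)]
      calc |u (z + d n) - u z| ^ 2 ≤ (κ * dist (φ (z + d n)) (φ z)) ^ 2 :=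
            pow_le_pow_left₀ (abs_nonneg _) h4 2
        _ = κ ^ 2 * dist (φ (z + d n)) (φ z) ^ 2 := by ring
        _ ≤ _ := mul_le_mul_of_nonneg_left h3 (sq_nonneg _)
    rw [smul_eq_mul, mul_pow, hq2, norm_smul, mul_pow, Real.norm_eq_abs, sq_abs]
    calc c n ^ 2 * (u (z + d n) - u z) ^ 2 ≤ c n ^ 2 * (κ ^ 2 * (q (d n) + ε * ‖d n‖ ^ 2)) :=
          mul_le_mul_of_nonneg_left h5 (sq_nonneg _)
      _ = _ := by ring
  have h3 : Tendsto (fun ε : ℝ => κ ^ 2 * (q v + ε * ‖v‖ ^ 2)) (𝓝[>] 0)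
      (𝓝 (κ ^ 2 * (q v + 0 * ‖v‖ ^ 2))) := by
    have : Continuous fun ε : ℝ => κ ^ 2 * (q v + ε * ‖v‖ ^ 2) := by fun_prop
    exact (this.tendsto 0).mono_left nhdsWithin_le_nhds
  rw [zero_mul, add_zero] at h3
  exact ge_of_tendsto h3 (by filter_upwards [self_mem_nhdsWithin] with ε hε using key ε hε)

theorem zeta_sq_le {k : ℝ} (hk : 0 ≤ k) {X : Type u} [MetricSpace X] (x : X) {E : Set V} {z : V}
    (htc : tangentConeAt ℝ E z = univ) {φ : V → X} {q : V → ℝ} (hq : Continuous q)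
    (hq2 : ∀ (c : ℝ) (v : V), q (c • v) = c ^ 2 * q v) {B : ℝ} (hB : ∀ v, |q v| ≤ B * ‖v‖ ^ 2)
    (h : UB E φ z q) {ζ' : V →L[ℝ] ℝ}
    (hζ : HasFDerivWithinAt (fun w => zk k (dist x (φ w))) ζ' E z) (v : V) :
    (ζ' v) ^ 2 ≤ SS k (zk k (dist x (φ z))) * q v := by
  set r := dist x (φ z) with hr
  have hsn0 : 0 ≤ sn k r := sn_nonneg hk dist_nonneg
  have hcont : Tendsto (fun w => dist x (φ w)) (𝓝[E] z) (𝓝 r) := by
    have h1 := eventually_le hB h
    have h2 : Tendsto (fun w : V => (B + 1) * ‖w - z‖ ^ 2) (𝓝[E] z) (𝓝 0) := by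
      have : Continuous fun w : V => (B + 1) * ‖w - z‖ ^ 2 := by fun_prop
      have h1 := this.tendsto z
      simp only [sub_self, norm_zero, ne_eq, OfNat.ofNat_ne_zero, not_false_eq_true,
        zero_pow, mul_zero] at h1
      exact h1.mono_left nhdsWithin_le_nhds
    have h3 : Tendsto (fun w => dist (φ w) (φ z) ^ 2) (𝓝[E] z) (𝓝 0) :=
      tendsto_of_tendsto_of_tendsto_of_le_of_le' tendsto_const_nhds h2
        (Eventually.of_forall fun w => sq_nonneg _) h1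
    have h4 : Tendsto (fun w => dist (φ w) (φ z)) (𝓝[E] z) (𝓝 0) := by
      have := h3.sqrt
      simpa [Real.sqrt_sq] using this
    rw [tendsto_iff_dist_tendsto_zero]
    refine squeeze_zero (fun w => dist_nonneg) (fun w => ?_) h4
    rw [Real.dist_eq, hr, dist_comm x, dist_comm x]
    exact abs_dist_sub_le _ _ _
  have hder := Cat2.hasDerivAt_zk k r
  have key : ∀ ε : ℝ, 0 < ε → (ζ' v) ^ 2 ≤ (sn k r + ε) ^ 2 * q v := by
    intro ε hε
    refine sq_le_of_UB htc hq hq2 h hζ ?_ v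
    have h1 : ∀ᶠ a in 𝓝 r, |zk k a - zk k r| ≤ (sn k r + ε) * |a - r| := by
      have h2 := (hasDerivAt_iff_isLittleO.1 hder).def hε
      filter_upwards [h2] with a ha
      rw [Real.norm_eq_abs, Real.norm_eq_abs, smul_eq_mul] at ha
      have e : zk k a - zk k r = (zk k a - zk k r - (a - r) * sn k r) + (a - r) * sn k r := by
        ring
      rw [e]
      refine (abs_add_le _ _).trans ?_
      rw [abs_mul, abs_of_nonneg hsn0]
      linarith
    filter_upwards [hcont.eventually h1] with w hw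
    refine hw.trans (mul_le_mul_of_nonneg_left ?_ (by positivity))
    rw [hr, dist_comm x, dist_comm x]
    exact abs_dist_sub_le _ _ _
  have h3 : Tendsto (fun ε : ℝ => (sn k r + ε) ^ 2 * q v) (𝓝[>] 0)
      (𝓝 ((sn k r + 0) ^ 2 * q v)) := by
    have : Continuous fun ε : ℝ => (sn k r + ε) ^ 2 * q v := by fun_prop
    exact (this.tendsto 0).mono_left nhdsWithin_le_nhds
  rw [add_zero, sn_sq] at h3
  exact ge_of_tendsto h3 (by filter_upwards [self_mem_nhdsWithin] with ε hε using key ε hε)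

end General

section Euclid

variable {n : ℕ}

theorem continuous_qf (G : Matrix (Fin n) (Fin n) ℝ) : Continuous (qf G) := by
  unfold qf
  simp only [dotProduct, mulVec]
  fun_prop

theorem qf_smul (G : Matrix (Fin n) (Fin n) ℝ) (c : ℝ) (v : Euc n) :
    qf G (c • v) = c ^ 2 * qf G v := by
  unfold qf
  have : (fun i => (c • v) i) = c • (fun i => v i) := by ext i; simp
  rw [this, mulVec_smul, smul_dotProduct, dotProduct_smul, smul_eq_mul, smul_eq_mul]
  ring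

theorem exists_qf_bound (G : Matrix (Fin n) (Fin n) ℝ) :
    ∃ B : ℝ, 0 ≤ B ∧ ∀ v : Euc n, |qf G v| ≤ B * ‖v‖ ^ 2 := by
  refine ⟨∑ i, ∑ j, |G i j|, by positivity, fun v => ?_⟩
  unfold qf
  simp only [dotProduct, mulVec, Finset.mul_sum]
  refine (Finset.abs_sum_le_sum_abs _ _).trans ?_
  rw [Finset.sum_mul]
  refine Finset.sum_le_sum fun i _ => ?_
  refine (Finset.abs_sum_le_sum_abs _ _).trans ?_
  rw [Finset.sum_mul]
  refine Finset.sum_le_sum fun j _ => ?_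
  have hi : |v i| ≤ ‖v‖ := PiLp.norm_apply_le v i
  have hj : |v j| ≤ ‖v‖ := PiLp.norm_apply_le v j
  rw [abs_mul, abs_mul]
  calc |v i| * (|G i j| * |v j|) = |G i j| * (|v i| * |v j|) := by ring
    _ ≤ |G i j| * (‖v‖ * ‖v‖) := by gcongr
    _ = _ := by ring

theorem qf_nonneg {G : Matrix (Fin n) (Fin n) ℝ} (hG : G.PosSemidef) (v : Euc n) :
    0 ≤ qf G v := by
  have := hG.dotProduct_mulVec_nonneg (fun i => v i)
  simpa [qf] using this

theorem clm_eq_dot (L : Euc n →L[ℝ] ℝ) (v : Euc n) :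
    L v = (fun l => L (EuclideanSpace.single l 1)) ⬝ᵥ (fun i => v i) := by
  have h2 : v = ∑ j, (v j) • EuclideanSpace.single j (1 : ℝ) := by
    ext i
    simp [Finset.sum_apply, Pi.single_apply]
  conv_lhs => rw [h2]
  rw [map_sum]
  simp only [map_smul, smul_eq_mul, dotProduct]
  exact Finset.sum_congr rfl fun i _ => mul_comm _ _

theorem QH_hom (k T Z s a b c : ℝ) :
    QH k T Z (s * a) (s * b) (s ^ 2 * c) = s ^ 2 * QH k T Z a b c := by
  unfold QH ggD zaD; ring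

theorem continuous_QH (k T Z : ℝ) {W : Type*} [TopologicalSpace W] {a b c : W → ℝ}
    (ha : Continuous a) (hb : Continuous b) (hc : Continuous c) :
    Continuous fun v => QH k T Z (a v) (b v) (c v) := by
  unfold QH ggD zaD
  fun_prop

/-- a good point of a chart, for the contraction towards `x` with speed `F`. -/
structure Good {X : Type u} [MetricSpace X] (k : ℝ) (x : X) (F : X → ℝ) (E : Set (Euc n))
    (φ : Euc n → X) (G : Matrix (Fin n) (Fin n) ℝ) (z : Euc n) : Prop where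
  mem : z ∈ E
  tc : tangentConeAt ℝ E z = univ
  ub : UB E φ z (qf G)
  psd : G.PosSemidef
  det : G.det ≠ 0
  dF : DifferentiableWithinAt ℝ (fun w => F (φ w)) E z
  dz : DifferentiableWithinAt ℝ (fun w => zk k (dist x (φ w))) E z

variable {X : Type u} [MetricSpace X] {k : ℝ} {x : X} {F : X → ℝ} {E : Set (Euc n)}
  {φ : Euc n → X} {G : Matrix (Fin n) (Fin n) ℝ} {z : Euc n}

theorem Good.alpha_sq_le {A : ℝ≥0} (hF : LipschitzWith A F) (h : Good k x F E φ G z)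
    (v : Euc n) : (fderivWithin ℝ (fun w => F (φ w)) E z v) ^ 2 ≤ (A : ℝ) ^ 2 * qf G v := by
  refine sq_le_of_UB h.tc (continuous_qf G) (qf_smul G) h.ub h.dF.hasFDerivWithinAt ?_ v
  filter_upwards with w
  have := hF.dist_le_mul (φ w) (φ z)
  rwa [Real.dist_eq] at this

theorem Good.beta_sq_le (hk : 0 ≤ k) (h : Good k x F E φ G z) (v : Euc n) :
    (fderivWithin ℝ (fun w => zk k (dist x (φ w))) E z v) ^ 2 ≤
      SS k (zk k (dist x (φ z))) * qf G v := by
  obtain ⟨B, -, hB⟩ := exists_qf_bound G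
  exact zeta_sq_le hk x h.tc (continuous_qf G) (qf_smul G) hB h.ub h.dz.hasFDerivWithinAt v

/-- the carré du champ of `z_x` is at most `sn²`. -/
theorem Good.gamma_le (hk : 0 ≤ k) (h : Good k x F E φ G z) :
    pd E (fun w => zk k (dist x (φ w))) z ⬝ᵥ
      (G⁻¹ *ᵥ pd E (fun w => zk k (dist x (φ w))) z) ≤ SS k (zk k (dist x (φ z))) := by
  set b := pd E (fun w => zk k (dist x (φ w))) z with hb
  set v : Euc n := WithLp.toLp 2 (G⁻¹ *ᵥ b) with hv
  have h1 := h.beta_sq_le hk v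
  rw [clm_eq_dot] at h1
  have h2 : (fun i => v i) = G⁻¹ *ᵥ b := rfl
  have h3 : qf G v = b ⬝ᵥ (G⁻¹ *ᵥ b) := by
    unfold qf
    rw [h2, mulVec_mulVec, Matrix.mul_nonsing_inv _ (isUnit_iff_ne_zero.2 h.det), one_mulVec,
      dotProduct_comm]
  rw [h2, h3] at h1
  have h4 : (b ⬝ᵥ (G⁻¹ *ᵥ b)) ^ 2 ≤ SS k (zk k (dist x (φ z))) * (b ⬝ᵥ (G⁻¹ *ᵥ b)) := h1
  by_contra hlt
  rw [not_le] at hlt
  have h5 := SS_nonneg (k := k) (zk_nonneg k (dist x (φ z)))
  nlinarith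

theorem Good.gamma_nonneg (h : Good k x F E φ G z) (b : Fin n → ℝ) :
    0 ≤ b ⬝ᵥ (G⁻¹ *ᵥ b) := by
  have := h.psd.inv.dotProduct_mulVec_nonneg b
  simpa using this

/-- Jacobian bound for the contraction map at a fixed time. -/
theorem Good.jac_one (hn : 0 < n) (hk : 0 ≤ k) (C : CATk k X) {A : ℝ≥0} (hF : LipschitzWith A F)
    {M Zb t : ℝ} (hF0 : ∀ y, 0 ≤ F y) (hFM : ∀ y, F y ≤ M) (h : Good k x F E φ G z)
    (hZb : zk k (dist x (φ z)) ≤ Zb) (ht0 : 0 ≤ t) (ht1 : t ≤ 1)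
    (ht : 2 * (t * M * (2 + k ^ 2 * Zb)) ≤ 1) :
    ∃ q : Euc n → ℝ, B5u.Good E (fun w => HH C x F t (φ w)) z
        (√G.det * Real.exp
          (-t * (n * (1 + k ^ 2 * zk k (dist x (φ z))) * F (φ z)
            + pd E (fun w => F (φ w)) z ⬝ᵥ (G⁻¹ *ᵥ pd E (fun w => zk k (dist x (φ w))) z))
            + n * K1 k M A Zb / 2 * t ^ 2)) q := by
  set Z := zk k (dist x (φ z)) with hZ
  have hZm : Z ∈ Icc (0 : ℝ) Zb := ⟨zk_nonneg _ _, hZb⟩
  have hφm : F (φ z) ∈ Icc (0 : ℝ) M := ⟨hF0 _, hFM _⟩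
  obtain ⟨B, -, hB⟩ := exists_qf_bound G
  have hτ : HasFDerivWithinAt (fun w => t * F (φ w))
      (t • fderivWithin ℝ (fun w => F (φ w)) E z) E z := h.dF.hasFDerivWithinAt.const_mul t
  have hsm := small_of (k := k) ht0 hφm hZm ht
  have hub := ub_Hpt hk C x hB h.ub (τ := fun w => t * F (φ w))
    (ζ := fun w => zk k (dist x (φ w))) (fun w => rfl) hτ h.dz.hasFDerivWithinAt
    (Eventually.of_forall fun w => mul_nonneg ht0 (hF0 _)) (mul_nonneg ht0 (hF0 _))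
    (by
      show t * F (φ z) * (2 + k ^ 2 * zk k (dist x (φ z))) < 1
      rw [← hZ]; linarith)
  refine ⟨_, ?_, ?_, hub, fun R hR => ?_⟩
  · exact continuous_QH _ _ _ (ContinuousLinearMap.continuous _)
      (ContinuousLinearMap.continuous _) (continuous_qf G)
  · intro s v
    rw [qf_smul, map_smul, map_smul, smul_eq_mul, smul_eq_mul, QH_hom]
  set al := pd E (fun w => F (φ w)) z with hal
  set be := pd E (fun w => zk k (dist x (φ w))) z with hbe
  have key : ∀ (i : Fin n) (v : Fin n → ℝ), (R i ⬝ᵥ v) ^ 2 ≤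
      (1 - 2 * t * F (φ z) * (1 + k ^ 2 * Z) + K1 k M A Zb * t ^ 2) * (v ⬝ᵥ (G *ᵥ v))
        - 2 * t * ((al ⬝ᵥ v) * (be ⬝ᵥ v)) := by
    intro i v
    have h1 := hR i v
    have h2 := h.alpha_sq_le hF (WithLp.toLp 2 v)
    have h3 := h.beta_sq_le hk (WithLp.toLp 2 v)
    have h4 := QH_le_one (M := M) (A := A) (Zb := Zb) ht0 ht1 hφm hZm ht
      (qf_nonneg h.psd (WithLp.toLp 2 v)) h2 h3
    refine h1.trans (h4.trans (le_of_eq ?_))
    rw [clm_eq_dot, clm_eq_dot]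
    rfl
  have h5 := abs_det_le_one hn R G h.psd h.det al be _ t key
  refine h5.trans (le_of_eq ?_)
  congr 2
  ring

end Euclid

section Swept

open B8Fubini

variable {n : ℕ} {X : Type u} [MetricSpace X] {k : ℝ} {x : X} {F : X → ℝ} {E : Set (Euc n)}
  {φ : Euc n → X} {G : Matrix (Fin n) (Fin n) ℝ}

/-- the tail as a continuous linear map. -/
noncomputable def tlL (n : ℕ) : Euc (n + 1) →L[ℝ] Euc n :=
  LinearMap.toContinuousLinearMap
    { toFun := tl
      map_add' := fun a b => by ext i; rfl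
      map_smul' := fun c a => by ext i; rfl }

theorem tlL_apply (w : Euc (n + 1)) : tlL n w = tl w := rfl

/-- the first coordinate as a continuous linear map. -/
noncomputable def hdL (n : ℕ) : Euc (n + 1) →L[ℝ] ℝ := EuclideanSpace.proj 0

theorem hdL_apply (w : Euc (n + 1)) : hdL n w = w 0 := rfl

theorem tl_sub (a b : Euc (n + 1)) : tl (a - b) = tl a - tl b := (tlL n).map_sub a b

theorem norm_tl_le (a : Euc (n + 1)) : ‖tl a‖ ≤ ‖a‖ := by
  rw [EuclideanSpace.norm_eq, EuclideanSpace.norm_eq]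
  apply Real.sqrt_le_sqrt
  rw [Fin.sum_univ_succ]
  have : ∑ i : Fin n, ‖(tl a) i‖ ^ 2 = ∑ i : Fin n, ‖a i.succ‖ ^ 2 := rfl
  rw [this]
  have := sq_nonneg ‖a 0‖
  linarith

theorem tendsto_tl (w : Euc (n + 1)) : Tendsto tl (𝓝[prodSet E] w) (𝓝[E] (tl w)) := by
  rw [tendsto_nhdsWithin_iff]
  refine ⟨(continuous_tl.tendsto w).mono_left nhdsWithin_le_nhds, ?_⟩
  filter_upwards [self_mem_nhdsWithin] with w' hw' using hw'.2

theorem ub_tl {w : Euc (n + 1)} (h : UB E φ (tl w) (qf G)) :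
    UB (prodSet E) (fun w' => φ (tl w')) w (fun v => qf G (tl v)) := by
  intro ε hε
  filter_upwards [(tendsto_tl w).eventually (h ε hε)] with w' hw'
  rw [tl_sub]
  refine hw'.trans (add_le_add le_rfl (mul_le_mul_of_nonneg_left ?_ hε.le))
  rw [← tl_sub]
  exact pow_le_pow_left₀ (norm_nonneg _) (norm_tl_le _) 2

theorem hasFDeriv_tl {u : Euc n → ℝ} {w : Euc (n + 1)} {u' : Euc n →L[ℝ] ℝ}
    (hu : HasFDerivWithinAt u u' E (tl w)) :
    HasFDerivWithinAt (fun w' => u (tl w')) (u'.comp (tlL n)) (prodSet E) w := by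
  have h1 : HasFDerivWithinAt (tl : Euc (n + 1) → Euc n) (tlL n) (prodSet E) w :=
    (tlL n).hasFDerivWithinAt
  exact hu.comp w h1 (fun w' hw' => hw'.2)

/-- Jacobian bound for the swept chart. -/
theorem Good.jac_two (hk : 0 ≤ k) (C : CATk k X) {A : ℝ≥0} (hF : LipschitzWith A F)
    {M Zb t : ℝ} (hF0 : ∀ y, 0 ≤ F y) (hFM : ∀ y, F y ≤ M) {w : Euc (n + 1)}
    (hw : w 0 ∈ Icc (0 : ℝ) 1) (h : Good k x F E φ G (tl w))
    (hZb : zk k (dist x (φ (tl w))) ≤ Zb) (ht0 : 0 ≤ t) (ht1 : t ≤ 1)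
    (ht : 2 * (t * M * (2 + k ^ 2 * Zb)) ≤ 1) (hA0 : 0 ≤ Zb) :
    ∃ q : Euc (n + 1) → ℝ,
      B5u.Good (prodSet E) (fun w' => HH C x F (t * w' 0) (φ (tl w'))) w
        (t * √G.det * (√((1 + K2 k M A Zb * t) ^ n) *
          (F (φ (tl w)) * √(SS k (zk k (dist x (φ (tl w))))
            - pd E (fun w => zk k (dist x (φ w))) (tl w) ⬝ᵥ
              (G⁻¹ *ᵥ pd E (fun w => zk k (dist x (φ w))) (tl w)))
            + √(K2 k M A Zb * t * (1 + M ^ 2 * SS k Zb))))) q := by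
  set z := tl w with hz
  set Z := zk k (dist x (φ z)) with hZ
  have hZm : Z ∈ Icc (0 : ℝ) Zb := ⟨zk_nonneg _ _, hZb⟩
  have hφm : F (φ z) ∈ Icc (0 : ℝ) M := ⟨hF0 _, hFM _⟩
  have hM0 : 0 ≤ M := hφm.1.trans hφm.2
  obtain ⟨B, hB0, hB⟩ := exists_qf_bound G
  have hB' : ∀ v : Euc (n + 1), |qf G (tl v)| ≤ B * ‖v‖ ^ 2 := fun v =>
    (hB _).trans (mul_le_mul_of_nonneg_left
      (pow_le_pow_left₀ (norm_nonneg _) (norm_tl_le _) 2) hB0)
  set α := fderivWithin ℝ (fun w => F (φ w)) E z with hα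
  set β := fderivWithin ℝ (fun w => zk k (dist x (φ w))) E z with hβ
  have hFd : HasFDerivWithinAt (fun w' => F (φ (tl w'))) (α.comp (tlL n)) (prodSet E) w :=
    hasFDeriv_tl (u := fun w => F (φ w)) h.dF.hasFDerivWithinAt
  have hZd : HasFDerivWithinAt (fun w' => zk k (dist x (φ (tl w')))) (β.comp (tlL n))
      (prodSet E) w :=
    hasFDeriv_tl (u := fun w => zk k (dist x (φ w))) h.dz.hasFDerivWithinAt
  have hs : HasFDerivWithinAt (fun w' : Euc (n + 1) => t * w' 0) (t • hdL n) (prodSet E) w :=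
    ((hdL n).hasFDerivWithinAt).const_mul t
  have hτ : HasFDerivWithinAt (fun w' : Euc (n + 1) => t * w' 0 * F (φ (tl w')))
      ((t * w 0) • (α.comp (tlL n)) + F (φ z) • (t • hdL n)) (prodSet E) w := hs.mul hFd
  have htw0 : 0 ≤ t * w 0 := mul_nonneg ht0 hw.1
  have htwt : t * w 0 ≤ t := by
    calc t * w 0 ≤ t * 1 := mul_le_mul_of_nonneg_left hw.2 ht0
      _ = t := mul_one t
  have h2Zb : 0 ≤ 2 + k ^ 2 * Zb := by positivity
  have htw : 2 * (t * w 0 * M * (2 + k ^ 2 * Zb)) ≤ 1 := by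
    have : t * w 0 * M * (2 + k ^ 2 * Zb) ≤ t * M * (2 + k ^ 2 * Zb) := by gcongr
    linarith
  have hsm := small_of (k := k) htw0 hφm hZm htw
  have hub := ub_Hpt hk C x hB' (ub_tl h.ub) (τ := fun w' => t * w' 0 * F (φ (tl w')))
    (ζ := fun w' => zk k (dist x (φ (tl w')))) (fun w => rfl) hτ hZd
    (by
      filter_upwards [self_mem_nhdsWithin] with w' hw'
      exact mul_nonneg (mul_nonneg ht0 hw'.1.1) (hF0 _))
    (mul_nonneg htw0 (hF0 _))
    (by
      show t * w 0 * F (φ z) * (2 + k ^ 2 * zk k (dist x (φ z))) < 1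
      rw [← hZ]; linarith)
  refine ⟨_, ?_, ?_, hub, fun R hR => ?_⟩
  · exact continuous_QH _ _ _ (ContinuousLinearMap.continuous _)
      (ContinuousLinearMap.continuous _) ((continuous_qf G).comp continuous_tl)
  · intro s v
    simp only
    have e : tl (s • v) = s • tl v := (tlL n).map_smul s v
    rw [e, qf_smul, map_smul, map_smul, smul_eq_mul, smul_eq_mul, QH_hom]
  set be := pd E (fun w => zk k (dist x (φ w))) z with hbe
  set K := K2 k M A Zb with hK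
  have hSb0 : 0 ≤ SS k Zb := SS_nonneg hA0
  have hSZ : 0 ≤ SS k Z := SS_nonneg hZm.1
  have hSle : SS k Z ≤ SS k Zb := SS_mono hZm.1 hZm.2
  have hK0 : 0 ≤ K := by rw [hK]; unfold K2; positivity
  have hKt : 0 ≤ K * t := mul_nonneg hK0 ht0
  have hKtw : K * (t * w 0) ≤ K * t := mul_le_mul_of_nonneg_left htwt hK0
  have key : ∀ (i : Fin (n + 1)) (v : Fin (n + 1) → ℝ), (R i ⬝ᵥ v) ^ 2 ≤
      (1 + K * t) * (Fin.tail v ⬝ᵥ (G *ᵥ Fin.tail v))
        + (t ^ 2 * (SS k Z * F (φ z) ^ 2 + K * t)) * v 0 ^ 2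
        + 2 * v 0 * (((-(t * F (φ z))) • be) ⬝ᵥ Fin.tail v) := by
    intro i v
    have h1 := hR i v
    set tv : Euc n := tl (WithLp.toLp 2 v) with htv
    have h2 := h.alpha_sq_le hF tv
    have h3 := h.beta_sq_le hk tv
    have hc := qf_nonneg h.psd tv
    have h4 := QH_le_two (M := M) (A := A) (Zb := Zb) (σ := t * v 0) htw0 (htwt.trans ht1) hφm
      hZm htw hc h2 h3
    have e1 : qf G tv = Fin.tail v ⬝ᵥ (G *ᵥ Fin.tail v) := rfl
    have e2 : fderivWithin ℝ (fun w => zk k (dist x (φ w))) E (tl w) tv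
        = be ⬝ᵥ Fin.tail v := by rw [clm_eq_dot]; rfl
    refine h1.trans (le_trans (le_of_eq ?_) (h4.trans ?_))
    · simp only [_root_.smul_apply, smul_eq_mul, _root_.add_apply,
        ContinuousLinearMap.comp_apply, tlL_apply, hdL_apply]
      have e3 : t * w 0 * α (tl (WithLp.toLp 2 v)) + F (φ z) * (t * (WithLp.toLp 2 v) 0)
        = F (φ z) * (t * v 0) + t * w 0 * α tv := by
        rw [← htv]; ring
      rw [e3]
    · rw [e1, e2, smul_dotProduct, smul_eq_mul, ← hK]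
      have e4 : (1 + K * (t * w 0)) * (Fin.tail v ⬝ᵥ (G *ᵥ Fin.tail v)) ≤
          (1 + K * t) * (Fin.tail v ⬝ᵥ (G *ᵥ Fin.tail v)) :=
        mul_le_mul_of_nonneg_right (by linarith) (by rw [← e1]; exact hc)
      have e5 : (SS k Z * F (φ z) ^ 2 + K * (t * w 0)) * (t * v 0) ^ 2 ≤
          (SS k Z * F (φ z) ^ 2 + K * t) * (t * v 0) ^ 2 :=
        mul_le_mul_of_nonneg_right (by linarith) (sq_nonneg _)
      have e6 : (t ^ 2 * (SS k Z * F (φ z) ^ 2 + K * t)) * v 0 ^ 2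
          = (SS k Z * F (φ z) ^ 2 + K * t) * (t * v 0) ^ 2 := by ring
      have e7 : 2 * v 0 * (-(t * F (φ z)) * (be ⬝ᵥ Fin.tail v))
          = -(2 * F (φ z) * (t * v 0) * (be ⬝ᵥ Fin.tail v)) := by ring
      rw [e6, e7]
      linarith
  have hcpos : 0 < 1 + K * t := by linarith
  have h5 := abs_det_le_two R G h.psd h.det _ hcpos key
  refine h5.trans ?_
  have hΓ := h.gamma_le hk
  have hΓ0 := h.gamma_nonneg be
  rw [← hbe, ← hZ] at hΓ
  set Γ := be ⬝ᵥ (G⁻¹ *ᵥ be) with hΓd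
  have e8 : ((-(t * F (φ z))) • be) ⬝ᵥ (G⁻¹ *ᵥ ((-(t * F (φ z))) • be))
      = t ^ 2 * (F (φ z) ^ 2 * Γ) := by
    rw [mulVec_smul, smul_dotProduct, dotProduct_smul, smul_eq_mul, smul_eq_mul]
    ring
  rw [e8]
  have h6 : t ^ 2 * (SS k Z * F (φ z) ^ 2 + K * t) - t ^ 2 * (F (φ z) ^ 2 * Γ) / (1 + K * t)
      ≤ t ^ 2 * (F (φ z) * √(SS k Z - Γ) + √(K * t * (1 + M ^ 2 * SS k Zb))) ^ 2 := by
    have f1 : F (φ z) ^ 2 * Γ * (1 - K * t) ≤ F (φ z) ^ 2 * Γ / (1 + K * t) := by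
      rw [le_div_iff₀ hcpos]
      have : (1 - K * t) * (1 + K * t) ≤ 1 := by nlinarith [sq_nonneg (K * t)]
      have h0 : 0 ≤ F (φ z) ^ 2 * Γ := by positivity
      calc F (φ z) ^ 2 * Γ * (1 - K * t) * (1 + K * t)
          = F (φ z) ^ 2 * Γ * ((1 - K * t) * (1 + K * t)) := by ring
        _ ≤ F (φ z) ^ 2 * Γ * 1 := mul_le_mul_of_nonneg_left this h0
        _ = _ := mul_one _
    have f2 : F (φ z) ^ 2 * Γ * (K * t) ≤ M ^ 2 * SS k Zb * (K * t) := by
      have g1 : F (φ z) ^ 2 ≤ M ^ 2 := pow_le_pow_left₀ hφm.1 hφm.2 2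
      have g2 : Γ ≤ SS k Zb := hΓ.trans hSle
      gcongr
    have f3 : SS k Z * F (φ z) ^ 2 + K * t - F (φ z) ^ 2 * Γ / (1 + K * t) ≤
        F (φ z) ^ 2 * (SS k Z - Γ) + K * t * (1 + M ^ 2 * SS k Zb) := by linarith
    have f4 : F (φ z) ^ 2 * (SS k Z - Γ) + K * t * (1 + M ^ 2 * SS k Zb) ≤
        (F (φ z) * √(SS k Z - Γ) + √(K * t * (1 + M ^ 2 * SS k Zb))) ^ 2 := by
      have g1 : √(SS k Z - Γ) ^ 2 = SS k Z - Γ := Real.sq_sqrt (by linarith)
      have g2 : √(K * t * (1 + M ^ 2 * SS k Zb)) ^ 2 = K * t * (1 + M ^ 2 * SS k Zb) :=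
        Real.sq_sqrt (by positivity)
      have g3 : 0 ≤ F (φ z) * √(SS k Z - Γ) * √(K * t * (1 + M ^ 2 * SS k Zb)) := by
        have := hφm.1
        positivity
      have g4 : (F (φ z) * √(SS k Z - Γ) + √(K * t * (1 + M ^ 2 * SS k Zb))) ^ 2
          = F (φ z) ^ 2 * √(SS k Z - Γ) ^ 2 + √(K * t * (1 + M ^ 2 * SS k Zb)) ^ 2
            + 2 * (F (φ z) * √(SS k Z - Γ) * √(K * t * (1 + M ^ 2 * SS k Zb))) := by ring
      rw [g4, g1, g2]
      linarith
    have f5 : t ^ 2 * (F (φ z) ^ 2 * Γ) / (1 + K * t) = t ^ 2 * (F (φ z) ^ 2 * Γ / (1 + K * t)) := by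
      ring
    rw [f5, ← mul_sub]
    exact mul_le_mul_of_nonneg_left (f3.trans f4) (sq_nonneg t)
  have h7 : √(t ^ 2 * (SS k Z * F (φ z) ^ 2 + K * t) - t ^ 2 * (F (φ z) ^ 2 * Γ) / (1 + K * t))
      ≤ t * (F (φ z) * √(SS k Z - Γ) + √(K * t * (1 + M ^ 2 * SS k Zb))) := by
    refine (Real.sqrt_le_sqrt h6).trans (le_of_eq ?_)
    rw [← mul_pow, Real.sqrt_sq]
    have := hφm.1
    positivity
  calc √((1 + K * t) ^ n * G.det) * √(t ^ 2 * (SS k Z * F (φ z) ^ 2 + K * t)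
        - t ^ 2 * (F (φ z) ^ 2 * Γ) / (1 + K * t))
      ≤ √((1 + K * t) ^ n * G.det) *
        (t * (F (φ z) * √(SS k Z - Γ) + √(K * t * (1 + M ^ 2 * SS k Zb)))) :=
        mul_le_mul_of_nonneg_left h7 (Real.sqrt_nonneg _)
    _ = _ := by
        rw [Real.sqrt_mul (by positivity)]
        ring

end Swept

end Crest.Agent.R241.B9f
end

-- ▼ part R241/B9h
section

/-!
# R241, block B9h: extension of a Lipschitz function from a compact set, with cut-off
(owner: helper534)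
-/

set_option autoImplicit false

open MeasureTheory Filter Topology Set
open scoped ENNReal NNReal

universe u

namespace Crest.Agent.R241.B9h

variable {X : Type u} [MetricSpace X]

/-- A nonnegative Lipschitz function on a compact set extends to a bounded nonnegative Lipschitz
function on `X` vanishing outside a ball. -/
theorem exists_extension {K : Set X} (hK : IsCompact K) (x : X) {f : K → ℝ}
    (hf : A.Lip f) (h0 : ∀ y, 0 ≤ f y) :
    ∃ (F : X → ℝ) (L : ℝ≥0) (M R : ℝ), LipschitzWith L F ∧ (∀ y : K, F y = f y) ∧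
      (∀ y, 0 ≤ F y) ∧ (∀ y, F y ≤ M) ∧ 0 ≤ M ∧ 0 ≤ R ∧ (∀ y, R < dist x y → F y = 0) ∧
      K ⊆ Metric.closedBall x R := by
  obtain ⟨L, hL⟩ := hf
  -- McShane extension
  obtain ⟨g, hg, hgf⟩ : ∃ g : X → ℝ, LipschitzWith L g ∧ ∀ y : K, g y = f y := by
    classical
    let f' : X → ℝ := fun y => if h : y ∈ K then f ⟨y, h⟩ else 0
    have hf' : LipschitzOnWith L f' K := by
      refine LipschitzOnWith.of_dist_le_mul fun y hy z hz => ?_
      simp only [f', dif_pos hy, dif_pos hz]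
      exact hL.dist_le_mul ⟨y, hy⟩ ⟨z, hz⟩
    obtain ⟨g, hg, hgf⟩ := hf'.extend_real
    refine ⟨g, hg, fun y => ?_⟩
    rw [← hgf y.2]
    simp [f', dif_pos y.2]
  -- bounds
  obtain ⟨R₁, hR₁⟩ := hK.isBounded.subset_closedBall x
  have hcomp : IsCompact (g '' K) := hK.image hg.continuous
  obtain ⟨M₁, hM₁⟩ := hcomp.bddAbove
  set R₀ := max R₁ 0 with hR₀
  set M := max M₁ 0 with hM
  have hR₀0 : 0 ≤ R₀ := le_max_right _ _
  have hM0 : 0 ≤ M := le_max_right _ _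
  have hKR : K ⊆ Metric.closedBall x R₀ :=
    hR₁.trans (Metric.closedBall_subset_closedBall (le_max_left _ _))
  have hfM : ∀ y : K, f y ≤ M := fun y => by
    rw [← hgf y]; exact (hM₁ (mem_image_of_mem g y.2)).trans (le_max_left _ _)
  have hc : LipschitzWith (M.toNNReal) (fun y => M * (R₀ + 1 - dist x y)) := by
    refine LipschitzWith.of_dist_le_mul fun y z => ?_
    rw [Real.dist_eq, Real.coe_toNNReal _ hM0, ← mul_sub, abs_mul, abs_of_nonneg hM0]
    refine mul_le_mul_of_nonneg_left ?_ hM0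
    have h1 : (R₀ + 1 - dist x y) - (R₀ + 1 - dist x z) = dist x z - dist x y := by ring
    rw [h1, abs_sub_comm, dist_comm x y, dist_comm x z]
    exact abs_dist_sub_le y z x
  refine ⟨fun y => max 0 (min (g y) (M * (R₀ + 1 - dist x y))), max L M.toNNReal,
    M * (R₀ + 1), R₀ + 1, ?_, ?_, ?_, ?_, by positivity, by positivity, ?_, ?_⟩
  · simpa using (LipschitzWith.const (0 : ℝ)).max (hg.min hc)
  · intro y
    have h1 : f y ≤ M * (R₀ + 1 - dist x (y : X)) := by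
      have h2 : dist x (y : X) ≤ R₀ := by rw [dist_comm]; exact hKR y.2
      nlinarith [hfM y]
    simp only [hgf y]
    rw [min_eq_left h1, max_eq_right (h0 y)]
  · intro y; exact le_max_left _ _
  · intro y
    refine max_le (by positivity) ((min_le_right _ _).trans ?_)
    refine mul_le_mul_of_nonneg_left ?_ hM0
    linarith [dist_nonneg (x := x) (y := y)]
  · intro y hy
    have h1 : M * (R₀ + 1 - dist x y) ≤ 0 := by nlinarith
    exact max_eq_left ((min_le_right _ _).trans h1)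
  · exact hKR.trans (Metric.closedBall_subset_closedBall (by linarith))

end Crest.Agent.R241.B9h
end

-- ▼ part R241/B9Int
section

/-!
# R241, block B9: integration against `P.τ` in the charts (helper16, L1 of helper992)

* `ext0 Ψ`: extension by zero of `Ψ : K → ℝ≥0∞`.
* `lintegral_tau`: `∫⁻ Ψ dτ = Σ_i ∫⁻_{E i} |θ_i| √det G_i · Ψ(φ_i z)`.
* `ae_transfer`: `τ`-a.e. properties hold a.e. in the charts (where `θ ≠ 0`).
* `integral_tau`: the Bochner version.
* `chs`: the family of charts as `B8.Chs`, `chs_T`.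
-/

set_option autoImplicit false
set_option linter.unusedSectionVars false

open MeasureTheory Filter Topology Set
open scoped ENNReal NNReal

universe u

namespace Crest.Agent.R241.B9Int

open Crest.GeometryTopology.MetricCurrent
open Crest.GeometryTopology.Submanifold (Euc)
open Crest.Agent.R241.B9

open Classical in
/-- extension by zero. -/
noncomputable def ext0 {X : Type u} {K : Set X} (Ψ : K → ℝ≥0∞) : X → ℝ≥0∞ :=
  fun y => if h : y ∈ K then Ψ ⟨y, h⟩ else 0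


theorem ext0_of_mem {X : Type u} {K : Set X} (Ψ : K → ℝ≥0∞) {y : X} (h : y ∈ K) :
    ext0 Ψ y = Ψ ⟨y, h⟩ := by rw [ext0, dif_pos h]


theorem ext0_val {X : Type u} {K : Set X} (Ψ : K → ℝ≥0∞) (y : K) : ext0 Ψ (y : X) = Ψ y :=
  ext0_of_mem Ψ y.2





section
variable {X : Type u} [MetricSpace X] [MeasurableSpace X] [BorelSpace X] {k : ℝ}
  {K : Set X} [CompactSpace K] {m : ℕ} {T : Functional X (m + 1)}
  {P : A.PreData (m + 1) k K}

theorem isCompact_K (K : Set X) [CompactSpace K] : IsCompact K :=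
  isCompact_iff_compactSpace.2 inferInstance

theorem measurableSet_K (K : Set X) [CompactSpace K] : MeasurableSet K :=
  (isCompact_K K).isClosed.measurableSet

theorem measurableEmbedding_val (K : Set X) [CompactSpace K] :
    MeasurableEmbedding (Subtype.val : K → X) :=
  MeasurableEmbedding.subtype_coe (measurableSet_K K)

/-- the density in the `i`-th chart -/
noncomputable def dens (ch : FVCharts T P) (i : ℕ) (z : Euc (m + 1)) : ℝ≥0∞ :=
  ENNReal.ofReal (|(ch.θ i z : ℝ)| * √(ch.G i z).det)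

theorem aemeasurable_dens (ch : FVCharts T P) (i : ℕ) :
    AEMeasurable (dens ch i) (volume.restrict (ch.E i)) :=
  (ch.intG i).aestronglyMeasurable.aemeasurable.ennreal_ofReal

theorem aemeasurable_φ (ch : FVCharts T P) (i : ℕ) :
    AEMeasurable (ch.φ i) (volume.restrict (ch.E i)) := by
  obtain ⟨L, hL⟩ := ch.lipφ i
  exact hL.continuousOn.aemeasurable (ch.measE i)

theorem aemeasurable_φ' (ch : FVCharts T P) (i : ℕ) :
    AEMeasurable (ch.φ i) ((volume.restrict (ch.E i)).withDensity (dens ch i)) :=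
  (aemeasurable_φ ch i).mono_ac (withDensity_absolutelyContinuous _ _)

theorem aemeasurable_ext0 (ch : FVCharts T P) {Ψ : K → ℝ≥0∞} (hΨ : AEMeasurable Ψ P.τ) (i : ℕ) :
    AEMeasurable (ext0 Ψ)
      (((volume.restrict (ch.E i)).withDensity (dens ch i)).map (ch.φ i)) := by
  have h1 : AEMeasurable (ext0 Ψ) (P.τ.map (Subtype.val : K → X)) := by
    rw [(measurableEmbedding_val K).aemeasurable_map_iff]
    refine hΨ.congr (Eventually.of_forall fun y => ?_)
    exact (ext0_val Ψ y).symm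
  rw [ch.tau_eq] at h1
  exact h1.mono_measure (Measure.le_sum (fun i => ((volume.restrict (ch.E i)).withDensity
      fun z => ENNReal.ofReal (|(ch.θ i z : ℝ)| * √(ch.G i z).det)).map (ch.φ i)) i)

theorem lintegral_tau (ch : FVCharts T P) {Ψ : K → ℝ≥0∞} (hΨ : AEMeasurable Ψ P.τ) :
    ∫⁻ y, Ψ y ∂P.τ = ∑' i, ∫⁻ z in ch.E i,
      ENNReal.ofReal (|(ch.θ i z : ℝ)| * √(ch.G i z).det) * ext0 Ψ (ch.φ i z) := by
  have h0 : ∫⁻ y, Ψ y ∂P.τ = ∫⁻ y, ext0 Ψ y ∂(P.τ.map (Subtype.val : K → X)) := by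
    rw [(measurableEmbedding_val K).lintegral_map]
    exact lintegral_congr fun y => (ext0_val Ψ y).symm
  rw [h0, ch.tau_eq, lintegral_sum_measure]
  refine tsum_congr fun i => ?_
  have h1 := aemeasurable_ext0 ch hΨ i
  have h2 := aemeasurable_φ' ch i
  change ∫⁻ y, ext0 Ψ y
    ∂(((volume.restrict (ch.E i)).withDensity (dens ch i)).map (ch.φ i)) = _
  rw [lintegral_map' h1 h2]
  exact lintegral_withDensity_eq_lintegral_mul₀' (aemeasurable_dens ch i)
    (h1.comp_aemeasurable h2)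







/-! ### the family of charts as `B8.Chs` -/

/-- the controlling measure of the `i`-th chart -/
noncomputable def cμ (ch : FVCharts T P) (i : ℕ) : Measure X :=
  ((volume.restrict (ch.E i)).withDensity
      fun z => ENNReal.ofReal (|(ch.θ i z : ℝ)| * √(ch.G i z).det)).map (ch.φ i)

theorem cμ_univ (ch : FVCharts T P) (i : ℕ) :
    cμ ch i univ = ∫⁻ z in ch.E i, ENNReal.ofReal (|(ch.θ i z : ℝ)| * √(ch.G i z).det) := by
  change (((volume.restrict (ch.E i)).withDensity (dens ch i)).map (ch.φ i)) univ = _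
  rw [Measure.map_apply_of_aemeasurable (aemeasurable_φ' ch i) MeasurableSet.univ,
    preimage_univ, withDensity_apply _ MeasurableSet.univ, Measure.restrict_univ]
  rfl

theorem cμ_univ' (ch : FVCharts T P) (i : ℕ) :
    cμ ch i univ = ENNReal.ofReal (∫ z in ch.E i, |(ch.θ i z : ℝ)| * √(ch.G i z).det) := by
  rw [cμ_univ, ofReal_integral_eq_lintegral_ofReal (ch.intG i)
    (Eventually.of_forall fun z => by positivity)]

/-- the charts of `FVCharts` as a `Chs` -/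
noncomputable def chs (ch : FVCharts T P)
    (hctrl : ∀ i, Controls (chartAction (ch.E i) (ch.φ i) (ch.θ i)) (cμ ch i)) :
    B8.Chs (m + 1) X where
  E := ch.E
  φ := ch.φ
  θ := ch.θ
  L i := (ch.lipφ i).choose
  μ := cμ ch
  measE := ch.measE
  lip i := (ch.lipφ i).choose_spec
  int := ch.intθ
  cur i := B1Cur.isCurrent_chartAction (ch.measE i) (ch.lipφ i).choose_spec (ch.intθ i)
  fin i := ⟨by rw [cμ_univ']; exact ENNReal.ofReal_lt_top⟩
  ctrl := hctrl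
  summ := by
    refine ch.summ.congr fun i => ?_
    rw [cμ_univ', ENNReal.toReal_ofReal (integral_nonneg fun z => by positivity)]

@[simp] theorem chs_E (ch : FVCharts T P) (h) : (chs ch h).E = ch.E := rfl
@[simp] theorem chs_φ (ch : FVCharts T P) (h) : (chs ch h).φ = ch.φ := rfl
@[simp] theorem chs_θ (ch : FVCharts T P) (h) : (chs ch h).θ = ch.θ := rfl
@[simp] theorem chs_μ (ch : FVCharts T P) (h) : (chs ch h).μ = cμ ch := rfl

theorem chs_T (ch : FVCharts T P)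
    (h : ∀ i, Controls (chartAction (ch.E i) (ch.φ i) (ch.θ i)) (cμ ch i))
    (hT : IsCurrent T) : (chs ch h).T = T := by
  funext f π
  by_cases ht : IsTestPair f π
  · exact (ch.act f π ht).tsum_eq
  · rw [hT.eq_zero_of_not_test f π ht]
    exact (B8.Chs.isCurrent_T (chs ch h)).eq_zero_of_not_test f π ht


end

end Crest.Agent.R241.B9Int
end

-- ▼ part R241/B9Int2
section

/-!
# R241, block B9: `chs` without hypothesis (helper16)
-/

set_option autoImplicit false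
set_option linter.unusedSectionVars false

open MeasureTheory Filter Topology Set
open scoped ENNReal NNReal

universe u

namespace Crest.Agent.R241.B9Int

open Crest.GeometryTopology.MetricCurrent
open Crest.GeometryTopology.Submanifold (Euc)
open Crest.Agent.R241.B9

variable {X : Type u} [MetricSpace X] [MeasurableSpace X] [BorelSpace X] {k : ℝ}
  {K : Set X} [CompactSpace K] {m : ℕ} {T : Functional X (m + 1)}
  {P : A.PreData (m + 1) k K}

theorem controls_chart (ch : FVCharts T P) (i : ℕ) :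
    Controls (chartAction (ch.E i) (ch.φ i) (ch.θ i)) (cμ ch i) := by
  obtain ⟨L, hL⟩ := ch.lipφ i
  exact B5u.controls_chartAction_det (ch.measE i) hL (ch.intθ i)
    (Eventually.of_forall fun z => ch.psd i z) (ch.md i) (ch.intG i)

/-- **the charts of `FVCharts` as a `Chs`**, no hypotheses. -/
noncomputable def chs' (ch : FVCharts T P) : B8.Chs (m + 1) X := chs ch (controls_chart ch)

@[simp] theorem chs'_E (ch : FVCharts T P) : (chs' ch).E = ch.E := rfl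
@[simp] theorem chs'_φ (ch : FVCharts T P) : (chs' ch).φ = ch.φ := rfl
@[simp] theorem chs'_θ (ch : FVCharts T P) : (chs' ch).θ = ch.θ := rfl
@[simp] theorem chs'_μ (ch : FVCharts T P) : (chs' ch).μ = cμ ch := rfl

theorem chs'_T (ch : FVCharts T P) (hT : IsCurrent T) : (chs' ch).T = T := chs_T ch _ hT

theorem mapsTo_chs' (ch : FVCharts T P) (i : ℕ) :
    MapsTo ((chs' ch).φ i) ((chs' ch).E i) K := ch.mapsK i






end Crest.Agent.R241.B9Int
end

-- ▼ part R241/B9Mass2_534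
section

/-!
# R241, block B9, lemma L3: mass of a push-forward by the upper mass lemma (owner: helper534)
-/

set_option autoImplicit false
set_option linter.unusedSectionVars false

open MeasureTheory Filter Topology Set
open scoped ENNReal NNReal

universe u v

namespace Crest.Agent.R241.B9Mass2

open Crest.GeometryTopology.MetricCurrent
open Crest.GeometryTopology.Submanifold (Euc)
open Crest.Agent.R241.B9
open Crest.Agent.R241.B5u
open Crest.Agent.R241.B1c1 (push push_apply isTestPair_comp)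
open Matrix

variable {X : Type u} [MetricSpace X] [MeasurableSpace X] [BorelSpace X]
variable {Y : Type v} [MetricSpace Y] [MeasurableSpace Y] [BorelSpace Y]
variable {k : ℕ}

/-- A functional which is the sum of Lipschitz chart actions with pointwise Jacobian bounds `J i`
has mass at most `∑ ∫ |θ| J`. -/
theorem ofReal_mass_le {ι : Type*} [Countable ι] {T : Functional Y k} {E : ι → Set (Euc k)}
    {φ : ι → Euc k → Y} {θ : ι → Euc k → ℤ} {J : ι → Euc k → ℝ}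
    (hE : ∀ i, MeasurableSet (E i)) (hφ : ∀ i, ∃ L : ℝ≥0, LipschitzOnWith L (φ i) (E i))
    (hθ : ∀ i, Integrable (fun z => (θ i z : ℝ)) (volume.restrict (E i)))
    (hJm : ∀ i, AEMeasurable (J i) (volume.restrict (E i)))
    (hJ : ∀ i, ∀ᵐ z ∂(volume.restrict (E i)), ∃ q : Euc k → ℝ, Good (E i) (φ i) z (J i z) q)
    (hT : ∀ f π, IsTestPair f π →
      HasSum (fun i => chartAction (E i) (φ i) (θ i) f π) (T f π)) :
    ENNReal.ofReal (mass T) ≤
      ∑' i, ∫⁻ z, ENNReal.ofReal (|(θ i z : ℝ)| * J i z) ∂(volume.restrict (E i)) := by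
  by_cases hfin : ∑' i, ∫⁻ z, ENNReal.ofReal (|(θ i z : ℝ)| * J i z) ∂(volume.restrict (E i)) = ⊤
  · rw [hfin]; exact le_top
  have hi : ∀ i, ∫⁻ z, ENNReal.ofReal (|(θ i z : ℝ)| * J i z) ∂(volume.restrict (E i)) ≠ ⊤ :=
    ENNReal.ne_top_of_tsum_ne_top hfin
  -- nonnegativity of `J` and integrability
  have hJ0 : ∀ i, ∀ᵐ z ∂(volume.restrict (E i)), 0 ≤ J i z := fun i => by
    obtain ⟨L, hL⟩ := hφ i
    have h1 := ae_abs_jac_le_of_good (hE i) hL (hJ i) (π := fun _ _ => (0 : ℝ))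
      (fun _ => (LipschitzWith.const (0 : ℝ)).weaken (by simp))
    exact h1.mono fun z hz => (abs_nonneg _).trans hz
  have hJi : ∀ i, IntegrableOn (fun z => |(θ i z : ℝ)| * J i z) (E i) := fun i => by
    have hm : AEMeasurable (fun z => |(θ i z : ℝ)| * J i z) (volume.restrict (E i)) :=
      (hθ i).aemeasurable.abs.mul (hJm i)
    have h0 : ∀ᵐ z ∂(volume.restrict (E i)), 0 ≤ |(θ i z : ℝ)| * J i z := by
      filter_upwards [hJ0 i] with z hz using mul_nonneg (abs_nonneg _) hz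
    exact (lintegral_ofReal_ne_top_iff_integrable hm.aestronglyMeasurable h0).1 (hi i)
  have hμf : ∀ i, IsFiniteMeasure (muJ (E i) (φ i) (fun z => (θ i z : ℝ)) (J i)) := fun i =>
    isFiniteMeasure_muJ (hJi i)
  have hctrl : ∀ i, Controls (chartAction (E i) (φ i) (θ i))
      (muJ (E i) (φ i) (fun z => (θ i z : ℝ)) (J i)) := fun i => by
    obtain ⟨L, hL⟩ := hφ i
    exact controls_chartAction (hE i) hL (hθ i) (hJi i) (hJ i)
  have hle : ∀ i, muJ (E i) (φ i) (fun z => (θ i z : ℝ)) (J i) univ =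
      ∫⁻ z, ENNReal.ofReal (|(θ i z : ℝ)| * J i z) ∂(volume.restrict (E i)) := fun i => by
    obtain ⟨L, hL⟩ := hφ i
    have hm : AEMeasurable (φ i) ((volume.restrict (E i)).withDensity
        fun z => ENNReal.ofReal (|(θ i z : ℝ)| * J i z)) :=
      (B1Cur.aemeasurable_phi (hE i) hL).mono_ac (withDensity_absolutelyContinuous _ _)
    unfold muJ
    rw [Measure.map_apply_of_aemeasurable hm MeasurableSet.univ, preimage_univ,
      withDensity_apply _ MeasurableSet.univ, Measure.restrict_univ]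
  have hsum : Summable fun i => (muJ (E i) (φ i) (fun z => (θ i z : ℝ)) (J i)).real univ := by
    unfold Measure.real
    simp_rw [hle]
    exact ENNReal.summable_toReal hfin
  have hC := controls_hasSum (T := T) hsum hctrl hT
  have hfm : IsFiniteMeasure (Measure.sum fun i =>
      muJ (E i) (φ i) (fun z => (θ i z : ℝ)) (J i)) := by
    constructor
    rw [Measure.sum_apply _ MeasurableSet.univ]
    simp_rw [hle]
    exact lt_top_iff_ne_top.2 hfin
  have h2 := B10.mass_le hC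
  calc ENNReal.ofReal (mass T) ≤ ENNReal.ofReal ((Measure.sum fun i =>
      muJ (E i) (φ i) (fun z => (θ i z : ℝ)) (J i)) univ).toReal := ENNReal.ofReal_le_ofReal h2
    _ = (Measure.sum fun i => muJ (E i) (φ i) (fun z => (θ i z : ℝ)) (J i)) univ :=
        ENNReal.ofReal_toReal (measure_ne_top _ _)
    _ = _ := by
        rw [Measure.sum_apply _ MeasurableSet.univ]
        simp_rw [hle]

/-- **L3**: mass of the push-forward of `c.T`. -/
theorem ofReal_mass_push_le (c : B8.Chs k X) {ψ : X → Y} {L : ℝ≥0} (hψ : LipschitzWith L ψ)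
    {J : ℕ → Euc k → ℝ} (hJm : ∀ i, AEMeasurable (J i) (volume.restrict (c.E i)))
    (hJ : ∀ i, ∀ᵐ z ∂(volume.restrict (c.E i)), ∃ q : Euc k → ℝ,
      Good (c.E i) (fun w => ψ (c.φ i w)) z (J i z) q) :
    ENNReal.ofReal (mass (push ψ c.T)) ≤
      ∑' i, ∫⁻ z, ENNReal.ofReal (|(c.θ i z : ℝ)| * J i z) ∂(volume.restrict (c.E i)) := by
  refine ofReal_mass_le (φ := fun i w => ψ (c.φ i w)) c.measE
    (fun i => ⟨L * c.L i, hψ.comp_lipschitzOnWith (c.lip i)⟩) c.int hJm hJ ?_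
  intro f π hf
  have hf' := isTestPair_comp hψ hf
  rw [push_apply hf]
  obtain ⟨h1, h2⟩ := G1.isTestPair_iff.1 hf'
  have h3 := (c.summable_chart h1 h2).hasSum
  have h4 : ∀ i, chartAction (c.E i) (fun w => ψ (c.φ i w)) (c.θ i) f π =
      chartAction (c.E i) (c.φ i) (c.θ i) (fun x => f (ψ x)) (fun j x => π j (ψ x)) := fun i => by
    simp only [chartAction, if_pos hf, if_pos hf']
  simp_rw [h4]
  exact h3

end Crest.Agent.R241.B9Mass2
end

-- ▼ part R241/B9g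

/-!
# R241, block B9 (first variation), part g: integration and FVAR (helper992)
-/

set_option autoImplicit false
set_option linter.unusedSectionVars false

open MeasureTheory Filter Topology Set
open scoped ENNReal NNReal

universe u

namespace Crest.Agent.R241.B9g

open Crest.GeometryTopology.MetricCurrent
open Crest.GeometryTopology.Submanifold (Euc)
open B9b B9 B9f B9Int B8Fubini
open Matrix

/-! ### truncated `z` -/

section Trunc

variable {X : Type u} [MetricSpace X]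

/-- `z_x` truncated at distance `R` (globally Lipschitz). -/
noncomputable def zt (k : ℝ) (x : X) (R : ℝ) (y : X) : ℝ := zk k (min (dist x y) R)

theorem lip_zt (k : ℝ) (x : X) {R : ℝ} (hR : 0 ≤ R) : A.Lip (zt k x R) := by
  obtain ⟨c, hc0, hc⟩ := exists_zk_lip k R
  refine ⟨c.toNNReal, LipschitzWith.of_dist_le_mul fun y y' => ?_⟩
  rw [Real.coe_toNNReal _ hc0, Real.dist_eq]
  have h1 := hc (min (dist x y) R) ⟨le_min dist_nonneg hR, min_le_right _ _⟩
    (min (dist x y') R) ⟨le_min dist_nonneg hR, min_le_right _ _⟩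
  refine h1.trans (mul_le_mul_of_nonneg_left ?_ hc0)
  have h2 := abs_min_sub_min_le_max (dist x y) R (dist x y') R
  rw [sub_self, abs_zero] at h2
  refine h2.trans (max_le ?_ dist_nonneg)
  rw [dist_comm x y, dist_comm x y']
  exact abs_dist_sub_le _ _ _

theorem zt_eq {k : ℝ} {x : X} {R : ℝ} {y : X} (h : dist x y ≤ R) :
    zt k x R y = zk k (dist x y) := by
  unfold zt; rw [min_eq_left h]

end Trunc

theorem pd_congr {n : ℕ} {E : Set (Euc n)} {u v : Euc n → ℝ} (h : EqOn u v E) {z : Euc n}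
    (hz : z ∈ E) : pd E u z = pd E v z := by
  funext l
  unfold pd
  rw [fderivWithin_congr h (h hz)]

theorem aemeasurable_pd {n : ℕ} {E : Set (Euc n)} (hE : MeasurableSet E) {u : Euc n → ℝ}
    (hu : ∃ C : ℝ≥0, LipschitzOnWith C u E) (l : Fin n) :
    AEMeasurable (fun z => pd E u z l) (volume.restrict E) := by
  obtain ⟨C, hC⟩ := hu
  obtain ⟨U, hU1, hU2⟩ := hC.extend_real
  refine ⟨fun z => fderiv ℝ U z (EuclideanSpace.single l 1),
    measurable_fderiv_apply_const ℝ U _, ?_⟩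
  filter_upwards [B1Density.ae_fderivWithin_eq_of_lipschitz volume hE hU2 hU1] with z hz
  simp only [pd, hz]

theorem aemeasurable_pair {n : ℕ} {E : Set (Euc n)} (hE : MeasurableSet E) {u v : Euc n → ℝ}
    (hu : ∃ C : ℝ≥0, LipschitzOnWith C u E) (hv : ∃ C : ℝ≥0, LipschitzOnWith C v E)
    {G : Euc n → Matrix (Fin n) (Fin n) ℝ} (hG : ∀ a b, Measurable fun z => G z a b) :
    AEMeasurable (fun z => pd E u z ⬝ᵥ ((G z)⁻¹ *ᵥ pd E v z)) (volume.restrict E) := by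
  simp only [dotProduct, mulVec]
  refine Finset.aemeasurable_fun_sum _ fun i _ => (aemeasurable_pd hE hu i).mul
    (Finset.aemeasurable_fun_sum _ fun j _ => ?_)
  exact (B5b.measurable_inv hG i j).aemeasurable.mul (aemeasurable_pd hE hv j)

/-! ### Tonelli on the product chart -/

theorem map_tl {n : ℕ} {E : Set (Euc n)} :
    (volume.restrict (prodSet E)).map tl = volume.restrict E := by
  have h := (measurePreserving_splitE n).restrict_preimage_emb (splitE n).measurableEmbedding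
    (Icc (0 : ℝ) 1 ×ˢ E)
  rw [← prodSet_eq, ← Measure.prod_restrict] at h
  have h1 : (tl : Euc (n + 1) → Euc n) = Prod.snd ∘ (splitE n) := by
    funext w; rfl
  rw [h1, ← Measure.map_map measurable_snd (splitE n).measurable, h.map_eq,
    Measure.map_snd_prod]
  simp

theorem lintegral_tl {n : ℕ} {E : Set (Euc n)} {g : Euc n → ℝ≥0∞}
    (hg : AEMeasurable g (volume.restrict E)) :
    ∫⁻ w in prodSet E, g (tl w) = ∫⁻ z in E, g z := by
  conv_rhs => rw [← map_tl]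
  rw [lintegral_map' (by rw [map_tl]; exact hg) measurable_tl.aemeasurable]

theorem aemeasurable_tl {n : ℕ} {E : Set (Euc n)} {β : Type*} [MeasurableSpace β]
    {g : Euc n → β} (hg : AEMeasurable g (volume.restrict E)) :
    AEMeasurable (fun w => g (tl w)) (volume.restrict (prodSet E)) := by
  have : AEMeasurable g ((volume.restrict (prodSet E)).map tl) := by rw [map_tl]; exact hg
  exact this.comp_measurable measurable_tl

/-! ### facts on the charts -/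

section Charts

variable {X : Type u} [MetricSpace X] [MeasurableSpace X] [BorelSpace X] {k : ℝ}
  {K : Set X} [CompactSpace K] {m : ℕ} {T : Functional X (m + 1)}
  {P : A.PreData (m + 1) k K}

theorem lip_comp (ch : FVCharts T P) (i : ℕ) {F : X → ℝ} (hF : A.Lip F) :
    ∃ C : ℝ≥0, LipschitzOnWith C (fun w => F (ch.φ i w)) (ch.E i) := by
  obtain ⟨C, hC⟩ := hF
  obtain ⟨L, hL⟩ := ch.lipφ i
  exact ⟨C * L, hC.comp_lipschitzOnWith hL⟩

variable {x : K} {R : ℝ} (hKR : K ⊆ Metric.closedBall (x : X) R)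

include hKR in
theorem eqOn_zt (ch : FVCharts T P) (i : ℕ) :
    EqOn (fun w => zt k (x : X) R (ch.φ i w)) (fun w => zk k (dist (x : X) (ch.φ i w)))
      (ch.E i) := fun w hw => by
  have h := hKR (ch.mapsK i hw)
  rw [Metric.mem_closedBall, dist_comm] at h
  exact zt_eq h

include hKR in
theorem lip_zk (ch : FVCharts T P) (hR : 0 ≤ R) (i : ℕ) :
    ∃ C : ℝ≥0, LipschitzOnWith C (fun w => zk k (dist (x : X) (ch.φ i w))) (ch.E i) := by
  obtain ⟨C, hC⟩ := lip_comp ch i (lip_zt k (x : X) hR)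
  refine ⟨C, LipschitzOnWith.of_dist_le_mul fun w hw w' hw' => ?_⟩
  have h1 := eqOn_zt (k := k) hKR ch i hw
  have h2 := eqOn_zt (k := k) hKR ch i hw'
  simp only at h1 h2
  rw [← h1, ← h2]
  exact hC.dist_le_mul w hw w' hw'

include hKR in
theorem ae_good (ch : FVCharts T P) (hR : 0 ≤ R) {F : X → ℝ} (hF : A.Lip F) (i : ℕ) :
    ∀ᵐ z ∂(volume.restrict (ch.E i)),
      B9f.Good k (x : X) F (ch.E i) (ch.φ i) (ch.G i z) z := by
  obtain ⟨L, hL⟩ := ch.lipφ i
  filter_upwards [ae_restrict_mem (ch.measE i), B5u.ae_tangentCone_eq_univ volume (ch.E i),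
    ch.md i, ch.det_ne i, B1Cur.ae_good (ch.measE i) hL hF,
    B1Cur.ae_good (ch.measE i) hL (lip_zt k (x : X) hR)] with z h1 h2 h3 h4 h5 h6
  exact ⟨h1, h2, h3, ch.psd i z, h4, h5.2,
    h6.2.congr (fun w hw => (eqOn_zt hKR ch i hw).symm) (eqOn_zt hKR ch i h1).symm⟩

include hKR in
theorem zt_val : (fun y : K => zt k (x : X) R y) = A.zd k x := by
  funext y
  have h := hKR y.2
  rw [Metric.mem_closedBall, dist_comm] at h
  rw [zt_eq h]
  rfl

include hKR in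
theorem ae_G1 (ch : FVCharts T P) (hR : 0 ≤ R) {F : X → ℝ} (hF : A.Lip F) {f : K → ℝ}
    (hFf : ∀ y : K, F y = f y) (i : ℕ) :
    ∀ᵐ z ∂(volume.restrict (ch.E i)), ∀ hz : ch.φ i z ∈ K,
      P.G f (A.zd k x) ⟨ch.φ i z, hz⟩ =
        pd (ch.E i) (fun w => F (ch.φ i w)) z ⬝ᵥ
          ((ch.G i z)⁻¹ *ᵥ pd (ch.E i) (fun w => zk k (dist (x : X) (ch.φ i w))) z) := by
  filter_upwards [ch.G_eq i F (zt k (x : X) R) hF (lip_zt k (x : X) hR),
    ae_restrict_mem (ch.measE i)] with z h1 h2 hz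
  have h3 := h1 hz
  rw [zt_val hKR] at h3
  have h4 : (fun y : K => F y) = f := funext hFf
  rw [h4] at h3
  rw [h3]
  have h5 : pd (ch.E i) (zt k (x : X) R ∘ ch.φ i) z =
      pd (ch.E i) (fun w => zk k (dist (x : X) (ch.φ i w))) z := pd_congr (eqOn_zt hKR ch i) h2
  rw [h5]
  rfl

include hKR in
theorem ae_G2 (ch : FVCharts T P) (hR : 0 ≤ R) (i : ℕ) :
    ∀ᵐ z ∂(volume.restrict (ch.E i)), ∀ hz : ch.φ i z ∈ K,
      P.G (A.zd k x) (A.zd k x) ⟨ch.φ i z, hz⟩ =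
        pd (ch.E i) (fun w => zk k (dist (x : X) (ch.φ i w))) z ⬝ᵥ
          ((ch.G i z)⁻¹ *ᵥ pd (ch.E i) (fun w => zk k (dist (x : X) (ch.φ i w))) z) := by
  filter_upwards [ae_G1 hKR ch hR (lip_zt k (x : X) hR) (f := A.zd k x)
    (fun y => congrFun (zt_val hKR) y) i, ae_restrict_mem (ch.measE i)] with z h1 h2 hz
  rw [h1 hz]
  have h5 : pd (ch.E i) (fun w => zt k (x : X) R (ch.φ i w)) z =
      pd (ch.E i) (fun w => zk k (dist (x : X) (ch.φ i w))) z := pd_congr (eqOn_zt hKR ch i) h2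
  rw [h5]

/-- the integrand of the first variation. -/
noncomputable def g1 (P : A.PreData (m + 1) k K) (x : K) (f : K → ℝ) (y : K) : ℝ :=
  ((m + 1 : ℕ) : ℝ) * (1 + k ^ 2 * A.zd k x y) * f y + P.G f (A.zd k x) y

theorem continuous_zdf {f : K → ℝ} (hf : A.Lip f) (x : K) :
    Continuous fun y => ((m + 1 : ℕ) : ℝ) * (1 + k ^ 2 * A.zd k x y) * f y := by
  have h1 := A.continuous_zd (K := K) k x
  have h2 := hf.continuous
  fun_prop

theorem aestronglyMeasurable_g1 (P : A.PreData (m + 1) k K) (x : K) {f : K → ℝ} (hf : A.Lip f) :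
    AEStronglyMeasurable (g1 P x f) P.τ :=
  (continuous_zdf hf x).aestronglyMeasurable.add (P.G_meas f (A.zd k x) hf (A.lip_zd k x))

theorem integrable_g1 (P : A.PreData (m + 1) k K) (x : K) {f : K → ℝ} (hf : A.Lip f) :
    Integrable (g1 P x f) P.τ :=
  (P.integrable_of_continuous (continuous_zdf hf x)).add (P.integrable_G hf (A.lip_zd k x))

theorem exists_g1_bound (P : A.PreData (m + 1) k K) (x : K) {f : K → ℝ} (hf : A.Lip f) :
    ∃ B : ℝ, 0 ≤ B ∧ ∀ᵐ y ∂P.τ, |g1 P x f y| ≤ B := by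
  obtain ⟨B1, hB1, hB1'⟩ := A.exists_bound_of_continuous (continuous_zdf (k := k) (m := m) hf x)
  obtain ⟨C, hC0, hC⟩ := P.exists_G_bound hf
  obtain ⟨C', hC0', hC'⟩ := P.exists_G_bound (A.lip_zd k x)
  refine ⟨B1 + C * C', by positivity, ?_⟩
  filter_upwards [hC, hC', P.abs_G_le hf (A.lip_zd k x)] with y h1 h2 h3
  refine (abs_add_le _ _).trans (add_le_add (hB1' y) ?_)
  refine h3.trans (mul_le_mul ?_ ?_ (Real.sqrt_nonneg _) hC0)
  · rw [← Real.sqrt_sq hC0]; exact Real.sqrt_le_sqrt h1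
  · rw [← Real.sqrt_sq hC0']; exact Real.sqrt_le_sqrt h2

section Mass

variable {F : X → ℝ} {A0 : ℝ≥0} {M : ℝ} {f : K → ℝ} {t : ℝ}

include hKR in
theorem zk_le (hk : 0 ≤ k) (ch : FVCharts T P) (hR : 0 ≤ R) {i : ℕ} {z : Euc (m + 1)}
    (hz : z ∈ ch.E i) : zk k (dist (x : X) (ch.φ i z)) ≤ zk k (R + 1) := by
  have h := hKR (ch.mapsK i hz)
  rw [Metric.mem_closedBall, dist_comm] at h
  exact (zk_strictMonoOn hk).monotoneOn (mem_Ici.2 dist_nonneg) (mem_Ici.2 (by linarith))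
    (by linarith)

include hKR in
theorem mass_one (hk : 0 ≤ k) (C : CATk k X) (ch : FVCharts T P) (hT : IsCurrent T)
    (hF : LipschitzWith A0 F) (hF0 : ∀ y, 0 ≤ F y) (hFM : ∀ y, F y ≤ M) (hR : 0 ≤ R)
    (hFR : ∀ y, R < dist (x : X) y → F y = 0) (hf : A.Lip f) (hFf : ∀ y : K, F y = f y)
    (ht0 : 0 ≤ t) (ht1 : t ≤ 1) (ht : 2 * (t * M * (2 + k ^ 2 * zk k (R + 1))) ≤ 1) :
    ENNReal.ofReal (mass (B1c1.push (HH C (x : X) F t) T)) ≤
      ∫⁻ y, ENNReal.ofReal (Real.exp (-t * g1 P x f y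
        + ((m + 1 : ℕ) : ℝ) * B9d.K1 k M A0 (zk k (R + 1)) / 2 * t ^ 2)) ∂P.τ := by
  set c1 := ((m + 1 : ℕ) : ℝ) * B9d.K1 k M A0 (zk k (R + 1)) / 2 with hc1
  obtain ⟨L, hL0, hL⟩ := exists_lip_HH C hk (x : X) hF hF0 hFM hFR hR ht0 ht
  have hψ : LipschitzWith L.toNNReal (HH C (x : X) F t) := by
    refine LipschitzWith.of_dist_le_mul fun y y' => ?_
    rw [Real.coe_toNNReal _ hL0]
    have := hL t ⟨ht0, le_rfl⟩ t ⟨ht0, le_rfl⟩ y y'
    simpa using this
  set J : ℕ → Euc (m + 1) → ℝ := fun i z => √(ch.G i z).det * Real.exp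
    (-t * (((m + 1 : ℕ) : ℝ) * (1 + k ^ 2 * zk k (dist (x : X) (ch.φ i z))) * F (ch.φ i z)
      + pd (ch.E i) (fun w => F (ch.φ i w)) z ⬝ᵥ ((ch.G i z)⁻¹ *ᵥ
        pd (ch.E i) (fun w => zk k (dist (x : X) (ch.φ i w))) z)) + c1 * t ^ 2) with hJ
  have hLipF : A.Lip F := ⟨A0, hF⟩
  have hJm : ∀ i, AEMeasurable (J i) (volume.restrict (ch.E i)) := by
    intro i
    have h1 := aemeasurable_pair (ch.measE i) (lip_comp ch i hLipF) (lip_zk hKR ch hR i)
      (ch.measG i)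
    have h2 : AEMeasurable (fun z => F (ch.φ i z)) (volume.restrict (ch.E i)) := by
      obtain ⟨C', hC'⟩ := lip_comp ch i hLipF
      exact hC'.continuousOn.aemeasurable (ch.measE i)
    have h3 : AEMeasurable (fun z => zk k (dist (x : X) (ch.φ i z)))
        (volume.restrict (ch.E i)) := by
      obtain ⟨C', hC'⟩ := lip_zk (k := k) hKR ch hR i
      exact hC'.continuousOn.aemeasurable (ch.measE i)
    have h4 : AEMeasurable (fun z => √(ch.G i z).det) (volume.restrict (ch.E i)) :=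
      (B1Null.measurable_det (ch.measG i)).sqrt.aemeasurable
    refine h4.mul (Real.measurable_exp.comp_aemeasurable ?_)
    exact (((((h3.const_mul (k ^ 2)).const_add 1).const_mul _).mul h2).add h1).const_mul (-t)
      |>.add_const _
  have hgood : ∀ i, ∀ᵐ z ∂(volume.restrict ((chs' ch).E i)), ∃ q : Euc (m + 1) → ℝ,
      B5u.Good ((chs' ch).E i) (fun w => HH C (x : X) F t ((chs' ch).φ i w)) z (J i z) q := by
    intro i
    filter_upwards [ae_good hKR ch hR hLipF i, ae_restrict_mem (ch.measE i)] with z h1 h2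
    obtain ⟨q, hq⟩ := h1.jac_one (Nat.succ_pos m) hk C hF hF0 hFM (zk_le hKR hk ch hR h2)
      ht0 ht1 ht
    exact ⟨q, hq⟩
  have h1 := B9Mass2.ofReal_mass_push_le (chs' ch) hψ hJm hgood
  rw [chs'_T ch hT] at h1
  refine h1.trans (le_of_eq ?_)
  rw [lintegral_tau ch]
  · refine tsum_congr fun i => lintegral_congr_ae ?_
    filter_upwards [ae_restrict_mem (ch.measE i), ae_G1 hKR ch hR hLipF hFf i] with z hz hG
    have hzK := ch.mapsK i hz
    rw [ext0_of_mem _ hzK, ← ENNReal.ofReal_mul (by positivity)]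
    simp only [chs'_θ, hJ, g1]
    rw [hG hzK, ← hFf ⟨ch.φ i z, hzK⟩]
    exact congrArg ENNReal.ofReal (mul_assoc _ _ _).symm
  · refine ENNReal.measurable_ofReal.comp_aemeasurable
      (Real.measurable_exp.comp_aemeasurable ?_)
    exact ((aestronglyMeasurable_g1 P x hf).aemeasurable.const_mul (-t)).add_const _

/-! ### the homotopy -/

/-- the homotopy parametrized by `[0, 1]`. -/
noncomputable def HT (C : CATk k X) (x : X) (F : X → ℝ) (t s : ℝ) (y : X) : X :=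
  HH C x F (t * s) y

theorem exists_HLip (hk : 0 ≤ k) (C : CATk k X) (x : X) (hF : LipschitzWith A0 F)
    (hF0 : ∀ y, 0 ≤ F y) (hFM : ∀ y, F y ≤ M) (hR : 0 ≤ R)
    (hFR : ∀ y, R < dist (x : X) y → F y = 0) (ht0 : 0 ≤ t) (ht1 : t ≤ 1)
    (ht : 2 * (t * M * (2 + k ^ 2 * zk k (R + 1))) ≤ 1) :
    ∃ L : ℝ≥0, B8.HLip L (HT C x F t) := by
  obtain ⟨L, hL0, hL⟩ := exists_lip_HH C hk x hF hF0 hFM hFR hR ht0 ht
  refine ⟨L.toNNReal, fun s hs s' hs' y y' => ?_⟩
  rw [Real.coe_toNNReal _ hL0]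
  have h1 : ∀ s ∈ Icc (0 : ℝ) 1, t * s ∈ Icc (0 : ℝ) t := fun s hs =>
    ⟨mul_nonneg ht0 hs.1, by nlinarith [hs.2]⟩
  refine (hL _ (h1 s hs) _ (h1 s' hs') y y').trans (mul_le_mul_of_nonneg_left ?_ hL0)
  have h2 : |t * s - t * s'| ≤ |s - s'| := by
    rw [← mul_sub, abs_mul, abs_of_nonneg ht0]
    exact mul_le_of_le_one_left (abs_nonneg _) ht1
  linarith

include hKR in
theorem mass_two [SecondCountableTopology X] (hk : 0 ≤ k) (C : CATk k X) (ch : FVCharts T P)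
    (hF : LipschitzWith A0 F) (hF0 : ∀ y, 0 ≤ F y) (hFM : ∀ y, F y ≤ M) (hR : 0 ≤ R)
    (hFR : ∀ y, R < dist (x : X) y → F y = 0) (hf : A.Lip f) (hFf : ∀ y : K, F y = f y)
    (ht0 : 0 ≤ t) (ht1 : t ≤ 1) (ht : 2 * (t * M * (2 + k ^ 2 * zk k (R + 1))) ≤ 1) :
    ENNReal.ofReal (mass ((chs' ch).R (HT C (x : X) F t))) ≤
      ∫⁻ y, ENNReal.ofReal (t * (√((1 + B9d.K2 k M A0 (zk k (R + 1)) * t) ^ (m + 1)) *
        (f y * P.q x y + √(B9d.K2 k M A0 (zk k (R + 1)) * t *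
          (1 + M ^ 2 * SS k (zk k (R + 1))))))) ∂P.τ := by
  set K2 := B9d.K2 k M A0 (zk k (R + 1)) with hK2
  set δ := √(K2 * t * (1 + M ^ 2 * SS k (zk k (R + 1)))) with hδ
  obtain ⟨L, hH⟩ := exists_HLip hk C (x : X) hF hF0 hFM hR hFR ht0 ht1 ht
  set J : ℕ → Euc (m + 1) → ℝ := fun i z => t * √(ch.G i z).det * (√((1 + K2 * t) ^ (m + 1)) *
    (F (ch.φ i z) * √(SS k (zk k (dist (x : X) (ch.φ i z)))
      - pd (ch.E i) (fun w => zk k (dist (x : X) (ch.φ i w))) z ⬝ᵥ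
        ((ch.G i z)⁻¹ *ᵥ pd (ch.E i) (fun w => zk k (dist (x : X) (ch.φ i w))) z)) + δ)) with hJ
  have hLipF : A.Lip F := ⟨A0, hF⟩
  have hθm : ∀ i, AEMeasurable (fun z => |(ch.θ i z : ℝ)|) (volume.restrict (ch.E i)) :=
    fun i => (ch.intθ i).aemeasurable.abs
  have hJm : ∀ i, AEMeasurable (J i) (volume.restrict (ch.E i)) := by
    intro i
    have h1 := aemeasurable_pair (ch.measE i) (lip_zk (k := k) hKR ch hR i)
      (lip_zk (k := k) hKR ch hR i) (ch.measG i)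
    have h2 : AEMeasurable (fun z => F (ch.φ i z)) (volume.restrict (ch.E i)) := by
      obtain ⟨C', hC'⟩ := lip_comp ch i hLipF
      exact hC'.continuousOn.aemeasurable (ch.measE i)
    have h3 : AEMeasurable (fun z => zk k (dist (x : X) (ch.φ i z)))
        (volume.restrict (ch.E i)) := by
      obtain ⟨C', hC'⟩ := lip_zk (k := k) hKR ch hR i
      exact hC'.continuousOn.aemeasurable (ch.measE i)
    have h3' : AEMeasurable (fun z => SS k (zk k (dist (x : X) (ch.φ i z))))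
        (volume.restrict (ch.E i)) := by
      unfold SS
      exact (h3.const_mul 2).add ((h3.pow_const 2).const_mul _)
    have h4 : AEMeasurable (fun z => √(ch.G i z).det) (volume.restrict (ch.E i)) :=
      (B1Null.measurable_det (ch.measG i)).sqrt.aemeasurable
    exact (h4.const_mul t).mul (((h2.mul (h3'.sub h1).sqrt).add_const δ).const_mul _)
  have hgood : ∀ i, ∀ᵐ w ∂(volume.restrict (prodSet ((chs' ch).E i))),
      ∃ q : Euc (m + 1 + 1) → ℝ, B5u.Good (prodSet ((chs' ch).E i))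
        (fun w' => HT C (x : X) F t (w' 0) ((chs' ch).φ i (tl w'))) w (J i (tl w)) q := by
    intro i
    filter_upwards [ae_prodSet_of_ae (ae_good hKR ch hR hLipF i),
      ae_restrict_mem (measurableSet_prodSet (ch.measE i))] with w h1 h2
    exact h1.jac_two hk C hF hF0 hFM h2.1 (zk_le hKR hk ch hR h2.2)
      ht0 ht1 ht (A.zk_nonneg _ _)
  have h1 := B9Mass2.ofReal_mass_le (T := (chs' ch).R (HT C (x : X) F t))
    (E := fun i => prodSet ((chs' ch).E i))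
    (φ := fun i w => HT C (x : X) F t (w 0) ((chs' ch).φ i (tl w)))
    (θ := fun i w => (chs' ch).θ i (tl w)) (J := fun i w => J i (tl w))
    (fun i => measurableSet_prodSet ((chs' ch).measE i))
    (fun i => ⟨_, (chs' ch).lipschitz_piece hH i⟩) ((chs' ch).integrable_piece)
    (fun i => aemeasurable_tl (hJm i)) hgood (fun f π hf => (chs' ch).hasSum_R hH hf)
  refine h1.trans (le_of_eq ?_)
  rw [lintegral_tau ch]
  · refine tsum_congr fun i => ?_
    have h2 : ∫⁻ w in prodSet (ch.E i), ENNReal.ofReal (|(ch.θ i (tl w) : ℝ)| * J i (tl w)) =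
        ∫⁻ z in ch.E i, ENNReal.ofReal (|(ch.θ i z : ℝ)| * J i z) :=
      lintegral_tl (g := fun z => ENNReal.ofReal (|(ch.θ i z : ℝ)| * J i z))
        (ENNReal.measurable_ofReal.comp_aemeasurable ((hθm i).mul (hJm i)))
    refine h2.trans (lintegral_congr_ae ?_)
    filter_upwards [ae_restrict_mem (ch.measE i), ae_G2 hKR ch hR i] with z hz hG
    have hzK := ch.mapsK i hz
    rw [ext0_of_mem _ hzK, ← ENNReal.ofReal_mul (by positivity)]
    simp only [hJ, A.PreData.q]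
    rw [hG hzK, ← hFf ⟨ch.φ i z, hzK⟩]
    refine congrArg ENNReal.ofReal ?_
    have e : A.zd k x ⟨ch.φ i z, hzK⟩ = zk k (dist (x : X) (ch.φ i z)) := rfl
    rw [e]
    unfold SS
    ring
  · refine ENNReal.measurable_ofReal.comp_aemeasurable ?_
    exact ((((hf.continuous.aemeasurable).mul
      (P.q_meas x).aemeasurable).add_const δ).const_mul _).const_mul t

/-! ### real analysis -/

theorem real_one (P : A.PreData (m + 1) k K) (x : K) {f : K → ℝ} (hf : A.Lip f) (c1 : ℝ) :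
    ∃ C0 : ℝ, 0 ≤ C0 ∧ ∀ᶠ t in 𝓝[>] (0 : ℝ), ∀ a : ℝ,
      ENNReal.ofReal a ≤ ∫⁻ y, ENNReal.ofReal (Real.exp (-t * g1 P x f y + c1 * t ^ 2)) ∂P.τ →
      a ≤ P.τ.real univ - t * fvar P x f + C0 * t ^ 2 := by
  have hfin := P.fin
  obtain ⟨B, hB0, hB⟩ := exists_g1_bound P x hf
  set B' := B + |c1| with hB'
  have hB'0 : 0 ≤ B' := by positivity
  refine ⟨(|c1| + B' ^ 2) * P.τ.real univ, by positivity, ?_⟩
  have e1 : ∀ᶠ t in 𝓝[>] (0 : ℝ), 0 < t := eventually_mem_nhdsWithin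
  have e2 : ∀ᶠ t in 𝓝[>] (0 : ℝ), t ≤ 1 := by
    refine nhdsWithin_le_nhds ?_
    exact (eventually_lt_nhds zero_lt_one).mono fun t h => h.le
  have e3 : ∀ᶠ t in 𝓝[>] (0 : ℝ), t * B' < 1 := by
    refine nhdsWithin_le_nhds ?_
    have : Tendsto (fun t : ℝ => t * B') (𝓝 0) (𝓝 (0 * B')) := by
      exact (continuous_id.mul continuous_const).tendsto 0
    rw [zero_mul] at this
    exact this.eventually_lt_const zero_lt_one
  filter_upwards [e1, e2, e3] with t ht0 ht1 htB a ha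
  have hint : Integrable (g1 P x f) P.τ := integrable_g1 P x hf
  have hle : ∀ᵐ y ∂P.τ, Real.exp (-t * g1 P x f y + c1 * t ^ 2) ≤
      1 - t * g1 P x f y + (|c1| + B' ^ 2) * t ^ 2 := by
    filter_upwards [hB] with y hy
    set Y := -t * g1 P x f y + c1 * t ^ 2 with hY
    have h1 : |Y| ≤ t * B' := by
      refine (abs_add_le _ _).trans ?_
      rw [abs_mul, abs_mul, abs_neg, abs_of_pos ht0, abs_of_nonneg (sq_nonneg t)]
      have h2 : t * |g1 P x f y| ≤ t * B := mul_le_mul_of_nonneg_left hy ht0.le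
      have h3 : |c1| * t ^ 2 ≤ |c1| * t := by
        refine mul_le_mul_of_nonneg_left ?_ (abs_nonneg _)
        nlinarith
      rw [hB']; nlinarith
    have h2 : |Y| ≤ 1 := h1.trans htB.le
    have h3 := Real.abs_exp_sub_one_sub_id_le h2
    have h4 := (abs_le.1 h3).2
    have h5 : Y ^ 2 ≤ (t * B') ^ 2 := by
      rw [← sq_abs Y]
      exact pow_le_pow_left₀ (abs_nonneg _) h1 2
    have h6 : c1 * t ^ 2 ≤ |c1| * t ^ 2 := mul_le_mul_of_nonneg_right (le_abs_self _) (sq_nonneg t)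
    have h7 : Y = -t * g1 P x f y + c1 * t ^ 2 := hY
    nlinarith
  have hint2 : Integrable (fun y => 1 - t * g1 P x f y + (|c1| + B' ^ 2) * t ^ 2) P.τ :=
    ((integrable_const 1).sub (hint.const_mul t)).add (integrable_const _)
  have h1 : ENNReal.ofReal a ≤
      ENNReal.ofReal (∫ y, (1 - t * g1 P x f y + (|c1| + B' ^ 2) * t ^ 2) ∂P.τ) := by
    rw [ofReal_integral_eq_lintegral_ofReal hint2
      (hle.mono fun y hy => (Real.exp_pos _).le.trans hy)]
    refine ha.trans (lintegral_mono_ae ?_)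
    filter_upwards [hle] with y hy using ENNReal.ofReal_le_ofReal hy
  have h0 : 0 ≤ ∫ y, (1 - t * g1 P x f y + (|c1| + B' ^ 2) * t ^ 2) ∂P.τ :=
    integral_nonneg_of_ae (hle.mono fun y hy => (Real.exp_pos _).le.trans hy)
  have h2 := (ENNReal.ofReal_le_ofReal_iff h0).1 h1
  refine h2.trans (le_of_eq ?_)
  have hi : Integrable (fun y => 1 - t * g1 P x f y) P.τ :=
    (integrable_const 1).sub (hint.const_mul t)
  rw [integral_add hi (integrable_const _),
    integral_sub (integrable_const 1) (hint.const_mul t), integral_const_mul, integral_const,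
    integral_const, smul_eq_mul, smul_eq_mul]
  have : fvar P x f = ∫ y, g1 P x f y ∂P.τ := rfl
  rw [this]
  ring

theorem real_two (P : A.PreData (m + 1) k K) (x : K) {f : K → ℝ} (hf : A.Lip f)
    (hf0 : ∀ y, 0 ≤ f y) {t K2 δ a : ℝ} (ht0 : 0 ≤ t) (hδ : 0 ≤ δ)
    (ha : ENNReal.ofReal a ≤ ∫⁻ y, ENNReal.ofReal (t * (√((1 + K2 * t) ^ (m + 1)) *
        (f y * P.q x y + δ))) ∂P.τ) :
    a ≤ t * (√((1 + K2 * t) ^ (m + 1)) *
      (∫ y, f y * P.q x y ∂P.τ + δ * P.τ.real univ)) := by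
  have hfin := P.fin
  have hint := P.integrable_mul_q hf.continuous x
  have hint2 : Integrable (fun y => t * (√((1 + K2 * t) ^ (m + 1)) *
        (f y * P.q x y + δ))) P.τ :=
    ((hint.add (integrable_const δ)).const_mul _).const_mul t
  have hnn : ∀ y, 0 ≤ t * (√((1 + K2 * t) ^ (m + 1)) * (f y * P.q x y + δ)) := fun y =>
    mul_nonneg ht0 (mul_nonneg (Real.sqrt_nonneg _)
      (add_nonneg (mul_nonneg (hf0 y) (P.q_nonneg x y)) hδ))
  rw [← ofReal_integral_eq_lintegral_ofReal hint2 (Eventually.of_forall hnn)] at ha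
  have h2 := (ENNReal.ofReal_le_ofReal_iff (integral_nonneg hnn)).1 ha
  refine h2.trans (le_of_eq ?_)
  rw [integral_const_mul, integral_const_mul, integral_add hint (integrable_const δ),
    integral_const, smul_eq_mul]
  ring

theorem eventually_two (m : ℕ) (I τ K2 S ε : ℝ) (hε : 0 < ε) :
    ∀ᶠ t in 𝓝[>] (0 : ℝ), √((1 + K2 * t) ^ (m + 1)) * (I + √(K2 * t * S) * τ) ≤ I + ε := by
  have h : Continuous fun t : ℝ => √((1 + K2 * t) ^ (m + 1)) * (I + √(K2 * t * S) * τ) := by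
    fun_prop
  have h1 := h.tendsto 0
  simp only [mul_zero, add_zero, one_pow, Real.sqrt_one, zero_mul, Real.sqrt_zero, one_mul] at h1
  exact nhdsWithin_le_nhds ((h1.eventually_lt_const (by linarith : I < I + ε)).mono
    fun t ht => ht.le)

theorem push_id {n : ℕ} {T : Functional X n} (hT : IsCurrent T) {φ : X → X} (hφ : ∀ y, φ y = y) :
    B1c1.push φ T = T := by
  have : φ = id := funext hφ
  subst this
  funext f π
  by_cases h : IsTestPair f π
  · rw [B1c1.push_apply h]; rfl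
  · rw [B1c1.push_of_not h, hT.eq_zero_of_not_test _ _ h]

/-- **First variation from chart data.** -/
theorem fvar_of_charts [SecondCountableTopology X] (hk : 0 ≤ k) (C : CATk k X) (hK : C.IsConv K)
    (hT : IsCyc K T) (ch : FVCharts T P) (hmass : mass T = P.τ.real univ) (x : K) (f : K → ℝ)
    (hf : A.Lip f) (hf0 : ∀ y, 0 ≤ f y) (ε : ℝ) (hε : 0 < ε) :
    ∀ᶠ t in 𝓝[>] (0 : ℝ), ∃ R : Functional X (m + 2), IsInt K R ∧
      mass R ≤ t * (∫ y, f y * P.q x y ∂P.τ + ε) ∧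
      mass (T + bd R) ≤ mass T - t * fvar P x f + ε * t := by
  have hKc : IsCompact K := isCompact_iff_compactSpace.2 ‹_›
  obtain ⟨F, A0, M, R, hF, hFf, hF0, hFM, hM0, hR, hFR, hKR⟩ :=
    B9h.exists_extension hKc (x : X) hf hf0
  have hTc := hT.int.cur
  set Zb := zk k (R + 1) with hZb
  have hZb0 : 0 ≤ Zb := A.zk_nonneg _ _
  obtain ⟨C0, hC0, hone⟩ := real_one P x hf (((m + 1 : ℕ) : ℝ) * B9d.K1 k M A0 Zb / 2)
  have e1 : ∀ᶠ t in 𝓝[>] (0 : ℝ), 0 < t := eventually_mem_nhdsWithin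
  have e2 : ∀ᶠ t in 𝓝[>] (0 : ℝ), t ≤ 1 :=
    nhdsWithin_le_nhds ((eventually_lt_nhds zero_lt_one).mono fun t h => h.le)
  have e3 : ∀ᶠ t in 𝓝[>] (0 : ℝ), 2 * (t * M * (2 + k ^ 2 * Zb)) ≤ 1 := by
    have h : Continuous fun t : ℝ => 2 * (t * M * (2 + k ^ 2 * Zb)) := by fun_prop
    have h1 := h.tendsto 0
    simp only [zero_mul, mul_zero] at h1
    exact nhdsWithin_le_nhds ((h1.eventually_lt_const zero_lt_one).mono fun t ht => ht.le)
  have e4 : ∀ᶠ t in 𝓝[>] (0 : ℝ), C0 * t ≤ ε := by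
    have h : Continuous fun t : ℝ => C0 * t := by fun_prop
    have h1 := h.tendsto 0
    simp only [mul_zero] at h1
    exact nhdsWithin_le_nhds ((h1.eventually_lt_const hε).mono fun t ht => ht.le)
  have e5 := eventually_two m (∫ y, f y * P.q x y ∂P.τ) (P.τ.real univ)
    (B9d.K2 k M A0 Zb) (1 + M ^ 2 * SS k Zb) ε hε
  filter_upwards [e1, e2, e3, e4, e5, hone] with t ht0 ht1 ht htε ht2 htone
  obtain ⟨L, hH⟩ := exists_HLip hk C (x : X) hF hF0 hFM hR hFR ht0.le ht1 ht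
  have hcT : (chs' ch).T = T := chs'_T ch hTc
  have hbd0 : bd (chs' ch).T = 0 := by rw [hcT]; exact hT.cyc
  refine ⟨(chs' ch).R (HT C (x : X) F t), ?_, ?_, ?_⟩
  · refine (chs' ch).isInt_R hbd0 hH (mapsTo_chs' ch) (fun s hs y hy => ?_) ?_
    · exact HH_mem C hK x.2 hy _ _
    · exact B4Norm.rect_of_charts
        (E := fun i => prodSet ((chs' ch).E i))
        (φ := fun i w => HT C (x : X) F t (w 0) ((chs' ch).φ i (tl w)))
        (θ := fun i w => (chs' ch).θ i (tl w))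
        (fun i => measurableSet_prodSet ((chs' ch).measE i))
        (fun i => ⟨_, (chs' ch).lipschitz_piece hH i⟩) ((chs' ch).integrable_piece)
        ((chs' ch).summable_mass_piece hH) (fun f π hf => (chs' ch).hasSum_R hH hf)
  · have h1 := mass_two hKR hk C ch hF hF0 hFM hR hFR hf hFf ht0.le ht1 ht
    have h2 := real_two P x hf hf0 ht0.le (Real.sqrt_nonneg _) h1
    exact h2.trans (mul_le_mul_of_nonneg_left ht2 ht0.le)
  · have h1 := mass_one hKR hk C ch hTc hF hF0 hFM hR hFR hf hFf ht0.le ht1 ht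
    have h2 := htone _ h1
    have h3 : T + bd ((chs' ch).R (HT C (x : X) F t)) = B1c1.push (HH C (x : X) F t) T := by
      rw [(chs' ch).bd_R_eq hbd0 hH, hcT]
      have e0 : B1c1.push (HT C (x : X) F t 0) T = T :=
        push_id hTc fun y => by unfold HT; rw [mul_zero]; exact HH_zero C hk _ _ _
      have e1 : HT C (x : X) F t 1 = HH C (x : X) F t := by
        funext y; unfold HT; rw [mul_one]
      rw [e0, e1]
      abel
    rw [h3, hmass]
    nlinarith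

end Mass

end Charts

end Crest.Agent.R241.B9g
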