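import Crest.Agent.R241.E5
import Crest.Agent.R241.C
import Crest.Agent.R241.A5Cat_Mg
import Crest.Agent.R241.A8
import Crest.Agent.R241.Cat2
import Crest.Agent.R241.Cat3
import Crest.Agent.R241.B5d_Mg
import Crest.Agent.R241.B9g
import Crest.Agent.R241.A7Final

-- ▼ part R241/CBall_534
section

/-!
# R241, block C/E: the inputs on closed balls from the general theorems (owner: helper534)
-/

set_option autoImplicit false

open MeasureTheory Filter Topology Set
open scoped ENNReal NNReal

universe u

namespace Crest.Agent.R241.CBall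

open Crest.GeometryTopology.MetricCurrent

/-- FVarTarget on compact convex subsets of proper `CAT(-k²)` spaces. -/
def FVarAll : Prop :=
  ∀ (X : Type u) (_ : MetricSpace X) (_ : MeasurableSpace X) (_ : BorelSpace X) (_ : ProperSpace X)
    (k : ℝ) (_ : 0 ≤ k) (C : CATk k X) (K : Set X) (_ : CompactSpace K) (_ : C.IsConv K) (m : ℕ),
    FVarTarget X k K m

/-- ConeTarget on compact convex subsets of proper `CAT(-k²)` spaces. -/
def ConeAll : Prop :=
  ∀ (X : Type u) (_ : MetricSpace X) (_ : MeasurableSpace X) (_ : BorelSpace X) (_ : ProperSpace X)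
    (k : ℝ) (_ : 0 ≤ k) (C : CATk k X) (K : Set X) (_ : CompactSpace K) (_ : C.IsConv K) (m : ℕ),
    ConeTarget X K m

/-- Theorem A in dimensions `n ≥ 3`. -/
def AAll : Prop :=
  ∀ (K : Type u) (_ : MetricSpace K) (_ : CompactSpace K) (_ : MeasurableSpace K)
    (_ : BorelSpace K) (n : ℕ) (_ : 3 ≤ n) (k h : ℝ), A.TheoremA n k h K

/-- Equality in Theorem A in dimensions `n ≥ 3`. -/
def AeqAll : Prop :=
  ∀ (K : Type u) (_ : MetricSpace K) (_ : CompactSpace K) (_ : MeasurableSpace K)
    (_ : BorelSpace K) (n : ℕ) (_ : 3 ≤ n) (h : ℝ), A.TheoremAeq n h K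

theorem theoremA (hA : AAll.{u}) {K : Type u} [MetricSpace K] [CompactSpace K] [MeasurableSpace K]
    [BorelSpace K] (n : ℕ) (k h : ℝ) : A.TheoremA n k h K := by
  rcases lt_trichotomy n 2 with h2 | h2 | h2
  · intro h3; omega
  · subst h2; exact A8.theoremA_two k h
  · exact hA K inferInstance inferInstance inferInstance inferInstance n h2 k h

theorem theoremAeq (hA : AeqAll.{u}) {K : Type u} [MetricSpace K] [CompactSpace K]
    [MeasurableSpace K] [BorelSpace K] (n : ℕ) (h : ℝ) : A.TheoremAeq n h K := by
  rcases lt_trichotomy n 2 with h2 | h2 | h2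
  · intro h3; omega
  · subst h2; exact A8.theoremAeq_two h
  · exact hA K inferInstance inferInstance inferInstance inferInstance n h2 h

/-- The inputs of block C for `S0374`. -/
theorem ballInputs (hFV : FVarAll.{u}) (hCone : ConeAll.{u}) (hA : AAll.{u}) (hAeq : AeqAll.{u})
    (X : Type u) [MetricSpace X] [MeasurableSpace X] [BorelSpace X] [ProperSpace X]
    (hX : IsCATZero X) (m : ℕ) : C.BallInputs X m := by
  intro x₀ R hR hc
  have : Nonempty X := ⟨x₀⟩
  let Ct : CATk 0 X := Cat1.ofIsCATZero hX
  have hconv : Ct.IsConv (Metric.closedBall x₀ R) := Cat3.isConv_closedBall Ct x₀ R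
  exact ⟨B10Final.addTarget _, B10Final.closureTarget (isCompact_closedBall _ _) _,
    hFV X inferInstance inferInstance inferInstance inferInstance 0 le_rfl Ct _ hc hconv _,
    hCone X inferInstance inferInstance inferInstance inferInstance 0 le_rfl Ct _ hc hconv _,
    A5.catD_of_isConv le_rfl Ct hconv, fun h => theoremA hA _ _ _, fun h => theoremAeq hAeq _ _⟩

/-- The inputs of blocks E4/E5 on closed balls. -/
theorem e4BallInputs (hFV : FVarAll.{0}) (hCone : ConeAll.{0}) (hA : AAll.{0}) :
    E4.BallInputs := by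
  intro X _ _ _ _ k hk Ct p R hR hc m hm
  have : Nonempty X := ⟨p⟩
  have hconv : Ct.IsConv (Metric.closedBall p R) := Cat3.isConv_closedBall Ct p R
  exact ⟨B10Final.addTarget _, B10Final.closureTarget (isCompact_closedBall _ _) _,
    hFV X inferInstance inferInstance inferInstance inferInstance k hk Ct _ hc hconv _,
    hCone X inferInstance inferInstance inferInstance inferInstance k hk Ct _ hc hconv _,
    A5.catD_of_isConv hk Ct hconv, fun h => theoremA hA _ _ _⟩

theorem e5EqInputs (hAeq : AeqAll.{0}) : E5.EqInputs := by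
  intro X _ _ _ _ Ct p R hR hc m hm h
  exact theoremAeq hAeq _ _

/-- **S0374** from the general theorems. -/
theorem s0374 (hFV : FVarAll.{u}) (hCone : ConeAll.{u}) (hA : AAll.{u}) (hAeq : AeqAll.{u})
    (X : Type u) [MetricSpace X] [MeasurableSpace X] [BorelSpace X] [ProperSpace X]
    (hX : IsCATZero X) (m : ℕ) (T : Functional X (m + 2)) (hT : IsIntegralCurrent T)
    (hcyc : bd T = 0) (K : Set X) (hK : IsCompact K) (hTK : IsSupportedIn K T) :
    ∃ (S : Functional X (m + 3)) (K' : Set X), IsIntegralCurrent S ∧ IsCompact K' ∧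
      IsSupportedIn K' S ∧ bd S = T ∧
      mass S ≤ 1 / ((m + 3 : ℝ) *
            (((m + 3 : ℝ) * (volume (Metric.ball (0 : EuclideanSpace ℝ (Fin (m + 3))) 1)).toReal) ^
              (1 / (m + 2 : ℝ)))) *
          mass T ^ ((m + 3 : ℝ) / (m + 2 : ℝ)) :=
  C.s0374 X m (ballInputs hFV hCone hA hAeq X hX m) T hT hcyc K hK hTK

end Crest.Agent.R241.CBall
end

-- ▼ part R241/CCone_534
section

/-!
# R241: ConeTarget on compact convex subsets (owner: helper534)
-/

set_option autoImplicit false

open MeasureTheory Filter Topology Set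
open scoped ENNReal NNReal

universe u

namespace Crest.Agent.R241.CBall

open Crest.GeometryTopology.MetricCurrent

theorem quad {X : Type u} [MetricSpace X] {k : ℝ} (C : CATk k X) (a b c e : X) :
    dist a c ^ 2 + dist b e ^ 2 ≤
      dist a b ^ 2 + dist b c ^ 2 + dist c e ^ 2 + dist e a ^ 2 := by
  have h := Cat1.quadrilateral C a b c e
  rw [dist_comm e a]
  nlinarith [sq_nonneg (dist a b - dist c e)]

theorem coneAll : ConeAll.{u} := by
  intro X _ _ _ _ k hk C K hc hconv m
  rcases K.eq_empty_or_nonempty with rfl | hne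
  · intro T x r hx; exact absurd hx (notMem_empty x)
  · have : Nonempty K := hne.to_subtype
    refine B8Cone.coneTarget (κ := k) C hconv fun T hT => ?_
    obtain ⟨P, h1, -, h2, -⟩ := B5d.exists_fvCharts (quad C) hT.int.rect hT.int.supp k
    exact ⟨P, h1, h2⟩

end Crest.Agent.R241.CBall
end

-- ▼ part R241/B9Final992
section

/-!
# R241, block B9: FVarTarget on compact convex subsets (helper992)
-/

set_option autoImplicit false
set_option linter.unusedSectionVars false

open MeasureTheory Filter Topology Set
open scoped ENNReal NNReal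

universe u

namespace Crest.Agent.R241.B9Final

open Crest.GeometryTopology.MetricCurrent

variable {X : Type u} [MetricSpace X] [MeasurableSpace X] [BorelSpace X]

/-- the zero first variation data (empty `K`). -/
noncomputable def zeroData (n : ℕ) (k : ℝ) (K : Type u) [MetricSpace K] [CompactSpace K]
    [MeasurableSpace K] [BorelSpace K] : A.PreData n k K where
  τ := 0
  fin := inferInstance
  G := fun _ _ _ => 0
  G_meas := fun _ _ _ _ => aestronglyMeasurable_const
  G_comm := fun _ _ _ _ => by simp
  G_add := fun _ _ _ _ _ _ => by simp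
  G_smul := fun _ _ _ _ _ => by simp
  G_mul := fun _ _ _ _ _ _ => by simp
  G_chain := fun _ _ _ _ _ _ _ _ _ => by simp
  G_nonneg := fun _ _ => by simp
  G_bound := fun _ _ _ => by simp
  G_z := fun _ => by simp
  dens := by simp

/-- **FVAR** on compact convex subsets of `CAT(-k²)` spaces. -/
theorem fvarTarget [SecondCountableTopology X] {k : ℝ} (hk : 0 ≤ k) (C : CATk k X) {K : Set X}
    [CompactSpace K] (hK : C.IsConv K) (m : ℕ) : FVarTarget X k K m := by
  intro T hT
  rcases K.eq_empty_or_nonempty with rfl | hne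
  · have hT0 : T = 0 := by
      funext f π
      by_cases h : IsTestPair f π
      · exact hT.int.supp f π h fun x hx => absurd hx (notMem_empty x)
      · exact hT.int.cur.eq_zero_of_not_test f π h
    subst hT0
    refine ⟨zeroData (m + 1) k _, ?_, ?_, fun x => absurd x.2 (notMem_empty _)⟩
    · intro f π _ _
      simp [zeroData]
    · rw [B10.mass_zero]
      simp [zeroData]
  · have : Nonempty K := hne.to_subtype
    obtain ⟨P, ⟨ch⟩, h1, h2, -⟩ :=
      B5d.exists_fvCharts (CBall.quad C) hT.int.rect hT.int.supp k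
    exact ⟨P, h1, h2, fun x f hf hf0 ε hε => B9g.fvar_of_charts hk C hK hT ch h2 x f hf hf0 ε hε⟩

/-- `FVarAll`, unconditional. -/
theorem fvarAll : CBall.FVarAll.{u} := by
  intro X _ _ _ _ k hk C K _ hK m
  exact fvarTarget hk C hK m

end Crest.Agent.R241.B9Final
end

-- ▼ part R241/AAll723

/-!
R241: Theorem A and its equality case for `n ≥ 3`, in the form consumed by `CBall`.
-/

set_option autoImplicit false

namespace Crest.Agent.R241.AAll723

open Crest.Agent.R241.A
open MeasureTheory

universe u

theorem aAll : CBall.AAll.{u} := by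
  intro K _ _ _ _ n hn k h _ hk hkh hcat P h0 hFV
  exact ASharp.ineq_of_sharp hn hk hkh P h0 (A7.t_sharp_final hn hk hkh hcat P h0 hFV)

theorem aeqAll : CBall.AeqAll.{u} := by
  intro K _ _ _ _ n hn h _ hh hcat P h0 hFV heq
  have hm := mA_pos hn
  have hsup := A1.t_super P hm.le hFV
  obtain ⟨hint, hpole, -, -⟩ := A2.a2 hn le_rfl hh P hFV hsup
  exact A9.equality_case P hn hh hcat h0 hFV (A4H.t_H hn) A4Ode.t_ode
    (A3.t_key hn le_rfl hh P (A1.t_fv' P hFV)) hint hpole hsup
    (A7.t_sharp_final hn le_rfl hh hcat P h0 hFV) heq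

end Crest.Agent.R241.AAll723
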