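import Mathlib
import Crest.Agent.R241.EModel
import Crest.Agent.R241.Targets
import Crest.Agent.R241.G1b

-- ▼ part R241/B10Ekeland
section

/-!
# R241, block B10: Ekeland's variational principle (abstract pseudo-metric form)
-/

set_option autoImplicit false

open Filter Topology Set

namespace Crest.Agent.R241.B10

universe u

/-- **Ekeland's principle**, for a not necessarily symmetric or separated distance `d`, a function
`Ψ` bounded below, and a completeness/semicontinuity hypothesis for descending sequences of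
finite length. -/
theorem ekeland {S : Type u} (d : S → S → ℝ) (Ψ : S → ℝ) (ε : ℝ) (hε : 0 < ε)
    (hself : ∀ a, d a a = 0) (hnn : ∀ a b, 0 ≤ d a b)
    (htri : ∀ a b c, d a c ≤ d a b + d b c)
    (hbdd : BddBelow (range Ψ))
    (hcomp : ∀ s : ℕ → S, Summable (fun j => d (s j) (s (j + 1))) →
      (∀ j, Ψ (s (j + 1)) ≤ Ψ (s j)) →
      ∃ t : S, Tendsto (fun j => d (s j) t) atTop (𝓝 0) ∧ ∀ j, Ψ t ≤ Ψ (s j))
    (s₀ : S) :
    ∃ s : S, Ψ s + ε * d s₀ s ≤ Ψ s₀ ∧ ∀ s', Ψ s ≤ Ψ s' + ε * d s s' := by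
  classical
  -- the descending order
  let le : S → S → Prop := fun a b => Ψ a + ε * d b a ≤ Ψ b
  have le_refl : ∀ a, le a a := fun a => by simp [le, hself]
  have le_trans' : ∀ a b c, le a b → le b c → le a c := by
    intro a b c hab hbc
    have h1 := htri c b a
    have h2 := mul_le_mul_of_nonneg_left h1 hε.le
    simp only [le] at *
    linarith [mul_add ε (d c b) (d b a)]
  let m : S → ℝ := fun a => sInf (Ψ '' {b | le b a})
  have hbd : ∀ a, BddBelow (Ψ '' {b | le b a}) := fun a =>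
    hbdd.mono (image_subset_range _ _)
  have hne : ∀ a, (Ψ '' {b | le b a}).Nonempty := fun a => ⟨Ψ a, a, le_refl a, rfl⟩
  have hm_le : ∀ a b, le b a → m a ≤ Ψ b := fun a b hb => csInf_le (hbd a) ⟨b, hb, rfl⟩
  have hstep : ∀ (a : S) (δ : ℝ), 0 < δ → ∃ b, le b a ∧ Ψ b < m a + δ := by
    intro a δ hδ
    obtain ⟨_, ⟨b, hb, rfl⟩, hb2⟩ := exists_lt_of_csInf_lt (hne a)
      (show sInf (Ψ '' {b | le b a}) < m a + δ by simp only [m]; linarith)
    exact ⟨b, hb, hb2⟩
  choose! next hnext1 hnext2 using hstep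
  let s : ℕ → S := fun j => Nat.rec s₀ (fun j a => next a ((1 / 2 : ℝ) ^ j)) j
  have hs0 : s 0 = s₀ := rfl
  have hsucc : ∀ j, s (j + 1) = next (s j) ((1 / 2 : ℝ) ^ j) := fun j => rfl
  have hpow : ∀ j : ℕ, (0 : ℝ) < (1 / 2 : ℝ) ^ j := fun j => by positivity
  have hle1 : ∀ j, le (s (j + 1)) (s j) := fun j => by
    rw [hsucc]; exact hnext1 _ _ (hpow j)
  have hlt : ∀ j, Ψ (s (j + 1)) < m (s j) + (1 / 2 : ℝ) ^ j := fun j => by
    rw [hsucc]; exact hnext2 _ _ (hpow j)
  have hle : ∀ i j, i ≤ j → le (s j) (s i) := by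
    intro i j hij
    induction hij with
    | refl => exact le_refl _
    | step _ ih => exact le_trans' _ _ _ (hle1 _) ih
  have hanti : ∀ j, Ψ (s (j + 1)) ≤ Ψ (s j) := fun j => by
    have := hle1 j
    simp only [le] at this
    have := mul_nonneg hε.le (hnn (s j) (s (j + 1)))
    linarith
  obtain ⟨B, hB⟩ := hbdd
  have hB' : ∀ a, B ≤ Ψ a := fun a => hB ⟨a, rfl⟩
  have hsum : Summable (fun j => d (s j) (s (j + 1))) := by
    have hpart : ∀ N, ∑ j ∈ Finset.range N, ε * d (s j) (s (j + 1)) ≤ Ψ (s 0) - Ψ (s N) := by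
      intro N
      induction N with
      | zero => simp
      | succ N ih =>
        rw [Finset.sum_range_succ]
        have := hle1 N
        simp only [le] at this
        linarith
    have h1 : Summable (fun j => ε * d (s j) (s (j + 1))) := by
      apply summable_of_sum_range_le (c := Ψ (s 0) - B)
      · intro j; exact mul_nonneg hε.le (hnn _ _)
      · intro N; linarith [hpart N, hB' (s N)]
    exact (summable_mul_left_iff hε.ne').1 h1
  obtain ⟨t, ht1, ht2⟩ := hcomp s hsum hanti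
  have htle : ∀ j, le t (s j) := by
    intro j
    have h1 : ∀ᶠ i in atTop, Ψ t + ε * d (s j) t ≤ Ψ (s j) + ε * d (s i) t := by
      filter_upwards [eventually_ge_atTop j] with i hi
      have h2 := hle j i hi
      have h3 := mul_le_mul_of_nonneg_left (htri (s j) (s i) t) hε.le
      simp only [le] at h2
      have h4 := ht2 i
      linarith [mul_add ε (d (s j) (s i)) (d (s i) t)]
    have h5 : Tendsto (fun i => Ψ (s j) + ε * d (s i) t) atTop (𝓝 (Ψ (s j) + ε * 0)) :=
      tendsto_const_nhds.add (ht1.const_mul ε)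
    have h6 := ge_of_tendsto h5 h1
    simpa [le] using h6
  refine ⟨t, ?_, ?_⟩
  · have := htle 0
    simpa [le, hs0] using this
  · intro s'
    by_cases hs' : le s' t
    · -- then `Ψ s' ≥ Ψ t`
      have h1 : ∀ j, Ψ t - (1 / 2 : ℝ) ^ j ≤ Ψ s' := by
        intro j
        have h2 := hm_le (s j) s' (le_trans' _ _ _ hs' (htle j))
        have h3 := hlt j
        have h4 := ht2 (j + 1)
        linarith
      have h5 : Tendsto (fun j : ℕ => Ψ t - (1 / 2 : ℝ) ^ j) atTop (𝓝 (Ψ t - 0)) :=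
        tendsto_const_nhds.sub
          (tendsto_pow_atTop_nhds_zero_of_lt_one (by norm_num) (by norm_num))
      have h6 := le_of_tendsto' h5 h1
      have := mul_nonneg hε.le (hnn t s')
      linarith
    · simp only [le, not_le] at hs'
      exact hs'.le

end Crest.Agent.R241.B10
end

-- ▼ part R241/B11Abs
section

/-!
# R241, block B11: the abstract variational argument

`VarSys n k` collects exactly what the isoperimetric argument needs from geometric measure
theory: a class `S` of fillings with the (pseudo)distance `d = mass (S - S')`, the boundary area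
`A = mass (bd S)`, the filling volume `V = fillvol (bd S)`, completeness, the cone inequality,
and the first variation.  Main results: `VarSys.fill` (the sharp filling inequality, given the
conclusion of Theorem A) and `VarSys.fv_of_eq` (equality case).
-/

set_option autoImplicit false

open MeasureTheory Filter Topology Set

namespace Crest.Agent.R241.B11

open Crest.Agent.R241.EModel

universe u v

/-- The abstract variational system. -/
structure VarSys (n : ℕ) (k : ℝ) where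
  /-- the class of fillings -/
  S : Type u
  /-- the tests `(x, f)` -/
  T : Type v
  d : S → S → ℝ
  A : S → ℝ
  V : S → ℝ
  L : S → T → ℝ
  Q : S → T → ℝ
  d_self : ∀ a, d a a = 0
  d_nonneg : ∀ a b, 0 ≤ d a b
  d_tri : ∀ a b c, d a c ≤ d a b + d b c
  A_nonneg : ∀ s, 0 ≤ A s
  V_nonneg : ∀ s, 0 ≤ V s
  V_le : ∀ a b, V a ≤ V b + d a b
  V_le' : ∀ a b, V b ≤ V a + d a b
  complete : ∀ s : ℕ → S, Summable (fun j => d (s j) (s (j + 1))) → (∃ C, ∀ j, A (s j) ≤ C) →
    ∃ t, Tendsto (fun j => d (s j) t) atTop (𝓝 0) ∧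
      ∀ c, (∀ᶠ j in atTop, A (s j) ≤ c) → A t ≤ c
  V_zero : ∀ s, A s = 0 → V s = 0
  var : ∀ s τ (ε : ℝ), 0 < ε → ∃ᶠ t in 𝓝[>] (0 : ℝ), ∃ s',
    d s s' ≤ t * (Q s τ + ε) ∧ A s' ≤ A s - t * L s τ + ε * t
  Q_nonneg : ∀ s τ, 0 ≤ Q s τ

variable {n : ℕ} {k : ℝ}

/-! ### more on the model -/

theorem hk_eq_sqrt (n : ℕ) (hn : n ≠ 0) {k : ℝ} (hk0 : 0 ≤ k) {v : ℝ} (hv : 0 < v) :
    hk n k v = √(k ^ 2 + (sn k (radV n k v) ^ 2)⁻¹) := by
  have hs := sn_pos (k := k) (radV_pos (n := n) hn hk0 hv)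
  rw [← Real.sqrt_sq (hk_pos (n := n) hn hk0 hv).le]
  congr 1
  have := sn_sq k (radV n k v)
  rw [hk]
  field_simp
  linarith

theorem hk_anti (hn : n ≠ 0) (hk0 : 0 ≤ k) {v w : ℝ} (hv : 0 < v) (hvw : v ≤ w) :
    hk n k w ≤ hk n k v := by
  rw [hk_eq_sqrt n hn hk0 hv, hk_eq_sqrt n hn hk0 (hv.trans_le hvw)]
  apply Real.sqrt_le_sqrt
  have h1 := sn_pos (k := k) (radV_pos (n := n) hn hk0 hv)
  have h2 : radV n k v ≤ radV n k w :=
    (strictMonoOn_radV hn hk0).monotoneOn (mem_Ici.2 hv.le) (mem_Ici.2 (hv.le.trans hvw)) hvw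
  have h3 := (strictMono_sn k).monotone h2
  gcongr

namespace VarSys

variable (Y : VarSys.{u, v} n k)

/-- the truncated functional `Ψ = A - Ak (min V v₀)`. -/
noncomputable def Psi (v₀ : ℝ) (s : Y.S) : ℝ := Y.A s - Ak n k (min (Y.V s) v₀)

/-- First variation inequality at an `ε`-Ekeland point. -/
theorem fv_of_ekeland (hn : n ≠ 0) (hk0 : 0 ≤ k) {v₀ : ℝ} {ε : ℝ} (hε : 0 ≤ ε) {s : Y.S}
    (hV : 0 < min (Y.V s) v₀) (hs : ∀ s', Y.Psi v₀ s ≤ Y.Psi v₀ s' + ε * Y.d s s') (τ : Y.T) :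
    Y.L s τ ≤ (n * hk n k (min (Y.V s) v₀) + ε) * Y.Q s τ := by
  set q := Y.Q s τ with hq
  have hq0 : 0 ≤ q := Y.Q_nonneg s τ
  set W := min (Y.V s) v₀ with hW
  set h' := n * hk n k W with hh'
  have hh0 : 0 ≤ h' := by
    have := hk_pos (n := n) hn hk0 hV
    positivity
  -- it is enough to prove it with an error `δ`
  have main : ∀ δ : ℝ, 0 < δ → Y.L s τ ≤ δ + (h' + ε) * (q + δ) := by
    intro δ hδ
    by_contra hcon
    push Not at hcon
    -- the function `t ↦ Ak (W - t (q+δ))`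
    have hd : HasDerivAt (fun t : ℝ => Ak n k (W - t * (q + δ))) (h' * (-(q + δ))) 0 := by
      have h1 : HasDerivAt (fun t : ℝ => W - t * (q + δ)) (-(q + δ)) 0 := by
        simpa using ((hasDerivAt_id (0 : ℝ)).mul_const (q + δ)).const_sub W
      have h2 : HasDerivAt (Ak n k) h' (W - 0 * (q + δ)) := by
        rw [zero_mul, sub_zero]; exact hasDerivAt_Ak hn hk0 hV
      exact HasDerivAt.comp (h₂ := Ak n k) (0 : ℝ) h2 h1
    have ht := hd.tendsto_slope_zero_right
    have hlim : ∀ᶠ t in 𝓝[>] (0 : ℝ), t⁻¹ • (Ak n k (W - (0 + t) * (q + δ))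
        - Ak n k (W - 0 * (q + δ))) > δ + ε * (q + δ) - Y.L s τ := by
      apply ht.eventually_const_lt
      linarith [mul_add (h' + ε) q δ, mul_add h' q δ, add_mul h' ε (q + δ)]
    have hpos : ∀ᶠ t in 𝓝[>] (0 : ℝ), 0 ≤ W - t * (q + δ) := by
      have h1 : Tendsto (fun t : ℝ => W - t * (q + δ)) (𝓝[>] 0) (𝓝 (W - 0 * (q + δ))) :=
        (tendsto_const_nhds.sub
          ((tendsto_id.mono_left nhdsWithin_le_nhds).mul_const (q + δ)))
      have h2 : 0 < W - 0 * (q + δ) := by simpa using hV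
      exact (h1.eventually_const_lt h2).mono fun _ h => h.le
    obtain ⟨t, ⟨s', hs'1, hs'2⟩, ht1, ht2, ht3⟩ :=
      ((Y.var s τ δ hδ).and_eventually (hlim.and (hpos.and self_mem_nhdsWithin))).exists
    have ht0 : 0 < t := ht3
    have h1 := hs s'
    have hqt : 0 ≤ t * (q + δ) := by positivity
    have h2 : Ak n k (W - t * (q + δ)) ≤ Ak n k (min (Y.V s') v₀) := by
      have h3 : W - t * (q + δ) ≤ min (Y.V s') v₀ := by
        apply le_min
        · linarith [Y.V_le s s', min_le_left (Y.V s) v₀]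
        · linarith [min_le_right (Y.V s) v₀]
      exact (strictMonoOn_Ak hn hk0).monotoneOn (mem_Ici.2 ht2) (mem_Ici.2 (ht2.trans h3)) h3
    simp only [Psi] at h1
    rw [← hW] at h1
    have h3 : ε * Y.d s s' ≤ ε * (t * (q + δ)) := mul_le_mul_of_nonneg_left hs'1 hε
    have h4 : t * (δ + ε * (q + δ) - Y.L s τ) <
        Ak n k (W - t * (q + δ)) - Ak n k W := by
      have := mul_lt_mul_of_pos_left ht1 ht0
      rw [smul_eq_mul, ← mul_assoc, mul_inv_cancel₀ ht0.ne', one_mul, zero_mul, sub_zero,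
        zero_add] at this
      exact this
    nlinarith
  have hlim : Tendsto (fun δ : ℝ => δ + (h' + ε) * (q + δ)) (𝓝[>] 0)
      (𝓝 (0 + (h' + ε) * (q + 0))) := by
    apply Tendsto.mono_left _ nhdsWithin_le_nhds
    exact tendsto_id.add ((tendsto_const_nhds.add tendsto_id).const_mul (h' + ε))
  have := ge_of_tendsto hlim (eventually_nhdsWithin_of_forall fun δ hδ => main δ hδ)
  simpa using this

/-- Ekeland points. -/
theorem exists_ekeland (hn : n ≠ 0) (hk0 : 0 ≤ k) {v₀ : ℝ} (hv₀ : 0 ≤ v₀) {ε : ℝ} (hε : 0 < ε)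
    (s₀ : Y.S) :
    ∃ s, Y.Psi v₀ s ≤ Y.Psi v₀ s₀ ∧ ∀ s', Y.Psi v₀ s ≤ Y.Psi v₀ s' + ε * Y.d s s' := by
  have hW0 : ∀ s, 0 ≤ min (Y.V s) v₀ := fun s => le_min (Y.V_nonneg s) hv₀
  have hAv : ∀ s, Ak n k (min (Y.V s) v₀) ≤ Ak n k v₀ := fun s =>
    (strictMonoOn_Ak hn hk0).monotoneOn (mem_Ici.2 (hW0 s)) (mem_Ici.2 hv₀) (min_le_right _ _)
  have hbdd : BddBelow (range (Y.Psi v₀)) := by
    refine ⟨-Ak n k v₀, ?_⟩
    rintro _ ⟨s, rfl⟩
    have := hAv s
    have := Y.A_nonneg s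
    simp only [Psi]
    linarith
  have hcomp : ∀ s : ℕ → Y.S, Summable (fun j => Y.d (s j) (s (j + 1))) →
      (∀ j, Y.Psi v₀ (s (j + 1)) ≤ Y.Psi v₀ (s j)) →
      ∃ t : Y.S, Tendsto (fun j => Y.d (s j) t) atTop (𝓝 0) ∧
        ∀ j, Y.Psi v₀ t ≤ Y.Psi v₀ (s j) := by
    intro s hsum hanti
    have hanti' : Antitone (fun j => Y.Psi v₀ (s j)) := antitone_nat_of_succ_le hanti
    have hAb : ∀ j, Y.A (s j) ≤ Y.Psi v₀ (s 0) + Ak n k v₀ := by
      intro j
      have h1 := hanti' (Nat.zero_le j)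
      have h2 := hAv (s j)
      simp only [Psi] at h1 ⊢
      linarith
    obtain ⟨t, ht1, ht2⟩ := Y.complete s hsum ⟨_, hAb⟩
    refine ⟨t, ht1, ?_⟩
    -- semicontinuity
    have hVt : Tendsto (fun j => Y.V (s j)) atTop (𝓝 (Y.V t)) := by
      rw [tendsto_iff_dist_tendsto_zero]
      apply squeeze_zero (fun _ => dist_nonneg) _ ht1
      intro j
      rw [Real.dist_eq, abs_le]
      constructor
      · linarith [Y.V_le' (s j) t]
      · linarith [Y.V_le (s j) t]
    have hWt : Tendsto (fun j => min (Y.V (s j)) v₀) atTop (𝓝 (min (Y.V t) v₀)) :=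
      hVt.min tendsto_const_nhds
    have hAk : Tendsto (fun j => Ak n k (min (Y.V (s j)) v₀)) atTop
        (𝓝 (Ak n k (min (Y.V t) v₀))) := by
      have := (continuousOn_Ak hn hk0) (min (Y.V t) v₀) (mem_Ici.2 (hW0 t))
      exact this.tendsto.comp (tendsto_nhdsWithin_iff.2
        ⟨hWt, Eventually.of_forall fun j => mem_Ici.2 (hW0 _)⟩)
    intro j
    apply le_of_forall_pos_le_add
    intro δ hδ
    have h1 : ∀ᶠ i in atTop, Y.A (s i) ≤ Y.Psi v₀ (s j) + Ak n k (min (Y.V t) v₀) + δ := by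
      filter_upwards [eventually_ge_atTop j,
        hAk.eventually_lt_const (show Ak n k (min (Y.V t) v₀) < Ak n k (min (Y.V t) v₀) + δ by
          linarith)] with i hi h2
      have h3 := hanti' hi
      simp only [Psi] at h3 ⊢
      linarith
    have h2 := ht2 _ h1
    simp only [Psi] at h2 ⊢
    linarith
  obtain ⟨s, hs1, hs2⟩ :=
    B10.ekeland Y.d (Y.Psi v₀) ε hε Y.d_self Y.d_nonneg Y.d_tri hbdd hcomp s₀
  refine ⟨s, ?_, hs2⟩
  have := mul_nonneg hε.le (Y.d_nonneg s₀ s)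
  linarith

/-- the conclusion of Theorem A for the system -/
def ThmA : Prop := ∀ (s : Y.S) (h : ℝ), k < h → 0 < Y.A s →
  (∀ τ, Y.L s τ ≤ n * h * Y.Q s τ) → sphArea n ≤ (h ^ 2 - k ^ 2) ^ ((n : ℝ) / 2) * Y.A s

/-- **The sharp filling inequality.** -/
theorem fill (hn : n ≠ 0) (hk0 : 0 ≤ k) (hA : Y.ThmA) (s₀ : Y.S) :
    Ak n k (Y.V s₀) ≤ Y.A s₀ := by
  by_contra hcon
  push Not at hcon
  set σ := Ak n k (Y.V s₀) - Y.A s₀ with hσ
  have hσ0 : 0 < σ := by simp only [hσ]; linarith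
  have hn1 : (0 : ℝ) < n := by positivity
  -- the truncation level
  set v₁ := Y.V s₀ + 1 with hv₁
  have hv₁0 : 0 < v₁ := by linarith [Y.V_nonneg s₀]
  -- the lower bound for `V`
  obtain ⟨v₂, hv₂, hv₂'⟩ : ∃ v₂, 0 < v₂ ∧ ∀ v, 0 ≤ v → σ ≤ Ak n k v → v₂ ≤ v := by
    refine ⟨Vk n k σ, ?_, ?_⟩
    · have := strictMonoOn_Vk (n := n) hn hk0 (mem_Ici.2 le_rfl) (mem_Ici.2 hσ0.le) hσ0
      rwa [Vk_zero hn hk0] at this
    · intro v hv h
      have := (strictMonoOn_Vk (n := n) hn hk0).monotoneOn (mem_Ici.2 hσ0.le)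
        (mem_Ici.2 (Ak_nonneg n k v)) h
      rwa [Vk_Ak hn hk0 hv] at this
  -- uniform continuity of `φ`
  set a := hk n k v₁ with ha
  set b := hk n k v₂ with hb
  have hka : k < a := lt_hk hn hk0 hv₁0
  let φ : ℝ → ℝ := fun h => sphArea n * (h ^ 2 - k ^ 2) ^ (-((n : ℝ) / 2))
  have hφc : ContinuousOn φ (Icc a (b + 1)) := by
    apply ContinuousOn.mul continuousOn_const
    apply ContinuousOn.rpow_const (by fun_prop)
    intro x hx
    left
    have : k < x := hka.trans_le hx.1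
    nlinarith
  have huc := isCompact_Icc.uniformContinuousOn_of_continuous hφc
  rw [Metric.uniformContinuousOn_iff] at huc
  obtain ⟨δ, hδ, hδ'⟩ := huc σ hσ0
  set ε := n * min (δ / 2) 1 with hε
  have hε0 : 0 < ε := by positivity
  obtain ⟨s, hs1, hs2⟩ := Y.exists_ekeland hn hk0 hv₁0.le hε0 s₀
  have hPs : Y.Psi v₁ s ≤ -σ := by
    have : Y.Psi v₁ s₀ = -σ := by
      simp only [Psi, hσ]
      rw [min_eq_left (by linarith)]
      ring
    linarith
  set W := min (Y.V s) v₁ with hW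
  have hWnn : 0 ≤ W := le_min (Y.V_nonneg s) hv₁0.le
  have hAnn := Y.A_nonneg s
  have hPs' : Y.A s ≤ Ak n k W - σ := by
    simp only [Psi] at hPs
    rw [← hW] at hPs
    linarith
  have hσA : σ ≤ Ak n k W := by linarith
  have hV2 : v₂ ≤ W := hv₂' _ hWnn hσA
  have hWpos : 0 < W := hv₂.trans_le hV2
  have hV1 : W ≤ v₁ := min_le_right _ _
  have hVpos : 0 < Y.V s := hWpos.trans_le (min_le_left _ _)
  have hApos : 0 < Y.A s := by
    rcases eq_or_lt_of_le hAnn with h | h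
    · exact absurd (Y.V_zero s h.symm) hVpos.ne'
    · exact h
  set h := hk n k W with hh
  have hah : a ≤ h := hk_anti hn hk0 hWpos hV1
  have hhb : h ≤ b := hk_anti hn hk0 hv₂ hV2
  set η := min (δ / 2) 1 with hη
  have hη0 : 0 < η := by positivity
  have hη1 : η ≤ 1 := min_le_right _ _
  have hηδ : η < δ := (min_le_left _ _).trans_lt (by linarith)
  have hFV : ∀ τ, Y.L s τ ≤ n * (h + η) * Y.Q s τ := by
    intro τ
    have := Y.fv_of_ekeland hn hk0 hε0.le hWpos hs2 τ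
    rw [← hW, ← hh, hε] at this
    calc Y.L s τ ≤ (n * h + n * η) * Y.Q s τ := this
      _ = n * (h + η) * Y.Q s τ := by ring
  have hkh : k < h + η := by linarith
  have hthm := hA s (h + η) hkh hApos hFV
  have hpos : 0 < (h + η) ^ 2 - k ^ 2 := by nlinarith
  have h1 : φ (h + η) ≤ Y.A s := by
    simp only [φ]
    rw [Real.rpow_neg hpos.le, ← div_eq_mul_inv, div_le_iff₀ (Real.rpow_pos_of_pos hpos _)]
    linarith
  have h2 : Ak n k W = φ h := Ak_eq_rpow n hn hk0 hWpos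
  have h3 := hδ' h ⟨hah, by linarith⟩ (h + η) ⟨by linarith, by linarith⟩ (by
    rw [Real.dist_eq, abs_sub_comm, abs_of_nonneg (by linarith)]; linarith)
  rw [Real.dist_eq] at h3
  have h4 := (abs_lt.1 h3).2
  linarith

/-- Consequence: `V ≤ Vk (A)`. -/
theorem fill' (hn : n ≠ 0) (hk0 : 0 ≤ k) (hA : Y.ThmA) (s₀ : Y.S) :
    Y.V s₀ ≤ Vk n k (Y.A s₀) := by
  have h := Y.fill hn hk0 hA s₀
  have := (strictMonoOn_Vk (n := n) hn hk0).monotoneOn (mem_Ici.2 (Ak_nonneg n k _))
    (mem_Ici.2 (Y.A_nonneg s₀)) h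
  rwa [Vk_Ak hn hk0 (Y.V_nonneg s₀)] at this

/-- **Equality case**: an extremal filling satisfies the first variation inequality exactly. -/
theorem fv_of_eq (hn : n ≠ 0) (hk0 : 0 ≤ k) (hA : Y.ThmA) {s : Y.S} (hV : 0 < Y.V s)
    (heq : Y.A s ≤ Ak n k (Y.V s)) (τ : Y.T) :
    Y.L s τ ≤ n * hk n k (Y.V s) * Y.Q s τ := by
  have h1 : ∀ s', Y.Psi (Y.V s) s ≤ Y.Psi (Y.V s) s' + 0 * Y.d s s' := by
    intro s'
    have h2 := Y.fill hn hk0 hA s'
    have h3 : Ak n k (min (Y.V s') (Y.V s)) ≤ Ak n k (Y.V s') :=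
      (strictMonoOn_Ak hn hk0).monotoneOn (mem_Ici.2 (le_min (Y.V_nonneg _) hV.le))
        (mem_Ici.2 (Y.V_nonneg _)) (min_le_left _ _)
    simp only [Psi, min_self]
    linarith
  have := Y.fv_of_ekeland hn hk0 le_rfl (v₀ := Y.V s) (by simpa using hV) h1 τ
  simpa using this

end VarSys

end Crest.Agent.R241.B11
end

-- ▼ part R241/B11

/-!
# R241, block B11: FILL and FILLEQ for cycles of dimension `m + 1 ≥ 2`

`fillTarget`, `fillEqTarget`: from ADD, CLOSURE, FVAR, CONE and Theorem A.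
-/

set_option autoImplicit false
set_option linter.unusedSectionVars false

open MeasureTheory Filter Topology Set
open scoped ENNReal NNReal

namespace Crest.Agent.R241.B11

open Crest.GeometryTopology.MetricCurrent
open Crest.Agent.R241.EModel

universe u

variable {X : Type u} [MetricSpace X] [MeasurableSpace X] [BorelSpace X]

/-- filling volume in `K` -/
noncomputable def fillvol (K : Set X) {m : ℕ} (T : Functional X (m + 1)) : ℝ :=
  sInf {r : ℝ | ∃ S : Functional X (m + 2), IsInt K S ∧ bd S = T ∧ r = mass S}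

section
variable {K : Set X} {m : ℕ} (hadd : AddTarget X K)

include hadd

theorem bddBelow_fill (T : Functional X (m + 1)) :
    BddBelow {r : ℝ | ∃ S : Functional X (m + 2), IsInt K S ∧ bd S = T ∧ r = mass S} :=
  ⟨0, by rintro _ ⟨S, _, _, rfl⟩; exact hadd.mass_nonneg _ S⟩

theorem fillvol_nonneg (T : Functional X (m + 1)) : 0 ≤ fillvol K T :=
  Real.sInf_nonneg (by rintro _ ⟨S, _, _, rfl⟩; exact hadd.mass_nonneg _ S)

theorem fillvol_le {S : Functional X (m + 2)} (hS : IsInt K S) : fillvol K (bd S) ≤ mass S :=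
  csInf_le (bddBelow_fill hadd _) ⟨S, hS, rfl, rfl⟩

omit hadd [BorelSpace X] in
theorem exists_fill_lt {S : Functional X (m + 2)} (hS : IsInt K S) {c : ℝ}
    (hc : fillvol K (bd S) < c) :
    ∃ S' : Functional X (m + 2), IsInt K S' ∧ bd S' = bd S ∧ mass S' < c := by
  have hne : {r : ℝ | ∃ S' : Functional X (m + 2), IsInt K S' ∧ bd S' = bd S ∧
      r = mass S'}.Nonempty := ⟨_, S, hS, rfl, rfl⟩
  obtain ⟨_, ⟨S', h1, h2, rfl⟩, h3⟩ := exists_lt_of_csInf_lt hne hc
  exact ⟨S', h1, h2, h3⟩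

theorem isInt_sub {S S' : Functional X (m + 2)} (hS : IsInt K S) (hS' : IsInt K S') :
    IsInt K (S - S') := by
  rw [sub_eq_add_neg]; exact hadd.add _ _ _ hS (hadd.neg _ _ hS')

theorem bd_sub' (S S' : Functional X (m + 2)) : bd (S - S') = bd S - bd S' := by
  rw [sub_eq_add_neg, hadd.bd_add, hadd.bd_neg, ← sub_eq_add_neg]

theorem bd_zero' : bd (0 : Functional X (m + 2)) = 0 := by
  have h := hadd.bd_add _ (0 : Functional X (m + 2)) 0
  rw [add_zero] at h
  exact left_eq_add.1 h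

theorem mass_sub_comm (S S' : Functional X (m + 2)) : mass (S - S') = mass (S' - S) := by
  rw [← hadd.mass_neg _ (S - S'), neg_sub]

theorem mass_tri {a b c : Functional X (m + 2)} (ha : IsInt K a) (hb : IsInt K b)
    (hc : IsInt K c) : mass (c - a) ≤ mass (b - a) + mass (c - b) := by
  have h := hadd.mass_add _ (b - a) (c - b) (isInt_sub hadd hb ha) (isInt_sub hadd hc hb)
  rwa [show b - a + (c - b) = c - a by abel] at h

theorem fillvol_lip {a b : Functional X (m + 2)} (ha : IsInt K a) (hb : IsInt K b) :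
    fillvol K (bd a) ≤ fillvol K (bd b) + mass (b - a) := by
  apply le_of_forall_pos_le_add
  intro δ hδ
  obtain ⟨S', h1, h2, h3⟩ := exists_fill_lt hb (c := fillvol K (bd b) + δ) (by linarith)
  have h4 := isInt_sub hadd ha hb
  have h5 : IsInt K (S' + (a - b)) := hadd.add _ _ _ h1 h4
  have h6 : bd (S' + (a - b)) = bd a := by
    rw [hadd.bd_add, bd_sub' hadd, h2]; abel
  have h7 := fillvol_le hadd h5
  rw [h6] at h7
  have h8 := hadd.mass_add _ _ _ h1 h4
  rw [mass_sub_comm hadd a b] at h8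
  linarith

theorem fillvol_eq_zero {a : Functional X (m + 2)} (ha : IsInt K a) (h : mass (bd a) = 0) :
    fillvol K (bd a) = 0 := by
  have h1 : bd a = 0 := hadd.eq_zero _ _ (hadd.isCyc_bd _ a ha).int h
  have h2 := fillvol_le hadd (hadd.zero (m + 1))
  rw [bd_zero' hadd, hadd.mass_zero] at h2
  rw [h1]
  exact le_antisymm h2 (fillvol_nonneg hadd _)

end

section
variable {k : ℝ} {K : Set X} [CompactSpace K] {m : ℕ}

/-- The variational system of integral currents in `K`. -/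
noncomputable def sys (hadd : AddTarget X K) (hclo : ClosureTarget X K m)
    (hfv : FVarTarget X k K m) : VarSys (m + 1) k where
  S := {S : Functional X (m + 2) // IsInt K S}
  T := {τ : K × (K → ℝ) // A.Lip τ.2 ∧ ∀ y, 0 ≤ τ.2 y}
  d a b := mass (b.1 - a.1)
  A a := mass (bd a.1)
  V a := fillvol K (bd a.1)
  L a τ := fvar (hfv (bd a.1) (hadd.isCyc_bd m a.1 a.2)).choose τ.1.1 τ.1.2
  Q a τ := ∫ y, τ.1.2 y * (hfv (bd a.1) (hadd.isCyc_bd m a.1 a.2)).choose.q τ.1.1 y
    ∂(hfv (bd a.1) (hadd.isCyc_bd m a.1 a.2)).choose.τ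
  d_self a := by rw [sub_self]; exact hadd.mass_zero _
  d_nonneg a b := hadd.mass_nonneg _ _
  d_tri a b c := mass_tri hadd a.2 b.2 c.2
  A_nonneg a := hadd.mass_nonneg _ _
  V_nonneg a := fillvol_nonneg hadd _
  V_le a b := fillvol_lip hadd a.2 b.2
  V_le' a b := by
    have := fillvol_lip hadd b.2 a.2
    rwa [mass_sub_comm hadd] at this
  complete s hsum hC := by
    obtain ⟨C, hC⟩ := hC
    have hsumeq : ∀ j, ∑ i ∈ Finset.range j, ((s (i + 1)).1 - (s i).1) = (s j).1 - (s 0).1 :=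
      fun j => Finset.sum_range_sub (fun i => (s i).1) j
    have hbd : ∀ j, bd (s 0).1 + bd (∑ i ∈ Finset.range j, ((s (i + 1)).1 - (s i).1)) =
        bd (s j).1 := by
      intro j; rw [hsumeq, bd_sub' hadd]; abel
    obtain ⟨S', h1, -, h3, h4⟩ := hclo (bd (s 0).1) (fun j => (s (j + 1)).1 - (s j).1) C
      (hadd.isCyc_bd m _ (s 0).2) (fun j => isInt_sub hadd (s (j + 1)).2 (s j).2) hsum
      (fun j => by rw [hbd]; exact hC j)
    refine ⟨⟨(s 0).1 + S', hadd.add _ _ _ (s 0).2 h1⟩, ?_, ?_⟩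
    · have hle : ∀ j, mass ((s 0).1 + S' - (s j).1) ≤
          ∑' i, mass ((s (i + j + 1)).1 - (s (i + j)).1) := by
        intro j
        have := h3 j
        rw [hsumeq] at this
        rwa [show S' - ((s j).1 - (s 0).1) = (s 0).1 + S' - (s j).1 by abel] at this
      exact squeeze_zero (fun j => hadd.mass_nonneg _ _) hle
        (tendsto_sum_nat_add (fun i => mass ((s (i + 1)).1 - (s i).1)))
    · intro c hc
      show mass (bd ((s 0).1 + S')) ≤ c
      rw [hadd.bd_add]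
      apply h4
      apply Eventually.frequently
      filter_upwards [hc] with j hj
      rw [hbd]; exact hj
  V_zero a h := fillvol_eq_zero hadd a.2 h
  var a τ ε hε := by
    have hP := (hfv (bd a.1) (hadd.isCyc_bd m a.1 a.2)).choose_spec
    apply Eventually.frequently
    filter_upwards [hP.2.2 τ.1.1 τ.1.2 τ.2.1 τ.2.2 ε hε] with t ht
    obtain ⟨R, hR, hR1, hR2⟩ := ht
    refine ⟨⟨a.1 + R, hadd.add _ _ _ a.2 hR⟩, ?_, ?_⟩
    · show mass (a.1 + R - a.1) ≤ _
      rw [add_sub_cancel_left]; exact hR1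
    · show mass (bd (a.1 + R)) ≤ _
      rw [hadd.bd_add]; exact hR2
  Q_nonneg a τ := integral_nonneg fun y => mul_nonneg (τ.2.2 y) (Real.sqrt_nonneg _)

theorem thmA (hk : 0 ≤ k) (hm : 1 ≤ m) (hadd : AddTarget X K) (hclo : ClosureTarget X K m)
    (hfv : FVarTarget X k K m) (hcat : A.CatD k K) (hA : ∀ h, A.TheoremA (m + 1) k h K) :
    (sys hadd hclo hfv).ThmA := by
  intro s h hkh hpos hL
  set P := (hfv (bd s.1) (hadd.isCyc_bd m s.1 s.2)).choose with hPdef
  have hP := (hfv (bd s.1) (hadd.isCyc_bd m s.1 s.2)).choose_spec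
  have hmass : mass (bd s.1) = P.τ.real univ := hP.2.1
  have hpos' : 0 < mass (bd s.1) := hpos
  have hτ : P.τ ≠ 0 := by
    intro h0
    rw [hmass, h0] at hpos'
    simp at hpos'
  have hFV : P.FV h := fun x f hf hf0 => hL ⟨(x, f), hf, hf0⟩
  have := hA h (by omega) hk hkh hcat P hτ hFV
  show A.sphArea (m + 1) ≤ (h ^ 2 - k ^ 2) ^ (((m + 1 : ℕ) : ℝ) / 2) * mass (bd s.1)
  rw [hmass]
  exact this

/-- **B11, FILL**. -/
theorem fillTarget (hk : 0 ≤ k) (hm : 1 ≤ m) (hadd : AddTarget X K)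
    (hclo : ClosureTarget X K m) (hfv : FVarTarget X k K m) (hcone : ConeTarget X K m)
    (hcat : A.CatD k K) (hA : ∀ h, A.TheoremA (m + 1) k h K) (hne : K.Nonempty) :
    FillTarget X k K m := by
  intro T r hT hr hmass ε hε
  obtain ⟨x, hx⟩ := hne
  have hKc : IsCompact K := isCompact_iff_compactSpace.2 inferInstance
  obtain ⟨R, hR⟩ := hKc.isBounded.subset_closedBall x
  have hR' : K ∩ Metric.closedBall x (max R 0) = K :=
    inter_eq_left.2 (hR.trans (Metric.closedBall_subset_closedBall (le_max_left _ _)))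
  obtain ⟨S₀, hS₀, hbd, -⟩ := hcone T x (max R 0) hx (le_max_right _ _) (by rw [hR']; exact hT)
  have hmk : m + 1 ≠ 0 := by omega
  have h1 := (sys hadd hclo hfv).fill' hmk hk (thmA hk hm hadd hclo hfv hcat hA) ⟨S₀, hS₀⟩
  have h2 : fillvol K (bd S₀) ≤ Vk (m + 1) k (mass (bd S₀)) := h1
  have h3 : Vk (m + 1) k (mass (bd S₀)) ≤ modelV (m + 1) k r := by
    rw [← Vk_modelA hmk hk hr]
    rw [hbd]
    exact (strictMonoOn_Vk hmk hk).monotoneOn (mem_Ici.2 (hadd.mass_nonneg _ _))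
      (mem_Ici.2 (modelA_nonneg hr)) hmass
  obtain ⟨S', h4, h5, h6⟩ := exists_fill_lt hS₀ (c := modelV (m + 1) k r + ε) (by linarith)
  exact ⟨S', h4, h5.trans hbd, h6.le⟩

omit [CompactSpace K] in
theorem isSupportedIn_of_controls {n : ℕ} {T : Functional X n} (hT : IsCurrent T)
    {μ : Measure X} (hμ : Controls T μ) {B : Set X} (hB : ∀ᵐ y ∂μ, y ∈ B) :
    IsSupportedIn B T := by
  intro f π hfπ hf
  choose L hL using hfπ.2.2
  have h1 := G1.abs_le_of_controls hT hμ (f := f) (π := π) ⟨hfπ.1, hfπ.2.1⟩ hL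
  have h2 : ∫ x, |f x| ∂μ = 0 := by
    rw [integral_eq_zero_of_ae]
    filter_upwards [hB] with y hy
    simp [hf y hy]
  rw [h2, mul_zero] at h1
  exact abs_nonpos_iff.1 h1

/-- **B11, FILLEQ**. -/
theorem fillEqTarget (hm : 1 ≤ m) (hadd : AddTarget X K)
    (hclo : ClosureTarget X K m) (hfv : FVarTarget X 0 K m) (hcone : ConeTarget X K m)
    (hcat : A.CatD 0 K) (hA : ∀ h, A.TheoremA (m + 1) 0 h K)
    (hAeq : ∀ h, A.TheoremAeq (m + 1) h K) (hne : K.Nonempty) :
    FillEqTarget X K m := by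
  intro T r hT hr hmass hext
  obtain ⟨x, hx⟩ := hne
  have hKc : IsCompact K := isCompact_iff_compactSpace.2 inferInstance
  obtain ⟨R, hR⟩ := hKc.isBounded.subset_closedBall x
  have hR' : K ∩ Metric.closedBall x (max R 0) = K :=
    inter_eq_left.2 (hR.trans (Metric.closedBall_subset_closedBall (le_max_left _ _)))
  obtain ⟨S₀, hS₀, hbd, -⟩ := hcone T x (max R 0) hx (le_max_right _ _) (by rw [hR']; exact hT)
  subst hbd
  have hmk : m + 1 ≠ 0 := by omega
  have hle := le_refl (0 : ℝ)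
  have hthm := thmA hle hm hadd hclo hfv hcat hA
  have h1 : fillvol K (bd S₀) ≤ Vk (m + 1) 0 (mass (bd S₀)) :=
    (sys hadd hclo hfv).fill' hmk hle hthm ⟨S₀, hS₀⟩
  rw [hmass, Vk_modelA hmk hle hr.le] at h1
  have h2 : modelV (m + 1) 0 r ≤ fillvol K (bd S₀) := by
    have hne' : {r : ℝ | ∃ S' : Functional X (m + 2), IsInt K S' ∧ bd S' = bd S₀ ∧
        r = mass S'}.Nonempty := ⟨_, S₀, hS₀, rfl, rfl⟩
    apply le_csInf hne'
    rintro _ ⟨S', hS', hb, rfl⟩
    exact hext S' hS' hb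
  have hV : fillvol K (bd S₀) = modelV (m + 1) 0 r := le_antisymm h1 h2
  have hVpos : 0 < fillvol K (bd S₀) := by rw [hV]; exact modelV_pos hr
  have hAk : mass (bd S₀) ≤ Ak (m + 1) 0 (fillvol K (bd S₀)) := by
    rw [hV, Ak_modelV hmk hle hr.le, hmass]
  set P := (hfv (bd S₀) (hadd.isCyc_bd m S₀ hS₀)).choose with hPdef
  have hP := (hfv (bd S₀) (hadd.isCyc_bd m S₀ hS₀)).choose_spec
  have hhk : hk (m + 1) 0 (fillvol K (bd S₀)) = 1 / r := by
    rw [hV, hk, radV_modelV hmk hle hr.le]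
    simp [sn]
  have hFV : P.FV (1 / r) := by
    intro x f hf hf0
    have := (sys hadd hclo hfv).fv_of_eq hmk hle hthm (s := ⟨S₀, hS₀⟩) hVpos hAk
      ⟨(x, f), hf, hf0⟩
    have e : hk (m + 1) 0 ((sys hadd hclo hfv).V ⟨S₀, hS₀⟩) = 1 / r := hhk
    rw [e] at this
    exact this
  have hmτ : mass (bd S₀) = P.τ.real univ := hP.2.1
  have hApos : 0 < modelA (m + 1) 0 r := modelA_pos hr
  have hτ : P.τ ≠ 0 := by
    intro h0
    rw [hmass, h0] at hmτ
    simp at hmτ
    linarith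
  have hmodel : ((1 / r) ^ 2) ^ (((m + 1 : ℕ) : ℝ) / 2) * P.τ.real univ = A.sphArea (m + 1) := by
    rw [← hmτ, hmass]
    have e1 : ((1 / r) ^ 2) ^ (((m + 1 : ℕ) : ℝ) / 2) = (1 / r) ^ (m + 1) := by
      rw [← Real.rpow_natCast (1 / r) 2, ← Real.rpow_mul (by positivity),
        ← Real.rpow_natCast (1 / r) (m + 1)]
      congr 1
      push_cast
      ring
    rw [e1]
    have e2 : modelA (m + 1) 0 r = sphArea (m + 1) * r ^ (m + 1) := by simp [modelA, sn]
    rw [e2]
    have e3 : A.sphArea (m + 1) = sphArea (m + 1) := rfl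
    rw [e3, one_div, inv_pow]
    field_simp
  obtain ⟨c, hc⟩ := hAeq (1 / r) (by omega) (by positivity) hcat P hτ hFV hmodel
  refine ⟨c.1, c.2, ?_⟩
  apply isSupportedIn_of_controls (hadd.isCyc_bd m S₀ hS₀).int.cur hP.1
  rw [ae_map_iff measurable_subtype_coe.aemeasurable]
  · filter_upwards [hc] with y hy
    refine ⟨y.2, ?_⟩
    rw [Metric.mem_sphere, dist_comm]
    have h3 : dist c y ^ 2 / 2 = r ^ 2 / 2 := by
      simp only [A.zd, A.zk, if_true] at hy
      rw [hy]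
      field_simp
    have h4 : dist c y ^ 2 = r ^ 2 := by linarith
    have h5 := (pow_left_inj₀ dist_nonneg hr.le two_ne_zero).1 h4
    exact h5
  · exact hKc.measurableSet.inter Metric.isClosed_sphere.measurableSet

end

end Crest.Agent.R241.B11
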