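import Crest.Agent.R241.G1m

/-!
R241, block G1o: operations on metric currents (sum, multiples, restriction, push-forward).
-/

set_option autoImplicit false
set_option linter.unusedSectionVars false

open MeasureTheory Filter Topology
open scoped ENNReal NNReal

namespace Crest.Agent.R241.G1

open Crest.GeometryTopology.MetricCurrent

universe u v

variable {X : Type u} [MetricSpace X] [MeasurableSpace X] [BorelSpace X]
variable {k : ℕ} {T S : Functional X k}








theorem lip_add {g h : X → ℝ} (hg : ∃ K : ℝ≥0, LipschitzWith K g)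
    (hh : ∃ K : ℝ≥0, LipschitzWith K h) : ∃ K : ℝ≥0, LipschitzWith K (g + h) := by
  obtain ⟨K, hK⟩ := hg
  obtain ⟨K', hK'⟩ := hh
  exact ⟨_, hK.add hK'⟩

theorem lip_smul {g : X → ℝ} (c : ℝ) (hg : ∃ K : ℝ≥0, LipschitzWith K g) :
    ∃ K : ℝ≥0, LipschitzWith K (c • g) := by
  obtain ⟨K, hK⟩ := hg
  exact ⟨_, lipschitzWith_smul hK c⟩

/-- Constructor for currents: a functional given on test pairs by a family `F f π` which is
linear in `f`, multilinear, continuous, local and bounded. -/
theorem isCurrent_of (F : Functional X k) (h0 : ∀ f π, ¬ IsTestPair f π → F f π = 0)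
    (hadd : ∀ f g π, BL f → BL g → LipT π → F (f + g) π = F f π + F g π)
    (hsmul : ∀ (c : ℝ) f π, BL f → LipT π → F (c • f) π = c * F f π)
    (hadd' : ∀ f π (i : Fin k) (g : X → ℝ), BL f → LipT π → (∃ K : ℝ≥0, LipschitzWith K g) →
      F f (Function.update π i (π i + g)) = F f π + F f (Function.update π i g))
    (hsmul' : ∀ f π (i : Fin k) (c : ℝ), BL f → LipT π →
      F f (Function.update π i (c • π i)) = c * F f π)
    (hcont : ∀ f π (πs : ℕ → Fin k → X → ℝ), BL f → LipT π →
      (∃ C : ℝ≥0, ∀ j i, LipschitzWith C (πs j i)) →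
      (∀ i x, Tendsto (fun j => πs j i x) atTop (𝓝 (π i x))) →
      Tendsto (fun j => F f (πs j)) atTop (𝓝 (F f π)))
    (hloc : ∀ f π, BL f → LipT π → ∀ (i : Fin k) (c : ℝ),
      (∀ x, f x ≠ 0 → π i x = c) → F f π = 0)
    (hmass : ∃ μ : Measure X, IsFiniteMeasure μ ∧ Controls F μ) : IsCurrent F where
  eq_zero_of_not_test := h0
  add_left f g π hf hg := hadd f g π (isTestPair_iff.1 hf).1 (isTestPair_iff.1 hg).1
    (isTestPair_iff.1 hf).2
  smul_left c f π hf := hsmul c f π (isTestPair_iff.1 hf).1 (isTestPair_iff.1 hf).2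
  add_coord f π i g hf hg := hadd' f π i g (isTestPair_iff.1 hf).1 (isTestPair_iff.1 hf).2 hg
  smul_coord f π i c hf := hsmul' f π i c (isTestPair_iff.1 hf).1 (isTestPair_iff.1 hf).2
  continuity f π πs hf hC hlim := hcont f π πs (isTestPair_iff.1 hf).1 (isTestPair_iff.1 hf).2
    hC hlim
  locality f π hf h := by
    obtain ⟨i, U, c, -, hU, hc⟩ := h
    exact hloc f π (isTestPair_iff.1 hf).1 (isTestPair_iff.1 hf).2 i c
      fun x hx => hc x (hU hx)
  finite_mass := hmass

/-- strong locality for the current itself -/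
theorem locality' (hT : IsCurrent T) {f : X → ℝ} (hf : BL f) {π : Fin k → X → ℝ} (hπ : LipT π)
    {i : Fin k} {c : ℝ} (h : ∀ x, f x ≠ 0 → π i x = c) : T f π = 0 := by
  rw [← ext_eq hT hπ hf]
  exact ext_strong_locality hT hf.bm hπ i c h

/-! ### zero, sums and multiples -/

theorem isCurrent_zero : IsCurrent (0 : Functional X k) := by
  refine isCurrent_of _ (fun _ _ _ => rfl) ?_ ?_ ?_ ?_ ?_ ?_ ?_
  · intros; simp
  · intros; simp
  · intros; simp
  · intros; simp
  · intros; exact tendsto_const_nhds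
  · intros; rfl
  · exact ⟨0, inferInstance, fun f π _ _ => by simp⟩




theorem controls_smul (c : ℝ) {μ : Measure X} (h : Controls T μ) :
    Controls (c • T) (ENNReal.ofReal |c| • μ) := by
  intro f π hfπ hπ
  rw [integral_smul_measure, ENNReal.toReal_ofReal (abs_nonneg c)]
  simp only [Pi.smul_apply, smul_eq_mul, abs_mul]
  exact mul_le_mul_of_nonneg_left (h f π hfπ hπ) (abs_nonneg c)

theorem isCurrent_smul (c : ℝ) (hT : IsCurrent T) : IsCurrent (c • T) := by
  refine isCurrent_of _ (fun f π h => ?_) ?_ ?_ ?_ ?_ ?_ ?_ ?_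
  · simp only [Pi.smul_apply]
    rw [hT.eq_zero_of_not_test f π h, smul_zero]
  · intro f g π hf hg hπ
    simp only [Pi.smul_apply, smul_eq_mul]
    rw [hT.add_left f g π (hf.isTestPair hπ) (hg.isTestPair hπ)]
    ring
  · intro a f π hf hπ
    simp only [Pi.smul_apply, smul_eq_mul]
    rw [hT.smul_left a f π (hf.isTestPair hπ)]
    ring
  · intro f π i g hf hπ hg
    simp only [Pi.smul_apply, smul_eq_mul]
    rw [hT.add_coord f π i g (hf.isTestPair hπ) hg]
    ring
  · intro f π i a hf hπ
    simp only [Pi.smul_apply, smul_eq_mul]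
    rw [hT.smul_coord f π i a (hf.isTestPair hπ)]
    ring
  · intro f π πs hf hπ hC hlim
    exact (hT.continuity f π πs (hf.isTestPair hπ) hC hlim).const_mul c
  · intro f π hf hπ i a h
    simp only [Pi.smul_apply, smul_eq_mul]
    rw [locality' hT hf hπ h, mul_zero]
  · exact ⟨ENNReal.ofReal |c| • ctrl T, (ctrl T).smul_finite (by finiteness),
      controls_smul c (controls_ctrl hT)⟩


theorem isCurrent_neg (hT : IsCurrent T) : IsCurrent (-T) := by
  have := isCurrent_smul (-1) hT
  rwa [neg_one_smul] at this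




/-! ### restriction -/

/-- restriction `T ⌞ h` of a current to a bounded Borel function -/
noncomputable def rest (T : Functional X k) (h : X → ℝ) : Functional X k := fun f π => by
  classical
  exact if IsTestPair f π then ext T (f * h) π else 0









/-! ### push-forward -/

section push

variable {Y : Type v} [MetricSpace Y] [MeasurableSpace Y] [BorelSpace Y]

/-- push-forward of a functional under a map -/
noncomputable def push (φ : X → Y) (T : Functional X k) : Functional Y k := fun f π => by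
  classical
  exact if IsTestPair f π then T (f ∘ φ) (fun i => π i ∘ φ) else 0


theorem BL.comp {φ : X → Y} {L : ℝ≥0} (hφ : LipschitzWith L φ) {f : Y → ℝ} (hf : BL f) :
    BL (f ∘ φ) := by
  obtain ⟨⟨K, hK⟩, C, hC⟩ := hf
  exact ⟨⟨_, hK.comp hφ⟩, C, fun x => hC _⟩

theorem BM.comp {φ : X → Y} {L : ℝ≥0} (hφ : LipschitzWith L φ) {f : Y → ℝ} (hf : BM f) :
    BM (f ∘ φ) := by
  obtain ⟨hm, C, hC⟩ := hf
  exact ⟨hm.comp hφ.continuous.measurable, C, fun x => hC _⟩

theorem LipT.comp {φ : X → Y} {L : ℝ≥0} (hφ : LipschitzWith L φ) {π : Fin k → Y → ℝ}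
    (hπ : LipT π) : LipT (fun i => π i ∘ φ) := by
  intro i
  obtain ⟨K, hK⟩ := hπ i
  exact ⟨_, hK.comp hφ⟩





end push

end Crest.Agent.R241.G1
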