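import Mathlib
import Crest.Agent.R241.Targets
import Crest.Agent.R241.B10Int
import Crest.Agent.R241.G1o
import Crest.Agent.R241.B4Norm

-- ▼ part R241/B10Targets
section

/-!
# R241, block B10: `AddTarget` and `ClosureTarget` from the closure properties of
integer rectifiable currents (B4) and boundary rectifiability (B7) (owner: helper502)
-/

set_option autoImplicit false
set_option linter.unusedSectionVars false

open MeasureTheory Filter Topology Set
open scoped ENNReal NNReal

universe u

namespace Crest.Agent.R241.B10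

open Crest.GeometryTopology.MetricCurrent
open Crest.GeometryTopology.Submanifold (Euc)

variable {X : Type u} [MetricSpace X] [MeasurableSpace X] [BorelSpace X] {k : ℕ}

/-- `bd (bd S) = 0`. -/
theorem bd_bd {S : Functional X (k + 2)} (hS : IsCurrent S) : bd (bd S) = 0 := by
  funext f π
  by_cases h : IsTestPair f π
  · rw [bd_apply h, bd_apply (isTestPair_cons h)]
    refine eq_zero_of_const hS (isTestPair_cons (isTestPair_cons h)) 0 1 fun x => ?_
    simp
  · rw [bd_apply_not h]; rfl

theorem chartAction_empty (φ : Euc k → X) (θ : Euc k → ℤ) :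
    chartAction (∅ : Set (Euc k)) φ θ = 0 := by
  funext f π
  simp [chartAction]

/-- The zero current is integer rectifiable. -/
theorem rect_zero [Nonempty X] : IsIntegerRectifiable (0 : Functional X k) := by
  obtain ⟨x₀⟩ := ‹Nonempty X›
  refine ⟨fun _ => ∅, fun _ _ => x₀, fun _ _ => 0, ?_, ?_, ?_, ?_, ?_, ?_, ?_, ?_⟩
  · intro i; exact ⟨MeasurableSet.empty, Bornology.isBounded_empty⟩
  · intro i; exact ⟨0, by simp⟩
  · intro i; exact ⟨0, by simp⟩
  · intro i; simp
  · intro i j _; simp
  · intro i; rw [chartAction_empty]; exact IsCurrent.zero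
  · simp only [chartAction_empty, mass_zero]; exact summable_zero
  · intro f π _; simp [chartAction_empty]

theorem isInt_zero [Nonempty X] {n : ℕ} {K : Set X} : IsInt K (0 : Functional X (n + 1)) where
  cur := IsCurrent.zero
  rect := rect_zero
  bdcur := by rw [bd_zero]; exact IsCurrent.zero
  supp := isSupportedIn_zero

theorem addTarget [Nonempty X] {K : Set X}
    (hadd : ∀ (n : ℕ) (S S' : Functional X (n + 1)), IsInt K S → IsInt K S' →
      IsIntegerRectifiable (S + S'))
    (hneg : ∀ (n : ℕ) (S : Functional X (n + 1)), IsInt K S → IsIntegerRectifiable (-S))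
    (hbd : ∀ (n : ℕ) (S : Functional X (n + 2)), IsInt K S → IsIntegerRectifiable (bd S)) :
    AddTarget X K where
  zero _ := isInt_zero
  add n S S' hS hS' :=
    { cur := IsCurrent.add hS.cur hS'.cur
      rect := hadd n S S' hS hS'
      bdcur := by rw [bd_add]; exact IsCurrent.add hS.bdcur hS'.bdcur
      supp := isSupportedIn_add hS.supp hS'.supp }
  neg n S hS :=
    { cur := IsCurrent.neg hS.cur
      rect := hneg n S hS
      bdcur := by rw [bd_neg]; exact IsCurrent.neg hS.bdcur
      supp := isSupportedIn_neg hS.supp }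
  isCyc_bd n S hS :=
    { int :=
        { cur := hS.bdcur
          rect := hbd n S hS
          bdcur := by rw [bd_bd hS.cur]; exact IsCurrent.zero
          supp := isSupportedIn_bd hS.cur hS.supp }
      cyc := bd_bd hS.cur }
  bd_add _ S S' := B10.bd_add S S'
  bd_neg _ S := B10.bd_neg S
  mass_nonneg _ S := B10.mass_nonneg S
  mass_zero _ := B10.mass_zero
  mass_neg _ S := B10.mass_neg S
  mass_add _ S S' hS hS' := mass_add_le hS.cur hS'.cur
  eq_zero _ S hS h := eq_zero_of_mass_eq_zero hS.cur h

theorem isInt_sum {n : ℕ} {K : Set X} (hA : AddTarget X K) {ι : Type*} (s : Finset ι)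
    (S : ι → Functional X (n + 1)) (hS : ∀ i, IsInt K (S i)) : IsInt K (∑ i ∈ s, S i) := by
  classical
  induction s using Finset.induction_on with
  | empty => simpa using hA.zero n
  | insert a s ha ih => rw [Finset.sum_insert ha]; exact hA.add n _ _ (hS a) ih


theorem closureTarget {K : Set X} (hKc : IsCompact K) (hA : AddTarget X K) (m : ℕ)
    (hser : ∀ (T : ℕ → Functional X (m + 2)) (S : Functional X (m + 2)),
      (∀ i, IsInt K (T i)) → Summable (fun i => mass (T i)) →
      (∀ f π, IsTestPair f π → HasSum (fun i => T i f π) (S f π)) → IsCurrent S →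
      IsIntegerRectifiable S) : ClosureTarget X K m := by
  intro T₀ S M hT₀ hS hsum hM
  obtain ⟨S', hS'cur, hS'sum⟩ := exists_series_limit (fun i => (hS i).cur) hsum
  -- the partial sums
  set P : ℕ → Functional X (m + 2) := fun j => ∑ i ∈ Finset.range j, S i with hP
  have hPint : ∀ j, IsInt K (P j) := fun j => isInt_sum hA _ S hS
  have hPapply : ∀ j f π, P j f π = ∑ i ∈ Finset.range j, S i f π := by
    intro j f π
    simp only [hP, Finset.sum_apply]
  have hPlim : ∀ f π, IsTestPair f π → Tendsto (fun j => P j f π) atTop (𝓝 (S' f π)) := by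
    intro f π h
    simp only [hPapply]
    exact (hS'sum f π h).tendsto_sum_nat
  have hcyc : ∀ j, IsCyc K (bd (P j)) := fun j => hA.isCyc_bd m _ (hPint j)
  have hQcur : ∀ j, IsCurrent (T₀ + bd (P j)) := fun j =>
    IsCurrent.add hT₀.int.cur (hcyc j).int.cur
  have hQK : ∀ j, IsSupportedIn K (T₀ + bd (P j)) := fun j =>
    isSupportedIn_add hT₀.int.supp (hcyc j).int.supp
  have hQlim : ∀ f π, IsTestPair f π →
      Tendsto (fun j => (T₀ + bd (P j)) f π) atTop (𝓝 ((T₀ + bd S') f π)) := by
    intro f π h
    simp only [Pi.add_apply, bd_apply h]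
    exact tendsto_const_nhds.add (hPlim _ _ (isTestPair_cons h))
  have hQmass : ∀ c, (∃ᶠ j in atTop, mass (T₀ + bd (P j)) ≤ c) → mass (T₀ + bd S') ≤ c :=
    fun c hc => mass_le_of_frequently hKc (Eventually.of_forall hQcur) (Eventually.of_forall hQK)
      hc hQlim
  have hQ : IsCurrent (T₀ + bd S') := by
    refine isCurrent_of_tendsto (Eventually.of_forall hQcur) hQlim ?_ ?_ ?_
    · intro f π h
      simp [bd_apply_not h, hT₀.int.cur.eq_zero_of_not_test f π h]
    · intro f π πs hf hC hl
      exact (hT₀.int.cur.continuity f π πs hf hC hl).add (bd_continuity hS'cur f π πs hf hC hl)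
    · obtain ⟨μ, hμ, hcont, -⟩ := exists_controls_of_frequently hKc
        (Eventually.of_forall hQcur) (Eventually.of_forall hQK) (c := M + 1)
        ((Eventually.of_forall fun j => by
          have := hM j
          change mass (T₀ + bd (P j)) < M + 1
          change mass (T₀ + bd (P j)) ≤ M at this
          linarith).frequently) hQlim
      exact ⟨μ, hμ, hcont⟩
  have hbdS' : IsCurrent (bd S') := by
    have := IsCurrent.sub hQ hT₀.int.cur
    rwa [add_sub_cancel_left] at this
  have hS'int : IsInt K S' :=
    { cur := hS'cur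
      rect := hser S S' hS hsum hS'sum hS'cur
      bdcur := hbdS'
      supp := isSupportedIn_of_tendsto (Eventually.of_forall fun j => (hPint j).supp) hPlim }
  have hbdcyc := hA.isCyc_bd m S' hS'int
  refine ⟨S', hS'int, ?_, ?_, hQmass⟩
  · exact
      { int := hA.add m _ _ hT₀.int hbdcyc.int
        cyc := by rw [hA.bd_add, hT₀.cyc, hbdcyc.cyc, add_zero] }
  · intro j
    change mass (S' - P j) ≤ _
    refine mass_le_of_hasSum (T := fun i => S (i + j)) (fun i => (hS _).cur)
      ((summable_nat_add_iff j).2 hsum) (fun i => le_rfl) fun f π h => ?_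
    have h1 := (hasSum_nat_add_iff' j).2 (hS'sum f π h)
    rw [← hPapply] at h1
    exact h1

end Crest.Agent.R241.B10
end

-- ▼ part R241/B4Ops

/-!
R241 / B4: closure properties of the class of integer rectifiable currents:
zero, sums, differences, Borel restrictions, Lipschitz push-forwards.
-/

set_option autoImplicit false
set_option linter.unusedSectionVars false

open MeasureTheory Filter Topology Metric Set Module
open scoped NNReal ENNReal

namespace Crest.Agent.R241.B4Ops

open Crest.GeometryTopology.Submanifold (Euc)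
open Crest.GeometryTopology.MetricCurrent
open Crest.Agent.R241.G1 (BL BM LipT ext ctrl rest push)
open Crest.Agent.R241.B1c1 (jac chartR)
open Crest.Agent.R241.B4Ext Crest.Agent.R241.B4Disj Crest.Agent.R241.B4Norm

noncomputable section

universe u v

variable {X : Type u} [MetricSpace X] {k : ℕ} [MeasurableSpace X] [BorelSpace X]

theorem mass_zero : mass (0 : Functional X k) = 0 :=
  le_antisymm (by simpa using B10.mass_le (T := (0 : Functional X k)) (μ := 0) (B10.controls_zero 0))
    (B10.mass_nonneg _)

theorem rect_zero [Nonempty X] : IsIntegerRectifiable (0 : Functional X k) := by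
  have x0 : X := Classical.arbitrary X
  have h0 : chartAction (∅ : Set (Euc k)) (fun _ => x0) (fun _ => 0) = 0 := by
    rw [B1c1.chartAction_eq]
    exact B1c1.chartR_null measure_empty _ _
  refine ⟨fun _ => ∅, fun _ _ => x0, fun _ _ => 0, fun _ => ⟨MeasurableSet.empty,
    Bornology.isBounded_empty⟩, fun _ => ⟨0, by simp [LipschitzOnWith]⟩, fun _ => ⟨0, by simp⟩,
    fun _ => by simp, fun _ _ _ => by simp, fun _ => ?_, ?_, fun f π _ => ?_⟩
  · rw [h0]; exact G1.isCurrent_zero
  · simp_rw [h0, mass_zero]
    exact summable_zero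
  · simp_rw [h0]
    simp

theorem nonempty_of_rect {T : Functional X k} (hr : IsIntegerRectifiable T) : Nonempty X := by
  obtain ⟨E, φ, -⟩ := hr
  exact ⟨φ 0 0⟩

/-- Finite sums via `rect_of_hasSum`. -/
theorem rect_add {T S : Functional X k} (hT : IsCurrent T) (hS : IsCurrent S)
    (hrT : IsIntegerRectifiable T) (hrS : IsIntegerRectifiable S) :
    IsIntegerRectifiable (T + S) := by
  have := nonempty_of_rect hrT
  set F : ℕ → Functional X k := fun n => if n = 0 then T else if n = 1 then S else 0 with hF
  have hz : ∀ n, n ∉ ({0, 1} : Finset ℕ) → F n = 0 := by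
    intro n hn
    simp only [Finset.mem_insert, Finset.mem_singleton, not_or] at hn
    simp [hF, hn.1, hn.2]
  refine rect_of_hasSum (T := F) (fun n => ?_) (fun n => ?_) ?_ fun f π h => ?_
  · simp only [hF]
    split_ifs
    exacts [hT, hS, G1.isCurrent_zero]
  · simp only [hF]
    split_ifs
    exacts [hrT, hrS, rect_zero]
  · refine summable_of_hasFiniteSupport ?_
    refine (Finset.finite_toSet ({0, 1} : Finset ℕ)).subset fun n hn => ?_
    by_contra h
    refine hn ?_
    show mass (F n) = 0
    rw [hz n (fun h' => h h'), mass_zero]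
  · have h1 : ∀ n, n ∉ ({0, 1} : Finset ℕ) → F n f π = 0 := fun n hn => by rw [hz n hn]; rfl
    have h2 : HasSum (fun n => F n f π) (∑ b ∈ ({0, 1} : Finset ℕ), F b f π) :=
      hasSum_sum_of_ne_finset_zero h1
    have h3 : ∑ b ∈ ({0, 1} : Finset ℕ), F b f π = (T + S) f π := by
      rw [Finset.sum_pair (by norm_num)]
      simp [hF]
    rw [h3] at h2
    exact h2

theorem chartAction_neg (E : Set (Euc k)) (φ : Euc k → X) (θ : Euc k → ℤ) :
    chartAction E φ (fun z => - θ z) = - chartAction E φ θ := by
  rw [B1c1.chartAction_eq, B1c1.chartAction_eq]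
  have h := B1c1.chartR_smul (-1) E φ (fun z => (θ z : ℝ))
  have h1 : (fun z => ((- θ z : ℤ) : ℝ)) = fun z => (-1) * (θ z : ℝ) := by
    funext z; push_cast; ring
  rw [h1, h, neg_one_smul]

theorem mass_neg_le {T : Functional X k} (hT : IsCurrent T) : mass (-T) ≤ mass T :=
  B10.le_mass hT fun _ _ hc => B10.mass_le fun f π hf hπ => by simpa using hc f π hf hπ

theorem rect_neg {T : Functional X k} (hr : IsIntegerRectifiable T) :
    IsIntegerRectifiable (-T) := by
  obtain ⟨E, φ, θ, h1, h2, h3, h4, h5, h6, h7, h8⟩ := hr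
  refine ⟨E, φ, fun i z => - θ i z, h1, h2, h3, fun i => ?_, h5, fun i => ?_, ?_, fun f π hf => ?_⟩
  · have := (h4 i).neg
    refine this.congr (Eventually.of_forall fun z => ?_)
    simp
  · rw [chartAction_neg]
    exact G1.isCurrent_neg (h6 i)
  · refine Summable.of_nonneg_of_le (fun i => B10.mass_nonneg _) (fun i => ?_) h7
    rw [chartAction_neg]
    exact mass_neg_le (h6 i)
  · simp_rw [chartAction_neg]
    show - T f π = _
    rw [h8 f π hf, ← tsum_neg]
    rfl






section Push

variable {Y : Type v} [MetricSpace Y] [MeasurableSpace Y] [BorelSpace Y]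




end Push

end

end Crest.Agent.R241.B4Ops
namespace Crest.Agent.R241.B4Ops.NF
end Crest.Agent.R241.B4Ops.NF
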