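import Mathlib
import Crest.Agent.R241.Defs
import Crest.Agent.R241.B9Defs
import Crest.Agent.R241.Cat2

-- ▼ part R241/B9a
section

/-!
# R241, block B9 (first variation), part a: two-point inequality for contractions (helper992)

`B k u v = u + v + k² u v`;  `cosh (k r) = 1 + k² zk k r`,  `sn² = 2 zk + k² zk²`.
-/

set_option autoImplicit false

open Set

universe u

namespace Crest.Agent.R241.B9a

/-- `C_k(r) = cosh (k r)`. -/
noncomputable def cs (k r : ℝ) : ℝ := Real.cosh (k * r)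

/-- `B_k(u,v) = u + v + k² u v`. -/
def Bk (k u v : ℝ) : ℝ := u + v + k ^ 2 * (u * v)

theorem cs_eq (k r : ℝ) : cs k r = 1 + k ^ 2 * zk k r := by
  unfold cs zk
  split_ifs with h
  · simp [h]
  · field_simp
    ring


theorem zk_nonneg (k r : ℝ) : 0 ≤ zk k r := by
  unfold zk
  split_ifs with h
  · positivity
  · have := Real.one_le_cosh (k * r)
    apply div_nonneg <;> nlinarith [sq_nonneg k]

theorem sn_sq (k r : ℝ) : sn k r ^ 2 = 2 * zk k r + k ^ 2 * zk k r ^ 2 := by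
  unfold sn zk
  split_ifs with h
  · simp [h]; ring
  · have := Real.cosh_sq (k * r)
    field_simp
    nlinarith [this]

theorem k_mul_sn (k r : ℝ) : k * sn k r = Real.sinh (k * r) := by
  unfold sn
  split_ifs with h
  · simp [h]
  · field_simp

theorem sn_zero (k : ℝ) : sn k 0 = 0 := by
  unfold sn; split_ifs <;> simp

theorem zk_zero (k : ℝ) : zk k 0 = 0 := by
  unfold zk; split_ifs <;> simp

theorem sn_pos {k r : ℝ} (hk : 0 ≤ k) (hr : 0 < r) : 0 < sn k r := by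
  unfold sn
  split_ifs with h
  · exact hr
  · have hk' : 0 < k := lt_of_le_of_ne hk (Ne.symm h)
    exact div_pos (Real.sinh_pos_iff.2 (by positivity)) hk'

theorem sn_nonneg {k r : ℝ} (hk : 0 ≤ k) (hr : 0 ≤ r) : 0 ≤ sn k r := by
  rcases hr.eq_or_lt with h | h
  · rw [← h, sn_zero]
  · exact (sn_pos hk h).le

theorem sq_le_sinh_sq (y : ℝ) : y ^ 2 ≤ Real.sinh y ^ 2 := by
  rcases le_total 0 y with h | h
  · have := Real.self_le_sinh_iff.2 h
    nlinarith
  · have := Real.sinh_le_self_iff.2 h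
    nlinarith

theorem one_add_half_sq_le_cosh (x : ℝ) : 1 + x ^ 2 / 2 ≤ Real.cosh x := by
  have h1 : Real.cosh x = 2 * Real.sinh (x / 2) ^ 2 + 1 := by
    have h2 := Real.cosh_two_mul (x / 2)
    have h3 := Real.cosh_sq (x / 2)
    have h4 : 2 * (x / 2) = x := by ring
    rw [h4] at h2
    linarith
  have h5 := sq_le_sinh_sq (x / 2)
  nlinarith

/-- `r²/2 ≤ zk k r`. -/
theorem half_sq_le_zk (k r : ℝ) : r ^ 2 / 2 ≤ zk k r := by
  unfold zk
  split_ifs with h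
  · exact le_rfl
  · have := one_add_half_sq_le_cosh (k * r)
    have hk : 0 < k ^ 2 := by positivity
    rw [le_div_iff₀ hk]
    nlinarith

/-- The two-point inequality: comparison of two geodesics issuing from `x`. -/
theorem two_point {k : ℝ} {X : Type u} [MetricSpace X] (C : CATk k X) (hk : 0 ≤ k)
    {x y y' : X} (hr : 0 < dist x y) (hr' : 0 < dist x y') {s s' : ℝ}
    (hs : s ∈ Icc (0 : ℝ) 1) (hs' : s' ∈ Icc (0 : ℝ) 1) {l l' a a' : ℝ}
    (ha : a = (1 - s) * dist x y) (ha' : a' = (1 - s') * dist x y')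
    (hl : l * sn k (dist x y) = sn k a) (hl' : l' * sn k (dist x y') = sn k a') :
    zk k (dist (C.geo y x s) (C.geo y' x s')) ≤
      l * l' * zk k (dist y y') + Bk k (zk k a) (zk k a')
        - l * l' * Bk k (zk k (dist x y)) (zk k (dist x y')) := by
  have hdx : dist x (C.geo y x s) = a := by
    have := C.dist_geo y x s hs 1 ⟨zero_le_one, le_rfl⟩
    rw [C.geo_one, dist_comm, dist_comm y x] at this
    rw [this, ha, abs_sub_comm, abs_of_nonneg (by linarith [hs.2])]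
  have hdx' : dist x (C.geo y' x s') = a' := by
    have := C.dist_geo y' x s' hs' 1 ⟨zero_le_one, le_rfl⟩
    rw [C.geo_one, dist_comm, dist_comm y' x] at this
    rw [this, ha', abs_sub_comm, abs_of_nonneg (by linarith [hs'.2])]
  by_cases hk0 : k = 0
  · subst hk0
    have h1 := C.cat0 (C.geo y' x s') y x s hs
    have h2 := C.cat0 y y' x s' hs'
    have hl1 : l = 1 - s := by
      simp only [sn, if_true] at hl
      rw [ha] at hl
      exact mul_right_cancel₀ hr.ne' hl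
    have hl1' : l' = 1 - s' := by
      simp only [sn, if_true] at hl'
      rw [ha'] at hl'
      exact mul_right_cancel₀ hr'.ne' hl'
    simp only [zk, if_true, Bk]
    rw [dist_comm (C.geo y' x s') (C.geo y x s), dist_comm (C.geo y' x s') y,
      dist_comm (C.geo y' x s') x, hdx', dist_comm y x] at h1
    rw [dist_comm y x, dist_comm y' x] at h2
    subst hl1 hl1' ha ha'
    have hs1 : 0 ≤ 1 - s := by linarith [hs.2]
    have h3 := mul_le_mul_of_nonneg_left h2 hs1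
    nlinarith [h1, h3]
  · have hkpos : 0 < k := lt_of_le_of_ne hk (Ne.symm hk0)
    have h1 := C.catk (C.geo y' x s') y x s hs
    have h2 := C.catk y y' x s' hs'
    rw [dist_comm (C.geo y' x s') (C.geo y x s), dist_comm (C.geo y' x s') y,
      dist_comm (C.geo y' x s') x, hdx', dist_comm y x] at h1
    rw [dist_comm y x, dist_comm y' x] at h2
    set r := dist x y
    set r' := dist x y'
    set δ := dist y y'
    have e1 : (1 - s) * (k * r) = k * a := by rw [ha]; ring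
    have e1' : (1 - s') * (k * r') = k * a' := by rw [ha']; ring
    have e2 : s * (k * r) = k * r - k * a := by rw [ha]; ring
    have e2' : s' * (k * r') = k * r' - k * a' := by rw [ha']; ring
    rw [e1, e2, Real.sinh_sub] at h1
    rw [e1', e2', Real.sinh_sub] at h2
    have hS : 0 < Real.sinh (k * r) := Real.sinh_pos_iff.2 (by positivity)
    have hS' : 0 < Real.sinh (k * r') := Real.sinh_pos_iff.2 (by positivity)
    have hL : Real.sinh (k * a) = l * Real.sinh (k * r) := by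
      rw [← k_mul_sn, ← k_mul_sn, ← hl]; ring
    have hL' : Real.sinh (k * a') = l' * Real.sinh (k * r') := by
      rw [← k_mul_sn, ← k_mul_sn, ← hl']; ring
    have hs1 : 0 ≤ 1 - s := by linarith [hs.2]
    have hann : 0 ≤ a := by rw [ha]; positivity
    have hln : 0 ≤ l := by
      have h5 : 0 ≤ Real.sinh (k * a) := Real.sinh_nonneg_iff.2 (by positivity)
      rw [hL] at h5
      exact nonneg_of_mul_nonneg_left h5 hS
    rw [hL] at h1
    rw [hL'] at h2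
    -- divide by sinh
    have h1' : Real.cosh (k * dist (C.geo y x s) (C.geo y' x s')) ≤
        l * Real.cosh (k * dist y (C.geo y' x s'))
          + (Real.cosh (k * a) - l * Real.cosh (k * r)) * Real.cosh (k * a') := by
      refine le_of_mul_le_mul_left ?_ hS
      nlinarith [h1]
    have h2' : Real.cosh (k * dist y (C.geo y' x s')) ≤
        l' * Real.cosh (k * δ)
          + (Real.cosh (k * a') - l' * Real.cosh (k * r')) * Real.cosh (k * r) := by
      refine le_of_mul_le_mul_left ?_ hS'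
      nlinarith [h2]
    have h3 := mul_le_mul_of_nonneg_left h2' hln
    have h4 : Real.cosh (k * dist (C.geo y x s) (C.geo y' x s')) ≤
        l * l' * Real.cosh (k * δ) + Real.cosh (k * a) * Real.cosh (k * a')
          - l * l' * (Real.cosh (k * r) * Real.cosh (k * r')) := by
      nlinarith [h1', h3]
    have c0 := cs_eq k (dist (C.geo y x s) (C.geo y' x s'))
    have c1 := cs_eq k δ
    have c2 := cs_eq k a
    have c3 := cs_eq k a'
    have c4 := cs_eq k r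
    have c5 := cs_eq k r'
    simp only [cs] at c0 c1 c2 c3 c4 c5
    rw [c0, c1, c2, c3, c4, c5] at h4
    have hk2 : 0 < k ^ 2 := by positivity
    refine le_of_mul_le_mul_left ?_ hk2
    unfold Bk
    linarith [h4]

end Crest.Agent.R241.B9a
end

-- ▼ part R241/B9b
section

/-!
# R241, block B9 (first variation), part b: the contraction map (helper992)

`Hpt C x τ y` is the point of the segment from `y` to `x` whose `zk`-distance to `x` is
`z - τ (2 z + k² z²)`, `z = zk k (dist x y)`.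
-/

set_option autoImplicit false

open Set

universe u

namespace Crest.Agent.R241.B9b

open B9a

/-- `S = sn²` as a function of `z = zk`. -/
def SS (k z : ℝ) : ℝ := 2 * z + k ^ 2 * z ^ 2

/-- squared contraction factor `λ²`. -/
def gg (k τ z : ℝ) : ℝ := 1 - 2 * τ * (1 + k ^ 2 * z) + τ ^ 2 * k ^ 2 * SS k z

/-- contraction factor. -/
noncomputable def lam (k τ z : ℝ) : ℝ := Real.sqrt (gg k τ z)

/-- new value of `zk`. -/
def za (k τ z : ℝ) : ℝ := z - τ * SS k z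

theorem SS_nonneg {k z : ℝ} (hz : 0 ≤ z) : 0 ≤ SS k z := by unfold SS; positivity

theorem gg_eq (k τ z : ℝ) : gg k τ z = (1 - τ * (2 + k ^ 2 * z)) * (1 - τ * (k ^ 2 * z)) := by
  unfold gg SS; ring

theorem SS_za (k τ z : ℝ) : SS k (za k τ z) = gg k τ z * SS k z := by
  unfold gg za SS; ring

theorem za_eq (k τ z : ℝ) : za k τ z = z * (1 - τ * (2 + k ^ 2 * z)) := by
  unfold za SS; ring

theorem gg_nonneg {k τ z : ℝ} (hz : 0 ≤ z) (hτ : 0 ≤ τ) (h : τ * (2 + k ^ 2 * z) ≤ 1) :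
    0 ≤ gg k τ z := by
  rw [gg_eq]
  apply mul_nonneg (by linarith)
  nlinarith

theorem gg_le_one {k τ z : ℝ} (hz : 0 ≤ z) (hτ : 0 ≤ τ) (h : τ * (2 + k ^ 2 * z) ≤ 1) :
    gg k τ z ≤ 1 := by
  rw [gg_eq]
  have h1 : 0 ≤ τ * (k ^ 2 * z) := by positivity
  have h2 : 0 ≤ τ * (2 + k ^ 2 * z) := by positivity
  nlinarith

theorem lam_sq {k τ z : ℝ} (hz : 0 ≤ z) (hτ : 0 ≤ τ) (h : τ * (2 + k ^ 2 * z) ≤ 1) :
    lam k τ z ^ 2 = gg k τ z := Real.sq_sqrt (gg_nonneg hz hτ h)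

theorem lam_nonneg (k τ z : ℝ) : 0 ≤ lam k τ z := Real.sqrt_nonneg _

theorem lam_le_one {k τ z : ℝ} (hz : 0 ≤ z) (hτ : 0 ≤ τ) (h : τ * (2 + k ^ 2 * z) ≤ 1) :
    lam k τ z ≤ 1 := Real.sqrt_le_one.2 (gg_le_one hz hτ h)

theorem za_nonneg {k τ z : ℝ} (hz : 0 ≤ z) (h : τ * (2 + k ^ 2 * z) ≤ 1) : 0 ≤ za k τ z := by
  rw [za_eq]; exact mul_nonneg hz (by linarith)

theorem za_le {k τ z : ℝ} (hz : 0 ≤ z) (hτ : 0 ≤ τ) : za k τ z ≤ z := by
  unfold za; have := SS_nonneg (k := k) hz; nlinarith [mul_nonneg hτ this]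

theorem continuous_zk (k : ℝ) : Continuous (zk k) := by
  unfold zk
  by_cases h : k = 0
  · simp only [h, if_true]; fun_prop
  · simp only [h, if_false]; fun_prop

theorem zk_strictMonoOn {k : ℝ} (hk : 0 ≤ k) : StrictMonoOn (zk k) (Ici 0) := by
  intro r hr r' hr' hlt
  simp only [mem_Ici] at hr hr'
  unfold zk
  split_ifs with h
  · nlinarith
  · have hk' : 0 < k := lt_of_le_of_ne hk (Ne.symm h)
    have : Real.cosh (k * r) < Real.cosh (k * r') := by
      rw [Real.cosh_lt_cosh, abs_of_nonneg (by positivity), abs_of_nonneg (by positivity)]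
      exact mul_lt_mul_of_pos_left hlt hk'
    have hk2 : 0 < k ^ 2 := by positivity
    exact div_lt_div_of_pos_right (by linarith) hk2

theorem exists_pt {k : ℝ} {r τ : ℝ} (hτ : 0 ≤ τ) (h : τ * (2 + k ^ 2 * zk k r) ≤ 1) :
    ∃ s ∈ Icc (0 : ℝ) 1, zk k ((1 - s) * r) = za k τ (zk k r) := by
  have hcont : ContinuousOn (fun s : ℝ => zk k ((1 - s) * r)) (Icc 0 1) :=
    ((continuous_zk k).comp (by fun_prop)).continuousOn
  have h1 := intermediate_value_Icc' zero_le_one hcont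
  have hz := zk_nonneg k r
  have h2 : za k τ (zk k r) ∈ Icc (zk k ((1 - 1) * r)) (zk k ((1 - 0) * r)) := by
    simp only [sub_self, zero_mul, zk_zero, sub_zero, one_mul]
    exact ⟨za_nonneg hz h, za_le hz hτ⟩
  obtain ⟨s, hs, hs'⟩ := h1 h2
  exact ⟨s, hs, hs'⟩

open Classical in
/-- The contraction towards `x`: the point of `[y, x]` at `zk`-distance `z - τ (2 z + k² z²)`
from `x`. -/
noncomputable def Hpt {k : ℝ} {X : Type u} [MetricSpace X] (C : CATk k X) (x : X) (τ : ℝ) (y : X) :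
    X :=
  if h : ∃ s ∈ Icc (0 : ℝ) 1, zk k ((1 - s) * dist x y) = za k τ (zk k (dist x y)) then
    C.geo y x h.choose else y

section

variable {k : ℝ} {X : Type u} [MetricSpace X] (C : CATk k X) {x : X}

theorem Hpt_spec {τ : ℝ} {y : X} (hτ : 0 ≤ τ) (h : τ * (2 + k ^ 2 * zk k (dist x y)) ≤ 1) :
    ∃ s ∈ Icc (0 : ℝ) 1, Hpt C x τ y = C.geo y x s ∧
      zk k ((1 - s) * dist x y) = za k τ (zk k (dist x y)) := by
  have h1 := exists_pt (k := k) (r := dist x y) hτ h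
  refine ⟨h1.choose, h1.choose_spec.1, ?_, h1.choose_spec.2⟩
  unfold Hpt
  rw [dif_pos h1]

theorem Hpt_mem {K : Set X} (hK : C.IsConv K) (hx : x ∈ K) {y : X} (hy : y ∈ K) (τ : ℝ) :
    Hpt C x τ y ∈ K := by
  unfold Hpt
  split_ifs with h
  · exact hK y hy x hx _ h.choose_spec.1
  · exact hy

theorem dist_geo_left {y : X} {s : ℝ} (hs : s ∈ Icc (0 : ℝ) 1) :
    dist x (C.geo y x s) = (1 - s) * dist x y := by
  have := C.dist_geo y x s hs 1 ⟨zero_le_one, le_rfl⟩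
  rw [C.geo_one, dist_comm, dist_comm y x] at this
  rw [this, abs_sub_comm, abs_of_nonneg (by linarith [hs.2])]

theorem zk_dist_Hpt {τ : ℝ} {y : X} (hτ : 0 ≤ τ)
    (h : τ * (2 + k ^ 2 * zk k (dist x y)) ≤ 1) :
    zk k (dist x (Hpt C x τ y)) = za k τ (zk k (dist x y)) := by
  obtain ⟨s, hs, he, hz⟩ := Hpt_spec C hτ h
  rw [he, dist_geo_left C hs, hz]

theorem Hpt_zero (hk : 0 ≤ k) (y : X) : Hpt C x 0 y = y := by
  have h0 : (0 : ℝ) * (2 + k ^ 2 * zk k (dist x y)) ≤ 1 := by simp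
  obtain ⟨s, hs, he, hz⟩ := Hpt_spec C (x := x) (y := y) le_rfl h0
  have h1 : za k 0 (zk k (dist x y)) = zk k (dist x y) := by simp [za]
  rw [h1] at hz
  have h2 : (1 - s) * dist x y = dist x y := by
    apply (zk_strictMonoOn hk).injOn _ _ hz
    · exact mul_nonneg (by linarith [hs.2]) dist_nonneg
    · exact dist_nonneg
  rw [he]
  have h3 := C.dist_geo y x s hs 0 ⟨le_rfl, zero_le_one⟩
  rw [C.geo_zero, sub_zero, abs_of_nonneg hs.1, dist_comm y x] at h3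
  have h4 : s * dist x y = 0 := by linarith
  rw [h4] at h3
  exact dist_eq_zero.1 h3


theorem Hpt_self (τ : ℝ) : Hpt C x τ x = x := by
  unfold Hpt
  split_ifs with h
  · have h1 := dist_geo_left C (x := x) (y := x) h.choose_spec.1
    have h2 : dist x (C.geo x x h.choose) = 0 := by
      rw [h1]; simp
    exact (dist_eq_zero.1 h2).symm
  · rfl

/-- The two-point inequality for the contraction maps. -/
theorem two_point_Hpt (hk : 0 ≤ k) {τ τ' : ℝ} {y y' : X} (hτ : 0 ≤ τ) (hτ' : 0 ≤ τ')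
    (h : τ * (2 + k ^ 2 * zk k (dist x y)) ≤ 1)
    (h' : τ' * (2 + k ^ 2 * zk k (dist x y')) ≤ 1) {z z' l l' : ℝ}
    (hz : z = zk k (dist x y)) (hz' : z' = zk k (dist x y'))
    (hl : l = lam k τ z) (hl' : l' = lam k τ' z') :
    2 * zk k (dist (Hpt C x τ y) (Hpt C x τ' y')) ≤
      2 * (l * l') * zk k (dist y y') + (l - l') * (l * SS k z - l' * SS k z')
        - k ^ 2 * (za k τ z - za k τ' z') ^ 2 + l * l' * (k ^ 2 * (z - z') ^ 2) := by
  have hz0 : 0 ≤ z := by rw [hz]; exact zk_nonneg _ _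
  have hz0' : 0 ≤ z' := by rw [hz']; exact zk_nonneg _ _
  have hl2 : l ^ 2 = gg k τ z := by rw [hl]; rw [hz] at *; exact lam_sq hz0 hτ h
  have hl2' : l' ^ 2 = gg k τ' z' := by rw [hl']; rw [hz'] at *; exact lam_sq hz0' hτ' h'
  have hS := SS_za k τ z
  have hS' := SS_za k τ' z'
  rw [← hl2] at hS
  rw [← hl2'] at hS'
  have hzH := zk_dist_Hpt C hτ h
  have hzH' := zk_dist_Hpt C hτ' h'
  rw [← hz] at hzH
  rw [← hz'] at hzH'
  rcases eq_or_ne y x with hyx | hyx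
  · subst hyx
    rw [Hpt_self, hzH', ← hz']
    have : z = 0 := by rw [hz, dist_self, zk_zero]
    subst this
    simp only [SS, za] at hS' hS ⊢
    nlinarith [hS', hS]
  rcases eq_or_ne y' x with hyx' | hyx'
  · subst hyx'
    rw [Hpt_self, dist_comm, hzH, dist_comm y y', ← hz]
    have : z' = 0 := by rw [hz', dist_self, zk_zero]
    subst this
    simp only [SS, za] at hS' hS ⊢
    nlinarith [hS', hS]
  obtain ⟨s, hs, he, hzs⟩ := Hpt_spec C hτ h
  obtain ⟨s', hs', he', hzs'⟩ := Hpt_spec C hτ' h'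
  have hr : 0 < dist x y := dist_pos.2 (Ne.symm hyx)
  have hr' : 0 < dist x y' := dist_pos.2 (Ne.symm hyx')
  have key : ∀ (τ s r z l : ℝ), 0 ≤ r → s ∈ Icc (0 : ℝ) 1 → 0 ≤ l → z = zk k r →
      zk k ((1 - s) * r) = za k τ z → SS k (za k τ z) = l ^ 2 * SS k z →
      l * sn k r = sn k ((1 - s) * r) := by
    intro τ s r z l hr hs hl hz hzs hS
    have h1 := sn_sq k r
    have h2 := sn_sq k ((1 - s) * r)
    have h3 := sn_nonneg hk hr
    have h4 := sn_nonneg (r := (1 - s) * r) hk (mul_nonneg (by linarith [hs.2]) hr)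
    have h5 : (l * sn k r) ^ 2 = sn k ((1 - s) * r) ^ 2 := by
      rw [mul_pow, h1, h2, hzs, ← hz]
      simp only [SS] at hS
      linarith
    exact (pow_left_inj₀ (by positivity) h4 two_ne_zero).1 h5
  have hlnn : 0 ≤ l := by rw [hl]; exact lam_nonneg _ _ _
  have hlnn' : 0 ≤ l' := by rw [hl']; exact lam_nonneg _ _ _
  rw [← hz] at hzs
  rw [← hz'] at hzs'
  have k1 := key τ s _ z l dist_nonneg hs hlnn hz hzs hS
  have k2 := key τ' s' _ z' l' dist_nonneg hs' hlnn' hz' hzs' hS'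
  have main := two_point C hk hr hr' hs hs' rfl rfl k1 k2
  rw [he, he']
  rw [hzs, hzs', ← hz, ← hz'] at main
  simp only [Bk] at main
  simp only [SS] at hS hS' ⊢
  nlinarith [main, hS, hS']

/-! ### Lipschitz bounds -/

theorem exists_zk_le (k R : ℝ) : ∃ c : ℝ, 0 ≤ c ∧ ∀ r ∈ Icc (0 : ℝ) R, zk k r ≤ c * r ^ 2 := by
  by_cases hk : k = 0
  · refine ⟨1 / 2, by norm_num, fun r _ => ?_⟩
    simp only [zk, hk, if_true]
    linarith
  · obtain ⟨L, hL⟩ := (Real.contDiff_sinh (n := 1)).contDiffOn.exists_lipschitzOnWith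
      (s := Icc (-(|k| * |R| / 2)) (|k| * |R| / 2)) one_ne_zero (convex_Icc _ _) isCompact_Icc
    refine ⟨(L : ℝ) ^ 2 / 2, by positivity, fun r hr => ?_⟩
    have hb : 0 ≤ |k| * |R| / 2 := by positivity
    have h1 : |k * r / 2| ≤ |k| * |R| / 2 := by
      rw [abs_div, abs_mul, abs_two, abs_of_nonneg hr.1]
      have : r ≤ |R| := hr.2.trans (le_abs_self R)
      gcongr
    have h2 := hL.dist_le_mul (k * r / 2) (abs_le.1 h1) 0 ⟨by linarith, hb⟩
    rw [Real.sinh_zero, Real.dist_eq, Real.dist_eq, sub_zero, sub_zero] at h2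
    have h3 : Real.cosh (k * r) = 2 * Real.sinh (k * r / 2) ^ 2 + 1 := by
      have h2 := Real.cosh_two_mul (k * r / 2)
      have h3 := Real.cosh_sq (k * r / 2)
      have h4 : 2 * (k * r / 2) = k * r := by ring
      rw [h4] at h2
      linarith
    have h4 : Real.sinh (k * r / 2) ^ 2 ≤ (L : ℝ) ^ 2 * (k * r / 2) ^ 2 := by
      rw [← sq_abs (Real.sinh _), ← sq_abs (k * r / 2), ← mul_pow]
      exact pow_le_pow_left₀ (abs_nonneg _) h2 2
    simp only [zk, hk, if_false]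
    rw [h3, div_le_iff₀ (by positivity)]
    nlinarith

theorem exists_zk_lip (k R : ℝ) : ∃ c : ℝ, 0 ≤ c ∧ ∀ r ∈ Icc (0 : ℝ) R, ∀ r' ∈ Icc (0 : ℝ) R,
    |zk k r - zk k r'| ≤ c * |r - r'| := by
  have h : ContDiff ℝ 1 (zk k) := by
    unfold zk
    by_cases h : k = 0
    · simp only [h, if_true]; fun_prop
    · simp only [h, if_false]
      have := Real.contDiff_cosh (n := 1)
      fun_prop
  obtain ⟨L, hL⟩ := h.contDiffOn.exists_lipschitzOnWith
      (s := Icc (0 : ℝ) R) one_ne_zero (convex_Icc _ _) isCompact_Icc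
  exact ⟨L, L.2, fun r hr r' hr' => by simpa [Real.dist_eq] using hL.dist_le_mul r hr r' hr'⟩

theorem gg_pos {T Z τ z : ℝ} (hT : 2 * (T * (2 + k ^ 2 * Z)) ≤ 1)
    (hτ : τ ∈ Icc (0 : ℝ) T) (hz : z ∈ Icc (0 : ℝ) Z) : 1 / 4 ≤ gg k τ z := by
  have h1 : τ * (2 + k ^ 2 * z) ≤ T * (2 + k ^ 2 * Z) := by
    have : k ^ 2 * z ≤ k ^ 2 * Z := mul_le_mul_of_nonneg_left hz.2 (sq_nonneg k)
    have h0 : 0 ≤ k ^ 2 * z := mul_nonneg (sq_nonneg k) hz.1
    have hT0 : 0 ≤ T := hτ.1.trans hτ.2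
    have := hτ.2
    gcongr
  have h2 : τ * (k ^ 2 * z) ≤ τ * (2 + k ^ 2 * z) := by nlinarith [hτ.1]
  rw [gg_eq]
  nlinarith

theorem contDiffOn_lam {T Z : ℝ} (hT : 2 * (T * (2 + k ^ 2 * Z)) ≤ 1) :
    ContDiffOn ℝ 1 (fun p : ℝ × ℝ => lam k p.1 p.2) (Icc 0 T ×ˢ Icc 0 Z) := by
  intro p hp
  have h1 := gg_pos hT hp.1 hp.2
  unfold lam
  have h2 : ContDiff ℝ 1 (fun p : ℝ × ℝ => gg k p.1 p.2) := by
    unfold gg SS; fun_prop
  exact (h2.contDiffAt.sqrt (by linarith)).contDiffWithinAt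

theorem exists_lam_lip {T Z : ℝ} (hT : 2 * (T * (2 + k ^ 2 * Z)) ≤ 1) :
    ∃ c : ℝ, 0 ≤ c ∧ ∀ τ ∈ Icc (0 : ℝ) T, ∀ τ' ∈ Icc (0 : ℝ) T, ∀ z ∈ Icc (0 : ℝ) Z,
      ∀ z' ∈ Icc (0 : ℝ) Z, |lam k τ z - lam k τ' z'| ≤ c * (|τ - τ'| + |z - z'|) ∧
        |lam k τ z * SS k z - lam k τ' z' * SS k z'| ≤ c * (|τ - τ'| + |z - z'|) := by
  have hS : ContDiff ℝ 1 (fun p : ℝ × ℝ => SS k p.2) := by unfold SS; fun_prop
  obtain ⟨L, hL⟩ := (contDiffOn_lam (k := k) hT).exists_lipschitzOnWith one_ne_zero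
    ((convex_Icc (0 : ℝ) T).prod (convex_Icc 0 Z)) (isCompact_Icc.prod isCompact_Icc)
  obtain ⟨L', hL'⟩ := ((contDiffOn_lam (k := k) hT).mul hS.contDiffOn).exists_lipschitzOnWith
    one_ne_zero ((convex_Icc (0 : ℝ) T).prod (convex_Icc 0 Z)) (isCompact_Icc.prod isCompact_Icc)
  refine ⟨max L L', (L.2.trans (le_max_left _ _)), fun τ hτ τ' hτ' z hz z' hz' => ?_⟩
  have hd : dist (τ, z) (τ', z') ≤ |τ - τ'| + |z - z'| := by
    rw [Prod.dist_eq, Real.dist_eq, Real.dist_eq]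
    exact max_le (le_add_of_nonneg_right (abs_nonneg _)) (le_add_of_nonneg_left (abs_nonneg _))
  have h1 := hL.dist_le_mul (τ, z) ⟨hτ, hz⟩ (τ', z') ⟨hτ', hz'⟩
  have h2 := hL'.dist_le_mul (τ, z) ⟨hτ, hz⟩ (τ', z') ⟨hτ', hz'⟩
  rw [Real.dist_eq] at h1 h2
  have hnn : 0 ≤ |τ - τ'| + |z - z'| := by positivity
  refine ⟨h1.trans ?_, h2.trans ?_⟩
  · exact mul_le_mul (le_max_left _ _) hd dist_nonneg (L.2.trans (le_max_left _ _))
  · exact mul_le_mul (le_max_right _ _) hd dist_nonneg (L.2.trans (le_max_left _ _))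

/-- Joint Lipschitz bound for the contraction. -/
theorem exists_lip_Hpt (hk : 0 ≤ k) (x : X) {T Z : ℝ}
    (hT : 2 * (T * (2 + k ^ 2 * Z)) ≤ 1) :
    ∃ L : ℝ, 0 ≤ L ∧ ∀ y y' : X, zk k (dist x y) ≤ Z → zk k (dist x y') ≤ Z →
      ∀ τ ∈ Icc (0 : ℝ) T, ∀ τ' ∈ Icc (0 : ℝ) T,
        dist (Hpt C x τ y) (Hpt C x τ' y') ≤ L * (|τ - τ'| + dist y y') := by
  set R : ℝ := Real.sqrt (2 * Z) with hR
  obtain ⟨c1, hc1, h1⟩ := exists_zk_le k (2 * R)
  obtain ⟨c2, hc2, h2⟩ := exists_zk_lip k R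
  obtain ⟨c3, hc3, h3⟩ := exists_lam_lip (k := k) hT
  set M : ℝ := 2 * c1 + c3 ^ 2 * (1 + c2) ^ 2 + k ^ 2 * c2 ^ 2 with hM
  have hM0 : 0 ≤ M := by positivity
  refine ⟨Real.sqrt M, Real.sqrt_nonneg _, fun y y' hy hy' τ hτ τ' hτ' => ?_⟩
  set z := zk k (dist x y) with hz
  set z' := zk k (dist x y') with hz'
  have hz0 : 0 ≤ z := zk_nonneg _ _
  have hz0' : 0 ≤ z' := zk_nonneg _ _
  have hyR : dist x y ≤ R := by
    apply Real.le_sqrt_of_sq_le
    have := half_sq_le_zk k (dist x y)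
    linarith
  have hyR' : dist x y' ≤ R := by
    apply Real.le_sqrt_of_sq_le
    have := half_sq_le_zk k (dist x y')
    linarith
  have hsm : ∀ τ ∈ Icc (0 : ℝ) T, ∀ z ∈ Icc (0 : ℝ) Z, τ * (2 + k ^ 2 * z) ≤ 1 := by
    intro τ hτ z hz
    have h1 : τ * (2 + k ^ 2 * z) ≤ T * (2 + k ^ 2 * Z) := by
      have : k ^ 2 * z ≤ k ^ 2 * Z := mul_le_mul_of_nonneg_left hz.2 (sq_nonneg k)
      have h0 : 0 ≤ k ^ 2 * z := mul_nonneg (sq_nonneg k) hz.1
      have hT0 : 0 ≤ T := hτ.1.trans hτ.2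
      have := hτ.2
      gcongr
    have h0 : 0 ≤ τ * (2 + k ^ 2 * z) :=
      mul_nonneg hτ.1 (by have := mul_nonneg (sq_nonneg k) hz.1; linarith)
    linarith
  have hb := hsm τ hτ z ⟨hz0, hy⟩
  have hb' := hsm τ' hτ' z' ⟨hz0', hy'⟩
  have main := two_point_Hpt C hk hτ.1 hτ'.1 (by rw [← hz]; exact hb) (by rw [← hz']; exact hb')
    hz hz' rfl rfl
  set l := lam k τ z with hl
  set l' := lam k τ' z' with hl'
  have hl0 : 0 ≤ l := lam_nonneg _ _ _
  have hl0' : 0 ≤ l' := lam_nonneg _ _ _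
  have hl1 : l ≤ 1 := lam_le_one hz0 hτ.1 hb
  have hl1' : l' ≤ 1 := lam_le_one hz0' hτ'.1 hb'
  have hdR : dist y y' ≤ 2 * R := by
    have := dist_triangle_left y y' x
    linarith
  have e1 := h1 (dist y y') ⟨dist_nonneg, hdR⟩
  have e2 := h2 (dist x y) ⟨dist_nonneg, hyR⟩ (dist x y') ⟨dist_nonneg, hyR'⟩
  have e2' : |z - z'| ≤ c2 * dist y y' := by
    refine e2.trans (mul_le_mul_of_nonneg_left ?_ hc2)
    have := abs_dist_sub_le y y' x
    rwa [dist_comm y x, dist_comm y' x] at this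
  obtain ⟨e3, e4⟩ := h3 τ hτ τ' hτ' z ⟨hz0, hy⟩ z' ⟨hz0', hy'⟩
  set D := dist y y' with hD
  set δ := |τ - τ'| with hδ
  have hD0 : 0 ≤ D := dist_nonneg
  have hδ0 : 0 ≤ δ := abs_nonneg _
  have e5 : δ + |z - z'| ≤ (1 + c2) * (δ + D) := by
    have : 0 ≤ c2 * δ := mul_nonneg hc2 hδ0
    linarith
  have g3 : D ^ 2 ≤ (δ + D) ^ 2 := pow_le_pow_left₀ hD0 (by linarith) 2
  have e6 : (l - l') * (l * SS k z - l' * SS k z') ≤ c3 ^ 2 * (1 + c2) ^ 2 * (δ + D) ^ 2 := by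
    have f1 : |l - l'| ≤ c3 * ((1 + c2) * (δ + D)) := e3.trans (mul_le_mul_of_nonneg_left e5 hc3)
    have f2 : |l * SS k z - l' * SS k z'| ≤ c3 * ((1 + c2) * (δ + D)) :=
      e4.trans (mul_le_mul_of_nonneg_left e5 hc3)
    calc (l - l') * (l * SS k z - l' * SS k z') ≤ |(l - l') * (l * SS k z - l' * SS k z')| :=
          le_abs_self _
      _ = |l - l'| * |l * SS k z - l' * SS k z'| := abs_mul _ _
      _ ≤ (c3 * ((1 + c2) * (δ + D))) * (c3 * ((1 + c2) * (δ + D))) :=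
          mul_le_mul f1 f2 (abs_nonneg _) (by positivity)
      _ = _ := by ring
  have e7 : 2 * (l * l') * zk k D ≤ 2 * c1 * (δ + D) ^ 2 := by
    have g1 : l * l' ≤ 1 := mul_le_one₀ hl1 hl0' hl1'
    have g0 : 0 ≤ l * l' := mul_nonneg hl0 hl0'
    have g2 : 0 ≤ zk k D := zk_nonneg _ _
    calc 2 * (l * l') * zk k D ≤ 2 * 1 * (c1 * D ^ 2) := by gcongr
      _ ≤ 2 * 1 * (c1 * (δ + D) ^ 2) := by gcongr
      _ = _ := by ring
  have e8 : l * l' * (k ^ 2 * (z - z') ^ 2) ≤ k ^ 2 * c2 ^ 2 * (δ + D) ^ 2 := by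
    have g1 : l * l' ≤ 1 := mul_le_one₀ hl1 hl0' hl1'
    have g0 : 0 ≤ l * l' := mul_nonneg hl0 hl0'
    have g4 : (z - z') ^ 2 ≤ (c2 * D) ^ 2 := by
      rw [← sq_abs (z - z')]
      exact pow_le_pow_left₀ (abs_nonneg _) e2' 2
    calc l * l' * (k ^ 2 * (z - z') ^ 2) ≤ 1 * (k ^ 2 * (c2 * D) ^ 2) := by gcongr
      _ = k ^ 2 * c2 ^ 2 * D ^ 2 := by ring
      _ ≤ _ := by gcongr
  have e9 : 0 ≤ k ^ 2 * (za k τ z - za k τ' z') ^ 2 := by positivity
  have e10 := half_sq_le_zk k (dist (Hpt C x τ y) (Hpt C x τ' y'))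
  have e11 : dist (Hpt C x τ y) (Hpt C x τ' y') ^ 2 ≤ M * (δ + D) ^ 2 := by
    have : M * (δ + D) ^ 2 = 2 * c1 * (δ + D) ^ 2 + c3 ^ 2 * (1 + c2) ^ 2 * (δ + D) ^ 2
        + k ^ 2 * c2 ^ 2 * (δ + D) ^ 2 := by rw [hM]; ring
    rw [this]
    linarith
  calc dist (Hpt C x τ y) (Hpt C x τ' y') ≤ Real.sqrt (M * (δ + D) ^ 2) :=
        Real.le_sqrt_of_sq_le e11
    _ = Real.sqrt M * (δ + D) := by
        rw [Real.sqrt_mul hM0, Real.sqrt_sq (by positivity)]

/-! ### The homotopy -/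

/-- The homotopy `(s, y) ↦ Hpt C x (s f(y)) y`. -/
noncomputable def HH (x : X) (f : X → ℝ) (s : ℝ) (y : X) : X := Hpt C x (s * f y) y

theorem HH_zero (hk : 0 ≤ k) (x : X) (f : X → ℝ) (y : X) : HH C x f 0 y = y := by
  unfold HH; rw [zero_mul]; exact Hpt_zero C hk y

theorem HH_mem {K : Set X} (hK : C.IsConv K) (hx : x ∈ K) {y : X} (hy : y ∈ K) (f : X → ℝ)
    (s : ℝ) : HH C x f s y ∈ K := Hpt_mem C hK hx hy _

theorem HH_of_zero (hk : 0 ≤ k) {f : X → ℝ} {y : X} (hy : f y = 0) (s : ℝ) :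
    HH C x f s y = y := by
  unfold HH; rw [hy, mul_zero]; exact Hpt_zero C hk y

theorem exists_lip_HH (hk : 0 ≤ k) (x : X) {f : X → ℝ} {Lf : NNReal} (hf : LipschitzWith Lf f)
    {M R : ℝ} (hf0 : ∀ y, 0 ≤ f y) (hM : ∀ y, f y ≤ M) (hfR : ∀ y, R < dist x y → f y = 0)
    (hR : 0 ≤ R) {t : ℝ} (ht : 0 ≤ t)
    (htM : 2 * (t * M * (2 + k ^ 2 * zk k (R + 1))) ≤ 1) :
    ∃ L : ℝ, 0 ≤ L ∧ ∀ s ∈ Icc (0 : ℝ) t, ∀ s' ∈ Icc (0 : ℝ) t, ∀ y y' : X,
      dist (HH C x f s y) (HH C x f s' y') ≤ L * (|s - s'| + dist y y') := by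
  obtain ⟨L, hL0, hL⟩ := exists_lip_Hpt C hk x htM
  have hM0 : 0 ≤ M := (hf0 x).trans (hM x)
  have hmem : ∀ s ∈ Icc (0 : ℝ) t, ∀ y, s * f y ∈ Icc (0 : ℝ) (t * M) := fun s hs y =>
    ⟨mul_nonneg hs.1 (hf0 y), mul_le_mul hs.2 (hM y) (hf0 y) ht⟩
  have hball : ∀ y, dist x y ≤ R + 1 → zk k (dist x y) ≤ zk k (R + 1) := fun y hy =>
    (zk_strictMonoOn hk).monotoneOn (mem_Ici.2 dist_nonneg) (mem_Ici.2 (by linarith)) hy
  set N : ℝ := L * (M + t * Lf + 1) + L * (t * M) + 1 with hN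
  have hLf : (0 : ℝ) ≤ Lf := Lf.2
  have hN1 : 0 ≤ L * (M + t * Lf + 1) := by positivity
  have hN2 : 0 ≤ L * (t * M) := by positivity
  have hN0 : 0 ≤ N := by linarith
  -- both points in the big ball
  have A : ∀ s ∈ Icc (0 : ℝ) t, ∀ s' ∈ Icc (0 : ℝ) t, ∀ y y' : X, dist x y ≤ R + 1 →
      dist x y' ≤ R + 1 → dist (HH C x f s y) (HH C x f s' y') ≤ N * (|s - s'| + dist y y') := by
    intro s hs s' hs' y y' hy hy'
    have h1 := hL y y' (hball y hy) (hball y' hy') _ (hmem s hs y) _ (hmem s' hs' y')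
    have h2 : |s * f y - s' * f y'| ≤ M * |s - s'| + t * Lf * dist y y' := by
      have e : s * f y - s' * f y' = (s - s') * f y + s' * (f y - f y') := by ring
      rw [e]
      refine (abs_add_le _ _).trans ?_
      rw [abs_mul, abs_mul, abs_of_nonneg (hf0 y), abs_of_nonneg hs'.1]
      have h3 := hf.dist_le_mul y y'
      rw [Real.dist_eq] at h3
      have h4 : |s - s'| * f y ≤ |s - s'| * M := mul_le_mul_of_nonneg_left (hM y) (abs_nonneg _)
      have h5 : s' * |f y - f y'| ≤ t * (Lf * dist y y') :=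
        mul_le_mul hs'.2 h3 (abs_nonneg _) ht
      linarith
    have hd : 0 ≤ dist y y' := dist_nonneg
    have hs0 : 0 ≤ |s - s'| := abs_nonneg _
    have h6 : |s * f y - s' * f y'| + dist y y' ≤ (M + t * Lf + 1) * (|s - s'| + dist y y') := by
      have : 0 ≤ M * dist y y' := by positivity
      have : 0 ≤ t * Lf * |s - s'| := by positivity
      linarith
    calc _ ≤ L * (|s * f y - s' * f y'| + dist y y') := h1
      _ ≤ L * ((M + t * Lf + 1) * (|s - s'| + dist y y')) := mul_le_mul_of_nonneg_left h6 hL0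
      _ = (L * (M + t * Lf + 1)) * (|s - s'| + dist y y') := by ring
      _ ≤ N * (|s - s'| + dist y y') := by
          apply mul_le_mul_of_nonneg_right _ (by positivity)
          linarith
  -- one point in the small ball, one outside of the big one
  have B : ∀ s ∈ Icc (0 : ℝ) t, ∀ s' ∈ Icc (0 : ℝ) t, ∀ y y' : X, dist x y ≤ R →
      R + 1 < dist x y' → dist (HH C x f s y) (HH C x f s' y') ≤ N * (|s - s'| + dist y y') := by
    intro s hs s' hs' y y' hy hy'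
    rw [HH_of_zero C hk (hfR y' (by linarith))]
    have h0 : s * 0 ∈ Icc (0 : ℝ) (t * M) := by
      rw [mul_zero]; exact ⟨le_rfl, by positivity⟩
    rw [mul_zero] at h0
    have h1 := hL y y (hball y (by linarith)) (hball y (by linarith)) _ (hmem s hs y) 0 h0
    rw [Hpt_zero C hk, dist_self, add_zero, sub_zero, abs_of_nonneg (hmem s hs y).1] at h1
    have h2 : L * (s * f y) ≤ L * (t * M) := mul_le_mul_of_nonneg_left (hmem s hs y).2 hL0
    have h3 : 1 ≤ dist y y' := by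
      have := dist_triangle x y y'
      linarith
    have h4 := dist_triangle (HH C x f s y) y y'
    have h5 : dist (HH C x f s y) y ≤ L * (t * M) := h1.trans h2
    have hs0 : 0 ≤ |s - s'| := abs_nonneg _
    calc dist (HH C x f s y) y' ≤ L * (t * M) + dist y y' := by linarith
      _ ≤ L * (t * M) * dist y y' + dist y y' := by
          have := le_mul_of_one_le_right hN2 h3
          linarith
      _ = (L * (t * M) + 1) * dist y y' := by ring
      _ ≤ N * dist y y' := mul_le_mul_of_nonneg_right (by linarith) dist_nonneg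
      _ ≤ N * (|s - s'| + dist y y') := mul_le_mul_of_nonneg_left (by linarith) hN0
  refine ⟨N, hN0, fun s hs s' hs' y y' => ?_⟩
  rcases le_or_gt (dist x y) (R + 1) with hy | hy
  · rcases le_or_gt (dist x y') (R + 1) with hy' | hy'
    · exact A s hs s' hs' y y' hy hy'
    · rcases le_or_gt (dist x y) R with hyR | hyR
      · exact B s hs s' hs' y y' hyR hy'
      · rw [HH_of_zero C hk (hfR y hyR), HH_of_zero C hk (hfR y' (by linarith))]
        have hs0 : 0 ≤ |s - s'| := abs_nonneg _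
        have : dist y y' ≤ 1 * (|s - s'| + dist y y') := by linarith
        exact this.trans (mul_le_mul_of_nonneg_right (by linarith) (by positivity))
  · rcases le_or_gt (dist x y') R with hyR | hyR
    · have := B s' hs' s hs y' y hyR hy
      rwa [dist_comm, abs_sub_comm, dist_comm y' y] at this
    · rw [HH_of_zero C hk (hfR y (by linarith)), HH_of_zero C hk (hfR y' hyR)]
      have hs0 : 0 ≤ |s - s'| := abs_nonneg _
      have : dist y y' ≤ 1 * (|s - s'| + dist y y') := by linarith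
      exact this.trans (mul_le_mul_of_nonneg_right (by linarith) (by positivity))

end

end Crest.Agent.R241.B9b
end

-- ▼ part R241/B9c

/-!
# R241, block B9 (first variation), part c: the infinitesimal inequality (helper992)
-/

set_option autoImplicit false
set_option linter.unusedSectionVars false

open Set Filter Topology Asymptotics

universe u

namespace Crest.Agent.R241.B9c

open B9a B9b B9

variable {V : Type*} [NormedAddCommGroup V] [NormedSpace ℝ V]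

theorem UB_iff {X : Type*} [PseudoMetricSpace X] {E : Set V} {φ : V → X} {z : V} {q : V → ℝ} :
    UB E φ z q ↔ ∃ r : V → ℝ, r =o[𝓝[E] z] (fun w => ‖w - z‖ ^ 2) ∧
      ∀ᶠ w in 𝓝[E] z, dist (φ w) (φ z) ^ 2 ≤ q (w - z) + r w := by
  constructor
  · intro h
    refine ⟨fun w => max 0 (dist (φ w) (φ z) ^ 2 - q (w - z)), ?_, ?_⟩
    · rw [isLittleO_iff]
      intro c hc
      filter_upwards [h c hc] with w hw
      rw [Real.norm_eq_abs, Real.norm_eq_abs, abs_of_nonneg (le_max_left _ _),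
        abs_of_nonneg (by positivity)]
      exact max_le (by positivity) (by linarith)
    · filter_upwards with w
      have := le_max_right 0 (dist (φ w) (φ z) ^ 2 - q (w - z))
      linarith
  · rintro ⟨r, hr, h⟩ ε hε
    filter_upwards [isLittleO_iff.1 hr hε, h] with w hw hw'
    rw [Real.norm_eq_abs, Real.norm_eq_abs, abs_of_nonneg (sq_nonneg ‖w - z‖)] at hw
    have := (abs_le.1 hw).2
    linarith

theorem isBigO_fderiv (f' : V →L[ℝ] ℝ) (l : Filter V) (z : V) :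
    (fun w => f' (w - z)) =O[l] fun w => ‖w - z‖ :=
  IsBigO.of_bound ‖f'‖ (Eventually.of_forall fun w => by
    rw [norm_norm]; exact f'.le_opNorm _)

theorem isLittleO_of_fderiv {E : Set V} {f : V → ℝ} {f' : V →L[ℝ] ℝ} {z : V}
    (hf : HasFDerivWithinAt f f' E z) :
    (fun w => f w - f z - f' (w - z)) =o[𝓝[E] z] fun w => ‖w - z‖ :=
  (hasFDerivWithinAt_iff_isLittleO.1 hf).norm_right

theorem isBigO_of_fderiv {E : Set V} {f : V → ℝ} {f' : V →L[ℝ] ℝ} {z : V}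
    (hf : HasFDerivWithinAt f f' E z) :
    (fun w => f w - f z) =O[𝓝[E] z] fun w => ‖w - z‖ :=
  hf.isBigO_sub.norm_right

theorem mul_isLittleO {E : Set V} {f g : V → ℝ} {f' g' : V →L[ℝ] ℝ} {z : V}
    (hf : HasFDerivWithinAt f f' E z) (hg : HasFDerivWithinAt g g' E z) :
    (fun w => (f w - f z) * (g w - g z) - f' (w - z) * g' (w - z)) =o[𝓝[E] z]
      fun w => ‖w - z‖ ^ 2 := by
  have h1 := (isLittleO_of_fderiv hf).mul_isBigO (isBigO_of_fderiv hg)
  have h2 := (isBigO_fderiv f' (𝓝[E] z) z).mul_isLittleO (isLittleO_of_fderiv hg)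
  refine (h1.add h2).congr (fun w => by ring) (fun w => by ring)

theorem eventually_le {X : Type*} [PseudoMetricSpace X] {E : Set V} {φ : V → X} {z : V}
    {q : V → ℝ} {B : ℝ} (hB : ∀ v, |q v| ≤ B * ‖v‖ ^ 2) (h : UB E φ z q) :
    ∀ᶠ w in 𝓝[E] z, dist (φ w) (φ z) ^ 2 ≤ (B + 1) * ‖w - z‖ ^ 2 := by
  filter_upwards [h 1 one_pos] with w hw
  have := le_abs_self (q (w - z))
  have := hB (w - z)
  linarith

/-- `2 zk (d) ≤ q + o(|w-z|²)`. -/
theorem zk_upper {X : Type*} [PseudoMetricSpace X] (k : ℝ) {E : Set V} {φ : V → X} {z : V}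
    {q : V → ℝ} {B : ℝ} (hB : ∀ v, |q v| ≤ B * ‖v‖ ^ 2) (h : UB E φ z q) :
    ∃ r : V → ℝ, r =o[𝓝[E] z] (fun w => ‖w - z‖ ^ 2) ∧
      ∀ᶠ w in 𝓝[E] z, 2 * zk k (dist (φ w) (φ z)) ≤ q (w - z) + r w := by
  obtain ⟨r, hr, hr'⟩ := UB_iff.1 h
  have hb := eventually_le hB h
  have ht : Tendsto (fun w : V => ‖w - z‖ ^ 2) (𝓝[E] z) (𝓝 0) := by
    have : Continuous fun w : V => ‖w - z‖ ^ 2 := by fun_prop
    have h1 := this.tendsto z
    simp only [sub_self, norm_zero, ne_eq, OfNat.ofNat_ne_zero, not_false_eq_true,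
      zero_pow] at h1
    exact h1.mono_left nhdsWithin_le_nhds
  refine ⟨fun w => r w + (k ^ 2 * (B + 1) ^ 2 / 2) * (‖w - z‖ ^ 2 * ‖w - z‖ ^ 2), ?_, ?_⟩
  · refine hr.add (IsLittleO.const_mul_left ?_ _)
    have h1 : (fun w : V => ‖w - z‖ ^ 2) =o[𝓝[E] z] (fun _ => (1 : ℝ)) :=
      (isLittleO_one_iff ℝ).2 ht
    have h2 := h1.mul_isBigO (isBigO_refl (fun w : V => ‖w - z‖ ^ 2) (𝓝[E] z))
    simpa using h2
  · have hs : ∀ᶠ w in 𝓝[E] z, k ^ 2 * ((B + 1) * ‖w - z‖ ^ 2) ≤ 2 := by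
      have h3 : Tendsto (fun w : V => k ^ 2 * ((B + 1) * ‖w - z‖ ^ 2)) (𝓝[E] z)
          (𝓝 (k ^ 2 * ((B + 1) * 0))) := (ht.const_mul _).const_mul _
      simp only [mul_zero] at h3
      exact (h3.eventually (gt_mem_nhds two_pos)).mono fun w hw => hw.le
    filter_upwards [hr', hb, hs] with w h1 h2 h3
    have h4 : k ^ 2 * dist (φ w) (φ z) ^ 2 ≤ 2 :=
      (mul_le_mul_of_nonneg_left h2 (sq_nonneg k)).trans h3
    have h5 := Cat2.zk_le_of_small h4
    have h6 : dist (φ w) (φ z) ^ 4 ≤ ((B + 1) * ‖w - z‖ ^ 2) ^ 2 := by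
      have : dist (φ w) (φ z) ^ 4 = (dist (φ w) (φ z) ^ 2) ^ 2 := by ring
      rw [this]
      exact pow_le_pow_left₀ (sq_nonneg _) h2 2
    have h7 : k ^ 2 * dist (φ w) (φ z) ^ 4 ≤ k ^ 2 * ((B + 1) * ‖w - z‖ ^ 2) ^ 2 :=
      mul_le_mul_of_nonneg_left h6 (sq_nonneg k)
    nlinarith [h5, h1, h7]

/-- derivative of `gg`. -/
def ggD (k T Z a b : ℝ) : ℝ :=
  (-2 * (1 + k ^ 2 * Z) + 2 * T * k ^ 2 * SS k Z) * a
    + (-2 * T * k ^ 2 + T ^ 2 * k ^ 2 * (2 * (1 + k ^ 2 * Z))) * b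

/-- derivative of `za`. -/
def zaD (k T Z a b : ℝ) : ℝ := -SS k Z * a + (1 - T * (2 * (1 + k ^ 2 * Z))) * b

/-- The quadratic form of the contracted map; `a = Dτ(v)`, `b = Dz(v)`, `c = q(v)`. -/
noncomputable def QH (k T Z a b c : ℝ) : ℝ :=
  gg k T Z * c + (SS k Z * ggD k T Z a b ^ 2 / (4 * gg k T Z) + ggD k T Z a b * (1 + k ^ 2 * Z) * b)
    - k ^ 2 * zaD k T Z a b ^ 2 + gg k T Z * (k ^ 2 * b ^ 2)

theorem hasFDeriv_SS {E : Set V} {ζ : V → ℝ} {ζ' : V →L[ℝ] ℝ} {z : V} (k : ℝ)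
    (h : HasFDerivWithinAt ζ ζ' E z) :
    HasFDerivWithinAt (fun w => SS k (ζ w)) ((2 * (1 + k ^ 2 * ζ z)) • ζ') E z := by
  have h1 := (h.const_mul 2).add ((h.mul h).const_mul (k ^ 2))
  refine (h1.congr_fderiv ?_).congr_of_eventuallyEq ?_ ?_
  · ext v
    simp only [add_apply, smul_apply, smul_eq_mul, Pi.mul_apply]
    ring
  · filter_upwards with w
    simp only [SS, Pi.add_apply, Pi.mul_apply]; ring
  · simp only [SS, Pi.add_apply, Pi.mul_apply]; ring

theorem hasFDeriv_gg {E : Set V} {τ ζ : V → ℝ} {τ' ζ' : V →L[ℝ] ℝ} {z : V} (k : ℝ)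
    (hτ : HasFDerivWithinAt τ τ' E z) (h : HasFDerivWithinAt ζ ζ' E z) :
    HasFDerivWithinAt (fun w => gg k (τ w) (ζ w))
      ((-2 * (1 + k ^ 2 * ζ z) + 2 * τ z * k ^ 2 * SS k (ζ z)) • τ'
    + (-2 * τ z * k ^ 2 + τ z ^ 2 * k ^ 2 * (2 * (1 + k ^ 2 * ζ z))) • ζ') E z := by
  have hS := hasFDeriv_SS k h
  have h1 := ((hτ.const_mul (-2)).add ((hτ.mul h).const_mul (-2 * k ^ 2))).add
    (((hτ.mul hτ).mul hS).const_mul (k ^ 2))
  have h2 := h1.const_add 1
  refine (h2.congr_fderiv ?_).congr_of_eventuallyEq ?_ ?_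
  · ext v
    simp only [add_apply, smul_apply, smul_eq_mul, Pi.mul_apply]
    ring
  · filter_upwards with w
    simp only [gg, Pi.add_apply, Pi.mul_apply]; ring
  · simp only [gg, Pi.add_apply, Pi.mul_apply]; ring

theorem hasFDeriv_za {E : Set V} {τ ζ : V → ℝ} {τ' ζ' : V →L[ℝ] ℝ} {z : V} (k : ℝ)
    (hτ : HasFDerivWithinAt τ τ' E z) (h : HasFDerivWithinAt ζ ζ' E z) :
    HasFDerivWithinAt (fun w => za k (τ w) (ζ w))
      (-SS k (ζ z) • τ' + (1 - τ z * (2 * (1 + k ^ 2 * ζ z))) • ζ') E z := by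
  have hS := hasFDeriv_SS k h
  have h1 := h.sub (hτ.mul hS)
  refine (h1.congr_fderiv ?_).congr_of_eventuallyEq ?_ ?_
  · ext v
    simp only [add_apply, sub_apply,
      smul_apply, smul_eq_mul, Pi.mul_apply]
    ring
  · filter_upwards with w
    simp only [za, Pi.sub_apply, Pi.mul_apply]
  · simp only [za, Pi.sub_apply, Pi.mul_apply]

theorem ub_Hpt {k : ℝ} (hk : 0 ≤ k) {X : Type u} [MetricSpace X] (C : CATk k X) (x : X)
    {E : Set V} {z₀ : V} {y : V → X} {q : V → ℝ} {B : ℝ} (hB : ∀ v, |q v| ≤ B * ‖v‖ ^ 2)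
    (hy : UB E y z₀ q) {τ ζ : V → ℝ} (hζe : ∀ w, ζ w = zk k (dist x (y w)))
    {τ' ζ' : V →L[ℝ] ℝ} (hτ : HasFDerivWithinAt τ τ' E z₀) (hζ : HasFDerivWithinAt ζ ζ' E z₀)
    (hτ0 : ∀ᶠ w in 𝓝[E] z₀, 0 ≤ τ w) (hτz : 0 ≤ τ z₀)
    (hsm : τ z₀ * (2 + k ^ 2 * ζ z₀) < 1) :
    UB E (fun w => Hpt C x (τ w) (y w)) z₀
      (fun v => QH k (τ z₀) (ζ z₀) (τ' v) (ζ' v) (q v)) := by
  set T := τ z₀ with hT
  set Z := ζ z₀ with hZ
  have hZ0 : 0 ≤ Z := by rw [hZ, hζe]; exact zk_nonneg _ _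
  have hgpos : 0 < gg k T Z := by
    rw [gg_eq]
    have : T * (k ^ 2 * Z) ≤ T * (2 + k ^ 2 * Z) := by nlinarith
    apply mul_pos <;> linarith
  have hlampos : 0 < lam k T Z := Real.sqrt_pos.2 hgpos
  have hlam2 : lam k T Z * lam k T Z = gg k T Z := Real.mul_self_sqrt hgpos.le
  -- derivatives
  have hg := hasFDeriv_gg k hτ hζ
  have hl : HasFDerivWithinAt (fun w => lam k (τ w) (ζ w)) _ E z₀ := hg.sqrt hgpos.ne'
  have hS := hasFDeriv_SS k hζ
  have hlS := hl.mul hS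
  have hza := hasFDeriv_za k hτ hζ
  -- smallness
  have hsmev : ∀ᶠ w in 𝓝[E] z₀, τ w * (2 + k ^ 2 * ζ w) < 1 := by
    have hc : ContinuousWithinAt (fun w => τ w * (2 + k ^ 2 * ζ w)) E z₀ :=
      hτ.continuousWithinAt.mul
        (continuousWithinAt_const.add (continuousWithinAt_const.mul hζ.continuousWithinAt))
    exact hc.eventually (gt_mem_nhds hsm)
  obtain ⟨r, hr, hrle⟩ := zk_upper k hB hy
  have m1 := mul_isLittleO hl hlS
  have m2 := mul_isLittleO hza hza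
  have m3 := mul_isLittleO hζ hζ
  -- the coefficient of q
  have hlt : Tendsto (fun w => lam k (τ w) (ζ w)) (𝓝[E] z₀) (𝓝 (lam k T Z)) :=
    hl.continuousWithinAt
  have hll : (fun w => lam k (τ w) (ζ w) * lam k T Z - gg k T Z) =o[𝓝[E] z₀]
      (fun _ => (1 : ℝ)) := by
    rw [isLittleO_one_iff]
    have := (hlt.mul_const (lam k T Z)).sub_const (gg k T Z)
    rwa [hlam2, sub_self] at this
  have hqO : (fun w => q (w - z₀)) =O[𝓝[E] z₀] fun w => ‖w - z₀‖ ^ 2 :=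
    IsBigO.of_bound B (Eventually.of_forall fun w => by
      rw [Real.norm_eq_abs, Real.norm_eq_abs, abs_of_nonneg (sq_nonneg ‖w - z₀‖)]
      exact hB _)
  have m4 := hll.mul_isBigO hqO
  have hζO : (fun w => k ^ 2 * (ζ w - ζ z₀) ^ 2) =O[𝓝[E] z₀] fun w => ‖w - z₀‖ ^ 2 :=
    ((isBigO_of_fderiv hζ).pow 2).const_mul_left _
  have m5 := hll.mul_isBigO hζO
  have hlb : (fun w => lam k (τ w) (ζ w) * lam k T Z) =O[𝓝[E] z₀] (fun _ => (1 : ℝ)) :=
    ((hlt.mul_const (lam k T Z)).isBigO_one ℝ)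
  have m6 := hlb.mul_isLittleO hr
  rw [UB_iff]
  refine ⟨fun w => (lam k (τ w) (ζ w) * lam k T Z - gg k T Z) * q (w - z₀)
      + (lam k (τ w) (ζ w) * lam k T Z) * r w
      + ((lam k (τ w) (ζ w) - lam k T Z) *
          (lam k (τ w) (ζ w) * SS k (ζ w) - lam k T Z * SS k Z)
        - (SS k Z * ggD k T Z (τ' (w - z₀)) (ζ' (w - z₀)) ^ 2 / (4 * gg k T Z)
          + ggD k T Z (τ' (w - z₀)) (ζ' (w - z₀)) * (1 + k ^ 2 * Z) * ζ' (w - z₀)))
      + (-(k ^ 2)) * ((za k (τ w) (ζ w) - za k T Z) * (za k (τ w) (ζ w) - za k T Z)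
          - zaD k T Z (τ' (w - z₀)) (ζ' (w - z₀)) * zaD k T Z (τ' (w - z₀)) (ζ' (w - z₀)))
      + (lam k (τ w) (ζ w) * lam k T Z - gg k T Z) * (k ^ 2 * (ζ w - ζ z₀) ^ 2)
      + (gg k T Z * k ^ 2) * ((ζ w - ζ z₀) * (ζ w - ζ z₀) - ζ' (w - z₀) * ζ' (w - z₀)),
      ?_, ?_⟩
  · refine ((((?_ : _ =o[𝓝[E] z₀] _).add ?_).add ?_).add ?_).add ?_ |>.add ?_
    · simpa using m4
    · simpa using m6
    · refine m1.congr (fun w => ?_) (fun w => rfl)
      simp only [add_apply, smul_apply, smul_eq_mul, Pi.mul_apply]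
      have e1 : ∀ G : ℝ, (lam k T Z)⁻¹ * (lam k T Z)⁻¹ * G = G / gg k T Z := by
        intro G
        rw [← hlam2]; field_simp
      have e2 : 1 / (2 * √(gg k T Z)) = (lam k T Z)⁻¹ / 2 := by
        rw [lam]; field_simp
      rw [← hT, ← hZ, e2]
      simp only [ggD]
      have e3 : lam k T Z * (lam k T Z)⁻¹ = 1 := mul_inv_cancel₀ hlampos.ne'
      set D := (-2 * (1 + k ^ 2 * Z) + 2 * T * k ^ 2 * SS k Z) * τ' (w - z₀) +
        (-2 * T * k ^ 2 + T ^ 2 * k ^ 2 * (2 * (1 + k ^ 2 * Z))) * ζ' (w - z₀) with hD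
      have e4 : (lam k T Z)⁻¹ / 2 * D * (lam k T Z * (2 * (1 + k ^ 2 * Z) * ζ' (w - z₀))
          + SS k Z * ((lam k T Z)⁻¹ / 2 * D)) =
          SS k Z * D ^ 2 / (4 * gg k T Z) + D * (1 + k ^ 2 * Z) * ζ' (w - z₀) := by
        rw [← hlam2]; field_simp; ring
      rw [e4]
    · refine IsLittleO.const_mul_left ?_ _
      refine m2.congr (fun w => ?_) (fun w => rfl)
      simp only [add_apply, smul_apply, smul_eq_mul, Pi.mul_apply,
        ← hT, ← hZ, zaD]
    · simpa using m5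
    · exact IsLittleO.const_mul_left m3 _
  · filter_upwards [hτ0, hsmev, hrle] with w h1 h2 h3
    have hb : τ w * (2 + k ^ 2 * zk k (dist x (y w))) ≤ 1 := by rw [← hζe]; exact h2.le
    have hb' : T * (2 + k ^ 2 * zk k (dist x (y z₀))) ≤ 1 := by rw [← hζe]; exact hsm.le
    have main := two_point_Hpt C hk h1 hτz hb hb' (hζe w) (hζe z₀) rfl rfl
    have hd := half_sq_le_zk k (dist (Hpt C x (τ w) (y w)) (Hpt C x T (y z₀)))
    have hl0 : 0 ≤ lam k (τ w) (ζ w) * lam k T Z := mul_nonneg (lam_nonneg _ _ _) (lam_nonneg _ _ _)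
    have h4 := mul_le_mul_of_nonneg_left h3 hl0
    rw [← hZ] at main
    simp only [QH]
    linarith [main, hd, h4]

end Crest.Agent.R241.B9c
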