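import Crest.Agent.R241.B8Int
import Crest.Agent.R241.B8LinAlg
import Crest.Agent.R241.B9c
import Crest.Agent.R241.Cat2
import Crest.Agent.R241.Cat3
import Crest.Agent.R241.B10Int
import Crest.Agent.R241.G1c

-- ▼ part R241/B8Cone
section

/-!
# R241, block B8: the cone (owner: helper971)

`ub_cone`: one-point upper metric differential of `(s, z) ↦ geo x (φ z) s`;
`det_cone`: Jacobian bound `s^n r √det G`;
`coneTarget`: `ConeTarget X K m`.
-/

set_option autoImplicit false
set_option linter.unusedSectionVars false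
set_option linter.unusedSimpArgs false

open MeasureTheory Filter Topology Set Asymptotics
open scoped ENNReal NNReal

universe u

namespace Crest.Agent.R241.B8Cone

open Crest.GeometryTopology.MetricCurrent
open Crest.GeometryTopology.Submanifold (Euc)
open Crest.Agent.R241.B8Fubini
open Crest.Agent.R241.B8
open Crest.Agent.R241.B9
open Matrix

/-- the tail as a continuous linear map. -/
noncomputable def tlL (n : ℕ) : Euc (n + 1) →L[ℝ] Euc n :=
  LinearMap.toContinuousLinearMap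
    { toFun := fun w => tl w
      map_add' := fun x y => by ext i; simp [tl]
      map_smul' := fun c x => by ext i; simp [tl] }

theorem tlL_apply {n : ℕ} (w : Euc (n + 1)) : tlL n w = tl w := rfl

/-- the first coordinate as a continuous linear map. -/
noncomputable def hdL (n : ℕ) : Euc (n + 1) →L[ℝ] ℝ :=
  LinearMap.toContinuousLinearMap
    { toFun := fun w => w 0
      map_add' := fun x y => by simp
      map_smul' := fun c x => by simp }

theorem hdL_apply {n : ℕ} (w : Euc (n + 1)) : hdL n w = w 0 := rfl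

theorem norm_tl_le {n : ℕ} (w : Euc (n + 1)) : ‖tl w‖ ≤ ‖w‖ := by
  have := dist_tl_le w 0
  have h0 : tl (0 : Euc (n + 1)) = 0 := by ext i; simp [tl]
  rwa [h0, dist_zero_right, dist_zero_right] at this

theorem tl_sub {n : ℕ} (w w' : Euc (n + 1)) : tl (w - w') = tl w - tl w' := by
  ext i; simp [tl]

theorem tendsto_tl {n : ℕ} {E : Set (Euc n)} {w₀ : Euc (n + 1)} :
    Tendsto tl (𝓝[prodSet E] w₀) (𝓝[E] (tl w₀)) := by
  refine tendsto_nhdsWithin_iff.2 ⟨(continuous_tl.tendsto w₀).mono_left nhdsWithin_le_nhds, ?_⟩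
  filter_upwards [self_mem_nhdsWithin] with w hw
  exact hw.2

/-- **One-point upper metric differential of the cone chart.** -/
theorem ub_cone {X : Type u} [MetricSpace X] {k : ℝ} (C : CATk k X) (x : X) {n : ℕ}
    {E : Set (Euc n)} {φ : Euc n → X} {w₀ : Euc (n + 1)} (hw₀ : w₀ ∈ prodSet E)
    {q : Euc n → ℝ} {B : ℝ} (hB : ∀ v, |q v| ≤ B * ‖v‖ ^ 2) (h : UB E φ (tl w₀) q)
    {ρ' : Euc n →L[ℝ] ℝ} (hρ : HasFDerivWithinAt (fun z => dist x (φ z)) ρ' E (tl w₀)) :
    UB (prodSet E) (fun w => C.geo x (φ (tl w)) (w 0)) w₀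
      (fun v => w₀ 0 ^ 2 * q (tl v) + v 0 * (dist x (φ (tl w₀)) ^ 2 * v 0
        + w₀ 0 * (2 * dist x (φ (tl w₀)) * ρ' (tl v)))) := by
  rw [B9c.UB_iff] at h ⊢
  obtain ⟨r, hr, hr'⟩ := h
  set ρ : Euc (n + 1) → ℝ := fun w => dist x (φ (tl w)) with hρdef
  have hρ1 : HasFDerivWithinAt ρ (ρ'.comp (tlL n)) (prodSet E) w₀ :=
    hρ.comp w₀ (tlL n).hasFDerivWithinAt (fun w hw => hw.2)
  have hs1 : HasFDerivWithinAt (fun w : Euc (n + 1) => w 0) (hdL n) (prodSet E) w₀ :=
    (hdL n).hasFDerivWithinAt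
  -- the product s ρ²
  have hf : HasFDerivWithinAt (fun w : Euc (n + 1) => w 0 * (ρ w * ρ w))
      ((w₀ 0) • (ρ w₀ • (ρ'.comp (tlL n)) + ρ w₀ • (ρ'.comp (tlL n))) + (ρ w₀ * ρ w₀) • (hdL n))
      (prodSet E) w₀ := hs1.mul (hρ1.mul hρ1)
  have h1 := B9c.mul_isLittleO hs1 hf
  -- the remainder terms
  set r1 : Euc (n + 1) → ℝ := fun w => (w 0 - w₀ 0) * (w 0 * (ρ w * ρ w) - w₀ 0 * (ρ w₀ * ρ w₀))
    - hdL n (w - w₀) * ((w₀ 0) • (ρ w₀ • (ρ'.comp (tlL n)) + ρ w₀ • (ρ'.comp (tlL n)))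
      + (ρ w₀ * ρ w₀) • (hdL n)) (w - w₀) with hr1
  set r2 : Euc (n + 1) → ℝ := fun w => (w 0 - w₀ 0) * w₀ 0 * q (tl (w - w₀)) with hr2
  set r3 : Euc (n + 1) → ℝ := fun w => |r (tl w)| with hr3
  have hO2 : r2 =o[𝓝[prodSet E] w₀] fun w => ‖w - w₀‖ ^ 2 := by
    have ha : (fun w : Euc (n + 1) => (w 0 - w₀ 0) * w₀ 0) =o[𝓝[prodSet E] w₀]
        fun _ => (1 : ℝ) := by
      rw [isLittleO_one_iff]
      have : Tendsto (fun w : Euc (n + 1) => (w 0 - w₀ 0) * w₀ 0) (𝓝 w₀)
          (𝓝 ((w₀ 0 - w₀ 0) * w₀ 0)) :=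
        (by fun_prop : Continuous fun w : Euc (n + 1) => (w 0 - w₀ 0) * w₀ 0).tendsto w₀
      rw [sub_self, zero_mul] at this
      exact this.mono_left nhdsWithin_le_nhds
    have hb : (fun w : Euc (n + 1) => q (tl (w - w₀))) =O[𝓝[prodSet E] w₀]
        fun w => ‖w - w₀‖ ^ 2 := by
      refine IsBigO.of_bound |B| (Eventually.of_forall fun w => ?_)
      rw [Real.norm_eq_abs, norm_pow, norm_norm]
      refine (hB _).trans ?_
      have h1 := norm_tl_le (w - w₀)
      have h2 : ‖tl (w - w₀)‖ ^ 2 ≤ ‖w - w₀‖ ^ 2 := pow_le_pow_left₀ (norm_nonneg _) h1 2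
      exact mul_le_mul (le_abs_self B) h2 (by positivity) (abs_nonneg _)
    refine (ha.mul_isBigO hb).congr (fun w => rfl) (fun w => by ring)
  have hO3 : r3 =o[𝓝[prodSet E] w₀] fun w => ‖w - w₀‖ ^ 2 := by
    have h3 : (fun w => r (tl w)) =o[𝓝[prodSet E] w₀] fun w => ‖tl w - tl w₀‖ ^ 2 :=
      hr.comp_tendsto tendsto_tl
    have h4 : (fun w => ‖tl w - tl w₀‖ ^ 2) =O[𝓝[prodSet E] w₀] fun w => ‖w - w₀‖ ^ 2 := by
      refine IsBigO.of_bound 1 (Eventually.of_forall fun w => ?_)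
      rw [norm_pow, norm_norm, norm_pow, norm_norm, one_mul, ← tl_sub]
      exact pow_le_pow_left₀ (norm_nonneg _) (norm_tl_le _) 2
    exact (h3.trans_isBigO h4).abs_left
  refine ⟨fun w => r1 w + r2 w + r3 w, (h1.add hO2).add hO3, ?_⟩
  have hev := tendsto_tl.eventually hr'
  filter_upwards [self_mem_nhdsWithin, hev] with w hw hw2
  have h5 := Cat1.two_point C x (φ (tl w)) (φ (tl w₀)) hw.1 hw₀.1
  refine h5.trans ?_
  have h6 : w 0 * w₀ 0 * dist (φ (tl w)) (φ (tl w₀)) ^ 2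
      ≤ w 0 * w₀ 0 * q (tl w - tl w₀) + r3 w := by
    have ha : 0 ≤ w 0 * w₀ 0 := mul_nonneg hw.1.1 hw₀.1.1
    have hb : w 0 * w₀ 0 ≤ 1 := mul_le_one₀ hw.1.2 hw₀.1.1 hw₀.1.2
    have hc : dist (φ (tl w)) (φ (tl w₀)) ^ 2 ≤ q (tl w - tl w₀) + |r (tl w)| :=
      hw2.trans (by linarith [le_abs_self (r (tl w))])
    calc w 0 * w₀ 0 * dist (φ (tl w)) (φ (tl w₀)) ^ 2
        ≤ w 0 * w₀ 0 * (q (tl w - tl w₀) + |r (tl w)|) := mul_le_mul_of_nonneg_left hc ha
      _ = w 0 * w₀ 0 * q (tl w - tl w₀) + w 0 * w₀ 0 * |r (tl w)| := by ring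
      _ ≤ w 0 * w₀ 0 * q (tl w - tl w₀) + 1 * |r (tl w)| := by
          gcongr
      _ = _ := by rw [one_mul]
  have h7 : (w 0 - w₀ 0) * (w 0 * dist x (φ (tl w)) ^ 2 - w₀ 0 * dist x (φ (tl w₀)) ^ 2)
      = r1 w + hdL n (w - w₀) * ((w₀ 0) • (ρ w₀ • (ρ'.comp (tlL n)) + ρ w₀ • (ρ'.comp (tlL n)))
      + (ρ w₀ * ρ w₀) • (hdL n)) (w - w₀) := by
    simp only [hr1, hρdef]; ring
  rw [h7]
  have h8 : hdL n (w - w₀) * ((w₀ 0) • (ρ w₀ • (ρ'.comp (tlL n)) + ρ w₀ • (ρ'.comp (tlL n)))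
      + (ρ w₀ * ρ w₀) • (hdL n)) (w - w₀)
      = (w - w₀) 0 * (dist x (φ (tl w₀)) ^ 2 * (w - w₀) 0
        + w₀ 0 * (2 * dist x (φ (tl w₀)) * ρ' (tl (w - w₀)))) := by
    simp only [_root_.add_apply, _root_.smul_apply,
      ContinuousLinearMap.comp_apply, hdL_apply, tlL_apply, smul_eq_mul, hρdef]
    ring
  rw [h8]
  have h9 : w 0 * w₀ 0 * q (tl w - tl w₀) = w₀ 0 ^ 2 * q (tl (w - w₀)) + r2 w := by
    simp only [hr2, tl_sub]; ring
  linarith [h6, h9.le]

end Crest.Agent.R241.B8Cone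
end

-- ▼ part R241/B8Cone2
section

/-!
# R241, block B8: the cone, determinant bound and integration (owner: helper971)
-/

set_option autoImplicit false
set_option linter.unusedSectionVars false
set_option linter.unusedSimpArgs false

open MeasureTheory Filter Topology Set Asymptotics
open scoped ENNReal NNReal

universe u

namespace Crest.Agent.R241.B8Cone

open Crest.GeometryTopology.MetricCurrent
open Crest.GeometryTopology.Submanifold (Euc)
open Crest.Agent.R241.B8Fubini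
open Crest.Agent.R241.B8
open Crest.Agent.R241.B9
open Matrix

/-- **Jacobian bound for the cone**: if all rows of `R` are dominated by the quadratic form of
`ub_cone`, then `|det R| ≤ s^n r √det G`. -/
theorem det_cone {n : ℕ} {G : Matrix (Fin n) (Fin n) ℝ} (hG : G.PosSemidef) (hdet : G.det ≠ 0)
    {s ρ r : ℝ} (hs : 0 < s) (hρ0 : 0 ≤ ρ) (hρr : ρ ≤ r) (ρ' : Euc n →L[ℝ] ℝ)
    (R : Matrix (Fin (n + 1)) (Fin (n + 1)) ℝ)
    (h : ∀ a (v : Fin (n + 1) → ℝ), (R a ⬝ᵥ v) ^ 2 ≤
      s ^ 2 * qf G (tl (WithLp.toLp 2 v)) + (WithLp.toLp 2 v : Euc (n + 1)) 0 *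
        (ρ ^ 2 * (WithLp.toLp 2 v : Euc (n + 1)) 0
          + s * (2 * ρ * ρ' (tl (WithLp.toLp 2 v))))) :
    |R.det| ≤ s ^ n * r * √G.det := by
  have hG' : (s ^ 2 • G).PosSemidef := hG.smul (by positivity)
  have hdet' : (s ^ 2 • G).det ≠ 0 := by
    rw [Matrix.det_smul]
    exact mul_ne_zero (by positivity) hdet
  set b : Fin n → ℝ := fun j => s * ρ * ρ' (EuclideanSpace.single j 1) with hb
  have hlin : ∀ v : Fin (n + 1) → ℝ, ρ' (tl (WithLp.toLp 2 v)) =
      ∑ j, v j.succ * ρ' (EuclideanSpace.single j 1) := by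
    intro v
    have e : (tl (WithLp.toLp 2 v) : Euc n) = ∑ j, v j.succ • EuclideanSpace.single j (1 : ℝ) := by
      ext i
      simp [tl, Finset.sum_apply, Pi.single_apply]
    rw [e, map_sum]
    exact Finset.sum_congr rfl fun j _ => by rw [map_smul, smul_eq_mul]
  have hkey := B8LinAlg.abs_det_le_of_bordered R (ρ ^ 2) b (s ^ 2 • G) hG' hdet' (fun a v => by
    refine (h a v).trans (le_of_eq ?_)
    have e1 : qf G (tl (WithLp.toLp 2 v)) = Fin.tail v ⬝ᵥ (G *ᵥ Fin.tail v) := rfl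
    have e2 : (WithLp.toLp 2 v : Euc (n + 1)) 0 = v 0 := rfl
    have e3 : b ⬝ᵥ Fin.tail v = s * ρ * ρ' (tl (WithLp.toLp 2 v)) := by
      rw [hlin, Finset.mul_sum, dotProduct]
      exact Finset.sum_congr rfl fun j _ => by simp only [hb, Fin.tail]; ring
    rw [e1, e2, e3, Matrix.smul_mulVec, dotProduct_smul, smul_eq_mul]
    ring)
  have hinv : 0 ≤ b ⬝ᵥ ((s ^ 2 • G)⁻¹ *ᵥ b) := by
    have := hG'.inv.dotProduct_mulVec_nonneg b
    simpa using this
  have h1 : √(ρ ^ 2 - b ⬝ᵥ ((s ^ 2 • G)⁻¹ *ᵥ b)) ≤ r := by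
    refine (Real.sqrt_le_sqrt (by linarith : _ ≤ ρ ^ 2)).trans ?_
    rw [Real.sqrt_sq hρ0]
    exact hρr
  have h2 : √(s ^ 2 • G).det = s ^ n * √G.det := by
    rw [Matrix.det_smul, Fintype.card_fin, Real.sqrt_mul (by positivity), ← pow_mul, mul_comm 2 n,
      pow_mul, Real.sqrt_sq (by positivity)]
  calc |R.det| ≤ √(s ^ 2 • G).det * √(ρ ^ 2 - b ⬝ᵥ ((s ^ 2 • G)⁻¹ *ᵥ b)) := hkey
    _ ≤ √(s ^ 2 • G).det * r := by gcongr
    _ = s ^ n * r * √G.det := by rw [h2]; ring

end Crest.Agent.R241.B8Cone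
end

-- ▼ part R241/B8Cone3

/-!
# R241, block B8: the cone, boundary and support (owner: helper971)
-/

set_option autoImplicit false
set_option linter.unusedSectionVars false
set_option linter.unusedSimpArgs false

open MeasureTheory Filter Topology Set Asymptotics
open scoped ENNReal NNReal

universe u

namespace Crest.Agent.R241.B8Cone

open Crest.GeometryTopology.MetricCurrent
open Crest.GeometryTopology.Submanifold (Euc)
open Crest.Agent.R241.B8Fubini
open Crest.Agent.R241.B8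
open Crest.Agent.R241.B9
open Crest.Agent.R241.G1 (BL LipT isTestPair_iff ext_eq ext_sub_coord)
open Crest.Agent.R241.B1c1 (push push_apply push_of_not isTestPair_comp)

variable {X : Type u} [MetricSpace X] [MeasurableSpace X] [BorelSpace X] {n : ℕ}

theorem sub_coord {T : Functional X n} (hT : IsCurrent T) {f : X → ℝ} (hf : BL f)
    {π : Fin n → X → ℝ} (hπ : LipT π) (i : Fin n) {g h : X → ℝ}
    (hg : ∃ K : ℝ≥0, LipschitzWith K g) (hh : ∃ K : ℝ≥0, LipschitzWith K h) :
    T f (Function.update π i (g - h)) =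
      T f (Function.update π i g) - T f (Function.update π i h) := by
  have hgh : ∃ K : ℝ≥0, LipschitzWith K (g - h) := by
    obtain ⟨K, hK⟩ := hg
    obtain ⟨K', hK'⟩ := hh
    exact ⟨_, hK.sub hK'⟩
  rw [← ext_eq hT (hπ.update i hgh) hf, ← ext_eq hT (hπ.update i hg) hf,
    ← ext_eq hT (hπ.update i hh) hf]
  exact ext_sub_coord hT hf.bm hπ i hg hh

/-- A current supported in `K` only sees the values on `K` of the test pair. -/
theorem congr_supp {T : Functional X n} (hT : IsCurrent T) {K : Set X} (hK : IsSupportedIn K T)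
    {f g : X → ℝ} {π σ : Fin n → X → ℝ} (hfπ : IsTestPair f π) (hgσ : IsTestPair g σ)
    (hfg : ∀ x ∈ K, f x = g x) (h : ∀ i, ∀ x ∈ K, π i x = σ i x) : T f π = T g σ := by
  classical
  obtain ⟨hf, hπ⟩ := isTestPair_iff.1 hfπ
  obtain ⟨hg, hσ⟩ := isTestPair_iff.1 hgσ
  rw [B10.eq_of_eqOn hT hK hfπ (hg.isTestPair hπ) hfg]
  have key : ∀ s : Finset (Fin n), T g (fun i => if i ∈ s then σ i else π i) = T g π := by
    intro s
    induction s using Finset.induction_on with
    | empty => simp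
    | insert a s ha ih =>
      set τ : Fin n → X → ℝ := fun i => if i ∈ s then σ i else π i with hτ
      have hτL : LipT τ := by
        intro i
        by_cases hi : i ∈ s
        · simpa [hτ, hi] using hσ i
        · simpa [hτ, hi] using hπ i
      have h1 : (fun i => if i ∈ insert a s then σ i else π i) = Function.update τ a (σ a) := by
        funext i
        by_cases hi : i = a
        · subst hi; simp
        · simp [hτ, hi]
      have h2 : τ = Function.update τ a (π a) := by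
        funext i
        by_cases hi : i = a
        · subst hi; simp [hτ, ha]
        · simp [hi]
      have h3 := sub_coord hT hg hτL a (hσ a) (hπ a)
      have hsub : ∃ K : ℝ≥0, LipschitzWith K (σ a - π a) := by
        obtain ⟨K, hK⟩ := hσ a
        obtain ⟨K', hK'⟩ := hπ a
        exact ⟨_, hK.sub hK'⟩
      have h4 : T g (Function.update τ a (σ a - π a)) = 0 := by
        refine B10.eq_zero_of_eqOn_support hT hK (hg.isTestPair (hτL.update a hsub)) a ?_
        intro x hx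
        simp [h a x hx]
      rw [h4, ← h2] at h3
      rw [h1, ← ih]
      linarith
  have := key Finset.univ
  simpa using this.symm

/-- A Lipschitz map which is the identity on the support does not change the current. -/
theorem push_eq_self {T : Functional X n} (hT : IsCurrent T) {K : Set X}
    (hK : IsSupportedIn K T) {F : X → X} {L : ℝ≥0} (hF : LipschitzWith L F)
    (h : ∀ x ∈ K, F x = x) : push F T = T := by
  funext f π
  by_cases hf : IsTestPair f π
  · rw [push_apply hf]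
    exact congr_supp hT hK (isTestPair_comp hF hf) hf (fun x hx => by rw [h x hx])
      fun i x hx => by rw [h x hx]
  · rw [push_of_not hf, hT.eq_zero_of_not_test _ _ hf]

theorem push_const {T : Functional X (n + 1)} (hT : IsCurrent T) (x : X) :
    push (fun _ : X => x) T = 0 := by
  funext f π
  by_cases hf : IsTestPair f π
  · rw [push_apply hf]
    refine hT.locality _ _ (isTestPair_comp (LipschitzWith.const x) hf)
      ⟨0, univ, π 0 x, isOpen_univ, subset_univ _, fun _ _ => rfl⟩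
  · rw [push_of_not hf]; rfl

end Crest.Agent.R241.B8Cone
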