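import Crest.Agent.R241.D1
import Crest.Agent.R241.DDefs

-- ▼ part R241/D1b
section

/-!
R241, block D1b: smooth ambient extension `Pt` of the orthogonal projection onto the tangent space,
second fundamental form.
-/

set_option autoImplicit false

open Set Filter Topology
open scoped ContDiff RealInnerProductSpace
open Crest.GeometryTopology.Submanifold

noncomputable section

namespace Crest.Agent.R241.D

section Linear

variable {n N : ℕ}

/-- The adjoint as a real-linear continuous map. -/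
def adjL : (Euc n →L[ℝ] Euc N) →L[ℝ] (Euc N →L[ℝ] Euc n) where
  toFun := fun A => ContinuousLinearMap.adjoint A
  map_add' := fun A B => map_add _ A B
  map_smul' := fun c A => by simp
  cont := ContinuousLinearMap.adjoint.continuous

/-- Left pseudo-inverse `(AᵀA)⁻¹Aᵀ`. -/
def pinv (A : Euc n →L[ℝ] Euc N) : Euc N →L[ℝ] Euc n :=
  (ContinuousLinearMap.adjoint A ∘L A).inverse ∘L ContinuousLinearMap.adjoint A

theorem isInvertible_gram {A : Euc n →L[ℝ] Euc N} (hA : Function.Injective A) :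
    (ContinuousLinearMap.adjoint A ∘L A).IsInvertible := by
  have hinj : Function.Injective ((ContinuousLinearMap.adjoint A ∘L A : Euc n →L[ℝ] Euc n) :
      Euc n →ₗ[ℝ] Euc n) := by
    rw [← LinearMap.ker_eq_bot, LinearMap.ker_eq_bot']
    intro v hv
    have h1 : ⟪A v, A v⟫ = 0 := by
      have h2 : ContinuousLinearMap.adjoint A (A v) = 0 := hv
      rw [← ContinuousLinearMap.adjoint_inner_right, h2, inner_zero_right]
    rw [inner_self_eq_zero] at h1
    exact hA (by rw [h1, map_zero])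
  let L := LinearEquiv.ofInjectiveEndo _ hinj
  refine ⟨L.toContinuousLinearEquiv, ?_⟩
  ext1 v
  rfl



theorem comp_pinv {A : Euc n →L[ℝ] Euc N} (hA : Function.Injective A) :
    A ∘L pinv A = (LinearMap.range (A : Euc n →ₗ[ℝ] Euc N)).starProjection := by
  ext1 v
  symm
  apply Submodule.eq_starProjection_of_mem_of_inner_eq_zero
  · exact ⟨pinv A v, rfl⟩
  · rintro _ ⟨w, rfl⟩
    have h := isInvertible_gram hA
    have h1 : ContinuousLinearMap.adjoint A (v - A (pinv A v)) = 0 := by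
      rw [map_sub]
      have h2 : ContinuousLinearMap.adjoint A (A (pinv A v)) = ContinuousLinearMap.adjoint A v := by
        have h3 := congrArg (fun L => L (ContinuousLinearMap.adjoint A v)) h.self_comp_inverse
        simpa [pinv] using h3
      rw [h2, sub_self]
    have h4 : ⟪v - A (pinv A v), A w⟫ = 0 := by
      rw [← ContinuousLinearMap.adjoint_inner_left, h1, inner_zero_left]
    simpa using h4

theorem contDiffAt_pinv {A : Euc n →L[ℝ] Euc N} (hA : Function.Injective A) :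
    ContDiffAt ℝ ∞ (pinv (n := n) (N := N)) A := by
  have h := isInvertible_gram hA
  have hadj : ContDiff ℝ ∞ (fun A : Euc n →L[ℝ] Euc N => ContinuousLinearMap.adjoint A) :=
    (adjL (n := n) (N := N)).contDiff
  have h1 : ContDiffAt ℝ ∞ (fun A : Euc n →L[ℝ] Euc N => ContinuousLinearMap.adjoint A ∘L A) A :=
    (hadj.clm_comp contDiff_id).contDiffAt
  have h2 : ContDiffAt ℝ ∞ (fun A : Euc n →L[ℝ] Euc N =>
      (ContinuousLinearMap.adjoint A ∘L A).inverse) A :=
    ContDiffAt.comp (g := ContinuousLinearMap.inverse)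
      (f := fun A : Euc n →L[ℝ] Euc N => ContinuousLinearMap.adjoint A ∘L A) A
      h.contDiffAt_map_inverse h1
  exact h2.clm_comp hadj.contDiffAt

end Linear

variable {n N : ℕ} {S : Set (Euc N)} {p : Euc N} {f : Euc n → Euc N} {V : Set (Euc n)}

theorem exists_local_Pt (hS : IsSubmanifold n N S) {p : Euc N} (hp : p ∈ S) :
    ∃ O : Set (Euc N), IsOpen O ∧ p ∈ O ∧ ∃ P : Euc N → Euc N →L[ℝ] Euc N,
      ContDiffOn ℝ ∞ P O ∧ ∀ q ∈ O, q ∈ S → P q = (Tan S q).starProjection := by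
  obtain ⟨f, V, hf⟩ := hS p hp
  obtain ⟨O, ℓ, hO, hxO, hℓ, hℓV, hℓx, hℓS⟩ := exists_coord hf hf.zero_mem
  rw [hf.map_zero] at hxO
  refine ⟨O, hO, hxO, fun q => (fderiv ℝ f (ℓ q)) ∘L pinv (fderiv ℝ f (ℓ q)), ?_, ?_⟩
  · have h1 : ContDiffOn ℝ ∞ (fderiv ℝ f) V := hf.contDiffOn.fderiv_of_isOpen hf.isOpen (by simp)
    have h2 : ContDiffOn ℝ ∞ (fun q => fderiv ℝ f (ℓ q)) O := h1.comp hℓ hℓV
    have h3 : ContDiffOn ℝ ∞ (fun q => pinv (fderiv ℝ f (ℓ q))) O := by
      intro q hq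
      exact (contDiffAt_pinv (hf.injective_fderiv _ (hℓV q hq))).comp_contDiffWithinAt q (h2 q hq)
    exact h2.clm_comp h3
  · intro q hq hqS
    change fderiv ℝ f (ℓ q) ∘L pinv (fderiv ℝ f (ℓ q)) = _
    rw [comp_pinv (hf.injective_fderiv _ (hℓV q hq))]
    have := range_fderiv_eq_Tan hf (hℓV q hq)
    rw [hℓS q hq hqS] at this
    simp only [this]

theorem exists_Pt (hS : IsSubmanifold n N S) (hcl : IsClosed S) :
    ∃ P : Euc N → Euc N →L[ℝ] Euc N, ContDiff ℝ ∞ P ∧
      ∀ q ∈ S, P q = (Tan S q).starProjection := by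
  have ht : ∀ q : Euc N, Convex ℝ {L : Euc N →L[ℝ] Euc N | q ∈ S → L = (Tan S q).starProjection} := by
    intro q
    by_cases hq : q ∈ S
    · have : {L : Euc N →L[ℝ] Euc N | q ∈ S → L = (Tan S q).starProjection} =
        {(Tan S q).starProjection} := by
        ext L; simp [hq]
      rw [this]; exact convex_singleton _
    · have : {L : Euc N →L[ℝ] Euc N | q ∈ S → L = (Tan S q).starProjection} = univ := by
        ext L; simp [hq]
      rw [this]; exact convex_univ
  obtain ⟨g, hg⟩ := exists_contMDiffMap_forall_mem_convex_of_local (n := (⊤ : ℕ∞))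
    (modelWithCornersSelf ℝ (Euc N)) ht (by
      intro x
      by_cases hx : x ∈ S
      · obtain ⟨O, hO, hxO, P, hP, hPS⟩ := exists_local_Pt hS hx
        exact ⟨O, hO.mem_nhds hxO, P, hP.contMDiffOn, hPS⟩
      · exact ⟨Sᶜ, hcl.isOpen_compl.mem_nhds hx, fun _ => 0, contMDiffOn_const,
          fun y hy h => absurd h hy⟩)
  exact ⟨g, g.contMDiff.contDiff, fun q hq => hg q hq⟩

/-- `P` is a smooth ambient extension of the orthogonal projections onto the tangent spaces. -/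
structure IsProj (S : Set (Euc N)) (P : Euc N → Euc N →L[ℝ] Euc N) : Prop where
  smooth : ContDiff ℝ ∞ P
  eq : ∀ q ∈ S, P q = (Tan S q).starProjection

theorem exists_isProj (hS : IsSubmanifold n N S) (hcl : IsClosed S) :
    ∃ P : Euc N → Euc N →L[ℝ] Euc N, IsProj S P := by
  obtain ⟨P, h1, h2⟩ := exists_Pt hS hcl
  exact ⟨P, h1, h2⟩

variable {P : Euc N → Euc N →L[ℝ] Euc N}

/-- The second fundamental form (for tangent `X`, `Y`). -/
def II (P : Euc N → Euc N →L[ℝ] Euc N) (q X Y : Euc N) : Euc N := fderiv ℝ P q X Y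


namespace IsProj

theorem hasFDerivAt (hP : IsProj S P) (q : Euc N) : HasFDerivAt P (fderiv ℝ P q) q :=
  (hP.smooth.contDiffAt.differentiableAt (by simp)).hasFDerivAt

theorem hasDerivAt_comp (hP : IsProj S P) {γ : ℝ → Euc N} {v : Euc N} {t : ℝ}
    (h : HasDerivAt γ v t) : HasDerivAt (fun s => P (γ s)) (fderiv ℝ P (γ t) v) t :=
  (hP.hasFDerivAt (γ t)).comp_hasDerivAt t h

theorem apply_eq_self_iff (hP : IsProj S P) {q : Euc N} (hq : q ∈ S) {v : Euc N} :
    P q v = v ↔ v ∈ Tan S q := by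
  rw [hP.eq q hq, Submodule.starProjection_eq_self_iff]

theorem apply_self (hP : IsProj S P) {q : Euc N} (hq : q ∈ S) {v : Euc N} (hv : v ∈ Tan S q) :
    P q v = v := (hP.apply_eq_self_iff hq).2 hv

theorem apply_mem (hP : IsProj S P) {q : Euc N} (hq : q ∈ S) (v : Euc N) :
    P q v ∈ Tan S q := by
  rw [hP.eq q hq]
  exact Submodule.starProjection_apply_mem _ _

theorem idem (hP : IsProj S P) {q : Euc N} (hq : q ∈ S) (v : Euc N) :
    P q (P q v) = P q v := hP.apply_self hq (hP.apply_mem hq v)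

theorem symm (hP : IsProj S P) {q : Euc N} (hq : q ∈ S) (v w : Euc N) :
    ⟪P q v, w⟫ = ⟪v, P q w⟫ := by
  rw [hP.eq q hq]
  exact Submodule.starProjection_isSymmetric (Tan S q) v w




/-- Second derivatives of a parametrisation. -/
theorem fderiv_param (hP : IsProj S P) (hf : IsLocalParam n N S p f V) {x : Euc n} (hx : x ∈ V)
    (u v : Euc n) :
    fderiv ℝ P (f x) (fderiv ℝ f x u) (fderiv ℝ f x v) =
      fderiv ℝ (fderiv ℝ f) x u v - P (f x) (fderiv ℝ (fderiv ℝ f) x u v) := by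
  have hcd : ContDiffAt ℝ ∞ f x := hf.contDiffOn.contDiffAt (hf.isOpen.mem_nhds hx)
  have hfx : HasFDerivAt f (fderiv ℝ f x) x := (hcd.differentiableAt (by simp)).hasFDerivAt
  have hfx2 : HasFDerivAt (fderiv ℝ f) (fderiv ℝ (fderiv ℝ f) x) x :=
    ((hcd.fderiv_right (m := ∞) (by simp)).differentiableAt (by simp)).hasFDerivAt
  have hline : HasDerivAt (fun t : ℝ => x + t • u) u 0 := by
    simpa using ((hasDerivAt_id (0 : ℝ)).smul_const u).const_add x
  have e0 : x + (0 : ℝ) • u = x := by simp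
  have h1 : HasDerivAt (fun t : ℝ => f (x + t • u)) (fderiv ℝ f x u) 0 :=
    HasFDerivAt.comp_hasDerivAt (0 : ℝ) (by rw [e0]; exact hfx) hline
  have h2 : HasDerivAt (fun t : ℝ => fderiv ℝ f (x + t • u)) (fderiv ℝ (fderiv ℝ f) x u) 0 :=
    HasFDerivAt.comp_hasDerivAt (0 : ℝ) (by rw [e0]; exact hfx2) hline
  have h3 : HasDerivAt (fun t : ℝ => fderiv ℝ f (x + t • u) v) (fderiv ℝ (fderiv ℝ f) x u v) 0 := by
    simpa using h2.clm_apply (hasDerivAt_const (0 : ℝ) v)
  have h4 := hP.hasDerivAt_comp h1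
  have h5 : HasDerivAt (fun t : ℝ => P (f (x + t • u)) (fderiv ℝ f (x + t • u) v))
      (fderiv ℝ P (f x) (fderiv ℝ f x u) (fderiv ℝ f x v) +
        P (f x) (fderiv ℝ (fderiv ℝ f) x u v)) 0 := by
    simpa [e0] using h4.clm_apply h3
  have h6 : (fun t : ℝ => P (f (x + t • u)) (fderiv ℝ f (x + t • u) v)) =ᶠ[𝓝 0]
      fun t : ℝ => fderiv ℝ f (x + t • u) v := by
    have : Tendsto (fun t : ℝ => x + t • u) (𝓝 0) (𝓝 x) := by
      have : Continuous (fun t : ℝ => x + t • u) := by fun_prop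
      simpa using this.tendsto 0
    filter_upwards [this.eventually (hf.isOpen.mem_nhds hx)] with t ht
    have hr := range_fderiv_eq_Tan hf ht
    obtain ⟨U, hU, hUS⟩ := hf.image_open V le_rfl hf.isOpen
    have hm : f (x + t • u) ∈ S := by
      have : f (x + t • u) ∈ f '' V := ⟨_, ht, rfl⟩
      rw [hUS] at this
      exact this.1
    apply hP.apply_self hm
    rw [← hr]
    exact ⟨v, rfl⟩
  have h7 := (h3.congr_of_eventuallyEq h6).unique h5
  exact eq_sub_of_add_eq h7.symm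

theorem II_symm (hP : IsProj S P) (hS : IsSubmanifold n N S) {q : Euc N} (hq : q ∈ S)
    {X Y : Euc N} (hX : X ∈ Tan S q) (hY : Y ∈ Tan S q) :
    fderiv ℝ P q X Y = fderiv ℝ P q Y X := by
  obtain ⟨f, V, hf⟩ := hS q hq
  have h0 := range_fderiv_eq_Tan hf hf.zero_mem
  rw [hf.map_zero] at h0
  rw [← h0] at hX hY
  obtain ⟨u, rfl⟩ := hX
  obtain ⟨v, rfl⟩ := hY
  have hcd : ContDiffAt ℝ ∞ f 0 := hf.contDiffOn.contDiffAt (hf.isOpen.mem_nhds hf.zero_mem)
  have hsymm : fderiv ℝ (fderiv ℝ f) 0 u v = fderiv ℝ (fderiv ℝ f) 0 v u :=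
    (hcd.isSymmSndFDerivAt (by
      rw [minSmoothness_of_isRCLikeNormedField]
      exact WithTop.coe_le_coe.2 le_top)) u v
  have h1 := hP.fderiv_param hf hf.zero_mem u v
  have h2 := hP.fderiv_param hf hf.zero_mem v u
  rw [hf.map_zero] at h1 h2
  change fderiv ℝ P q (fderiv ℝ f 0 u) (fderiv ℝ f 0 v) = fderiv ℝ P q (fderiv ℝ f 0 v) (fderiv ℝ f 0 u)
  rw [h1, h2, hsymm]

end IsProj

end Crest.Agent.R241.D
end
end

-- ▼ part R241/D1c

/-!
R241, block D1c: curvature, local geodesics, and the construction of `Geo` from the hypotheses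
of S0372/S0373.
-/

set_option autoImplicit false

open Set Filter Topology
open scoped ContDiff RealInnerProductSpace
open Crest.GeometryTopology.Submanifold
open Crest.Agent.R241.DDefs

noncomputable section

namespace Crest.Agent.R241.D

variable {n N : ℕ} {S : Set (Euc N)} {p : Euc N} {f : Euc n → Euc N} {V : Set (Euc n)}
variable {P : Euc N → Euc N →L[ℝ] Euc N}

theorem sum_stdVec (u : Euc n) : ∑ i, u i • stdVec n i = u := by
  ext j
  simp [stdVec, Finset.sum_apply, Pi.single_apply]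

theorem fderiv_eq_sum_pd (f : Euc n → Euc N) (x u : Euc n) :
    fderiv ℝ f x u = ∑ i, u i • pd f x i := by
  conv_lhs => rw [← sum_stdVec u]
  simp [map_sum, pd]

theorem mem_S (hf : IsLocalParam n N S p f V) {x : Euc n} (hx : x ∈ V) : f x ∈ S := by
  obtain ⟨U, hU, hUS⟩ := hf.image_open V le_rfl hf.isOpen
  have : f x ∈ f '' V := ⟨_, hx, rfl⟩
  rw [hUS] at this
  exact this.1

theorem hess_eq (hf : IsLocalParam n N S p f V) {x : Euc n} (hx : x ∈ V) (i j : Fin n) :
    hess f x i j = fderiv ℝ (fderiv ℝ f) x (stdVec n i) (stdVec n j) := by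
  have hcd : ContDiffAt ℝ ∞ f x := hf.contDiffOn.contDiffAt (hf.isOpen.mem_nhds hx)
  have hfx2 : HasFDerivAt (fderiv ℝ f) (fderiv ℝ (fderiv ℝ f) x) x :=
    ((hcd.fderiv_right (m := ∞) (by simp)).differentiableAt (by simp)).hasFDerivAt
  have h1 : HasFDerivAt (fun y => fderiv ℝ f y (stdVec n j))
      ((fderiv ℝ (fderiv ℝ f) x).flip (stdVec n j)) x := by
    have := hfx2.clm_apply (hasFDerivAt_const (stdVec n j) x)
    simpa using this
  rw [hess]
  change fderiv ℝ (fun y => fderiv ℝ f y (stdVec n j)) x (stdVec n i) = _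
  rw [h1.fderiv]
  rfl

theorem sff_eq (hP : IsProj S P) (hf : IsLocalParam n N S p f V) {x : Euc n} (hx : x ∈ V)
    (i j : Fin n) : sff f x i j = fderiv ℝ P (f x) (pd f x i) (pd f x j) := by
  have h1 := hP.fderiv_param hf hx (stdVec n i) (stdVec n j)
  change fderiv ℝ P (f x) (pd f x i) (pd f x j) = _ at h1
  rw [h1, sff, normalPart, hess_eq hf hx, hP.eq (f x) (mem_S hf hx)]
  have := tangentAt_eq_Tan hf hx
  simp only [this]

/-- expansion of the curvature numerator. -/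
theorem sum_bilin {E F : Type*} [NormedAddCommGroup E] [NormedSpace ℝ E]
    [NormedAddCommGroup F] [InnerProductSpace ℝ F] {m : ℕ}
    (B : E →L[ℝ] E →L[ℝ] F) (e : Fin m → E) (u v : Fin m → ℝ) :
    ∑ i, ∑ j, ∑ k, ∑ l, u i * v j * v k * u l *
        (⟪B (e i) (e l), B (e j) (e k)⟫ - ⟪B (e i) (e k), B (e j) (e l)⟫) =
      ⟪B (∑ i, u i • e i) (∑ i, u i • e i), B (∑ i, v i • e i) (∑ i, v i • e i)⟫ -
      ⟪B (∑ i, u i • e i) (∑ i, v i • e i), B (∑ i, v i • e i) (∑ i, u i • e i)⟫ := by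
  have hB : ∀ a b : Fin m → ℝ, B (∑ i, a i • e i) (∑ i, b i • e i) =
      ∑ i, ∑ j, (a i * b j) • B (e i) (e j) := by
    intro a b
    simp only [map_sum, map_smul, _root_.sum_apply, _root_.smul_apply,
      Finset.smul_sum, smul_smul]
    rw [Finset.sum_comm]
    refine Finset.sum_congr rfl fun i _ => Finset.sum_congr rfl fun j _ => ?_
    rw [mul_comm]
  have hI : ∀ a b c d : Fin m → ℝ,
      ⟪∑ i, ∑ j, (a i * b j) • B (e i) (e j), ∑ i, ∑ j, (c i * d j) • B (e i) (e j)⟫ =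
      ∑ i, ∑ j, ∑ k, ∑ l, a i * b j * c k * d l * ⟪B (e i) (e j), B (e k) (e l)⟫ := by
    intro a b c d
    rw [sum_inner]
    refine Finset.sum_congr rfl fun i _ => ?_
    rw [sum_inner]
    refine Finset.sum_congr rfl fun j _ => ?_
    rw [inner_sum]
    refine Finset.sum_congr rfl fun k _ => ?_
    rw [inner_sum]
    refine Finset.sum_congr rfl fun l _ => ?_
    rw [real_inner_smul_left, real_inner_smul_right]
    ring
  rw [hB u u, hB v v, hB u v, hB v u, hI, hI]
  simp only [mul_sub, Finset.sum_sub_distrib]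
  congr 1
  · refine Finset.sum_congr rfl fun i _ => ?_
    calc ∑ j, ∑ k, ∑ l, u i * v j * v k * u l * ⟪B (e i) (e l), B (e j) (e k)⟫
        = ∑ j, ∑ l, ∑ k, u i * v j * v k * u l * ⟪B (e i) (e l), B (e j) (e k)⟫ :=
          Finset.sum_congr rfl fun j _ => Finset.sum_comm
      _ = ∑ l, ∑ j, ∑ k, u i * v j * v k * u l * ⟪B (e i) (e l), B (e j) (e k)⟫ :=
          Finset.sum_comm
      _ = _ := by
          refine Finset.sum_congr rfl fun l _ => Finset.sum_congr rfl fun j _ =>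
            Finset.sum_congr rfl fun k _ => ?_
          ring
  · refine Finset.sum_congr rfl fun i _ => ?_
    calc ∑ j, ∑ k, ∑ l, u i * v j * v k * u l * ⟪B (e i) (e k), B (e j) (e l)⟫
        = ∑ k, ∑ j, ∑ l, u i * v j * v k * u l * ⟪B (e i) (e k), B (e j) (e l)⟫ :=
          Finset.sum_comm
      _ = _ := by
          refine Finset.sum_congr rfl fun k _ => Finset.sum_congr rfl fun j _ =>
            Finset.sum_congr rfl fun l _ => ?_
          ring

theorem secNum_eq (hP : IsProj S P) (hS : IsSubmanifold n N S)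
    (hf : IsLocalParam n N S p f V) {x : Euc n} (hx : x ∈ V)
    (u v : Euc n) :
    secNum f x u v =
      ⟪fderiv ℝ P (f x) (fderiv ℝ f x u) (fderiv ℝ f x u),
        fderiv ℝ P (f x) (fderiv ℝ f x v) (fderiv ℝ f x v)⟫ -
      ‖fderiv ℝ P (f x) (fderiv ℝ f x u) (fderiv ℝ f x v)‖ ^ 2 := by
  have h1 : secNum f x u v = ∑ i, ∑ j, ∑ k, ∑ l, u i * v j * v k * u l *
      (⟪fderiv ℝ P (f x) (pd f x i) (pd f x l), fderiv ℝ P (f x) (pd f x j) (pd f x k)⟫ -
       ⟪fderiv ℝ P (f x) (pd f x i) (pd f x k), fderiv ℝ P (f x) (pd f x j) (pd f x l)⟫) := by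
    simp only [secNum, riem, sff_eq hP hf hx]
  rw [h1, sum_bilin (fderiv ℝ P (f x)) (pd f x) u v, ← fderiv_eq_sum_pd, ← fderiv_eq_sum_pd]
  have hu : fderiv ℝ f x u ∈ Tan S (f x) := by
    rw [← range_fderiv_eq_Tan hf hx]; exact ⟨u, rfl⟩
  have hv : fderiv ℝ f x v ∈ Tan S (f x) := by
    rw [← range_fderiv_eq_Tan hf hx]; exact ⟨v, rfl⟩
  rw [hP.II_symm hS (mem_S hf hx) hv hu, real_inner_self_eq_norm_sq]

theorem gramDet_eq (f : Euc n → Euc N) (x u v : Euc n) :
    gramDet f x u v = ‖fderiv ℝ f x u‖ ^ 2 * ‖fderiv ℝ f x v‖ ^ 2 -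
      ⟪fderiv ℝ f x u, fderiv ℝ f x v⟫ ^ 2 := by
  rw [gramDet, real_inner_self_eq_norm_sq, real_inner_self_eq_norm_sq]

/-- local geodesics through a parametrisation. -/
theorem exists_geod (hP : IsProj S P) (hS : IsSubmanifold n N S) {x : Euc N} (hx : x ∈ S)
    {v : Euc N} (hv : v ∈ Tan S x) :
    ∃ (c c' : ℝ → Euc N), c 0 = x ∧ c' 0 = v ∧
      ∀ᶠ t in 𝓝 (0 : ℝ), c t ∈ S ∧ HasDerivAt c (c' t) t ∧
        HasDerivAt c' (fderiv ℝ P (c t) (c' t) (c' t)) t := by
  obtain ⟨f, V, hf⟩ := hS x hx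
  have h0 := range_fderiv_eq_Tan hf hf.zero_mem
  rw [hf.map_zero] at h0
  rw [← h0] at hv
  obtain ⟨w, rfl⟩ := hv
  -- the vector field
  let X : Euc n × Euc n → Euc n × Euc n := fun q =>
    (q.2, -(pinv (fderiv ℝ f q.1) (fderiv ℝ (fderiv ℝ f) q.1 q.2 q.2)))
  have hcd : ContDiffAt ℝ ∞ f 0 := hf.contDiffOn.contDiffAt (hf.isOpen.mem_nhds hf.zero_mem)
  have hcd1 : ContDiffAt ℝ ∞ (fderiv ℝ f) 0 := hcd.fderiv_right (m := ∞) (by simp)
  have hcd2 : ContDiffAt ℝ ∞ (fderiv ℝ (fderiv ℝ f)) 0 := hcd1.fderiv_right (m := ∞) (by simp)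
  have hX : ContDiffAt ℝ ∞ X (0, w) := by
    have hfst : ContDiffAt ℝ ∞ (fun q : Euc n × Euc n => q.1) (0, w) := contDiffAt_fst
    have hsnd : ContDiffAt ℝ ∞ (fun q : Euc n × Euc n => q.2) (0, w) := contDiffAt_snd
    have h1 : ContDiffAt ℝ ∞ (fun q : Euc n × Euc n => fderiv ℝ f q.1) (0, w) :=
      ContDiffAt.comp (g := fderiv ℝ f) (f := fun q : Euc n × Euc n => q.1) (0, w) hcd1 hfst
    have h2 : ContDiffAt ℝ ∞ (fun q : Euc n × Euc n => fderiv ℝ (fderiv ℝ f) q.1) (0, w) :=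
      ContDiffAt.comp (g := fderiv ℝ (fderiv ℝ f)) (f := fun q : Euc n × Euc n => q.1)
        (0, w) hcd2 hfst
    have h3 : ContDiffAt ℝ ∞ (fun q : Euc n × Euc n => pinv (fderiv ℝ f q.1)) (0, w) :=
      ContDiffAt.comp (g := pinv (n := n) (N := N)) (f := fun q : Euc n × Euc n => fderiv ℝ f q.1)
        (0, w) (contDiffAt_pinv (hf.injective_fderiv 0 hf.zero_mem)) h1
    exact hsnd.prodMk (h3.clm_apply ((h2.clm_apply hsnd).clm_apply hsnd)).neg
  obtain ⟨α, hα0, ε, hε, hα⟩ :=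
    (hX.of_le (by simp : (1 : WithTop ℕ∞) ≤ ∞)).exists_forall_mem_closedBall_exists_eq_forall_mem_Ioo_hasDerivAt₀ 0
  rw [zero_sub, zero_add] at hα
  have hcont : ContinuousAt α 0 := (hα 0 ⟨by linarith, hε⟩).continuousAt
  have hcont1 : ContinuousAt (fun t => (α t).1) 0 := continuous_fst.continuousAt.comp hcont
  have hV : ∀ᶠ t in 𝓝 (0 : ℝ), (α t).1 ∈ V := by
    have h1 : V ∈ 𝓝 ((fun t => (α t).1) 0) := by
      simp only [hα0]
      exact hf.isOpen.mem_nhds hf.zero_mem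
    exact hcont1.eventually h1
  refine ⟨fun t => f (α t).1, fun t => fderiv ℝ f (α t).1 (α t).2, ?_, ?_, ?_⟩
  · simp [hα0, hf.map_zero]
  · simp [hα0]
  · filter_upwards [hV, Ioo_mem_nhds (by linarith : -ε < 0) hε] with t htV ht
    have hd := hα t ht
    have hd1 : HasDerivAt (fun t => (α t).1) (α t).2 t :=
      (hasFDerivAt_fst (𝕜 := ℝ) (p := α t)).comp_hasDerivAt t hd
    have hd2 : HasDerivAt (fun t => (α t).2)
        (-(pinv (fderiv ℝ f (α t).1) (fderiv ℝ (fderiv ℝ f) (α t).1 (α t).2 (α t).2))) t :=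
      (hasFDerivAt_snd (𝕜 := ℝ) (p := α t)).comp_hasDerivAt t hd
    have hct : ContDiffAt ℝ ∞ f (α t).1 := hf.contDiffOn.contDiffAt (hf.isOpen.mem_nhds htV)
    have hft : HasFDerivAt f (fderiv ℝ f (α t).1) (α t).1 :=
      (hct.differentiableAt (by simp)).hasFDerivAt
    have hft2 : HasFDerivAt (fderiv ℝ f) (fderiv ℝ (fderiv ℝ f) (α t).1) (α t).1 :=
      ((hct.fderiv_right (m := ∞) (by simp)).differentiableAt (by simp)).hasFDerivAt
    refine ⟨mem_S hf htV, hft.comp_hasDerivAt t hd1, ?_⟩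
    have h1 : HasDerivAt (fun t => fderiv ℝ f (α t).1)
        (fderiv ℝ (fderiv ℝ f) (α t).1 (α t).2) t := hft2.comp_hasDerivAt t hd1
    have h2 := h1.clm_apply hd2
    refine h2.congr_deriv ?_
    rw [hP.fderiv_param hf htV, map_neg]
    have h3 := comp_pinv (hf.injective_fderiv _ htV)
    have h4 := congrArg (fun L => L (fderiv ℝ (fderiv ℝ f) (α t).1 (α t).2 (α t).2)) h3
    simp only [ContinuousLinearMap.coe_comp, Function.comp_apply] at h4
    rw [h4, ← sub_eq_add_neg]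
    have h5 := range_fderiv_eq_Tan hf htV
    rw [hP.eq _ (mem_S hf htV)]
    simp only [h5]

/-- surface germs -/
theorem exists_surface (hS : IsSubmanifold n N S) {x : Euc N} (hx : x ∈ S)
    {v w : Euc N} (hv : v ∈ Tan S x) (hw : w ∈ Tan S x) :
    ∃ α : ℝ × ℝ → Euc N,
      α 0 = x ∧ ContDiffAt ℝ ∞ α 0 ∧ (∀ᶠ q in 𝓝 (0 : ℝ × ℝ), α q ∈ S) ∧
        fderiv ℝ α 0 (1, 0) = v ∧ fderiv ℝ α 0 (0, 1) = w := by
  obtain ⟨f, V, hf⟩ := hS x hx
  have h0 := range_fderiv_eq_Tan hf hf.zero_mem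
  rw [hf.map_zero] at h0
  rw [← h0] at hv hw
  obtain ⟨a, rfl⟩ := hv
  obtain ⟨b, rfl⟩ := hw
  let L : ℝ × ℝ →L[ℝ] Euc n :=
    (ContinuousLinearMap.fst ℝ ℝ ℝ).smulRight a + (ContinuousLinearMap.snd ℝ ℝ ℝ).smulRight b
  have hL0 : L 0 = 0 := map_zero L
  have hcd : ContDiffAt ℝ ∞ f 0 := hf.contDiffOn.contDiffAt (hf.isOpen.mem_nhds hf.zero_mem)
  have hfx : HasFDerivAt f (fderiv ℝ f 0) 0 := (hcd.differentiableAt (by simp)).hasFDerivAt
  have hcomp : HasFDerivAt (fun q => f (L q)) ((fderiv ℝ f 0) ∘L L) 0 := by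
    apply HasFDerivAt.comp
    · rw [hL0]; exact hfx
    · exact L.hasFDerivAt
  refine ⟨fun q => f (L q), by simp [hL0, hf.map_zero], ?_, ?_, ?_, ?_⟩
  · apply ContDiffAt.comp
    · rw [hL0]; exact hcd
    · exact L.contDiff.contDiffAt
  · have : ContinuousAt L 0 := L.continuous.continuousAt
    have h1 : ∀ᶠ q in 𝓝 (0 : ℝ × ℝ), L q ∈ V := by
      apply this.eventually (f := L)
      rw [hL0]
      exact hf.isOpen.mem_nhds hf.zero_mem
    exact h1.mono fun q hq => mem_S hf hq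
  · rw [hcomp.fderiv]; simp [L]
  · rw [hcomp.fderiv]; simp [L]

theorem d1 : D1Target := by
  intro n N κ S hS hcl hsec
  obtain ⟨P, hP⟩ := exists_isProj hS hcl
  refine ⟨{ T := Tan S
            P := P
            isClosed := hcl
            contDiff_P := hP.smooth
            P_eq := hP.eq
            finrank_T := fun x hx => finrank_Tan hS hx
            deriv_mem := fun c c' t h1 h2 => mem_Tan_of_curve h2 h1
            exists_surface := fun x hx v hv w hw => exists_surface hS hx hv hw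
            exists_geod := fun x hx v hv => exists_geod hP hS hx hv
            curv := ?_ }, ?_⟩
  · intro x hx v hv w hw
    obtain ⟨f, V, hf⟩ := hS x hx
    have h0 := range_fderiv_eq_Tan hf hf.zero_mem
    rw [hf.map_zero] at h0
    rw [← h0] at hv hw
    obtain ⟨a, rfl⟩ := hv
    obtain ⟨b, rfl⟩ := hw
    have h1 := hsec x hx f V hf a b
    rw [secNum_eq hP hS hf hf.zero_mem, gramDet_eq, hf.map_zero] at h1
    exact h1
  · intro p hp f V hf u hu
    exact (range_fderiv_eq_Tan hf hu).symm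

end Crest.Agent.R241.D
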