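import Mathlib
import Crest.Agent.R241.AF1

-- ▼ part R241/E1a
section

/-! Row 241, block E1 (helper777), part a: the EILENBERG inequality with the sharp constant.
If `p : X → F` is 1-Lipschitz into a Euclidean space of dimension `n`, then for σ-compact `B ⊆ X`
`∫ #(B ∩ p⁻¹ y) dy ≤ μHE[n] B`, and for continuous weights `h ≥ 0`
`∫ ∑_{x ∈ B, p x = y} h x dy ≤ ∫_B h dμHE[n]`. -/

set_option autoImplicit false
set_option linter.unusedSectionVars false
open MeasureTheory MeasureTheory.Measure Metric Filter Set Module TopologicalSpace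
open scoped NNReal ENNReal Topology

noncomputable section

namespace Crest.Agent.R241.E1

variable {X : Type*} [MetricSpace X] [SeparableSpace X]

/-- the cells of mesh `1/(k+1)`. -/
def cell [Nonempty X] (k j : ℕ) : Set X :=
  disjointed (fun j => closedBall (denseSeq X j) (1 / ((k : ℝ) + 1))) j

section cells
variable [Nonempty X]

theorem cell_subset (k j : ℕ) : cell (X := X) k j ⊆ closedBall (denseSeq X j) (1 / ((k : ℝ) + 1)) :=
  disjointed_subset _ _

theorem cell_disjoint (k : ℕ) : Pairwise (Function.onFun Disjoint (cell (X := X) k)) :=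
  disjoint_disjointed _

theorem iUnion_cell (k : ℕ) : ⋃ j, cell (X := X) k j = univ := by
  simp only [cell]
  rw [iUnion_disjointed, eq_univ_iff_forall]
  intro x
  obtain ⟨j, hj⟩ := (denseRange_denseSeq X).exists_dist_lt x
    (show (0 : ℝ) < 1 / ((k : ℝ) + 1) by positivity)
  exact mem_iUnion.2 ⟨j, mem_closedBall.2 hj.le⟩

theorem exists_cell (k : ℕ) (x : X) : ∃ j, x ∈ cell k j := by
  have := mem_univ x
  rw [← iUnion_cell k] at this
  exact mem_iUnion.1 this

theorem dist_le_of_cell {k j : ℕ} {x y : X} (hx : x ∈ cell k j) (hy : y ∈ cell k j) :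
    dist x y ≤ 2 / ((k : ℝ) + 1) := by
  have h1 := mem_closedBall.1 (cell_subset k j hx)
  have h2 := mem_closedBall.1 (cell_subset k j hy)
  calc dist x y ≤ dist x (denseSeq X j) + dist y (denseSeq X j) := dist_triangle_right _ _ _
    _ ≤ 1 / ((k : ℝ) + 1) + 1 / ((k : ℝ) + 1) := add_le_add h1 h2
    _ = _ := by ring

theorem measurableSet_cell [MeasurableSpace X] [BorelSpace X] (k j : ℕ) :
    MeasurableSet (cell (X := X) k j) :=
  MeasurableSet.disjointed (fun _ => isClosed_closedBall.measurableSet) j

end cells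

omit [SeparableSpace X] in
theorem sigmaCompact_inter_open {B U : Set X} (hB : IsSigmaCompact B) (hU : IsOpen U) :
    IsSigmaCompact (B ∩ U) := by
  obtain ⟨F, hF1, -, hF3, -⟩ := hU.exists_iUnion_isClosed
  rw [← hF3, inter_iUnion]
  refine isSigmaCompact_iUnion _ fun i => ?_
  obtain ⟨K, hK1, hK2⟩ := hB
  rw [← hK2, iUnion_inter]
  exact isSigmaCompact_iUnion_of_isCompact _ fun j => (hK1 j).inter_right (hF1 i)

omit [SeparableSpace X] in
theorem sigmaCompact_inter_closed {B U : Set X} (hB : IsSigmaCompact B) (hU : IsClosed U) :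
    IsSigmaCompact (B ∩ U) := by
  obtain ⟨K, hK1, hK2⟩ := hB
  rw [← hK2, iUnion_inter]
  exact isSigmaCompact_iUnion_of_isCompact _ fun j => (hK1 j).inter_right hU

theorem sigmaCompact_inter_cell [Nonempty X] {B : Set X} (hB : IsSigmaCompact B) (k j : ℕ) :
    IsSigmaCompact (B ∩ cell k j) := by
  have h : B ∩ cell k j = B ∩ closedBall (denseSeq X j) (1 / ((k : ℝ) + 1)) ∩
      (⋃ i ∈ Finset.range j, closedBall (denseSeq X i) (1 / ((k : ℝ) + 1)))ᶜ := by
    ext x
    simp only [cell, disjointed_eq_inter_compl, mem_inter_iff, mem_iInter, mem_compl_iff,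
      mem_iUnion, Finset.mem_range, not_exists]
    tauto
  rw [h]
  refine sigmaCompact_inter_open (sigmaCompact_inter_closed hB isClosed_closedBall) ?_
  rw [isOpen_compl_iff]
  exact isClosed_biUnion_finset fun i _ => isClosed_closedBall

theorem IsSigmaCompact.measurableSet' {Y : Type*} [MetricSpace Y] [MeasurableSpace Y]
    [BorelSpace Y] {B : Set Y} (hB : IsSigmaCompact B) : MeasurableSet B := by
  obtain ⟨K, hK1, hK2⟩ := hB
  rw [← hK2]
  exact MeasurableSet.iUnion fun n => (hK1 n).isClosed.measurableSet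

variable {F : Type*} [MetricSpace F]

/-- weighted number of preimages. -/
def wN (p : X → F) (B : Set X) (h : X → ℝ≥0∞) (y : F) : ℝ≥0∞ :=
  ∑' x : X, (B ∩ p ⁻¹' {y}).indicator h x

/-- approximate number of preimages at mesh `1/(k+1)`. -/
def cN [Nonempty X] (p : X → F) (B : Set X) (k : ℕ) (y : F) : ℝ≥0∞ :=
  ∑' j : ℕ, (p '' (B ∩ cell k j)).indicator (fun _ => (1 : ℝ≥0∞)) y

theorem cN_le [Nonempty X] (p : X → F) (B : Set X) (k : ℕ) (y : F) :
    cN p B k y ≤ wN p B (fun _ => 1) y := by
  classical
  let J : Set ℕ := {j | y ∈ p '' (B ∩ cell k j)}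
  have h1 : cN p B k y = ∑' j : J, (1 : ℝ≥0∞) := by
    rw [tsum_subtype J (fun _ => (1 : ℝ≥0∞))]
    unfold cN
    congr 1
  choose! x hx using fun (j : ℕ) (hj : j ∈ J) => hj
  have hinj : Function.Injective fun j : J => x j := by
    intro i j hij
    have hi := (hx i i.2).1.2
    have hj := (hx j j.2).1.2
    simp only at hij
    rw [hij] at hi
    by_contra hne
    have := cell_disjoint (X := X) k (fun h => hne (Subtype.ext h) : (i : ℕ) ≠ j)
    exact Set.disjoint_left.1 this hi hj
  rw [h1]
  calc ∑' j : J, (1 : ℝ≥0∞) = ∑' j : J, (B ∩ p ⁻¹' {y}).indicator (fun _ => 1) (x j) := by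
        congr 1
        ext j
        rw [indicator_of_mem]
        exact ⟨(hx j j.2).1.1, (hx j j.2).2⟩
    _ ≤ ∑' z : X, (B ∩ p ⁻¹' {y}).indicator (fun _ => 1) z :=
        ENNReal.tsum_comp_le_tsum_of_injective hinj _

theorem wN_le_liminf [Nonempty X] (p : X → F) (B : Set X) (y : F) :
    wN p B (fun _ => 1) y ≤ liminf (fun k => cN p B k y) atTop := by
  classical
  unfold wN
  rw [ENNReal.tsum_eq_iSup_sum]
  refine iSup_le fun s => ?_
  have h1 : ∑ a ∈ s, (B ∩ p ⁻¹' {y}).indicator (fun _ => (1 : ℝ≥0∞)) a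
      = ((s.filter fun a => a ∈ B ∩ p ⁻¹' {y}).card : ℝ≥0∞) := by
    simp only [indicator_apply]
    rw [Finset.sum_ite]
    simp
  rw [h1]
  set t := s.filter fun a => a ∈ B ∩ p ⁻¹' {y} with ht
  -- separation of the finitely many points
  obtain ⟨δ, δpos, hδ⟩ : ∃ δ > 0, ∀ a ∈ t, ∀ b ∈ t, a ≠ b → δ ≤ dist a b := by
    rcases t.offDiag.eq_empty_or_nonempty with he | hne
    · refine ⟨1, one_pos, fun a ha b hb hab => ?_⟩
      have : (a, b) ∈ t.offDiag := Finset.mem_offDiag.2 ⟨ha, hb, hab⟩
      rw [he] at this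
      exact absurd this (Finset.notMem_empty _)
    · obtain ⟨q, hq, hmin⟩ := t.offDiag.exists_min_image (fun q => dist q.1 q.2) hne
      refine ⟨dist q.1 q.2, dist_pos.2 (Finset.mem_offDiag.1 hq).2.2, fun a ha b hb hab => ?_⟩
      exact hmin (a, b) (Finset.mem_offDiag.2 ⟨ha, hb, hab⟩)
  refine le_liminf_of_le (by isBoundedDefault) ?_
  obtain ⟨k0, hk0⟩ := exists_nat_gt (2 / δ)
  filter_upwards [eventually_ge_atTop k0] with k hk
  choose c hc using fun x : X => exists_cell k x
  have hinj : InjOn c (t : Set X) := by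
    intro a ha b hb hab
    by_contra hne
    have h2 := hδ a ha b hb hne
    have h3 : dist a b ≤ 2 / ((k : ℝ) + 1) := dist_le_of_cell (hc a) (by rw [hab]; exact hc b)
    have h4 : 2 / ((k : ℝ) + 1) < δ := by
      rw [div_lt_iff₀ (by positivity)]
      rw [div_lt_iff₀ δpos] at hk0
      have : (k0 : ℝ) ≤ k := by exact_mod_cast hk
      nlinarith
    linarith
  calc (t.card : ℝ≥0∞) = ((t.image c).card : ℝ≥0∞) := by
        rw [Finset.card_image_of_injOn hinj]
    _ = ∑ j ∈ t.image c, (p '' (B ∩ cell k j)).indicator (fun _ => (1 : ℝ≥0∞)) y := by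
        rw [Finset.sum_congr rfl (g := fun _ => (1 : ℝ≥0∞))]
        · simp
        · intro j hj
          obtain ⟨a, ha, rfl⟩ := Finset.mem_image.1 hj
          rw [indicator_of_mem]
          have ha' := (Finset.mem_filter.1 ha).2
          exact ⟨a, ⟨ha'.1, hc a⟩, ha'.2⟩
    _ ≤ _ := ENNReal.sum_le_tsum _

theorem wN_eq_liminf [Nonempty X] (p : X → F) (B : Set X) (y : F) :
    wN p B (fun _ => 1) y = liminf (fun k => cN p B k y) atTop := by
  refine le_antisymm (wN_le_liminf p B y) ?_
  calc liminf (fun k => cN p B k y) atTop ≤ liminf (fun _ : ℕ => wN p B (fun _ => 1) y) atTop :=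
        liminf_le_liminf (Eventually.of_forall fun k => cN_le p B k y)
    _ = _ := liminf_const _

section meas
variable [MeasurableSpace X] [BorelSpace X] [MeasurableSpace F] [BorelSpace F]

theorem measurable_cN [Nonempty X] {p : X → F} (hp : Continuous p) {B : Set X}
    (hB : IsSigmaCompact B) (k : ℕ) : Measurable (cN p B k) := by
  refine Measurable.tsum fun j => ?_
  refine measurable_const.indicator ?_
  exact IsSigmaCompact.measurableSet' ((sigmaCompact_inter_cell hB k j).image hp)

theorem measurable_wN_one {p : X → F} (hp : Continuous p) {B : Set X}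
    (hB : IsSigmaCompact B) : Measurable (wN p B fun _ => 1) := by
  rcases isEmpty_or_nonempty X with hX | hX
  · have : (wN p B fun _ => 1) = fun _ => 0 := by
      ext y; simp [wN]
    rw [this]; exact measurable_const
  have : (wN p B fun _ => 1) = fun y => liminf (fun k => cN p B k y) atTop := by
    ext y; exact wN_eq_liminf p B y
  rw [this]
  exact Measurable.liminf fun k => measurable_cN hp hB k

end meas

section eil
variable {F : Type*} [NormedAddCommGroup F] [InnerProductSpace ℝ F] [FiniteDimensional ℝ F]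
  [MeasurableSpace F] [BorelSpace F] [MeasurableSpace X] [BorelSpace X]

/-- **Eilenberg inequality** for sets. -/
theorem eilenberg {p : X → F} (hp : LipschitzWith 1 p) {B : Set X} (hB : IsSigmaCompact B) :
    ∫⁻ y, wN p B (fun _ => 1) y ≤ μHE[finrank ℝ F] B := by
  rcases isEmpty_or_nonempty X with hX | hX
  · have : (wN p B fun _ => 1) = fun _ => 0 := by
      ext y; simp [wN]
    rw [this]; simp
  have hBm : MeasurableSet B := IsSigmaCompact.measurableSet' hB
  have key : ∀ k, ∫⁻ y, cN p B k y ≤ μHE[finrank ℝ F] B := by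
    intro k
    have hm : ∀ j, MeasurableSet (p '' (B ∩ cell k j)) := fun j =>
      IsSigmaCompact.measurableSet' ((sigmaCompact_inter_cell hB k j).image hp.continuous)
    calc ∫⁻ y, cN p B k y = ∑' j, volume (p '' (B ∩ cell k j)) := by
          unfold cN
          rw [lintegral_tsum fun j => (measurable_const.indicator (hm j)).aemeasurable]
          congr 1
          ext j
          rw [lintegral_indicator (hm j), setLIntegral_const, one_mul]
      _ ≤ ∑' j, μHE[finrank ℝ F] (B ∩ cell k j) := by
          refine ENNReal.tsum_le_tsum fun j => ?_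
          rw [← InnerProductSpace.euclideanHausdorffMeasure_eq_volume]
          simpa using AF.muHE_image_le (hp.lipschitzOnWith (s := B ∩ cell k j)) (finrank ℝ F)
      _ = μHE[finrank ℝ F] (⋃ j, B ∩ cell k j) := by
          rw [measure_iUnion]
          · exact pairwise_disjoint_mono (cell_disjoint k) fun j => inter_subset_right
          · exact fun j => hBm.inter (measurableSet_cell k j)
      _ = μHE[finrank ℝ F] B := by
          rw [← inter_iUnion, iUnion_cell, inter_univ]
  calc ∫⁻ y, wN p B (fun _ => 1) y = ∫⁻ y, liminf (fun k => cN p B k y) atTop := by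
        simp_rw [wN_eq_liminf]
    _ ≤ liminf (fun k => ∫⁻ y, cN p B k y) atTop :=
        lintegral_liminf_le fun k => measurable_cN hp.continuous hB k
    _ ≤ liminf (fun _ : ℕ => μHE[finrank ℝ F] B) atTop :=
        liminf_le_liminf (Eventually.of_forall key)
    _ = _ := liminf_const _

/-- dyadic lower approximation of a weight. -/
def dy (h : X → ℝ) (k : ℕ) (x : X) : ℝ≥0∞ :=
  ∑' j : ℕ, ENNReal.ofReal ((1 / 2) ^ k) *
    {x | ((j : ℝ) + 1) * (1 / 2) ^ k < h x}.indicator (fun _ => (1 : ℝ≥0∞)) x

omit [SeparableSpace X] [MeasurableSpace X] [BorelSpace X] in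
theorem dy_eq (h : X → ℝ) (k : ℕ) (x : X) :
    dy h k x = ENNReal.ofReal ((1 / 2) ^ k) * (⌈2 ^ k * h x - 1⌉₊ : ℕ) := by
  unfold dy
  rw [ENNReal.tsum_mul_left]
  congr 1
  have h1 : ∀ j : ℕ, x ∈ {x | ((j : ℝ) + 1) * (1 / 2) ^ k < h x} ↔ j < ⌈2 ^ k * h x - 1⌉₊ := by
    intro j
    rw [Nat.lt_ceil, mem_setOf_eq, lt_sub_iff_add_lt, one_div, inv_pow, ← div_eq_mul_inv,
      div_lt_iff₀ (by positivity), mul_comm (h x)]
  have h2 : ∀ j : ℕ, {x | ((j : ℝ) + 1) * (1 / 2) ^ k < h x}.indicator (fun _ => (1 : ℝ≥0∞)) x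
      = if j < ⌈2 ^ k * h x - 1⌉₊ then 1 else 0 := by
    intro j
    rw [indicator_apply]
    simp only [h1 j]
  simp_rw [h2]
  rw [tsum_eq_sum (s := Finset.range ⌈2 ^ k * h x - 1⌉₊)]
  · rw [Finset.sum_congr rfl (g := fun _ => (1 : ℝ≥0∞))]
    · simp
    · intro j hj
      rw [if_pos (Finset.mem_range.1 hj)]
  · intro j hj
    rw [if_neg (fun h => hj (Finset.mem_range.2 h))]

omit [SeparableSpace X] [MeasurableSpace X] [BorelSpace X] in
theorem dy_eq_ofReal (h : X → ℝ) (k : ℕ) (x : X) :
    dy h k x = ENNReal.ofReal ((1 / 2) ^ k * (⌈2 ^ k * h x - 1⌉₊ : ℕ)) := by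
  rw [dy_eq, ENNReal.ofReal_mul (by positivity), ENNReal.ofReal_natCast]

omit [SeparableSpace X] [MeasurableSpace X] [BorelSpace X] in
theorem dy_le (h : X → ℝ) (k : ℕ) (x : X) : dy h k x ≤ ENNReal.ofReal (h x) := by
  rw [dy_eq_ofReal]
  rcases le_or_gt (2 ^ k * h x - 1) 0 with h0 | h0
  · rw [Nat.ceil_eq_zero.2 h0]; simp
  apply ENNReal.ofReal_le_ofReal
  have h1 := (Nat.ceil_lt_add_one h0.le).le
  have h2 : (⌈2 ^ k * h x - 1⌉₊ : ℝ) ≤ 2 ^ k * h x := by linarith
  calc (1 / 2 : ℝ) ^ k * (⌈2 ^ k * h x - 1⌉₊ : ℕ) ≤ (1 / 2) ^ k * (2 ^ k * h x) := by gcongr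
    _ = h x := by rw [← mul_assoc, ← mul_pow]; norm_num

omit [SeparableSpace X] [MeasurableSpace X] [BorelSpace X] in
theorem tendsto_dy (h : X → ℝ) (x : X) :
    Tendsto (fun k => dy h k x) atTop (𝓝 (ENNReal.ofReal (h x))) := by
  have h1 : Tendsto (fun k : ℕ => ENNReal.ofReal (h x - (1 / 2) ^ k)) atTop
      (𝓝 (ENNReal.ofReal (h x))) := by
    apply ENNReal.tendsto_ofReal
    have : Tendsto (fun k : ℕ => h x - (1 / 2 : ℝ) ^ k) atTop (𝓝 (h x - 0)) :=
      tendsto_const_nhds.sub (tendsto_pow_atTop_nhds_zero_of_lt_one (by norm_num) (by norm_num))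
    simpa using this
  refine tendsto_of_tendsto_of_tendsto_of_le_of_le h1 tendsto_const_nhds ?_
    (fun k => dy_le h k x)
  intro k
  simp only
  rw [dy_eq_ofReal]
  apply ENNReal.ofReal_le_ofReal
  have h2 := Nat.le_ceil (2 ^ k * h x - 1)
  calc h x - (1 / 2) ^ k = (1 / 2) ^ k * (2 ^ k * h x - 1) := by
        rw [mul_sub, ← mul_assoc, ← mul_pow]; norm_num
    _ ≤ _ := by gcongr

omit [SeparableSpace X] [MeasurableSpace X] [BorelSpace X] in
theorem wN_le_liminf_dy {Y : Type*} (p : X → Y) (B : Set X) (h : X → ℝ) (y : Y) :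
    ∑' x : X, (B ∩ p ⁻¹' {y}).indicator (fun x => ENNReal.ofReal (h x)) x ≤
      liminf (fun k => ∑' x : X, (B ∩ p ⁻¹' {y}).indicator (dy h k) x) atTop := by
  classical
  rw [ENNReal.tsum_eq_iSup_sum]
  refine iSup_le fun s => ?_
  have hT : Tendsto (fun k => ∑ a ∈ s, (B ∩ p ⁻¹' {y}).indicator (dy h k) a) atTop
      (𝓝 (∑ a ∈ s, (B ∩ p ⁻¹' {y}).indicator (fun x => ENNReal.ofReal (h x)) a)) := by
    refine tendsto_finset_sum _ fun a _ => ?_
    by_cases ha : a ∈ B ∩ p ⁻¹' {y}
    · simp only [indicator_of_mem ha]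
      exact tendsto_dy h a
    · simp only [indicator_of_notMem ha]
      exact tendsto_const_nhds
  rw [← hT.liminf_eq]
  exact liminf_le_liminf (Eventually.of_forall fun k => ENNReal.sum_le_tsum _)

/-- the sum over `j` for the dyadic weight. -/
theorem wN_dy {Y : Type*} (p : X → Y) (B : Set X) (h : X → ℝ) (k : ℕ) (y : Y) :
    ∑' x : X, (B ∩ p ⁻¹' {y}).indicator (dy h k) x =
      ∑' j : ℕ, ENNReal.ofReal ((1 / 2) ^ k) *
        ∑' x : X, ((B ∩ {x | ((j : ℝ) + 1) * (1 / 2) ^ k < h x}) ∩ p ⁻¹' {y}).indicator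
          (fun _ => (1 : ℝ≥0∞)) x := by
  have h1 : ∀ x, (B ∩ p ⁻¹' {y}).indicator (dy h k) x =
      ∑' j : ℕ, ENNReal.ofReal ((1 / 2) ^ k) *
        ((B ∩ {x | ((j : ℝ) + 1) * (1 / 2) ^ k < h x}) ∩ p ⁻¹' {y}).indicator
          (fun _ => (1 : ℝ≥0∞)) x := by
    intro x
    by_cases hx : x ∈ B ∩ p ⁻¹' {y}
    · rw [indicator_of_mem hx]
      unfold dy
      congr 1
      ext j
      congr 1
      by_cases hj : x ∈ {x | ((j : ℝ) + 1) * (1 / 2) ^ k < h x}
      · rw [indicator_of_mem hj, indicator_of_mem]
        exact ⟨⟨hx.1, hj⟩, hx.2⟩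
      · rw [indicator_of_notMem hj, indicator_of_notMem]
        exact fun hc => hj hc.1.2
    · rw [indicator_of_notMem hx]
      symm
      rw [ENNReal.tsum_eq_zero]
      intro j
      rw [indicator_of_notMem, mul_zero]
      exact fun hc => hx ⟨hc.1.1, hc.2⟩
  simp_rw [h1]
  rw [ENNReal.tsum_comm]
  congr 1
  ext j
  rw [ENNReal.tsum_mul_left]

/-- **Eilenberg inequality**, weighted. -/
theorem eilenberg_weighted {p : X → F} (hp : LipschitzWith 1 p) {B : Set X}
    (hB : IsSigmaCompact B) {h : X → ℝ} (hh : Continuous h) :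
    ∫⁻ y, wN p B (fun x => ENNReal.ofReal (h x)) y ≤
      ∫⁻ x in B, ENNReal.ofReal (h x) ∂μHE[finrank ℝ F] := by
  have hBm : MeasurableSet B := IsSigmaCompact.measurableSet' hB
  have hO : ∀ (k j : ℕ), IsOpen {x | ((j : ℝ) + 1) * (1 / 2) ^ k < h x} := fun k j =>
    isOpen_lt continuous_const hh
  have hm : ∀ k, Measurable fun y => wN p B (dy h k) y := by
    intro k
    have : (fun y => wN p B (dy h k) y) = fun y => ∑' j : ℕ, ENNReal.ofReal ((1 / 2) ^ k) *
        wN p (B ∩ {x | ((j : ℝ) + 1) * (1 / 2) ^ k < h x}) (fun _ => 1) y := by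
      ext y; exact wN_dy p B h k y
    rw [this]
    refine Measurable.tsum fun j => Measurable.const_mul ?_ _
    exact measurable_wN_one hp.continuous (sigmaCompact_inter_open hB (hO k j))
  have key : ∀ k, ∫⁻ y, wN p B (dy h k) y ≤ ∫⁻ x in B, ENNReal.ofReal (h x) ∂μHE[finrank ℝ F] := by
    intro k
    calc ∫⁻ y, wN p B (dy h k) y = ∫⁻ y, ∑' j : ℕ, ENNReal.ofReal ((1 / 2) ^ k) *
          wN p (B ∩ {x | ((j : ℝ) + 1) * (1 / 2) ^ k < h x}) (fun _ => 1) y := by
          congr 1
          ext y; exact wN_dy p B h k y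
      _ = ∑' j : ℕ, ENNReal.ofReal ((1 / 2) ^ k) *
          ∫⁻ y, wN p (B ∩ {x | ((j : ℝ) + 1) * (1 / 2) ^ k < h x}) (fun _ => 1) y := by
          rw [lintegral_tsum]
          · congr 1
            ext j
            rw [lintegral_const_mul]
            exact measurable_wN_one hp.continuous (sigmaCompact_inter_open hB (hO k j))
          · intro j
            exact ((measurable_wN_one hp.continuous
              (sigmaCompact_inter_open hB (hO k j))).const_mul _).aemeasurable
      _ ≤ ∑' j : ℕ, ENNReal.ofReal ((1 / 2) ^ k) *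
          μHE[finrank ℝ F] (B ∩ {x | ((j : ℝ) + 1) * (1 / 2) ^ k < h x}) := by
          refine ENNReal.tsum_le_tsum fun j => ?_
          gcongr
          exact eilenberg hp (sigmaCompact_inter_open hB (hO k j))
      _ = ∫⁻ x in B, dy h k x ∂μHE[finrank ℝ F] := by
          unfold dy
          rw [lintegral_tsum]
          · congr 1
            ext j
            rw [lintegral_const_mul' _ _ ENNReal.ofReal_ne_top,
              lintegral_indicator (hO k j).measurableSet, lintegral_const, one_mul,
              Measure.restrict_apply_univ, Measure.restrict_apply (hO k j).measurableSet,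
              inter_comm]
          · intro j
            exact ((measurable_const.indicator (hO k j).measurableSet).const_mul _).aemeasurable
      _ ≤ _ := lintegral_mono fun x => dy_le h k x
  calc ∫⁻ y, wN p B (fun x => ENNReal.ofReal (h x)) y
      ≤ ∫⁻ y, liminf (fun k => wN p B (dy h k) y) atTop :=
        lintegral_mono fun y => wN_le_liminf_dy p B h y
    _ ≤ liminf (fun k => ∫⁻ y, wN p B (dy h k) y) atTop := lintegral_liminf_le hm
    _ ≤ liminf (fun _ : ℕ => ∫⁻ x in B, ENNReal.ofReal (h x) ∂μHE[finrank ℝ F]) atTop :=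
        liminf_le_liminf (Eventually.of_forall key)
    _ = _ := liminf_const _

end eil

end Crest.Agent.R241.E1
end
end

-- ▼ part R241/E1b
section

/-! Row 241, block E1 (helper777), part b: one-dimensional lemma and the directional perimeter
bound `|∫_Ω ∂_v η| ≤ ∫_{∂Ω} |η| dμHE[n]`. -/

set_option autoImplicit false
set_option linter.unusedSectionVars false
open MeasureTheory MeasureTheory.Measure Metric Filter Set Module TopologicalSpace
open scoped NNReal ENNReal Topology

noncomputable section

namespace Crest.Agent.R241.E1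

/-- one-dimensional lemma: `w` is locally constant off the finite set `B` and has oscillation at
most one. -/
theorem oneD {η : ℝ → ℝ} (hη : ContDiff ℝ 1 η) (hc : HasCompactSupport η) (B : Finset ℝ) :
    ∀ w : ℝ → ℝ, Measurable w → (∀ x y, |w x - w y| ≤ 1) →
      (∀ x y, x ≤ y → (∀ b ∈ B, b < x ∨ y < b) → w x = w y) →
      |∫ t, w t * deriv η t| ≤ ∑ b ∈ B, |η b| := by
  have hdc : Continuous (deriv η) := hη.continuous_deriv le_rfl
  have hds : HasCompactSupport (deriv η) := hc.deriv
  have hdi : Integrable (deriv η) := hdc.integrable_of_hasCompactSupport hds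
  have hwi : ∀ w : ℝ → ℝ, Measurable w → (∀ x y, |w x - w y| ≤ 1) →
      Integrable fun t => w t * deriv η t := by
    intro w hw hb
    refine hdi.bdd_mul (c := |w 0| + 1) hw.aestronglyMeasurable (Eventually.of_forall fun t => ?_)
    rw [Real.norm_eq_abs]
    have h1 := hb t 0
    have h2 := abs_sub_abs_le_abs_sub (w t) (w 0)
    linarith
  induction B using Finset.induction_on_max with
  | empty =>
    intro w hw hb hl
    have hconst : ∀ t, w t = w 0 := by
      intro t
      rcases le_total t 0 with h | h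
      · exact hl t 0 h (by simp)
      · exact (hl 0 t h (by simp)).symm
    have : ∫ t, w t * deriv η t = 0 := by
      simp_rw [hconst]
      rw [integral_const_mul]
      have h1 : ∫ t, deriv η t = 0 := by
        have e1 := hc.integral_Ioi_deriv_eq hη 0
        have e2 := hc.integral_Iic_deriv_eq hη 0
        have e3 := intervalIntegral.integral_Iic_add_Ioi (b := (0 : ℝ)) hdi.integrableOn
          hdi.integrableOn
        rw [← e3, e1, e2]; ring
      rw [h1, mul_zero]
    rw [this]; simp
  | insert a s has ih =>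
    intro w hw hb hl
    have ha : a ∉ s := fun h => lt_irrefl _ (has a h)
    -- a point between `s` and `a`
    obtain ⟨m, hm1, hm2⟩ : ∃ m < a, ∀ b ∈ s, b < m := by
      rcases s.eq_empty_or_nonempty with rfl | hne
      · exact ⟨a - 1, by linarith, by simp⟩
      · refine ⟨(s.max' hne + a) / 2, ?_, ?_⟩
        · have := has _ (s.max'_mem hne)
          linarith
        · intro b hb
          have h1 := s.le_max' b hb
          have := has _ (s.max'_mem hne)
          linarith
    set cm := w m with hcm
    set cp := w (a + 1) with hcp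
    let w' : ℝ → ℝ := fun t => if t < a then w t else cm
    have hw' : Measurable w' := Measurable.ite measurableSet_Iio hw measurable_const
    have hb' : ∀ x y, |w' x - w' y| ≤ 1 := by
      intro x y
      simp only [w']
      split_ifs
      · exact hb _ _
      · exact hb _ _
      · exact hb _ _
      · simp
    have hl' : ∀ x y, x ≤ y → (∀ b ∈ s, b < x ∨ y < b) → w' x = w' y := by
      intro x y hxy hB
      simp only [w']
      split_ifs with h1 h2 h2
      · refine hl x y hxy fun b hb => ?_
        rcases Finset.mem_insert.1 hb with rfl | hb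
        · exact Or.inr h2
        · exact hB b hb
      · -- x < a ≤ y : all of s is < x
        have hs : ∀ b ∈ s, b < x := by
          intro b hb
          rcases hB b hb with h | h
          · exact h
          · exact absurd (has b hb) (by linarith)
        rcases le_total x m with hxm | hxm
        · refine hl x m hxm fun b hb => ?_
          rcases Finset.mem_insert.1 hb with rfl | hb
          · exact Or.inr hm1
          · exact Or.inl (hs b hb)
        · refine (hl m x hxm fun b hb => ?_).symm
          rcases Finset.mem_insert.1 hb with rfl | hb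
          · exact Or.inr h1
          · exact Or.inl (hm2 b hb)
      · exact absurd h2 (by linarith)
      · rfl
    have hright : ∀ t, a < t → w t = cp := by
      intro t ht
      rcases le_total t (a + 1) with h | h
      · refine hl t (a + 1) h fun b hb => Or.inl ?_
        rcases Finset.mem_insert.1 hb with rfl | hb
        · exact ht
        · exact (has b hb).trans ht
      · refine (hl (a + 1) t h fun b hb => Or.inl ?_).symm
        rcases Finset.mem_insert.1 hb with rfl | hb
        · linarith
        · have := has b hb; linarith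
    have hsplit : ∫ t, w t * deriv η t = (∫ t, w' t * deriv η t) - (cp - cm) * η a := by
      have e1 : (fun t => w t * deriv η t) =ᵐ[volume]
          fun t => w' t * deriv η t + (Ioi a).indicator (fun t => (cp - cm) * deriv η t) t := by
        have : ∀ᵐ t : ℝ, t ≠ a := by
          simp [ae_iff, measure_singleton]
        filter_upwards [this] with t ht
        rcases lt_or_gt_of_ne ht with h | h
        · rw [indicator_of_notMem (by simp [h.le])]
          simp only [w', if_pos h, add_zero]
        · rw [indicator_of_mem (by simpa using h)]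
          simp only [w', if_neg (not_lt.2 h.le), hright t h]
          ring
      rw [integral_congr_ae e1, integral_add (hwi w' hw' hb')]
      · rw [integral_indicator measurableSet_Ioi, integral_const_mul,
          hc.integral_Ioi_deriv_eq hη a]
        ring
      · exact (hdi.const_mul _).indicator measurableSet_Ioi
    rw [hsplit, Finset.sum_insert ha]
    have e2 := ih w' hw' hb' hl'
    have e3 : |(cp - cm) * η a| ≤ |η a| := by
      rw [abs_mul]
      have := hb (a + 1) m
      exact mul_le_of_le_one_left (abs_nonneg _) this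
    calc |(∫ t, w' t * deriv η t) - (cp - cm) * η a|
        ≤ |∫ t, w' t * deriv η t| + |(cp - cm) * η a| := abs_sub _ _
      _ ≤ _ := by linarith

/-- points of a segment not meeting the frontier of an open set are on the same side. -/
theorem side_eq {G : Set ℝ} (hG : IsOpen G) {x y : ℝ} (hxy : x ≤ y)
    (h : ∀ t ∈ Icc x y, t ∉ frontier G) : x ∈ G ↔ y ∈ G := by
  have hd : Disjoint (frontier G) (Icc x y) := by
    rw [Set.disjoint_left]
    exact fun t ht1 ht2 => h t ht2 ht1
  have hcl := isClopen_preimage_val hG hd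
  have : PreconnectedSpace (Icc x y) := isPreconnected_iff_preconnectedSpace.1 isPreconnected_Icc
  rcases isClopen_iff.1 hcl with h1 | h1
  · constructor
    · intro hx
      have : (⟨x, left_mem_Icc.2 hxy⟩ : Icc x y) ∈ (Subtype.val ⁻¹' G : Set (Icc x y)) := hx
      rw [h1] at this
      exact absurd this (notMem_empty _)
    · intro hy
      have : (⟨y, right_mem_Icc.2 hxy⟩ : Icc x y) ∈ (Subtype.val ⁻¹' G : Set (Icc x y)) := hy
      rw [h1] at this
      exact absurd this (notMem_empty _)
  · constructor
    · intro _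
      have : (⟨y, right_mem_Icc.2 hxy⟩ : Icc x y) ∈ (Subtype.val ⁻¹' G : Set (Icc x y)) := by
        rw [h1]; exact mem_univ _
      exact this
    · intro _
      have : (⟨x, left_mem_Icc.2 hxy⟩ : Icc x y) ∈ (Subtype.val ⁻¹' G : Set (Icc x y)) := by
        rw [h1]; exact mem_univ _
      exact this

/-- one-dimensional perimeter bound for an open set with finitely many boundary points in
`[-R, R]`, where `η` is supported. -/
theorem oneD_open {η : ℝ → ℝ} (hη : ContDiff ℝ 1 η) {R : ℝ} (hR : 0 ≤ R)
    (hsupp : ∀ t, t ∉ Icc (-R) R → η t = 0) {G : Set ℝ} (hG : IsOpen G) (B : Finset ℝ)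
    (hB : ∀ t ∈ frontier G, t ∈ Icc (-R) R → t ∈ B) :
    |∫ t in G, deriv η t| ≤ ∑ b ∈ B, |η b| := by
  classical
  have hc : HasCompactSupport η :=
    HasCompactSupport.of_support_subset_isCompact isCompact_Icc fun t ht => by
      by_contra h
      exact ht (hsupp t h)
  let c : ℝ → ℝ := fun t => max (-R) (min t R)
  have hcc : Continuous c := by fun_prop
  let w : ℝ → ℝ := fun t => G.indicator (fun _ => (1 : ℝ)) (c t)
  have hwm : Measurable w := (measurable_const.indicator hG.measurableSet).comp hcc.measurable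
  have hws : ∀ t, w t = 0 ∨ w t = 1 := by
    intro t
    simp only [w, indicator_apply]
    split_ifs <;> simp
  have hcI : ∀ t, c t ∈ Icc (-R) R := fun t => ⟨le_max_left _ _, max_le (by linarith) (min_le_right _ _)⟩
  have hcid : ∀ t ∈ Icc (-R) R, c t = t := by
    rintro t ⟨h1, h2⟩
    simp [c, min_eq_left h2, max_eq_right h1]
  have e1 : ∫ t in G, deriv η t = ∫ t, w t * deriv η t := by
    rw [← integral_indicator hG.measurableSet]
    congr 1
    ext t
    by_cases ht : t ∈ Icc (-R) R
    · simp only [w, hcid t ht]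
      by_cases hg : t ∈ G
      · rw [indicator_of_mem hg, indicator_of_mem hg, one_mul]
      · rw [indicator_of_notMem hg, indicator_of_notMem hg, zero_mul]
    · have hd : deriv η t = 0 := by
        have hopen : IsOpen (Icc (-R) R)ᶜ := isClosed_Icc.isOpen_compl
        have : η =ᶠ[𝓝 t] fun _ => 0 := by
          filter_upwards [hopen.mem_nhds ht] with s hs
          exact hsupp s hs
        rw [this.deriv_eq]; simp
      rw [hd, mul_zero, indicator_apply]
      split_ifs <;> simp [hd]
  rw [e1]
  refine oneD hη hc B w hwm ?_ ?_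
  · intro x y
    rcases hws x with h | h <;> rcases hws y with h' | h' <;> rw [h, h'] <;> norm_num
  · intro x y hxy hb
    have hmono : c x ≤ c y := max_le_max le_rfl (min_le_min hxy le_rfl)
    rcases hmono.eq_or_lt with h | h
    · simp only [w, h]
    have hside : c x ∈ G ↔ c y ∈ G := by
      refine side_eq hG hmono fun t ht hf => ?_
      have ht' : t ∈ Icc (-R) R := ⟨(hcI x).1.trans ht.1, ht.2.trans (hcI y).2⟩
      have hxR : x < R := by
        by_contra hge
        push Not at hge
        have : c x = R := by simp [c, min_eq_right hge]; linarith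
        have h2 := (hcI y).2
        linarith
      have hyR : -R < y := by
        by_contra hge
        push Not at hge
        have : c y = -R := by
          simp only [c]
          rw [min_eq_left (by linarith), max_eq_left hge]
        have h2 := (hcI x).1
        linarith
      have h1 : x ≤ c x := by
        simp only [c, min_eq_left hxR.le]; exact le_max_right _ _
      have h2 : c y ≤ y := by
        simp only [c]
        refine max_le hyR.le (min_le_left _ _)
      rcases hb t (hB t hf ht') with h3 | h3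
      · linarith [ht.1]
      · linarith [ht.2]
    simp only [w, indicator_apply]
    by_cases hx : c x ∈ G
    · rw [if_pos hx, if_pos (hside.1 hx)]
    · rw [if_neg hx, if_neg (fun h => hx (hside.2 h))]

end Crest.Agent.R241.E1
end
end

-- ▼ part R241/E1c

/-! Row 241, block E1 (helper777), part c: the directional perimeter bound
`|∫_Ω ∂_v η| ≤ ∫_{∂Ω} |η| dμHE[n]` for open `Ω` in an `(n+1)`-dimensional Euclidean space, with
locally finite `μHE[n]` on the boundary. -/

set_option autoImplicit false
set_option linter.unusedSectionVars false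
open MeasureTheory MeasureTheory.Measure Metric Filter Set Module TopologicalSpace
open scoped NNReal ENNReal Topology

noncomputable section

namespace Crest.Agent.R241.E1

variable {V : Type*} [NormedAddCommGroup V] [InnerProductSpace ℝ V] [FiniteDimensional ℝ V]
  [MeasurableSpace V] [BorelSpace V]

/-- `(t, y) ↦ t v + y`, `y ⊥ v`. -/
def lineMap (v : V) (q : ℝ × ((ℝ ∙ v)ᗮ : Submodule ℝ V)) : V := q.1 • v + q.2

theorem measurePreserving_lineMap {v : V} (hv : ‖v‖ = 1) :
    MeasurePreserving (lineMap v) (volume.prod volume) volume := by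
  have h1 := (LinearIsometryEquiv.toSpanUnitSingleton (𝕜 := ℝ) v hv).measurePreserving
  have h2 : MeasurePreserving (id : ((ℝ ∙ v)ᗮ : Submodule ℝ V) → _) volume volume :=
    MeasurePreserving.id _
  have h3 := h1.prod h2
  have h4 := WithLp.volume_preserving_toLp (ℝ ∙ v : Submodule ℝ V) ((ℝ ∙ v)ᗮ : Submodule ℝ V)
  have h5 := ((ℝ ∙ v : Submodule ℝ V).orthogonalDecomposition.symm).measurePreserving
  have h6 := h5.comp (h4.comp h3)
  have h7 : lineMap v = (⇑(ℝ ∙ v : Submodule ℝ V).orthogonalDecomposition.symm ∘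
      WithLp.toLp 2 ∘ Prod.map (⇑(LinearIsometryEquiv.toSpanUnitSingleton v hv)) id) := by
    funext q
    simp [lineMap, Submodule.orthogonalDecomposition_symm_apply]
  rw [h7]
  exact h6

theorem integral_lineMap {v : V} (hv : ‖v‖ = 1) {g : V → ℝ} (hg : Integrable g) :
    ∫ x, g x = ∫ y : ((ℝ ∙ v)ᗮ : Submodule ℝ V), ∫ t : ℝ, g (t • v + y) := by
  have hm := measurePreserving_lineMap hv
  have hgi : Integrable (g ∘ lineMap v) (volume.prod volume) := hm.integrable_comp_of_integrable hg
  have h1 : ∫ x, g x = ∫ q, g (lineMap v q) ∂(volume.prod volume) := by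
    rw [← hm.map_eq, integral_map hm.measurable.aemeasurable]
    rw [hm.map_eq]
    exact hg.aestronglyMeasurable
  rw [h1]
  exact integral_prod_symm _ hgi

/-- finiteness of a set from finiteness of the number of its points. -/
theorem finite_of_wN_ne_top {X Y : Type*} [MetricSpace X] [SeparableSpace X] [MetricSpace Y]
    {p : X → Y} {B : Set X} {y : Y} (h : wN p B (fun _ => 1) y ≠ ∞) : (B ∩ p ⁻¹' {y}).Finite := by
  by_contra hinf
  have hinf' : Infinite (B ∩ p ⁻¹' {y} : Set X) := Set.infinite_coe_iff.2 hinf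
  apply h
  unfold wN
  rw [← tsum_subtype (B ∩ p ⁻¹' {y}) (fun _ => (1 : ℝ≥0∞))]
  exact ENNReal.tsum_const_eq_top_of_ne_zero one_ne_zero

theorem line_inj {v : V} (hv : ‖v‖ = 1) (y : V) : Function.Injective fun t : ℝ => t • v + y := by
  intro s t h
  have h1 : s • v = t • v := by simpa using h
  have hv0 : v ≠ 0 := by
    intro h0; rw [h0] at hv; simp at hv
  exact smul_left_injective ℝ hv0 h1

/-- the orthogonal projection onto `v^⊥`. -/
def prj (v : V) : V → ((ℝ ∙ v)ᗮ : Submodule ℝ V) := fun x =>
  ((ℝ ∙ v)ᗮ : Submodule ℝ V).orthogonalProjectionOnto x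

theorem prj_line (v : V) (t : ℝ) (y : ((ℝ ∙ v)ᗮ : Submodule ℝ V)) :
    prj v (t • v + y) = y := by
  unfold prj
  rw [map_add, map_smul, Submodule.orthogonalProjectionOnto_mem_subspace_eq_self,
    Submodule.orthogonalProjectionOnto_orthogonalComplement_singleton_eq_zero]
  simp

theorem lipschitz_prj (v : V) : LipschitzWith 1 (prj v) := by
  have h := (((ℝ ∙ v)ᗮ : Submodule ℝ V).orthogonalProjectionOnto).lipschitz
  refine h.weaken ?_
  exact_mod_cast Submodule.orthogonalProjectionOnto_norm_le ((ℝ ∙ v)ᗮ : Submodule ℝ V)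

/-- **directional perimeter bound**. -/
theorem directional {n : ℕ} (hn : finrank ℝ V = n + 1) {v : V} (hv : ‖v‖ = 1) {Ω : Set V}
    (hΩ : IsOpen Ω) (hfin : ∀ R : ℝ, μHE[n] (frontier Ω ∩ closedBall 0 R) ≠ ∞)
    {η : V → ℝ} (hη : ContDiff ℝ 1 η) (hc : HasCompactSupport η) :
    ENNReal.ofReal |∫ x in Ω, fderiv ℝ η x v| ≤
      ∫⁻ x in frontier Ω, ENNReal.ofReal |η x| ∂μHE[n] := by
  classical
  set F : Submodule ℝ V := (ℝ ∙ v)ᗮ with hF
  have hv0 : v ≠ 0 := by
    intro h0; rw [h0] at hv; simp at hv
  have hFn : finrank ℝ F = n := by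
    have h1 := Submodule.finrank_add_finrank_orthogonal (ℝ ∙ v : Submodule ℝ V)
    rw [finrank_span_singleton hv0, hn, ← hF] at h1
    omega
  obtain ⟨R, hR⟩ : ∃ R : ℝ, 0 ≤ R ∧ ∀ x, R < ‖x‖ → η x = 0 := by
    obtain ⟨R, hR⟩ := hc.isBounded.subset_closedBall (0 : V)
    refine ⟨max R 0, le_max_right _ _, fun x hx => ?_⟩
    by_contra hne
    have := hR (subset_tsupport η hne)
    rw [mem_closedBall_zero_iff] at this
    exact absurd hx (not_lt.2 (this.trans (le_max_left _ _)))
  obtain ⟨hR0, hR⟩ := hR
  have hcd : Continuous fun x => fderiv ℝ η x v :=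
    (hη.continuous_fderiv one_ne_zero).clm_apply continuous_const
  have hcs : HasCompactSupport fun x => fderiv ℝ η x v := by
    refine (hc.fderiv (𝕜 := ℝ)).comp_left (g := fun A : V →L[ℝ] ℝ => A v) (by simp)
  have hint : Integrable (Ω.indicator fun x => fderiv ℝ η x v) :=
    (hcd.integrable_of_hasCompactSupport hcs).indicator hΩ.measurableSet
  -- slices
  have hsl : ∀ y : F, ContDiff ℝ 1 fun t : ℝ => η (t • v + y) := fun y =>
    hη.comp (by fun_prop)
  have hder : ∀ (y : F) (t : ℝ), deriv (fun t : ℝ => η (t • v + y)) t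
      = fderiv ℝ η (t • v + y) v := by
    intro y t
    have h1 : HasFDerivAt η (fderiv ℝ η (t • v + y)) (t • v + y) :=
      (hη.differentiable one_ne_zero _).hasFDerivAt
    have h2 : HasDerivAt (fun t : ℝ => t • v + (y : V)) v t := by
      simpa using ((hasDerivAt_id t).smul_const v).add_const (y : V)
    exact (h1.comp_hasDerivAt t h2).deriv
  let G : F → Set ℝ := fun y => {t | t • v + (y : V) ∈ Ω}
  have hG : ∀ y, IsOpen (G y) := fun y => hΩ.preimage (by fun_prop)
  have e1 : ∫ x in Ω, fderiv ℝ η x v = ∫ y : F, ∫ t in G y, deriv (fun t : ℝ => η (t • v + y)) t := by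
    rw [← integral_indicator hΩ.measurableSet, integral_lineMap hv hint]
    congr 1
    ext y
    rw [← integral_indicator (hG y).measurableSet]
    congr 1
    ext t
    by_cases ht : t ∈ G y
    · rw [indicator_of_mem ht, indicator_of_mem (show t • v + (y : V) ∈ Ω from ht), hder]
    · rw [indicator_of_notMem ht, indicator_of_notMem (show t • v + (y : V) ∉ Ω from ht)]
  -- a.e. finiteness
  have hsc : ∀ r : ℝ, IsSigmaCompact (frontier Ω ∩ closedBall (0 : V) r) := fun r =>
    ((isCompact_closedBall (0 : V) r).inter_left isClosed_frontier).isSigmaCompact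
  have hlip := lipschitz_prj v
  have hae : ∀ᵐ y : F, wN (prj v) (frontier Ω ∩ closedBall 0 (2 * R)) (fun _ => 1) y < ∞ := by
    refine ae_lt_top (measurable_wN_one hlip.continuous (hsc _)) ?_
    refine ne_top_of_le_ne_top (hfin (2 * R)) ?_
    have := eilenberg (p := prj v) hlip (hsc (2 * R))
    rwa [hFn] at this
  have hbound : ∀ᵐ y : F, ‖∫ t in G y, deriv (fun t : ℝ => η (t • v + y)) t‖ₑ ≤
      wN (prj v) (frontier Ω) (fun x => ENNReal.ofReal |η x|) y := by
    filter_upwards [hae] with y hy
    rcases lt_or_ge R ‖y‖ with hRy | hRy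
    · -- trivial slice
      have hz : (fun t : ℝ => η (t • v + y)) = fun _ => 0 := by
        funext t
        apply hR
        have h1 : ‖(y : V)‖ ≤ ‖t • v + (y : V)‖ := by
          have h2 := lipschitz_prj v |>.norm_sub_le (t • v + (y : V)) 0
          rw [prj_line] at h2
          have h3 : prj v 0 = 0 := by simp [prj]
          rw [h3] at h2
          simpa using h2
        exact lt_of_lt_of_le hRy h1
      rw [hz]
      simp
    · have hfinset : (frontier Ω ∩ closedBall (0 : V) (2 * R) ∩ prj v ⁻¹' {y}).Finite :=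
        finite_of_wN_ne_top hy.ne
      have hfin2 : {t : ℝ | t ∈ Icc (-R) R ∧ t • v + (y : V) ∈ frontier Ω}.Finite := by
        refine Set.Finite.of_finite_image (f := fun t : ℝ => t • v + (y : V)) ?_
          ((line_inj hv (y : V)).injOn)
        refine hfinset.subset ?_
        rintro _ ⟨t, ⟨ht1, ht2⟩, rfl⟩
        refine ⟨⟨ht2, ?_⟩, prj_line v t y⟩
        rw [mem_closedBall_zero_iff]
        calc ‖t • v + (y : V)‖ ≤ ‖t • v‖ + ‖(y : V)‖ := norm_add_le _ _
          _ ≤ R + R := by
              gcongr
              · rw [norm_smul, hv, mul_one]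
                exact abs_le.2 ht1
              · exact hRy
          _ = 2 * R := by ring
      have hone := oneD_open (hsl y) hR0 (R := R) (by
        intro t ht
        apply hR
        have h1 : |t| ≤ ‖t • v + (y : V)‖ := by
          have h2 : inner ℝ v (t • v + (y : V)) = t := by
            rw [inner_add_right, inner_smul_right, real_inner_self_eq_norm_sq, hv]
            have h3 : inner ℝ v (y : V) = 0 :=
              Submodule.mem_orthogonal_singleton_iff_inner_right.1 y.2
            rw [h3]; ring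
          calc |t| = |inner ℝ v (t • v + (y : V))| := by rw [h2]
            _ ≤ ‖v‖ * ‖t • v + (y : V)‖ := abs_real_inner_le_norm _ _
            _ = _ := by rw [hv, one_mul]
        refine lt_of_lt_of_le ?_ h1
        by_contra hle
        exact ht (abs_le.1 (not_lt.1 hle))) (hG y) hfin2.toFinset (by
          intro t ht1 ht2
          rw [Set.Finite.mem_toFinset]
          refine ⟨ht2, ?_⟩
          have hcont : Continuous fun t : ℝ => t • v + (y : V) := by fun_prop
          exact hcont.frontier_preimage_subset Ω ht1)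
      rw [Real.enorm_eq_ofReal_abs]
      refine (ENNReal.ofReal_le_ofReal hone).trans ?_
      rw [ENNReal.ofReal_sum_of_nonneg fun _ _ => abs_nonneg _]
      unfold wN
      calc ∑ t ∈ hfin2.toFinset, ENNReal.ofReal |η (t • v + (y : V))|
          = ∑ t ∈ hfin2.toFinset, (frontier Ω ∩ prj v ⁻¹' {y}).indicator
              (fun x => ENNReal.ofReal |η x|) (t • v + (y : V)) := by
            refine Finset.sum_congr rfl fun t ht => ?_
            rw [Set.Finite.mem_toFinset] at ht
            rw [indicator_of_mem]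
            exact ⟨ht.2, prj_line v t y⟩
        _ = ∑ x ∈ hfin2.toFinset.image (fun t : ℝ => t • v + (y : V)),
              (frontier Ω ∩ prj v ⁻¹' {y}).indicator (fun x => ENNReal.ofReal |η x|) x := by
            rw [Finset.sum_image fun a _ b _ h => line_inj hv (y : V) h]
        _ ≤ _ := ENNReal.sum_le_tsum _
  have hscf : IsSigmaCompact (frontier Ω) := by
    have h1 : frontier Ω = ⋃ k : ℕ, frontier Ω ∩ closedBall (0 : V) k := by
      rw [← inter_iUnion, iUnion_closedBall_nat, inter_univ]
    rw [h1]
    exact isSigmaCompact_iUnion _ fun k => hsc k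
  calc ENNReal.ofReal |∫ x in Ω, fderiv ℝ η x v|
      = ‖∫ y : F, ∫ t in G y, deriv (fun t : ℝ => η (t • v + y)) t‖ₑ := by
        rw [e1, Real.enorm_eq_ofReal_abs]
    _ ≤ ∫⁻ y : F, ‖∫ t in G y, deriv (fun t : ℝ => η (t • v + y)) t‖ₑ :=
        enorm_integral_le_lintegral_enorm _
    _ ≤ ∫⁻ y : F, wN (prj v) (frontier Ω) (fun x => ENNReal.ofReal |η x|) y :=
        lintegral_mono_ae hbound
    _ ≤ ∫⁻ x in frontier Ω, ENNReal.ofReal |η x| ∂μHE[finrank ℝ F] :=
        eilenberg_weighted hlip hscf (hη.continuous.abs)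
    _ = _ := by rw [hFn]

end Crest.Agent.R241.E1
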