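import Mathlib
import Crest.Agent.R241.E1c
import Crest.Agent.R241.B1Cur

-- ▼ part R241/E1d
section

/-! Row 241, block E1 (helper777), part d: mollification of the indicator function of an open set.
`u = 1_Ω * ρ`: smooth, values in `[0,1]`, globally Lipschitz, and
`‖∇u(x)‖ ≤ ∫_{∂Ω} ρ(x - y) dμHE[n](y)`. -/

set_option autoImplicit false
set_option linter.unusedSectionVars false
open MeasureTheory MeasureTheory.Measure Metric Filter Set Module TopologicalSpace
open scoped NNReal ENNReal Topology Convolution

noncomputable section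

namespace Crest.Agent.R241.E1

variable {V : Type*} [NormedAddCommGroup V] [InnerProductSpace ℝ V] [FiniteDimensional ℝ V]
  [MeasurableSpace V] [BorelSpace V]

/-- the mollified indicator of `Ω`. -/
def mol (φ : ContDiffBump (0 : V)) (Ω : Set V) (x : V) : ℝ := ∫ t in Ω, φ.normed volume (x - t)

theorem mol_eq_conv (φ : ContDiffBump (0 : V)) {Ω : Set V} (hΩ : MeasurableSet Ω) :
    mol φ Ω = (Ω.indicator (fun _ => (1 : ℝ))) ⋆[ContinuousLinearMap.lsmul ℝ ℝ, volume]
      (φ.normed volume) := by
  funext x
  rw [mol, convolution_def, ← integral_indicator hΩ]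
  congr 1
  funext t
  by_cases ht : t ∈ Ω
  · simp [indicator_of_mem ht]
  · simp [indicator_of_notMem ht]

theorem mol_eq_conv' (φ : ContDiffBump (0 : V)) {Ω : Set V} (hΩ : MeasurableSet Ω) :
    mol φ Ω = (φ.normed volume) ⋆[ContinuousLinearMap.lsmul ℝ ℝ, volume]
      (Ω.indicator (fun _ => (1 : ℝ))) := by
  funext x
  rw [mol, convolution_eq_swap, ← integral_indicator hΩ]
  congr 1
  funext t
  by_cases ht : t ∈ Ω
  · simp [indicator_of_mem ht]
  · simp [indicator_of_notMem ht]

theorem locInt_ind {Ω : Set V} (hΩ : MeasurableSet Ω) :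
    LocallyIntegrable (Ω.indicator (fun _ => (1 : ℝ))) (volume : Measure V) :=
  (locallyIntegrable_const (1 : ℝ)).indicator hΩ

theorem continuous_normed (φ : ContDiffBump (0 : V)) : Continuous (φ.normed (volume : Measure V)) :=
  φ.contDiff_normed (n := 0).continuous

theorem contDiff_mol (φ : ContDiffBump (0 : V)) {Ω : Set V} (hΩ : MeasurableSet Ω) :
    ContDiff ℝ 1 (mol φ Ω) := by
  rw [mol_eq_conv φ hΩ]
  exact φ.hasCompactSupport_normed.contDiff_convolution_right _ (locInt_ind hΩ) φ.contDiff_normed

theorem conv_fderiv_apply {f : V → ℝ} (hf : LocallyIntegrable f (volume : Measure V)) {g : V → ℝ}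
    (hg : ContDiff ℝ 1 g) (hc : HasCompactSupport g) (x v : V) :
    fderiv ℝ (f ⋆[ContinuousLinearMap.lsmul ℝ ℝ, volume] g) x v =
      ∫ t, f t * fderiv ℝ g (x - t) v := by
  have h1 := hc.hasFDerivAt_convolution_right (ContinuousLinearMap.lsmul ℝ ℝ) hf hg x
  rw [h1.fderiv]
  have hdc : Continuous (fderiv ℝ g) := hg.continuous_fderiv one_ne_zero
  have hds : HasCompactSupport (fderiv ℝ g) := hc.fderiv (𝕜 := ℝ)
  have hint : ConvolutionExistsAt f (fderiv ℝ g) x
      (ContinuousLinearMap.precompR V (ContinuousLinearMap.lsmul ℝ ℝ)) volume :=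
    hds.convolutionExists_right _ hf hdc x
  have h2 := ContinuousLinearMap.integral_apply hint v
  rw [convolution_def]
  rw [h2]
  rfl

theorem fderiv_mol (φ : ContDiffBump (0 : V)) {Ω : Set V} (hΩ : MeasurableSet Ω) (x v : V) :
    fderiv ℝ (mol φ Ω) x v = ∫ t in Ω, fderiv ℝ (φ.normed volume) (x - t) v := by
  rw [mol_eq_conv φ hΩ, conv_fderiv_apply (locInt_ind hΩ) φ.contDiff_normed
    φ.hasCompactSupport_normed, ← integral_indicator hΩ]
  congr 1
  funext t
  by_cases ht : t ∈ Ω
  · rw [indicator_of_mem ht, indicator_of_mem ht, one_mul]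
  · rw [indicator_of_notMem ht, indicator_of_notMem ht, zero_mul]

theorem mol_nonneg (φ : ContDiffBump (0 : V)) (Ω : Set V) (x : V) : 0 ≤ mol φ Ω x :=
  integral_nonneg fun _ => φ.nonneg_normed _

theorem integrable_sub (φ : ContDiffBump (0 : V)) (x : V) :
    Integrable fun t => φ.normed (volume : Measure V) (x - t) := by
  have : Integrable (φ.normed (volume : Measure V)) := φ.integrable_normed
  exact this.comp_sub_left x

theorem mol_le_one (φ : ContDiffBump (0 : V)) (Ω : Set V) (x : V) : mol φ Ω x ≤ 1 := by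
  calc mol φ Ω x ≤ ∫ t, φ.normed volume (x - t) :=
        setIntegral_le_integral (integrable_sub φ x) (Eventually.of_forall fun _ => φ.nonneg_normed _)
    _ = ∫ t, φ.normed volume t := integral_sub_left_eq_self _ _ _
    _ = 1 := φ.integral_normed


section bdry
variable {n : ℕ} {Ω : Set V}

/-- the boundary measure -/
def bm (n : ℕ) (Ω : Set V) : Measure V := μHE[n].restrict (frontier Ω)

theorem bm_locFin (hfin : ∀ R : ℝ, μHE[n] (frontier Ω ∩ closedBall 0 R) ≠ ∞) :
    IsFiniteMeasureOnCompacts (bm n Ω) := by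
  refine ⟨fun K hK => ?_⟩
  obtain ⟨R, hR⟩ := hK.isBounded.subset_closedBall (0 : V)
  calc bm n Ω K ≤ bm n Ω (closedBall 0 R) := measure_mono hR
    _ = μHE[n] (frontier Ω ∩ closedBall 0 R) := by
        rw [bm, Measure.restrict_apply isClosed_closedBall.measurableSet, inter_comm]
    _ < ∞ := (hfin R).lt_top

/-- **gradient bound** for the mollified indicator. -/
theorem norm_fderiv_mol_le (hn : finrank ℝ V = n + 1) (hΩ : IsOpen Ω)
    (hfin : ∀ R : ℝ, μHE[n] (frontier Ω ∩ closedBall 0 R) ≠ ∞) (φ : ContDiffBump (0 : V)) (x : V) :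
    ‖fderiv ℝ (mol φ Ω) x‖ ≤ ∫ y, φ.normed volume (x - y) ∂(bm n Ω) := by
  have hloc := bm_locFin hfin
  refine ContinuousLinearMap.opNorm_le_of_unit_norm
    (integral_nonneg fun _ => φ.nonneg_normed _) fun v hv => ?_
  rw [fderiv_mol φ hΩ.measurableSet]
  set η : V → ℝ := fun t => φ.normed volume (x - t) with hη
  have hηc : ContDiff ℝ 1 η := (φ.contDiff_normed (n := 1)).comp (by fun_prop)
  have hηs : HasCompactSupport η := by
    have := φ.hasCompactSupport_normed (μ := (volume : Measure V))
    exact this.comp_homeomorph (Homeomorph.subLeft x)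
  have hder : ∀ t, fderiv ℝ η t v = - fderiv ℝ (φ.normed volume) (x - t) v := by
    intro t
    have h1 : HasFDerivAt (φ.normed (volume : Measure V)) (fderiv ℝ (φ.normed volume) (x - t))
        (x - t) := ((φ.contDiff_normed (n := 1)).differentiable one_ne_zero _).hasFDerivAt
    have h2 : HasFDerivAt (fun t : V => x - t) (-ContinuousLinearMap.id ℝ V) t := by
      simpa using (hasFDerivAt_id t).const_sub x
    have h3 := h1.comp t h2
    have h4 : fderiv ℝ η t = (fderiv ℝ (φ.normed volume) (x - t)).comp
      (-ContinuousLinearMap.id ℝ V) := h3.fderiv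
    rw [h4]; simp
  have h5 : ∫ t in Ω, fderiv ℝ (φ.normed volume) (x - t) v = - ∫ t in Ω, fderiv ℝ η t v := by
    rw [← integral_neg]
    congr 1
    funext t
    rw [hder, neg_neg]
  rw [h5, norm_neg, Real.norm_eq_abs]
  have h6 := directional hn hv hΩ hfin hηc hηs
  have h7 : Integrable η (bm n Ω) := hηc.continuous.integrable_of_hasCompactSupport hηs
  have h8 : ∫⁻ x in frontier Ω, ENNReal.ofReal |η x| ∂μHE[n] = ENNReal.ofReal (∫ y, η y ∂(bm n Ω)) := by
    rw [ofReal_integral_eq_lintegral_ofReal h7 (Eventually.of_forall fun _ => φ.nonneg_normed _)]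
    refine lintegral_congr fun y => ?_
    rw [abs_of_nonneg (φ.nonneg_normed _)]
  rw [h8] at h6
  exact (ENNReal.ofReal_le_ofReal_iff (integral_nonneg fun _ => φ.nonneg_normed _)).1 h6

end bdry

end Crest.Agent.R241.E1
end
end

-- ▼ part R241/E1e

/-! Row 241, block E1 (helper777), part e: perimeter bounds in Euclidean space.
* vector fields: `∫_Ω div W ≤ ∫_{∂Ω} ‖W‖ dμHE[n]`;
* determinants: `|∫_Ω det D(F₀,…,F_n)| ≤ ∏ Lip F_i ∫_{∂Ω} |F₀| dμHE[n]`. -/

set_option autoImplicit false
set_option linter.unusedSectionVars false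
open MeasureTheory MeasureTheory.Measure Metric Filter Set Module TopologicalSpace
open scoped NNReal ENNReal Topology Convolution Pointwise

noncomputable section

namespace Crest.Agent.R241.E1

variable {V : Type*} [NormedAddCommGroup V] [InnerProductSpace ℝ V] [FiniteDimensional ℝ V]
  [MeasurableSpace V] [BorelSpace V]

/-- the standard sequence of bumps. -/
def bmp (V : Type*) [NormedAddCommGroup V] [InnerProductSpace ℝ V] [FiniteDimensional ℝ V] (k : ℕ) :
    ContDiffBump (0 : V) where
  rIn := 1 / (2 * ((k : ℝ) + 1))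
  rOut := 1 / ((k : ℝ) + 1)
  rIn_pos := by positivity
  rIn_lt_rOut := by
    apply one_div_lt_one_div_of_lt (by positivity)
    have : (0 : ℝ) ≤ k := Nat.cast_nonneg k
    linarith

theorem bmp_rOut (k : ℕ) : (bmp V k).rOut = 1 / ((k : ℝ) + 1) := rfl

theorem tendsto_bmp : Tendsto (fun k => (bmp V k).rOut) atTop (𝓝 0) :=
  tendsto_one_div_add_atTop_nhds_zero_nat

theorem bmp_ratio (k : ℕ) : (bmp V k).rOut ≤ 2 * (bmp V k).rIn := by
  change 1 / ((k : ℝ) + 1) ≤ 2 * (1 / (2 * ((k : ℝ) + 1)))
  apply le_of_eq
  field_simp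

/-- `u_k → 1_Ω` a.e. -/
theorem tendsto_mol {Ω : Set V} (hΩ : MeasurableSet Ω) :
    ∀ᵐ x : V, Tendsto (fun k => mol (bmp V k) Ω x) atTop (𝓝 (Ω.indicator (fun _ => (1 : ℝ)) x)) := by
  have h := ContDiffBump.ae_convolution_tendsto_right_of_locallyIntegrable (μ := (volume : Measure V))
    (φ := fun k => bmp V k) (l := atTop) (K := 2) tendsto_bmp
    (Eventually.of_forall fun k => bmp_ratio k) (locInt_ind hΩ)
  filter_upwards [h] with x hx
  simpa only [mol_eq_conv' _ hΩ] using hx

/-- averages of `G` -/
def avg (φ : ContDiffBump (0 : V)) (G : V → ℝ) (y : V) : ℝ :=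
  ∫ x, G x * φ.normed (volume : Measure V) (x - y)

theorem avg_eq_conv (φ : ContDiffBump (0 : V)) (G : V → ℝ) :
    avg φ G = (φ.normed (volume : Measure V)) ⋆[ContinuousLinearMap.lsmul ℝ ℝ, volume] G := by
  funext y
  rw [avg, convolution_eq_swap]
  congr 1
  funext x
  rw [ContinuousLinearMap.lsmul_apply, smul_eq_mul, ← φ.normed_neg, neg_sub, mul_comm]

theorem avg_eq_zero {φ : ContDiffBump (0 : V)} {G : V → ℝ} {R : ℝ}
    (hR : ∀ x, R < ‖x‖ → G x = 0) {y : V} (hy : R + φ.rOut < ‖y‖) : avg φ G y = 0 := by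
  unfold avg
  have : (fun x => G x * φ.normed (volume : Measure V) (x - y)) = fun _ => 0 := by
    funext x
    by_cases hx : R < ‖x‖
    · rw [hR x hx, zero_mul]
    · have h1 : x - y ∉ Function.support (φ.normed (volume : Measure V)) := by
        rw [φ.support_normed_eq, mem_ball_zero_iff, not_lt]
        have := norm_sub_norm_le y x
        rw [norm_sub_rev] at this
        linarith
      rw [Function.notMem_support.1 h1, mul_zero]
  rw [this]; simp

theorem abs_avg_le {φ : ContDiffBump (0 : V)} {G : V → ℝ} {M : ℝ} (hM : ∀ x, |G x| ≤ M) (y : V) :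
    |avg φ G y| ≤ M := by
  have hM0 : 0 ≤ M := (abs_nonneg _).trans (hM 0)
  have hi : Integrable fun x => φ.normed (volume : Measure V) (x - y) :=
    (φ.integrable_normed (μ := (volume : Measure V))).comp_sub_right y
  calc |avg φ G y| ≤ ∫ x, |G x * φ.normed (volume : Measure V) (x - y)| :=
        abs_integral_le_integral_abs
    _ ≤ ∫ x, M * φ.normed (volume : Measure V) (x - y) := by
        refine integral_mono_of_nonneg (Eventually.of_forall fun _ => abs_nonneg _)
          (hi.const_mul M) (Eventually.of_forall fun x => ?_)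
        simp only
        rw [abs_mul, abs_of_nonneg (φ.nonneg_normed _)]
        exact mul_le_mul_of_nonneg_right (hM x) (φ.nonneg_normed _)
    _ = M := by
        rw [integral_const_mul, integral_sub_right_eq_self (fun x => φ.normed volume x),
          φ.integral_normed, mul_one]

theorem tendsto_avg {G : V → ℝ} (hG : Continuous G) (hc : HasCompactSupport G) (ν : Measure V)
    [IsFiniteMeasureOnCompacts ν] :
    Tendsto (fun k => ∫ y, avg (bmp V k) G y ∂ν) atTop (𝓝 (∫ y, G y ∂ν)) := by
  obtain ⟨R, hR⟩ : ∃ R : ℝ, ∀ x, R < ‖x‖ → G x = 0 := by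
    obtain ⟨R, hR⟩ := hc.isBounded.subset_closedBall (0 : V)
    refine ⟨R, fun x hx => ?_⟩
    by_contra hne
    have := hR (subset_tsupport G hne)
    rw [mem_closedBall_zero_iff] at this
    linarith
  obtain ⟨M, hM⟩ := hc.exists_bound_of_continuous hG
  refine tendsto_integral_of_dominated_convergence
    ((closedBall (0 : V) (R + 1)).indicator fun _ => M) ?_ ?_ ?_ ?_
  · intro k
    rw [avg_eq_conv]
    exact ((bmp V k).hasCompactSupport_normed.continuous_convolution_left _
      (continuous_normed _) hG.locallyIntegrable).aestronglyMeasurable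
  · exact (integrable_indicator_iff isClosed_closedBall.measurableSet).2
      (integrableOn_const (isCompact_closedBall (0 : V) (R + 1)).measure_lt_top.ne)
  · intro k
    refine Eventually.of_forall fun y => ?_
    by_cases hy : y ∈ closedBall (0 : V) (R + 1)
    · rw [indicator_of_mem hy, Real.norm_eq_abs]
      exact abs_avg_le hM y
    · rw [indicator_of_notMem hy, avg_eq_zero hR, norm_zero]
      rw [mem_closedBall_zero_iff, not_le] at hy
      have : (bmp V k).rOut ≤ 1 := by
        rw [bmp_rOut, div_le_one (by positivity)]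
        have : (0 : ℝ) ≤ k := Nat.cast_nonneg k
        linarith
      linarith
  · refine Eventually.of_forall fun y => ?_
    simp only [avg_eq_conv]
    exact ContDiffBump.convolution_tendsto_right_of_continuous tendsto_bmp hG y

variable {n : ℕ} {Ω : Set V}

/-- the gradient of the mollified indicator against a nonnegative weight. -/
theorem integral_norm_fderiv_mol_le (hn : finrank ℝ V = n + 1) (hΩ : IsOpen Ω)
    (hfin : ∀ R : ℝ, μHE[n] (frontier Ω ∩ closedBall 0 R) ≠ ∞) (φ : ContDiffBump (0 : V))
    {G : V → ℝ} (hG : Continuous G) (hc : HasCompactSupport G) (hG0 : ∀ x, 0 ≤ G x) :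
    ∫ x, ‖fderiv ℝ (mol φ Ω) x‖ * G x ≤ ∫ y, avg φ G y ∂(bm n Ω) := by
  have hloc := bm_locFin hfin
  have hcont : Continuous (Function.uncurry
      fun x y => G x * φ.normed (volume : Measure V) (x - y)) := by
    have h1 := continuous_normed φ
    exact (hG.comp continuous_fst).mul (h1.comp (by fun_prop))
  have hcs : HasCompactSupport (Function.uncurry
      fun x y => G x * φ.normed (volume : Measure V) (x - y)) := by
    have hK : IsCompact (tsupport G ×ˢ (tsupport G + closedBall (0 : V) φ.rOut)) :=
      hc.isCompact.prod (hc.isCompact.add (isCompact_closedBall _ _))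
    refine HasCompactSupport.of_support_subset_isCompact hK ?_
    rintro ⟨x, y⟩ hxy
    simp only [Function.uncurry, Function.mem_support, ne_eq, mul_eq_zero, not_or] at hxy
    have hx : x ∈ tsupport G := subset_tsupport G hxy.1
    refine ⟨hx, ?_⟩
    have h2 : x - y ∈ ball (0 : V) φ.rOut := by
      rw [← φ.support_normed_eq (μ := (volume : Measure V))]; exact hxy.2
    refine Set.mem_add.2 ⟨x, hx, -(x - y), ?_, by abel⟩
    rw [mem_closedBall_zero_iff, norm_neg]
    exact (mem_ball_zero_iff.1 h2).le
  have hsw := integral_integral_swap_of_hasCompactSupport (X := V) (Y := V)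
    (f := fun x y => G x * φ.normed (volume : Measure V) (x - y)) (μ := volume) (ν := bm n Ω)
    hcont hcs
  have hloc2 : IsLocallyFiniteMeasure (bm n Ω) := isLocallyFiniteMeasure_of_isFiniteMeasureOnCompacts
  have hpi : Integrable (Function.uncurry
      fun x y => G x * φ.normed (volume : Measure V) (x - y)) (volume.prod (bm n Ω)) :=
    hcont.integrable_of_hasCompactSupport hcs
  calc ∫ x, ‖fderiv ℝ (mol φ Ω) x‖ * G x
      ≤ ∫ x, (∫ y, φ.normed volume (x - y) ∂(bm n Ω)) * G x := by
        have hi : Integrable fun x => (∫ y, φ.normed volume (x - y) ∂(bm n Ω)) * G x := by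
          have h1 := hpi.integral_prod_left
          refine h1.congr (Eventually.of_forall fun x => ?_)
          simp only [Function.uncurry]
          rw [integral_const_mul, mul_comm]
        refine integral_mono_of_nonneg (Eventually.of_forall fun x => by
          exact mul_nonneg (norm_nonneg _) (hG0 x)) hi (Eventually.of_forall fun x => ?_)
        exact mul_le_mul_of_nonneg_right (norm_fderiv_mol_le hn hΩ hfin φ x) (hG0 x)
    _ = ∫ x, ∫ y, G x * φ.normed (volume : Measure V) (x - y) ∂(bm n Ω) := by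
        congr 1
        funext x
        rw [integral_const_mul, mul_comm]
    _ = ∫ y, ∫ x, G x * φ.normed (volume : Measure V) (x - y) ∂volume ∂(bm n Ω) := hsw
    _ = _ := rfl

section det
open Crest.GeometryTopology.Submanifold (Euc)
open B1Null B1Weak



variable {n : ℕ} {Ω : Set (Euc (n + 1))}


end det

end Crest.Agent.R241.E1
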