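import Mathlib
import Crest.Agent.R241.E1e
import Crest.Agent.R241.AF3
import Crest.Agent.R241.EP2

-- ▼ part R241/E1f
section

/-! Row 241, block E1 (helper777), part f: linear charts. For a C¹ immersion `ψ` and a point `x₀`
there is a linear automorphism `L` with `‖L v‖ = ‖Dψ(x₀) v‖`, and `ψ ∘ L⁻¹` is almost isometric
near `L x₀`. Comparison of the boundary measures. -/

set_option autoImplicit false
set_option linter.unusedSectionVars false
open MeasureTheory MeasureTheory.Measure Metric Filter Set Module TopologicalSpace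
open scoped NNReal ENNReal Topology

noncomputable section

namespace Crest.Agent.R241.E1

open Crest.GeometryTopology.Submanifold (Euc)

variable {m N : ℕ}

theorem exists_linear (A : Euc m →L[ℝ] Euc N) (hA : Function.Injective A) :
    ∃ L : Euc m ≃L[ℝ] Euc m, ∀ v, ‖L v‖ = ‖A v‖ := by
  let f : Euc m ≃ₗ[ℝ] A.toLinearMap.range := LinearEquiv.ofInjective A.toLinearMap hA
  have hr : finrank ℝ A.toLinearMap.range = m := by
    rw [← f.finrank_eq]; exact finrank_euclideanSpace_fin
  let e : A.toLinearMap.range ≃ₗᵢ[ℝ] Euc m :=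
    ((stdOrthonormalBasis ℝ A.toLinearMap.range).reindex (finCongr hr)).repr
  refine ⟨(f.trans e.toLinearEquiv).toContinuousLinearEquiv, fun v => ?_⟩
  change ‖e (f v)‖ = _
  rw [e.norm_map]
  rfl

/-- local almost isometry of `ψ` with respect to the linear chart. -/
theorem local_cmp {ψ : Euc m → Euc N} (hψ : ContDiff ℝ 1 ψ) {x₀ : Euc m}
    (hinj : Function.Injective (fderiv ℝ ψ x₀)) {L : Euc m ≃L[ℝ] Euc m}
    (hL : ∀ v, ‖L v‖ = ‖fderiv ℝ ψ x₀ v‖) {δ : ℝ} (hδ : 0 < δ) :
    ∃ r > 0, ∀ x ∈ ball x₀ r, ∀ y ∈ ball x₀ r,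
      ‖L x - L y‖ ≤ (1 + δ) * ‖ψ x - ψ y‖ ∧ ‖ψ x - ψ y‖ ≤ (1 + δ) * ‖L x - L y‖ := by
  set A := fderiv ℝ ψ x₀ with hA
  obtain ⟨K, Kpos, hK⟩ := A.toLinearMap.exists_antilipschitzWith (LinearMap.ker_eq_bot.2 hinj)
  have hst : HasStrictFDerivAt ψ A x₀ := (hψ.contDiffAt).hasStrictFDerivAt one_ne_zero
  set c : ℝ := δ / (1 + δ) / K with hc
  have hKr : (0 : ℝ) < K := Kpos
  have hcpos : 0 < c := by positivity
  have h1 := hst.isLittleO.def hcpos
  rw [nhds_prod_eq] at h1
  obtain ⟨u, hu, huv⟩ := (eventually_prod_self_iff'.1 h1)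
  obtain ⟨r, hr, hru⟩ := Metric.mem_nhds_iff.1 hu
  refine ⟨r, hr, fun x hx y hy => ?_⟩
  have h2 := huv x (hru hx) y (hru hy)
  simp only at h2
  have h3 : ‖x - y‖ ≤ K * ‖A (x - y)‖ := by
    have := hK.le_mul_dist x y
    simp only [dist_eq_norm] at this
    rw [map_sub]
    exact this
  have h4 : ‖L x - L y‖ = ‖A (x - y)‖ := by rw [← map_sub, hL]
  have h5 : ‖ψ x - ψ y - A (x - y)‖ ≤ δ / (1 + δ) * ‖A (x - y)‖ := by
    calc _ ≤ c * ‖x - y‖ := h2
      _ ≤ c * (K * ‖A (x - y)‖) := by gcongr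
      _ = _ := by rw [hc]; field_simp
  rw [h4]
  have h6 : ‖A (x - y)‖ ≤ ‖ψ x - ψ y‖ + δ / (1 + δ) * ‖A (x - y)‖ := by
    have := norm_sub_norm_le (A (x - y)) (ψ x - ψ y)
    rw [norm_sub_rev (A (x - y))] at this
    linarith
  have h7 : ‖ψ x - ψ y‖ ≤ ‖A (x - y)‖ + δ / (1 + δ) * ‖A (x - y)‖ := by
    have := norm_sub_norm_le (ψ x - ψ y) (A (x - y))
    linarith
  have h8 : δ / (1 + δ) ≤ δ := by
    rw [div_le_iff₀ (by positivity)]
    nlinarith
  constructor
  · have h9 : (1 - δ / (1 + δ)) * ‖A (x - y)‖ ≤ ‖ψ x - ψ y‖ := by linarith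
    have h10 : 1 - δ / (1 + δ) = 1 / (1 + δ) := by field_simp; ring
    rw [h10, one_div, ← div_eq_inv_mul, div_le_iff₀ (by positivity)] at h9
    linarith
  · calc ‖ψ x - ψ y‖ ≤ ‖A (x - y)‖ + δ / (1 + δ) * ‖A (x - y)‖ := h7
      _ ≤ ‖A (x - y)‖ + δ * ‖A (x - y)‖ := by gcongr
      _ = _ := by ring

/-- the boundary measure of `A` in the metric of `ψ`, on the chart. -/
def bmψ (n : ℕ) (ψ : Euc m → Euc N) (A : Set (Euc m)) : Measure (Euc m) :=
  (Measure.comap ψ μHE[n]).restrict (frontier A)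

theorem measurableEmbedding_ψ {ψ : Euc m → Euc N} (hc : Continuous ψ) (hi : Function.Injective ψ) :
    MeasurableEmbedding ψ := hc.measurableEmbedding hi

theorem bmψ_apply {n : ℕ} {ψ : Euc m → Euc N} (hc : Continuous ψ) (hi : Function.Injective ψ)
    (A : Set (Euc m)) {B : Set (Euc m)} (hB : MeasurableSet B) :
    bmψ n ψ A B = μHE[n] (ψ '' (frontier A ∩ B)) := by
  rw [bmψ, Measure.restrict_apply hB, (measurableEmbedding_ψ hc hi).comap_apply, inter_comm]

/-- comparison of the boundary measures in a linear chart. -/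
theorem bm_image_le {n : ℕ} {ψ : Euc m → Euc N} (hc : Continuous ψ) (hi : Function.Injective ψ)
    {L : Euc m ≃L[ℝ] Euc m} {B : Set (Euc m)} (hB : MeasurableSet B) {K : ℝ≥0}
    (hK : ∀ x ∈ B, ∀ y ∈ B, ‖L x - L y‖ ≤ K * ‖ψ x - ψ y‖) (A : Set (Euc m)) :
    (bm n (L '' A)).restrict (L '' B) ≤ (K : ℝ≥0∞) ^ n • ((bmψ n ψ A).restrict B).map L := by
  have hLm : Measurable L := L.continuous.measurable
  refine Measure.le_iff.2 fun S hS => ?_
  have hLB : MeasurableSet (L '' B) := by
    have : L '' B = L.symm ⁻¹' B := L.image_eq_preimage_symm B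
    rw [this]
    exact L.symm.continuous.measurable hB
  have hfr : frontier (L '' A) = L '' frontier A :=
    (L.toHomeomorph.image_frontier A).symm
  rw [Measure.restrict_apply hS, bm, Measure.restrict_apply (hS.inter hLB), hfr,
    Measure.smul_apply, Measure.map_apply hLm hS, Measure.restrict_apply (hLm hS), smul_eq_mul,
    bmψ_apply hc hi A ((hLm hS).inter hB)]
  have h1 : S ∩ L '' B ∩ L '' frontier A = L '' (frontier A ∩ (L ⁻¹' S ∩ B)) := by
    ext y
    constructor
    · rintro ⟨⟨h1, x, hx, rfl⟩, z, hz, hzx⟩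
      have := L.injective hzx
      subst this
      exact ⟨z, ⟨hz, h1, hx⟩, rfl⟩
    · rintro ⟨x, ⟨h1, h2, h3⟩, rfl⟩
      exact ⟨⟨h2, x, h3, rfl⟩, x, h1, rfl⟩
  rw [h1]
  -- `L ∘ ψ⁻¹` is `K`-Lipschitz on the image
  set T := frontier A ∩ (L ⁻¹' S ∩ B) with hT
  have h2 : L '' T = (fun y => L (Function.invFun ψ y)) '' (ψ '' T) := by
    rw [image_image]
    refine image_congr fun x _ => ?_
    rw [Function.leftInverse_invFun hi x]
  rw [h2]
  refine AF.muHE_image_le ?_ n
  refine LipschitzOnWith.of_dist_le_mul ?_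
  rintro _ ⟨x, hx, rfl⟩ _ ⟨y, hy, rfl⟩
  rw [Function.leftInverse_invFun hi x, Function.leftInverse_invFun hi y, dist_eq_norm,
    dist_eq_norm]
  exact hK x hx.2.2 y hy.2.2

/-- local finiteness in every linear chart. -/
theorem locFin_image {n : ℕ} {ψ : Euc m → Euc N} (hψ : ContDiff ℝ 1 ψ)
    (hi : Function.Injective ψ) (him : ∀ x, Function.Injective (fderiv ℝ ψ x))
    {A : Set (Euc m)} (hfin : ∀ K : Set (Euc m), IsCompact K → bmψ n ψ A K ≠ ∞)
    (L : Euc m ≃L[ℝ] Euc m) (R : ℝ) : μHE[n] (frontier (L '' A) ∩ closedBall 0 R) ≠ ∞ := by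
  have hfr : frontier (L '' A) = L '' frontier A :=
    (L.toHomeomorph.image_frontier A).symm
  set K : Set (Euc m) := L.symm '' closedBall 0 R with hKdef
  have hK : IsCompact K := (isCompact_closedBall _ _).image L.symm.continuous
  have h1 : frontier (L '' A) ∩ closedBall 0 R = L '' (frontier A ∩ K) := by
    rw [hfr]
    ext y
    constructor
    · rintro ⟨⟨x, hx, rfl⟩, hy⟩
      exact ⟨x, ⟨hx, L x, hy, by simp⟩, rfl⟩
    · rintro ⟨x, ⟨hx, z, hz, rfl⟩, rfl⟩
      exact ⟨⟨_, hx, rfl⟩, by simpa using hz⟩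
  rw [h1]
  -- local bound, then compactness
  have hloc : ∀ x₀ ∈ K, ∃ t ∈ 𝓝[K] x₀, μHE[n] (L '' (frontier A ∩ t)) ≠ ∞ := by
    intro x₀ _
    obtain ⟨L0, hL0⟩ := exists_linear (fderiv ℝ ψ x₀) (him x₀)
    obtain ⟨r, hr, hcmp⟩ := local_cmp hψ (him x₀) hL0 one_pos
    refine ⟨ball x₀ r ∩ K, ?_, ?_⟩
    · exact inter_mem (mem_nhdsWithin_of_mem_nhds (ball_mem_nhds x₀ hr)) self_mem_nhdsWithin
    · set C : ℝ≥0 := ‖(L.toContinuousLinearMap ∘L L0.symm.toContinuousLinearMap)‖₊ with hC
      have h2 := bm_image_le (n := n) hψ.continuous hi (L := L) (B := ball x₀ r)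
        measurableSet_ball (K := C * 2) (fun x hx y hy => by
          have h3 := (hcmp x hx y hy).1
          have h4 : ‖L x - L y‖ ≤ C * ‖L0 x - L0 y‖ := by
            have h5 := (L.toContinuousLinearMap ∘L L0.symm.toContinuousLinearMap).le_opNorm
              (L0 x - L0 y)
            have e : (L.toContinuousLinearMap ∘L L0.symm.toContinuousLinearMap) (L0 x - L0 y)
                = L x - L y := by simp [map_sub]
            rw [e] at h5
            exact h5
          calc ‖L x - L y‖ ≤ C * ‖L0 x - L0 y‖ := h4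
            _ ≤ C * ((1 + 1) * ‖ψ x - ψ y‖) := by gcongr
            _ = _ := by push_cast; ring) A
      have h5 := h2 (L '' (ball x₀ r ∩ K))
      have hm : MeasurableSet (L '' (ball x₀ r ∩ K)) := by
        rw [L.image_eq_preimage_symm]
        exact L.symm.continuous.measurable (measurableSet_ball.inter hK.measurableSet)
      rw [Measure.restrict_apply hm, bm, Measure.restrict_apply (hm.inter (by
        rw [L.image_eq_preimage_symm]
        exact L.symm.continuous.measurable measurableSet_ball)), Measure.smul_apply,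
        Measure.map_apply L.continuous.measurable hm, smul_eq_mul, hfr] at h5
      have h6 : L '' (ball x₀ r ∩ K) ∩ L '' ball x₀ r ∩ L '' frontier A =
          L '' (frontier A ∩ (ball x₀ r ∩ K)) := by
        rw [← image_inter L.injective, ← image_inter L.injective]
        congr 1
        ext z; simp only [mem_inter_iff]; tauto
      rw [h6] at h5
      refine ne_top_of_le_ne_top ?_ h5
      refine ENNReal.mul_ne_top (ENNReal.pow_ne_top ENNReal.coe_ne_top) ?_
      refine ne_top_of_le_ne_top (hfin K hK) ?_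
      refine (Measure.restrict_apply_le _ _).trans (measure_mono ?_)
      rw [preimage_image_eq _ L.injective]
      exact inter_subset_right
  -- compact induction
  have hfinal := hK.induction_on (p := fun t => μHE[n] (L '' (frontier A ∩ t)) ≠ ∞) (by simp)
    (fun s t hst ht => ne_top_of_le_ne_top ht (measure_mono (image_mono
      (inter_subset_inter_right _ hst))))
    (fun s t hs ht => by
      rw [inter_union_distrib_left, image_union]
      exact ne_top_of_le_ne_top (ENNReal.add_ne_top.2 ⟨hs, ht⟩) (measure_union_le _ _))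
    hloc
  exact hfinal

end Crest.Agent.R241.E1
end
end

-- ▼ part R241/E1g
section

/-! Row 241, block E1 (helper777), part g: the perimeter bound for Jacobians in one small ball, in
the metric of the immersion `ψ`. -/

set_option autoImplicit false
set_option linter.unusedSectionVars false
open MeasureTheory MeasureTheory.Measure Metric Filter Set Module TopologicalSpace
open scoped NNReal ENNReal Topology

noncomputable section

namespace Crest.Agent.R241.E1

open Crest.GeometryTopology.Submanifold (Euc)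
open B1Null B1Weak

variable {n N : ℕ}



theorem measurableSet_image_equiv {k : ℕ} (L : Euc k ≃L[ℝ] Euc k) {B : Set (Euc k)}
    (hB : MeasurableSet B) : MeasurableSet (L '' B) := by
  rw [L.image_eq_preimage_symm]
  exact L.symm.continuous.measurable hB

/-- comparison of the weighted boundary integrals. -/
theorem integral_bm_image_le {ψ : Euc (n + 1) → Euc N} (hψ : Continuous ψ)
    (hi : Function.Injective ψ) {A : Set (Euc (n + 1))}
    (hfin : ∀ K : Set (Euc (n + 1)), IsCompact K → bmψ n ψ A K ≠ ∞)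
    {L : Euc (n + 1) ≃L[ℝ] Euc (n + 1)} {B : Set (Euc (n + 1))} (hB : MeasurableSet B) {K : ℝ≥0}
    (hK : ∀ x ∈ B, ∀ y ∈ B, ‖L x - L y‖ ≤ K * ‖ψ x - ψ y‖)
    {G : Euc (n + 1) → ℝ} (hG : Continuous G) (hc : HasCompactSupport G) (hG0 : ∀ x, 0 ≤ G x)
    (hs : ∀ x ∉ B, G x = 0) :
    ∫ y, G (L.symm y) ∂(bm n (L '' A)) ≤ (K : ℝ) ^ n * ∫ x, G x ∂(bmψ n ψ A) := by
  have hloc : IsFiniteMeasureOnCompacts (bmψ n ψ A) := ⟨fun K hK => (hfin K hK).lt_top⟩
  have hGi : Integrable G (bmψ n ψ A) := hG.integrable_of_hasCompactSupport hc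
  have hLB := measurableSet_image_equiv L hB
  have h1 : ∫ y, G (L.symm y) ∂(bm n (L '' A)) =
      ∫ y, G (L.symm y) ∂((bm n (L '' A)).restrict (L '' B)) := by
    symm
    refine setIntegral_eq_integral_of_forall_compl_eq_zero fun y hy => hs _ fun h => hy ?_
    exact ⟨_, h, by simp⟩
  have h2 := bm_image_le (n := n) hψ hi (L := L) hB hK A
  have hKtop : ((K : ℝ≥0∞) ^ n) ≠ ∞ := ENNReal.pow_ne_top ENNReal.coe_ne_top
  have hint : Integrable (fun y => G (L.symm y)) ((K : ℝ≥0∞) ^ n • ((bmψ n ψ A).restrict B).map L) := by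
    refine Integrable.smul_measure ?_ hKtop
    have h5 : Continuous fun y => G (L.symm y) := hG.comp L.symm.continuous
    refine (integrable_map_measure h5.aestronglyMeasurable
      L.continuous.measurable.aemeasurable).2 ?_
    have : (fun y => G (L.symm y)) ∘ L = G := by
      funext x; simp
    rw [this]
    exact hGi.restrict
  rw [h1]
  calc ∫ y, G (L.symm y) ∂((bm n (L '' A)).restrict (L '' B))
      ≤ ∫ y, G (L.symm y) ∂((K : ℝ≥0∞) ^ n • ((bmψ n ψ A).restrict B).map L) :=
        integral_mono_measure h2 (Eventually.of_forall fun y => hG0 _) hint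
    _ = (K : ℝ) ^ n * ∫ x in B, G x ∂(bmψ n ψ A) := by
        have h5 : Continuous fun y => G (L.symm y) := hG.comp L.symm.continuous
        rw [integral_smul_measure, integral_map L.continuous.measurable.aemeasurable
          h5.aestronglyMeasurable]
        simp
    _ = (K : ℝ) ^ n * ∫ x, G x ∂(bmψ n ψ A) := by
        rw [setIntegral_eq_integral_of_forall_compl_eq_zero fun y hy => hs y hy]


end Crest.Agent.R241.E1
end
end

-- ▼ part R241/E1h777
section

/-! Row 241, block E1 (helper777), part h: the perimeter inequality for vector fields, Euclidean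
case and one small ball of an immersion. -/

set_option autoImplicit false
set_option linter.unusedSectionVars false
open MeasureTheory MeasureTheory.Measure Metric Filter Set Module TopologicalSpace
open scoped NNReal ENNReal Topology

noncomputable section

namespace Crest.Agent.R241.E1

open Crest.GeometryTopology.Submanifold (Euc metricMat)
open EP1

variable {n N : ℕ}

theorem dvg_eq_zero_of_notMem {V : Euc (n + 1) → Euc (n + 1)} {x : Euc (n + 1)}
    (h : x ∉ tsupport V) : dvg V x = 0 := by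
  unfold dvg
  rw [fderiv_of_notMem_tsupport ℝ h]
  simp

theorem continuous_dvg {V : Euc (n + 1) → Euc (n + 1)} (hV : ContDiff ℝ 1 V) :
    Continuous (dvg V) := by
  unfold dvg
  have h := hV.continuous_fderiv one_ne_zero
  refine continuous_finsetSum _ fun i _ => ?_
  have h1 : Continuous fun x => fderiv ℝ V x (EuclideanSpace.single i 1) :=
    h.clm_apply continuous_const
  exact (EuclideanSpace.proj (𝕜 := ℝ) i).continuous.comp h1

theorem hasCompactSupport_dvg {V : Euc (n + 1) → Euc (n + 1)} (hc : HasCompactSupport V) :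
    HasCompactSupport (dvg V) := by
  refine hc.mono' ?_
  intro x hx
  by_contra h
  exact hx (dvg_eq_zero_of_notMem h)

theorem integrable_dvg {V : Euc (n + 1) → Euc (n + 1)} (hV : ContDiff ℝ 1 V)
    (hc : HasCompactSupport V) : Integrable (dvg V) :=
  (continuous_dvg hV).integrable_of_hasCompactSupport (hasCompactSupport_dvg hc)

/-- integration by parts. -/
theorem integral_mul_dvg {u : Euc (n + 1) → ℝ} {V : Euc (n + 1) → Euc (n + 1)}
    (hu : ContDiff ℝ 1 u) (hV : ContDiff ℝ 1 V) (hc : HasCompactSupport V) :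
    ∫ x, u x * dvg V x = - ∫ x, fderiv ℝ u x (V x) := by
  have hu' := hu.continuous_fderiv one_ne_zero
  have hV' := hV.continuous_fderiv one_ne_zero
  -- the components
  have hVi : ∀ i, ContDiff ℝ 1 fun x => V x i := fun i =>
    (EuclideanSpace.proj (𝕜 := ℝ) i).contDiff.comp hV
  have hVc : ∀ i, HasCompactSupport fun x => V x i := fun i =>
    hc.comp_left (g := fun y : Euc (n + 1) => y i) (by simp)
  have hVd : ∀ i x v, fderiv ℝ (fun x => V x i) x v = fderiv ℝ V x v i := by
    intro i x v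
    have h1 : HasFDerivAt V (fderiv ℝ V x) x := (hV.differentiable one_ne_zero x).hasFDerivAt
    have h2 := (EuclideanSpace.proj (𝕜 := ℝ) i).hasFDerivAt.comp x h1
    have h3 : fderiv ℝ (fun x => V x i) x = (EuclideanSpace.proj (𝕜 := ℝ) i).comp (fderiv ℝ V x) :=
      h2.fderiv
    rw [h3]; rfl
  have e1 : ∀ x, u x * dvg V x =
      ∑ i, u x * fderiv ℝ (fun x => V x i) x (EuclideanSpace.single i 1) := by
    intro x
    unfold dvg
    rw [Finset.mul_sum]
    exact Finset.sum_congr rfl fun i _ => by rw [hVd]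
  have e2 : ∀ x, fderiv ℝ u x (V x) =
      ∑ i, fderiv ℝ u x (EuclideanSpace.single i 1) * V x i := by
    intro x
    have h3 : V x = ∑ i, (V x i) • EuclideanSpace.single i (1 : ℝ) := by
      ext a
      simp [Finset.sum_apply, Pi.single_apply]
    conv_lhs => rw [h3, _root_.map_sum]
    exact Finset.sum_congr rfl fun i _ => by rw [map_smul, smul_eq_mul, mul_comm]
  have i1 : ∀ i, Integrable fun x => fderiv ℝ u x (EuclideanSpace.single i 1) * V x i := by
    intro i
    refine Continuous.integrable_of_hasCompactSupport ?_ (hVc i).mul_left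
    exact (hu'.clm_apply continuous_const).mul (hVi i).continuous
  have i2 : ∀ i, Integrable fun x =>
      u x * fderiv ℝ (fun x => V x i) x (EuclideanSpace.single i 1) := by
    intro i
    have h1 : HasCompactSupport fun x => fderiv ℝ (fun x => V x i) x (EuclideanSpace.single i 1) :=
      ((hVc i).fderiv (𝕜 := ℝ)).comp_left
        (g := fun A : Euc (n + 1) →L[ℝ] ℝ => A (EuclideanSpace.single i 1)) (by simp)
    refine Continuous.integrable_of_hasCompactSupport ?_ h1.mul_left
    exact hu.continuous.mul (((hVi i).continuous_fderiv one_ne_zero).clm_apply continuous_const)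
  have i3 : ∀ i, Integrable fun x => u x * V x i := fun i =>
    Continuous.integrable_of_hasCompactSupport (hu.continuous.mul (hVi i).continuous)
      (hVc i).mul_left
  simp_rw [e1, e2]
  rw [integral_finsetSum _ fun i _ => i2 i, integral_finsetSum _ fun i _ => i1 i,
    ← Finset.sum_neg_distrib]
  refine Finset.sum_congr rfl fun i _ => ?_
  exact integral_mul_fderiv_eq_neg_fderiv_mul_of_integrable (i1 i) (i2 i) (i3 i)
    (fun x _ => hu.differentiable one_ne_zero x) (fun x _ => (hVi i).differentiable one_ne_zero x)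

/-- **perimeter inequality for vector fields, Euclidean case**. -/
theorem euclid_div {Ω : Set (Euc (n + 1))} (hΩ : IsOpen Ω)
    (hfin : ∀ R : ℝ, μHE[n] (frontier Ω ∩ closedBall 0 R) ≠ ∞)
    {W : Euc (n + 1) → Euc (n + 1)} (hW : ContDiff ℝ 1 W) (hc : HasCompactSupport W) :
    ∫ x in Ω, dvg W x ≤ ∫ x, ‖W x‖ ∂(bm n Ω) := by
  have hn : finrank ℝ (Euc (n + 1)) = n + 1 := finrank_euclideanSpace_fin
  have hloc := bm_locFin hfin
  have hG : Continuous fun x => ‖W x‖ := hW.continuous.norm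
  have hGc : HasCompactSupport fun x => ‖W x‖ := hc.norm
  have hdi := integrable_dvg hW hc
  have key : ∀ k, ∫ z, mol (bmp _ k) Ω z * dvg W z ≤
      ∫ y, avg (bmp (Euc (n + 1)) k) (fun x => ‖W x‖) y ∂(bm n Ω) := by
    intro k
    set u := mol (bmp (Euc (n + 1)) k) Ω with hu
    have huc : ContDiff ℝ 1 u := contDiff_mol _ hΩ.measurableSet
    rw [integral_mul_dvg huc hW hc]
    refine le_trans ?_ (integral_norm_fderiv_mol_le hn hΩ hfin (bmp (Euc (n + 1)) k) hG hGc
      fun x => by positivity)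
    refine (neg_le_abs _).trans ((abs_integral_le_integral_abs).trans ?_)
    have hdu : Continuous fun x => ‖fderiv ℝ u x‖ := (huc.continuous_fderiv one_ne_zero).norm
    refine integral_mono_of_nonneg (Eventually.of_forall fun _ => abs_nonneg _)
      ((hdu.mul hG).integrable_of_hasCompactSupport hGc.mul_left) (Eventually.of_forall fun z => ?_)
    exact (fderiv ℝ u z).le_opNorm (W z)
  have T1 : Tendsto (fun k => ∫ z, mol (bmp (Euc (n + 1)) k) Ω z * dvg W z) atTop
      (𝓝 (∫ z, Ω.indicator (fun _ => (1 : ℝ)) z * dvg W z)) := by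
    refine tendsto_integral_of_dominated_convergence (fun z => |dvg W z|) ?_ hdi.abs ?_ ?_
    · intro k
      exact ((contDiff_mol _ hΩ.measurableSet).continuous.aestronglyMeasurable).mul
        hdi.aestronglyMeasurable
    · intro k
      refine Eventually.of_forall fun z => ?_
      rw [norm_mul, Real.norm_eq_abs, Real.norm_eq_abs, abs_of_nonneg (mol_nonneg _ _ _)]
      exact mul_le_of_le_one_left (abs_nonneg _) (mol_le_one _ _ _)
    · filter_upwards [tendsto_mol hΩ.measurableSet] with z hz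
      exact hz.mul_const _
  have T2 : Tendsto (fun k => ∫ y, avg (bmp (Euc (n + 1)) k) (fun x => ‖W x‖) y ∂(bm n Ω))
      atTop (𝓝 (∫ y, ‖W y‖ ∂(bm n Ω))) := tendsto_avg hG hGc _
  have e3 := le_of_tendsto_of_tendsto' T1 T2 key
  have e4 : ∫ z, Ω.indicator (fun _ => (1 : ℝ)) z * dvg W z = ∫ z in Ω, dvg W z := by
    rw [← integral_indicator hΩ.measurableSet]
    congr 1
    funext z
    by_cases hz : z ∈ Ω
    · rw [indicator_of_mem hz, indicator_of_mem hz, one_mul]
    · rw [indicator_of_notMem hz, indicator_of_notMem hz, zero_mul]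
  rwa [e4] at e3

/-- invariance of the divergence under linear changes of coordinates. -/
theorem dvg_conj (L : Euc (n + 1) ≃L[ℝ] Euc (n + 1)) {V : Euc (n + 1) → Euc (n + 1)}
    (hV : ContDiff ℝ 1 V) (y : Euc (n + 1)) :
    dvg (fun y => L (V (L.symm y))) y = dvg V (L.symm y) := by
  have h1 : HasFDerivAt V (fderiv ℝ V (L.symm y)) (L.symm y) :=
    (hV.differentiable one_ne_zero _).hasFDerivAt
  have h2 := (L.hasFDerivAt (x := V (L.symm y))).comp y (h1.comp y (L.symm.hasFDerivAt (x := y)))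
  have h3 : fderiv ℝ (fun y => L (V (L.symm y))) y =
      (L : Euc (n + 1) →L[ℝ] Euc (n + 1)).comp ((fderiv ℝ V (L.symm y)).comp
        (L.symm : Euc (n + 1) →L[ℝ] Euc (n + 1))) := h2.fderiv
  have htr : ∀ A : Euc (n + 1) →L[ℝ] Euc (n + 1),
      ∑ i, A (EuclideanSpace.single i 1) i = LinearMap.trace ℝ _ A.toLinearMap := by
    intro A
    rw [LinearMap.trace_eq_matrix_trace ℝ (EuclideanSpace.basisFun (Fin (n + 1)) ℝ).toBasis,
      Matrix.trace]
    refine Finset.sum_congr rfl fun i _ => ?_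
    rw [Matrix.diag_apply, LinearMap.toMatrix_apply]
    simp
  unfold dvg
  rw [htr, htr, h3]
  set B := fderiv ℝ V (L.symm y) with hB
  have h4 : ((L : Euc (n + 1) →L[ℝ] Euc (n + 1)).comp (B.comp
        (L.symm : Euc (n + 1) →L[ℝ] Euc (n + 1)))).toLinearMap =
      L.toLinearEquiv.conj B.toLinearMap := by
    ext v
    rfl
  rw [h4, LinearMap.trace_conj']

theorem abs_det_eq_jac {m : ℕ} {A : Euc m →L[ℝ] Euc N} {L : Euc m ≃L[ℝ] Euc m}
    (hL : ∀ v, ‖L v‖ = ‖A v‖) : |(L : Euc m →L[ℝ] Euc m).det| = AF.jac A := by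
  have h1 : AF.jac (L : Euc m →L[ℝ] Euc m) = |(L : Euc m →L[ℝ] Euc m).det| :=
    LinearMap.normDet_eq_abs_det _
  rw [← h1]
  have h2 : AF.jac (L : Euc m →L[ℝ] Euc m) ^ 2 = AF.jac A ^ 2 := by
    rw [AF.jac_sq_gram _ (EuclideanSpace.basisFun (Fin m) ℝ),
      AF.jac_sq_gram _ (EuclideanSpace.basisFun (Fin m) ℝ)]
    congr 1
    ext i j
    simp only [Matrix.of_apply]
    have key : ∀ u v : Euc m, inner ℝ (L u) (L v) = (inner ℝ (A u) (A v) : ℝ) := by
      intro u v
      rw [real_inner_eq_norm_mul_self_add_norm_mul_self_sub_norm_sub_mul_self_div_two,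
        real_inner_eq_norm_mul_self_add_norm_mul_self_sub_norm_sub_mul_self_div_two,
        ← map_sub, ← map_sub, hL, hL, hL]
    exact key _ _
  have h3 := AF.jac_nonneg (L : Euc m →L[ℝ] Euc m)
  have h4 := AF.jac_nonneg A
  nlinarith [sq_nonneg (AF.jac (L : Euc m →L[ℝ] Euc m) - AF.jac A)]

theorem jac_pos {m : ℕ} {A : Euc m →L[ℝ] Euc N} (hA : Function.Injective A) : 0 < AF.jac A := by
  obtain ⟨L, hL⟩ := exists_linear A hA
  rw [← abs_det_eq_jac hL]
  refine abs_pos.2 ?_
  have h1 : IsUnit (LinearMap.det (L.toLinearEquiv : Euc m →ₗ[ℝ] Euc m)) :=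
    L.toLinearEquiv.isUnit_det'
  exact h1.ne_zero

/-- the derivative is almost isometric in the linear chart. -/
theorem norm_L_le {ψ : Euc (n + 1) → Euc N} (hψ : ContDiff ℝ 1 ψ) {x₀ : Euc (n + 1)} {r : ℝ}
    {L : Euc (n + 1) ≃L[ℝ] Euc (n + 1)} {C : ℝ}
    (hcmp : ∀ x ∈ ball x₀ r, ∀ y ∈ ball x₀ r, ‖L x - L y‖ ≤ C * ‖ψ x - ψ y‖)
    {x : Euc (n + 1)} (hx : x ∈ ball x₀ r) (v : Euc (n + 1)) :
    ‖L v‖ ≤ C * ‖fderiv ℝ ψ x v‖ := by
  have h1 : HasFDerivAt ψ (fderiv ℝ ψ x) x := (hψ.differentiable one_ne_zero x).hasFDerivAt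
  have h2 := (h1.hasLineDerivAt v).tendsto_slope_zero
  have h3 : Tendsto (fun t : ℝ => C * ‖t⁻¹ • (ψ (x + t • v) - ψ x)‖) (𝓝[≠] 0)
      (𝓝 (C * ‖fderiv ℝ ψ x v‖)) := h2.norm.const_mul C
  refine ge_of_tendsto h3 ?_
  have h4 : ∀ᶠ t : ℝ in 𝓝[≠] 0, x + t • v ∈ ball x₀ r := by
    refine eventually_nhdsWithin_of_eventually_nhds ?_
    have h5 : Continuous fun t : ℝ => x + t • v := by fun_prop
    refine h5.continuousAt.eventually_mem ?_
    simpa using isOpen_ball.mem_nhds hx
  filter_upwards [h4, self_mem_nhdsWithin] with t ht ht0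
  have h6 := hcmp _ ht x hx
  rw [norm_smul, ← mul_assoc, mul_comm C, mul_assoc]
  have h7 : L (x + t • v) - L x = t • L v := by
    rw [map_add, map_smul, add_sub_cancel_left]
  rw [h7, norm_smul] at h6
  have h8 : 0 < ‖t‖ := norm_pos_iff.2 ht0
  rw [norm_inv, inv_mul_eq_div, le_div_iff₀ h8]
  linarith

/-- **the perimeter inequality in one small ball**. -/
theorem local_div {ψ : Euc (n + 1) → Euc N} (hψ : ContDiff ℝ 1 ψ)
    (hi : Function.Injective ψ) (him : ∀ x, Function.Injective (fderiv ℝ ψ x))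
    {A : Set (Euc (n + 1))} (hA : IsOpen A)
    (hfin : ∀ K : Set (Euc (n + 1)), IsCompact K → bmψ n ψ A K ≠ ∞)
    (x₀ : Euc (n + 1)) {δ : ℝ} (hδ : 0 < δ) :
    ∃ r > 0, ∀ V : Euc (n + 1) → Euc (n + 1), ContDiff ℝ 1 V → HasCompactSupport V →
      tsupport V ⊆ ball x₀ r → ∫ x in A, dvg V x ≤ (1 + δ) ^ (n + 2) *
        ∫ x, ‖fderiv ℝ ψ x (V x)‖ / √(metricMat ψ x).det ∂(bmψ n ψ A) := by
  have hloc : IsFiniteMeasureOnCompacts (bmψ n ψ A) := ⟨fun K hK => (hfin K hK).lt_top⟩
  obtain ⟨L, hL⟩ := exists_linear (fderiv ℝ ψ x₀) (him x₀)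
  obtain ⟨r₁, hr₁, hcmp⟩ := local_cmp hψ (him x₀) hL hδ
  have hJc : Continuous fun x => AF.jac (fderiv ℝ ψ x) :=
    AF.continuous_jac.comp (hψ.continuous_fderiv one_ne_zero)
  have hJ0 : ∀ x, 0 < AF.jac (fderiv ℝ ψ x) := fun x => jac_pos (him x)
  have h1 : ∀ᶠ x in 𝓝 x₀, AF.jac (fderiv ℝ ψ x) < (1 + δ) * AF.jac (fderiv ℝ ψ x₀) := by
    refine hJc.continuousAt.eventually_lt_const ?_
    have := hJ0 x₀
    nlinarith
  obtain ⟨r₂, hr₂, hJr⟩ := Metric.eventually_nhds_iff_ball.1 h1
  refine ⟨min r₁ r₂, by positivity, fun V hV hc hs => ?_⟩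
  set r := min r₁ r₂ with hr
  have hb1 : ball x₀ r ⊆ ball x₀ r₁ := ball_subset_ball (min_le_left _ _)
  have hb2 : ball x₀ r ⊆ ball x₀ r₂ := ball_subset_ball (min_le_right _ _)
  set D : ℝ := |(L : Euc (n + 1) →L[ℝ] Euc (n + 1)).det| with hD
  have hDJ : D = AF.jac (fderiv ℝ ψ x₀) := abs_det_eq_jac hL
  have hD0 : 0 < D := by rw [hDJ]; exact hJ0 x₀
  -- the field in the linear chart
  set W : Euc (n + 1) → Euc (n + 1) := fun y => L (V (L.symm y)) with hW
  have hWc : ContDiff ℝ 1 W := L.contDiff.comp (hV.comp L.symm.contDiff)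
  have hWs : HasCompactSupport W := by
    have h2 : HasCompactSupport fun y => V (L.symm y) :=
      hc.comp_homeomorph L.symm.toHomeomorph
    exact h2.comp_left (g := fun v => L v) (by simp)
  have hfin' := locFin_image (n := n) hψ hi him hfin L
  have hLA : IsOpen (L '' A) := L.toHomeomorph.isOpenMap A hA
  have e1 := euclid_div hLA hfin' hWc hWs
  have e2 : ∫ y in L '' A, dvg W y = D * ∫ x in A, dvg V x := by
    have h2 := integral_image_eq_integral_abs_det_fderiv_smul (volume : Measure (Euc (n + 1)))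
      hA.measurableSet (f := L) (f' := fun _ => (L : Euc (n + 1) →L[ℝ] Euc (n + 1)))
      (fun x _ => (L.hasFDerivAt).hasFDerivWithinAt) (L.injective.injOn) (fun y => dvg W y)
    rw [h2, ← integral_const_mul]
    refine integral_congr_ae (Eventually.of_forall fun x => ?_)
    simp only [smul_eq_mul]
    rw [hW, dvg_conj L hV, L.symm_apply_apply]
  have hGcont : Continuous fun x => ‖L (V x)‖ := (L.continuous.comp hV.continuous).norm
  have hGs : HasCompactSupport fun x => ‖L (V x)‖ :=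
    hc.comp_left (g := fun v => ‖L v‖) (by simp)
  have hV0 : ∀ x ∉ ball x₀ r, V x = 0 := by
    intro x hx
    exact image_eq_zero_of_notMem_tsupport fun h => hx (hs h)
  have e3 := integral_bm_image_le (n := n) hψ.continuous hi hfin (L := L) (B := ball x₀ r)
    measurableSet_ball (K := ⟨1 + δ, by positivity⟩)
    (fun x hx y hy => (hcmp x (hb1 hx) y (hb1 hy)).1) (G := fun x => ‖L (V x)‖) hGcont hGs
    (fun x => norm_nonneg _) (fun x hx => by rw [hV0 x hx]; simp)
  have hHcont : Continuous fun x => ‖fderiv ℝ ψ x (V x)‖ / √(metricMat ψ x).det := by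
    simp_rw [← AF.jac_eq_sqrt]
    exact (((hψ.continuous_fderiv one_ne_zero).clm_apply hV.continuous).norm).div₀ hJc
      fun x => (hJ0 x).ne'
  have hHs : HasCompactSupport fun x => ‖fderiv ℝ ψ x (V x)‖ / √(metricMat ψ x).det := by
    refine hc.mono' ?_
    intro x hx
    by_contra h
    refine hx ?_
    simp only
    rw [image_eq_zero_of_notMem_tsupport h, map_zero, norm_zero, zero_div]
  have hHi : Integrable (fun x => ‖fderiv ℝ ψ x (V x)‖ / √(metricMat ψ x).det) (bmψ n ψ A) :=
    hHcont.integrable_of_hasCompactSupport hHs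
  have e4 : ∫ x, ‖L (V x)‖ ∂(bmψ n ψ A) ≤
      ∫ x, D * (1 + δ) ^ 2 * (‖fderiv ℝ ψ x (V x)‖ / √(metricMat ψ x).det) ∂(bmψ n ψ A) := by
    refine integral_mono (hGcont.integrable_of_hasCompactSupport hGs)
      (hHi.const_mul _) fun x => ?_
    simp only
    by_cases hx : x ∈ ball x₀ r
    · rw [← AF.jac_eq_sqrt]
      have h3 := norm_L_le hψ (fun x hx y hy => (hcmp x hx y hy).1) (hb1 hx) (V x)
      have h4 := (hJr x (hb2 hx)).le
      rw [← hDJ] at h4
      have h5 := hJ0 x
      rw [mul_div_assoc', le_div_iff₀ h5]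
      calc ‖L (V x)‖ * AF.jac (fderiv ℝ ψ x)
          ≤ ((1 + δ) * ‖fderiv ℝ ψ x (V x)‖) * ((1 + δ) * D) := by gcongr
        _ = _ := by ring
    · rw [hV0 x hx]; simp
  rw [integral_const_mul] at e4
  have e5 : D * ∫ x in A, dvg V x ≤ D * ((1 + δ) ^ (n + 2) *
      ∫ x, ‖fderiv ℝ ψ x (V x)‖ / √(metricMat ψ x).det ∂(bmψ n ψ A)) := by
    calc D * ∫ x in A, dvg V x = ∫ y in L '' A, dvg W y := e2.symm
      _ ≤ ∫ x, ‖W x‖ ∂(bm n (L '' A)) := e1
      _ ≤ (1 + δ) ^ n * ∫ x, ‖L (V x)‖ ∂(bmψ n ψ A) := e3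
      _ ≤ (1 + δ) ^ n * (D * (1 + δ) ^ 2 *
          ∫ x, ‖fderiv ℝ ψ x (V x)‖ / √(metricMat ψ x).det ∂(bmψ n ψ A)) := by gcongr
      _ = _ := by ring
  exact le_of_mul_le_mul_left e5 hD0

end Crest.Agent.R241.E1
end
end

-- ▼ part R241/E1i777

/-! Row 241, block E1 (helper777), part i: the perimeter inequality `EP2.Perim` for immersions and
for Cartan–Hadamard models. -/

set_option autoImplicit false
set_option linter.unusedSectionVars false
open MeasureTheory MeasureTheory.Measure Metric Filter Set Module TopologicalSpace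
open scoped NNReal ENNReal Topology Manifold

noncomputable section

namespace Crest.Agent.R241.E1

open Crest.GeometryTopology.Submanifold (Euc metricMat relBoundary)
open EP1

variable {n N : ℕ}

theorem dvg_sum {ι : Type*} (s : Finset ι) {V : ι → Euc (n + 1) → Euc (n + 1)}
    (hV : ∀ i ∈ s, ContDiff ℝ 1 (V i)) (x : Euc (n + 1)) :
    dvg (fun x => ∑ i ∈ s, V i x) x = ∑ i ∈ s, dvg (V i) x := by
  unfold dvg
  have h1 : fderiv ℝ (fun x => ∑ i ∈ s, V i x) x = ∑ i ∈ s, fderiv ℝ (V i) x :=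
    fderiv_fun_sum fun i hi => (hV i hi).differentiable one_ne_zero x
  rw [h1, Finset.sum_comm]
  refine Finset.sum_congr rfl fun j _ => ?_
  rw [_root_.sum_apply]
  simp

/-- **the perimeter inequality** for `C¹` fields with compact support. -/
theorem global_div {ψ : Euc (n + 1) → Euc N} (hψ : ContDiff ℝ 1 ψ)
    (hi : Function.Injective ψ) (him : ∀ x, Function.Injective (fderiv ℝ ψ x))
    {A : Set (Euc (n + 1))} (hA : IsOpen A)
    (hfin : ∀ K : Set (Euc (n + 1)), IsCompact K → bmψ n ψ A K ≠ ∞)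
    {V : Euc (n + 1) → Euc (n + 1)} (hV : ContDiff ℝ 1 V) (hc : HasCompactSupport V) :
    ∫ x in A, dvg V x ≤
      ∫ x, ‖fderiv ℝ ψ x (V x)‖ / √(metricMat ψ x).det ∂(bmψ n ψ A) := by
  classical
  have hloc : IsFiniteMeasureOnCompacts (bmψ n ψ A) := ⟨fun K hK => (hfin K hK).lt_top⟩
  have hJc : Continuous fun x => AF.jac (fderiv ℝ ψ x) :=
    AF.continuous_jac.comp (hψ.continuous_fderiv one_ne_zero)
  have hJ0 : ∀ x, 0 < AF.jac (fderiv ℝ ψ x) := fun x => jac_pos (him x)
  have hint : ∀ W : Euc (n + 1) → Euc (n + 1), ContDiff ℝ 1 W → HasCompactSupport W →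
      Integrable (fun x => ‖fderiv ℝ ψ x (W x)‖ / √(metricMat ψ x).det) (bmψ n ψ A) := by
    intro W hW hWs
    refine Continuous.integrable_of_hasCompactSupport ?_ ?_
    · simp_rw [← AF.jac_eq_sqrt]
      exact (((hψ.continuous_fderiv one_ne_zero).clm_apply hW.continuous).norm).div₀ hJc
        fun x => (hJ0 x).ne'
    · refine hWs.mono' ?_
      intro x hx
      by_contra h
      refine hx ?_
      simp only
      rw [image_eq_zero_of_notMem_tsupport h, map_zero, norm_zero, zero_div]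
  set a := ∫ x in A, dvg V x with ha
  set b := ∫ x, ‖fderiv ℝ ψ x (V x)‖ / √(metricMat ψ x).det ∂(bmψ n ψ A) with hb
  have key : ∀ δ : ℝ, 0 < δ → a ≤ (1 + δ) ^ (n + 2) * b := by
    intro δ hδ
    choose r hr hloc' using fun x₀ => local_div hψ hi him hA hfin x₀ hδ
    have hK : IsCompact (tsupport V) := hc
    obtain ⟨t, -, htK⟩ := hK.elim_nhds_subcover (fun x => ball x (r x))
      (fun x _ => ball_mem_nhds x (hr x))
    have hcov : tsupport V ⊆ ⋃ i : t, ball (i : Euc (n + 1)) (r i) := by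
      intro x hx
      obtain ⟨i, hi, hxi⟩ := mem_iUnion₂.1 (htK hx)
      exact mem_iUnion.2 ⟨⟨i, hi⟩, hxi⟩
    obtain ⟨f, hf⟩ := SmoothPartitionOfUnity.exists_isSubordinate 𝓘(ℝ, Euc (n + 1))
      (isClosed_tsupport V) (fun i : t => ball (i : Euc (n + 1)) (r i)) (fun i => isOpen_ball) hcov
    have hfc : ∀ i, ContDiff ℝ 1 (f i) := by
      intro i
      have h1 : ContMDiff 𝓘(ℝ, Euc (n + 1)) 𝓘(ℝ) ((⊤ : ℕ∞) : WithTop ℕ∞) (f i) := (f i).contMDiff
      exact h1.contDiff.of_le (by simp)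
    have hsum : ∀ x ∈ tsupport V, ∑ i, f i x = 1 := by
      intro x hx
      rw [← finsum_eq_sum_of_fintype]
      exact f.sum_eq_one hx
    have hVi : ∀ i : t, ContDiff ℝ 1 fun x => f i x • V x := fun i => (hfc i).smul hV
    have hVs : ∀ i : t, HasCompactSupport fun x => f i x • V x := by
      intro i
      refine hc.mono' fun x hx => ?_
      by_contra h
      refine hx ?_
      simp only
      rw [image_eq_zero_of_notMem_tsupport h, smul_zero]
    have hVt : ∀ i : t, tsupport (fun x => f i x • V x) ⊆ ball (i : Euc (n + 1)) (r i) := fun i =>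
      (tsupport_smul_subset_left (f i) V).trans (hf i)
    have hVeq : V = fun x => ∑ i : t, f i x • V x := by
      funext x
      rw [← Finset.sum_smul]
      by_cases hx : x ∈ tsupport V
      · rw [hsum x hx, one_smul]
      · rw [image_eq_zero_of_notMem_tsupport hx, smul_zero]
    have e1 : a = ∑ i : t, ∫ x in A, dvg (fun x => f i x • V x) x := by
      rw [ha, ← integral_finsetSum _ fun i _ => (integrable_dvg (hVi i) (hVs i)).integrableOn]
      refine integral_congr_ae (Eventually.of_forall fun x => ?_)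
      simp only
      rw [← dvg_sum Finset.univ (fun i _ => hVi i) x, ← hVeq]
    have e2 : b = ∑ i : t, ∫ x, ‖fderiv ℝ ψ x (f i x • V x)‖ / √(metricMat ψ x).det
        ∂(bmψ n ψ A) := by
      rw [hb, ← integral_finsetSum _ fun i _ => hint _ (hVi i) (hVs i)]
      refine integral_congr_ae (Eventually.of_forall fun x => ?_)
      simp only
      by_cases hx : x ∈ tsupport V
      · have h1 : ∀ i : t, ‖fderiv ℝ ψ x (f i x • V x)‖ / √(metricMat ψ x).det =
            f i x * (‖fderiv ℝ ψ x (V x)‖ / √(metricMat ψ x).det) := by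
          intro i
          rw [map_smul, norm_smul, Real.norm_of_nonneg (f.nonneg i x), mul_div_assoc]
        simp_rw [h1]
        rw [← Finset.sum_mul, hsum x hx, one_mul]
      · rw [image_eq_zero_of_notMem_tsupport hx]; simp
    rw [e1, e2, Finset.mul_sum]
    exact Finset.sum_le_sum fun i _ => hloc' _ _ (hVi i) (hVs i) (hVt i)
  have hlim : Tendsto (fun δ : ℝ => (1 + δ) ^ (n + 2) * b) (𝓝[>] 0) (𝓝 ((1 + 0) ^ (n + 2) * b)) :=
    Tendsto.mono_left (Continuous.tendsto (by fun_prop) 0) nhdsWithin_le_nhds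
  rw [add_zero, one_pow, one_mul] at hlim
  refine ge_of_tendsto hlim ?_
  filter_upwards [self_mem_nhdsWithin] with δ hδ
  exact key δ hδ

/-- **`EP2.Perim`** for smooth injective immersions. -/
theorem perim {ψ : Euc (n + 1) → Euc N} (hψ : ContDiff ℝ 1 ψ)
    (hi : Function.Injective ψ) (him : ∀ x, Function.Injective (fderiv ℝ ψ x))
    {A : Set (Euc (n + 1))} (hA : IsOpen A)
    (hfin : ∀ K : Set (Euc (n + 1)), IsCompact K → bmψ n ψ A K ≠ ∞) :
    EP2.Perim ψ A (bmψ n ψ A) := fun _ hV hc =>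
  global_div hψ hi him hA hfin (hV.of_le (by simp)) hc

/-- the frontier of the preimage of a relatively open set. -/
theorem image_frontier_subset {ψ : Euc (n + 1) → Euc N} (hc : Continuous ψ)
    {S : Set (Euc N)} (hS : range ψ = S) (E : Set (Euc N)) :
    ψ '' frontier (ψ ⁻¹' E) ⊆ relBoundary S E := by
  rintro _ ⟨x, hx, rfl⟩
  rw [frontier_eq_closure_inter_closure] at hx
  refine ⟨?_, ?_⟩
  · exact closure_mono (image_preimage_subset ψ E) (image_closure_subset_closure_image hc
      (mem_image_of_mem ψ hx.1))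
  · refine closure_mono ?_ (image_closure_subset_closure_image hc (mem_image_of_mem ψ hx.2))
    rintro _ ⟨y, hy, rfl⟩
    exact ⟨hS.subset (mem_range_self y), hy⟩

/-- **`EChain.PerimTarget`**, one model. -/
theorem perim_model {m : ℕ} {k : ℝ} {S : Set (Euc N)} {X : Type} [MetricSpace X]
    (M : CHModel (m + 2) N k S X) (p : X) {E : Set (Euc N)}
    (hE : ∃ U : Set (Euc N), IsOpen U ∧ E = S ∩ U)
    (hfin : μHE[m + 1] (relBoundary S E) < ∞) :
    bmψ (m + 1) (fun v => M.ι (M.e p v)) {v | M.ι (M.e p v) ∈ E} univ ≤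
        μHE[m + 1] (relBoundary S E) ∧
      EP2.Perim (fun v => M.ι (M.e p v)) {v | M.ι (M.e p v) ∈ E}
        (bmψ (m + 1) (fun v => M.ι (M.e p v)) {v | M.ι (M.e p v) ∈ E}) := by
  set ψ : Euc (m + 2) → Euc N := fun v => M.ι (M.e p v) with hψdef
  have hs : ContDiff ℝ (⊤ : ℕ∞) ψ := M.smooth p
  have hψ : ContDiff ℝ 1 ψ := hs.of_le (by simp)
  have hi : Function.Injective ψ := M.ι_inj.comp (M.e_bij p).1
  have hr : range ψ = S := ((M.e_bij p).2.range_comp M.ι).trans M.ι_range
  have him : ∀ x, Function.Injective (fderiv ℝ ψ x) := by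
    intro x
    rw [injective_iff_map_eq_zero]
    intro w hw
    have h1 := M.fderiv_ge p x w
    rw [← hψdef, hw, norm_zero] at h1
    exact norm_le_zero_iff.1 h1
  have hA : IsOpen {v | M.ι (M.e p v) ∈ E} := by
    obtain ⟨U, hU, hEU⟩ := hE
    have h1 : {v | M.ι (M.e p v) ∈ E} = ψ ⁻¹' U := by
      ext v
      rw [hEU]
      exact ⟨fun h => h.2, fun h => ⟨hr.subset (mem_range_self v), h⟩⟩
    rw [h1]
    exact hU.preimage hψ.continuous
  have huniv : bmψ (m + 1) ψ {v | M.ι (M.e p v) ∈ E} univ ≤ μHE[m + 1] (relBoundary S E) := by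
    rw [bmψ_apply hψ.continuous hi _ MeasurableSet.univ, inter_univ]
    exact measure_mono (image_frontier_subset hψ.continuous hr E)
  exact ⟨huniv, perim hψ hi him hA fun K _ =>
    ne_top_of_le_ne_top hfin.ne ((measure_mono (subset_univ K)).trans huniv)⟩

end Crest.Agent.R241.E1
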