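import Crest.Agent.R241.G1e
import Crest.Agent.R241.B1Weak
import Crest.Agent.R241.EMoll
import Crest.Agent.R241.E5c
import Crest.Agent.R241.Targets
import Crest.Agent.R241.G1a
import Crest.Agent.R241.B1Cur
import Crest.Agent.R241.B8LinAlg
import Crest.Agent.R241.B10Mass
import Crest.Agent.R241.EP2
import Crest.Agent.R241.G1o
import Crest.Agent.R241.B10Complete

-- ▼ part R241/E2
section

/-!
# R241, block E2: the constancy theorem

A top-dimensional current with bounded support and without boundary vanishes, in a space `X`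
with a global chart `e : Euc (k+1) → X` whose inverse `P` is Lipschitz.
-/

set_option autoImplicit false
set_option linter.unusedSectionVars false

open MeasureTheory Filter Topology Set Metric
open scoped ENNReal NNReal ContDiff

universe u

namespace Crest.Agent.R241.E2

open Crest.GeometryTopology.MetricCurrent
open Crest.GeometryTopology.Submanifold (Euc)
open Crest.Agent.R241.G1

variable {X : Type u} [MetricSpace X] [MeasurableSpace X] [BorelSpace X]
variable {k : ℕ} {T : Functional X k} {P : X → Euc k}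

/-- coordinates of `P` -/
def crd (P : X → Euc k) : Fin k → X → ℝ := fun i x => P x i

theorem lipT_crd {C : ℝ≥0} (hP : LipschitzWith C P) : LipT (crd P) := by
  intro i
  refine ⟨C, LipschitzWith.of_dist_le_mul fun x y => ?_⟩
  refine le_trans ?_ (hP.dist_le_mul x y)
  rw [Real.dist_eq, dist_eq_norm]
  have := PiLp.norm_apply_le (P x - P y) i
  simpa [crd] using this

/-- the chain rule in one slot, for a function of `P` -/
theorem ext_chainP (hT : IsCurrent T) {f : X → ℝ} (hf : BM f) {σ : Fin k → X → ℝ} (hσ : LipT σ)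
    (j : Fin k) {C : ℝ≥0} (hP : LipschitzWith C P) {g : Euc k → ℝ} {K : ℝ≥0}
    (hg : ContDiff ℝ 1 g) (hgl : LipschitzWith K g) :
    ext T f (Function.update σ j (fun x => g (P x))) =
      ∑ i, ext T (fun x => f x * fderiv ℝ g (P x) (EuclideanSpace.single i 1))
        (Function.update σ j (crd P i)) := by
  set g' : (Fin k → ℝ) → ℝ := fun y => g (WithLp.toLp 2 y) with hg'
  have hlin : ContDiff ℝ 1 (fun y : Fin k → ℝ => (WithLp.toLp 2 y : Euc k)) :=
    (PiLp.continuousLinearEquiv 2 ℝ (fun _ : Fin k => ℝ)).symm.contDiff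
  have hg'c : ContDiff ℝ 1 g' := hg.comp hlin
  have hP' : ∀ x, (WithLp.toLp 2 (fun i => crd P i x) : Euc k) = P x := fun x => rfl
  have hfd : ∀ x i, fderiv ℝ g' (fun l => crd P l x) (Pi.single i 1) =
      fderiv ℝ g (P x) (EuclideanSpace.single i 1) := by
    intro x i
    have h1 : HasFDerivAt g' ((fderiv ℝ g (P x)).comp
        ((PiLp.continuousLinearEquiv 2 ℝ (fun _ : Fin k => ℝ)).symm :
          (Fin k → ℝ) →L[ℝ] Euc k)) (fun l => crd P l x) := by
      have h2 : HasFDerivAt g (fderiv ℝ g (P x)) (WithLp.toLp 2 (fun l => crd P l x)) := by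
        rw [hP']
        exact ((hg.differentiable one_ne_zero) (P x)).hasFDerivAt
      exact h2.comp (fun l => crd P l x)
        ((PiLp.continuousLinearEquiv 2 ℝ (fun _ : Fin k => ℝ)).symm.hasFDerivAt)
    rw [h1.fderiv]
    rfl
  have key := ext_chain hT hf hσ j (lipT_crd hP) (g := g') hg'c
    ⟨K * C, by
      have : (fun x => g' (fun i => crd P i x)) = fun x => g (P x) := by
        funext x; rw [hg']; simp only; rw [hP']
      rw [this]; exact hgl.comp hP⟩
    (by
      intro i
      refine ⟨K * 1, fun x => ?_⟩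
      rw [hfd, ← Real.norm_eq_abs]
      refine (ContinuousLinearMap.le_opNorm _ _).trans ?_
      have h1 : ‖fderiv ℝ g (P x)‖ ≤ K := norm_fderiv_le_of_lipschitz ℝ hgl
      have h2 : ‖(EuclideanSpace.single i 1 : Euc k)‖ = 1 := by simp
      rw [h2]
      gcongr)
  have e1 : (fun x => g' (fun i => crd P i x)) = fun x => g (P x) := by
    funext x; rw [hg']; simp only; rw [hP']
  rw [e1] at key
  rw [key]
  refine Finset.sum_congr rfl fun i _ => ?_
  congr 1
  funext x
  rw [hfd]

theorem bm_fderiv {C : ℝ≥0} (hP : LipschitzWith C P) {g : Euc k → ℝ} {K : ℝ≥0}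
    (hg : ContDiff ℝ 1 g) (hgl : LipschitzWith K g) (i : Fin k) :
    BM (fun x => fderiv ℝ g (P x) (EuclideanSpace.single i 1)) := by
  refine ⟨(((hg.continuous_fderiv one_ne_zero).comp hP.continuous).clm_apply
    continuous_const).measurable, K * 1, fun x => ?_⟩
  rw [← Real.norm_eq_abs]
  refine (ContinuousLinearMap.le_opNorm _ _).trans ?_
  have h1 : ‖fderiv ℝ g (P x)‖ ≤ K := norm_fderiv_le_of_lipschitz ℝ hgl
  have h2 : ‖(EuclideanSpace.single i 1 : Euc k)‖ = 1 := by simp
  rw [h2]
  gcongr

/-- if `T(f, P) = 0` for all `f` then `T(f, G ∘ P) = 0` for all `C¹` Lipschitz `G` -/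
theorem ext_comp_eq_zero (hT : IsCurrent T) {C : ℝ≥0} (hP : LipschitzWith C P)
    (h0 : ∀ f, BM f → ext T f (crd P) = 0) {G : Fin k → Euc k → ℝ} {K : ℝ≥0}
    (hG : ∀ i, ContDiff ℝ 1 (G i)) (hGl : ∀ i, LipschitzWith K (G i)) {f : X → ℝ} (hf : BM f) :
    ext T f (fun i x => G i (P x)) = 0 := by
  classical
  have key : ∀ s : Finset (Fin k), ∀ f : X → ℝ, BM f → ∀ τ : Fin k → Fin k,
      ext T f (fun i => if i ∈ s then (fun x => G i (P x)) else crd P (τ i)) = 0 := by
    intro s
    induction s using Finset.induction_on with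
    | empty =>
      intro f hf τ
      simp only [Finset.notMem_empty, if_false]
      by_cases hτ : Function.Injective τ
      · let σ : Equiv.Perm (Fin k) := Equiv.ofBijective τ (Finite.injective_iff_bijective.1 hτ)
        have := ext_perm hT hf (lipT_crd hP) σ
        rw [h0 f hf, mul_zero] at this
        exact this
      · rw [Function.Injective] at hτ
        push Not at hτ
        obtain ⟨i, j, hij, hne⟩ := hτ
        exact ext_zero_of_eq hT hf (fun i => lipT_crd hP (τ i)) hne (by rw [hij])
    | insert a s ha ih =>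
      intro f hf τ
      set σ : Fin k → X → ℝ := fun i => if i ∈ s then (fun x => G i (P x)) else crd P (τ i)
        with hσdef
      have hσL : LipT σ := by
        intro i
        by_cases hi : i ∈ s
        · simp only [hσdef, hi, if_true]; exact ⟨_, (hGl i).comp hP⟩
        · simp only [hσdef, hi, if_false]; exact lipT_crd hP _
      have h1 : (fun i => if i ∈ insert a s then (fun x => G i (P x)) else crd P (τ i)) =
          Function.update σ a (fun x => G a (P x)) := by
        funext i
        by_cases hi : i = a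
        · subst hi; simp
        · simp [hσdef, hi]
      rw [h1, ext_chainP hT hf hσL a hP (hG a) (hGl a)]
      refine Finset.sum_eq_zero fun i _ => ?_
      have h2 : Function.update σ a (crd P i) =
          fun j => if j ∈ s then (fun x => G j (P x)) else crd P (Function.update τ a i j) := by
        funext j
        by_cases hj : j = a
        · subst hj; simp [ha]
        · simp [hσdef, hj]
      rw [h2]
      exact ih _ (hf.mul (bm_fderiv hP (hG a) (hGl a) i)) _
  have := key Finset.univ f hf id
  simpa using this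


section Top

variable {S : Functional X (k + 1)} {Q : X → Euc (k + 1)}

/-- `S(∂₀ h ∘ Q, Q) = 0` when `∂S = 0` -/
theorem ext_deriv_eq_zero (hS : IsCurrent S) (hbd : bd S = 0) {C : ℝ≥0} (hQ : LipschitzWith C Q)
    {h : Euc (k + 1) → ℝ} (hh : ContDiff ℝ ∞ h) (hc : HasCompactSupport h) :
    ext S (fun x => fderiv ℝ h (Q x) (EuclideanSpace.single 0 1)) (crd Q) = 0 := by
  classical
  obtain ⟨K, hK⟩ := hh.lipschitzWith_of_hasCompactSupport hc (by simp)
  obtain ⟨M, hM⟩ := hc.exists_bound_of_continuous hh.continuous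
  have hhQ : ∃ K : ℝ≥0, LipschitzWith K (fun x => h (Q x)) := ⟨_, hK.comp hQ⟩
  have hBL : BL (fun x => h (Q x)) := ⟨hhQ, M, fun x => hM _⟩
  have htp : IsTestPair (fun x => h (Q x)) (fun i : Fin k => crd Q i.succ) :=
    hBL.isTestPair fun i => lipT_crd hQ _
  have h1 : bd S (fun x => h (Q x)) (fun i : Fin k => crd Q i.succ) = 0 := by rw [hbd]; rfl
  rw [bd, if_pos htp] at h1
  have h2 : (Fin.cons (fun x => h (Q x)) (fun i : Fin k => crd Q i.succ) :
      Fin (k + 1) → X → ℝ) = Function.update (crd Q) 0 (fun x => h (Q x)) := by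
    funext i
    refine Fin.cases ?_ (fun i => ?_) i
    · simp
    · simp
  rw [h2, ← ext_eq hS ((lipT_crd hQ).update 0 hhQ) BL.one,
    ext_chainP hS BL.one.bm (lipT_crd hQ) 0 hQ (hh.of_le (by simp)) hK,
    Finset.sum_eq_single 0] at h1
  · rw [Function.update_eq_self] at h1
    simpa using h1
  · intro i _ hi
    refine ext_zero_of_eq hS ?_ ((lipT_crd hQ).update 0 (lipT_crd hQ i)) (i := 0) (j := i)
      (Ne.symm hi) (by simp [hi])
    exact BL.one.bm.mul (bm_fderiv hQ (hh.of_le (by simp)) hK i)
  · simp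

theorem bl_comp {C : ℝ≥0} (hQ : LipschitzWith C Q) {h : Euc (k + 1) → ℝ} (hh : ContDiff ℝ ∞ h)
    (hc : HasCompactSupport h) : BL (fun x => h (Q x)) := by
  obtain ⟨K, hK⟩ := hh.lipschitzWith_of_hasCompactSupport hc (by simp)
  obtain ⟨M, hM⟩ := hc.exists_bound_of_continuous hh.continuous
  exact ⟨⟨_, hK.comp hQ⟩, M, fun x => hM _⟩

/-- `S(h ∘ Q, Q) = 0` when `∂S = 0` and the support is bounded -/
theorem ext_comp_crd_eq_zero (hS : IsCurrent S) (hbd : bd S = 0) {C : ℝ≥0}
    (hQ : LipschitzWith C Q) {K : Set X} (hK : IsSupportedIn K S) (hKb : Bornology.IsBounded K)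
    {h : Euc (k + 1) → ℝ} (hh : ContDiff ℝ ∞ h) (hc : HasCompactSupport h) :
    ext S (fun x => h (Q x)) (crd Q) = 0 := by
  set e0 : Euc (k + 1) := EuclideanSpace.single 0 1 with he0
  -- translates
  have hts : ∀ s : ℝ, ContDiff ℝ ∞ (fun y => h (y + s • e0)) := fun s =>
    hh.comp (contDiff_id.add contDiff_const)
  have hcs : ∀ s : ℝ, HasCompactSupport (fun y => h (y + s • e0)) := fun s =>
    hc.comp_homeomorph (Homeomorph.addRight (s • e0))
  have hfd : ∀ (s : ℝ) (y : Euc (k + 1)),
      fderiv ℝ (fun y => h (y + s • e0)) y e0 = fderiv ℝ h (y + s • e0) e0 := by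
    intro s y
    rw [fderiv_comp_add_right]
  set Ψ : ℝ → ℝ := fun s => ext S (fun x => h (Q x + s • e0)) (crd Q) with hΨ
  obtain ⟨M, hM⟩ := (hc.fderiv ℝ).exists_bound_of_continuous (hh.continuous_fderiv (by simp))
  have hbm := bm_dens S (crd Q)
  obtain ⟨D, hD⟩ := hbm.2
  have hD0 : ∀ x, |dens S (crd Q) x| ≤ |D| := fun x => (hD x).trans (le_abs_self _)
  have hderiv : ∀ s : ℝ, HasDerivAt Ψ 0 s := by
    intro s
    have key : HasDerivAt Ψ (∫ x, fderiv ℝ h (Q x + s • e0) e0 * dens S (crd Q) x ∂(ctrl S)) s := by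
      rw [hΨ]
      unfold G1.ext
      refine (hasDerivAt_integral_of_dominated_loc_of_deriv_le (s := univ)
        (F := fun s x => h (Q x + s • e0) * dens S (crd Q) x)
        (F' := fun s x => fderiv ℝ h (Q x + s • e0) e0 * dens S (crd Q) x)
        (bound := fun _ => |M| * |D|) univ_mem ?_ ?_ ?_ ?_ ?_ ?_).2
      · refine Eventually.of_forall fun s => ?_
        exact (integrable_mul_dens (bl_comp hQ (hts s) (hcs s)).bm _).aestronglyMeasurable
      · exact integrable_mul_dens (bl_comp hQ (hts s) (hcs s)).bm _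
      · refine AEStronglyMeasurable.mul ?_ hbm.1.aestronglyMeasurable
        refine (Continuous.clm_apply ?_ continuous_const).aestronglyMeasurable
        exact (hh.continuous_fderiv (by simp)).comp (hQ.continuous.add continuous_const)
      · refine Eventually.of_forall fun x t _ => ?_
        rw [norm_mul, Real.norm_eq_abs (dens S (crd Q) x)]
        refine mul_le_mul ?_ (hD0 x) (abs_nonneg _) (abs_nonneg _)
        refine (ContinuousLinearMap.le_opNorm _ _).trans ?_
        rw [he0, PiLp.norm_single, norm_one, mul_one]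
        exact (hM _).trans (le_abs_self _)
      · exact integrable_const _
      · refine Eventually.of_forall fun x t _ => ?_
        have h1 : HasDerivAt (fun t : ℝ => Q x + t • e0) e0 t := by
          simpa using ((hasDerivAt_id t).smul_const e0).const_add (Q x)
        have h2 : HasFDerivAt h (fderiv ℝ h (Q x + t • e0)) (Q x + t • e0) :=
          ((hh.differentiable (by simp)) _).hasFDerivAt
        exact (h2.comp_hasDerivAt t h1).mul_const _
    have h0 : (∫ x, fderiv ℝ h (Q x + s • e0) e0 * dens S (crd Q) x ∂(ctrl S)) = 0 := by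
      have := ext_deriv_eq_zero hS hbd hQ (hts s) (hcs s)
      unfold G1.ext at this
      rw [← this]
      refine integral_congr_ae (Eventually.of_forall fun x => ?_)
      simp only
      rw [← he0, hfd]
    rwa [h0] at key
  have hconst : ∀ s, Ψ s = Ψ 0 := fun s =>
    is_const_of_deriv_eq_zero (fun s => (hderiv s).differentiableAt) (fun s => (hderiv s).deriv) s 0
  -- bounded support
  obtain ⟨R, hR⟩ := (hQ.isBounded_image hKb).subset_closedBall (0 : Euc (k + 1))
  obtain ⟨R', hR'⟩ := hc.isCompact.isBounded.subset_closedBall (0 : Euc (k + 1))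
  have hfar : Ψ (|R| + |R'| + 1) = 0 := by
    set s := |R| + |R'| + 1 with hs
    rw [hΨ]
    simp only
    rw [ext_eq hS (lipT_crd hQ) (bl_comp hQ (hts s) (hcs s))]
    refine hK _ _ ((bl_comp hQ (hts s) (hcs s)).isTestPair (lipT_crd hQ)) ?_
    intro x hx
    by_contra hne
    have h1 : Q x + s • e0 ∈ tsupport h := subset_tsupport _ (by simpa using hne)
    have h2 := hR' h1
    have h3 := hR (mem_image_of_mem Q hx)
    rw [mem_closedBall_zero_iff] at h2 h3
    have h4 : ‖s • e0‖ ≤ ‖Q x + s • e0‖ + ‖Q x‖ := by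
      have := norm_sub_le (Q x + s • e0) (Q x)
      simpa using this
    have hs0 : 0 ≤ s := by positivity
    rw [norm_smul, he0, PiLp.norm_single, norm_one, mul_one, Real.norm_of_nonneg hs0]
      at h4
    have h5 := le_abs_self R
    have h6 := le_abs_self R'
    rw [he0] at h2
    linarith
  have h1 := hconst (|R| + |R'| + 1)
  rw [hfar] at h1
  have h2 : Ψ 0 = ext S (fun x => h (Q x)) (crd Q) := by
    rw [hΨ]; simp
  rw [← h2, ← h1]

/-- `S(f, Q) = 0` for all bounded Borel `f` -/
theorem ext_crd_eq_zero (hS : IsCurrent S) (hbd : bd S = 0) {C : ℝ≥0}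
    (hQ : LipschitzWith C Q) {K : Set X} (hK : IsSupportedIn K S) (hKb : Bornology.IsBounded K)
    {e : Euc (k + 1) → X} (he : Continuous e) (heQ : ∀ x, e (Q x) = x)
    {f : X → ℝ} : ext S f (crd Q) = 0 := by
  have hQm : Measurable Q := hQ.continuous.measurable
  have hbm := bm_dens S (crd Q)
  have hem : Measurable e := he.measurable
  have h1 : ∀ᵐ y ∂((ctrl S).map Q), dens S (crd Q) (e y) = 0 := by
    have : IsFiniteMeasure ((ctrl S).map Q) := inferInstance
    have hbm' : Integrable (fun y => dens S (crd Q) (e y)) ((ctrl S).map Q) := by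
      obtain ⟨D, hD⟩ := hbm.2
      exact Integrable.of_bound (hbm.1.comp hem).aestronglyMeasurable D
        (Eventually.of_forall fun y => hD _)
    refine ae_eq_zero_of_integral_contDiff_smul_eq_zero hbm'.locallyIntegrable ?_
    intro g hg hgc
    have h2 := ext_comp_crd_eq_zero hS hbd hQ hK hKb hg hgc
    unfold G1.ext at h2
    rw [integral_map hQm.aemeasurable]
    · rw [← h2]
      refine integral_congr_ae (Eventually.of_forall fun x => ?_)
      simp only [heQ, smul_eq_mul]
    · exact (hg.continuous.aestronglyMeasurable).smul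
        (hbm.1.comp hem).aestronglyMeasurable
  have h2 : ∀ᵐ x ∂(ctrl S), dens S (crd Q) x = 0 := by
    have := ae_of_ae_map hQm.aemeasurable h1
    filter_upwards [this] with x hx
    rwa [heQ] at hx
  unfold G1.ext
  rw [integral_eq_zero_of_ae]
  filter_upwards [h2] with x hx
  simp [hx]

/-- **Constancy theorem.** -/
theorem eq_zero (hS : IsCurrent S) (hbd : bd S = 0) {C : ℝ≥0}
    (hQ : LipschitzWith C Q) {K : Set X} (hK : IsSupportedIn K S) (hKb : Bornology.IsBounded K)
    {e : Euc (k + 1) → X} (heQ : ∀ x, e (Q x) = x)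
    (hel : ∀ R : ℝ, ∃ L : ℝ≥0, LipschitzOnWith L e (closedBall 0 R)) : S = 0 := by
  have he : Continuous e := by
    rw [continuous_iff_continuousAt]
    intro v
    obtain ⟨L, hL⟩ := hel (‖v‖ + 1)
    refine (hL.continuousOn).continuousAt ?_
    refine mem_of_superset (ball_mem_nhds v one_pos) ?_
    intro w hw
    rw [mem_closedBall_zero_iff]
    have h1 : ‖w - v‖ < 1 := by rwa [mem_ball, dist_eq_norm] at hw
    have h2 := norm_add_le v (w - v)
    have h3 : v + (w - v) = w := by abel
    rw [h3] at h2
    linarith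
  funext f π
  by_cases hfπ : IsTestPair f π
  swap
  · exact hS.eq_zero_of_not_test f π hfπ
  show S f π = 0
  obtain ⟨hf, hπ⟩ := isTestPair_iff.1 hfπ
  obtain ⟨R, hR⟩ := (hQ.isBounded_image hKb).subset_closedBall (0 : Euc (k + 1))
  obtain ⟨L, hL⟩ := hel (R + 1)
  choose Kπ hKπ using hπ
  set L' : ℝ≥0 := (∑ i, Kπ i) * L with hL'
  have hu : ∀ i, LipschitzOnWith L' (fun v => π i (e v)) (closedBall 0 (R + 1)) := by
    intro i
    have h1 : LipschitzWith (∑ i, Kπ i) (π i) := (hKπ i).weaken
      (Finset.single_le_sum (fun _ _ => zero_le) (Finset.mem_univ i))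
    exact h1.comp_lipschitzOnWith hL
  choose û hû1 hû2 using fun i => (hu i).extend_real
  -- cut-off
  set η : X → ℝ := fun x => max 0 (min 1 (R + 1 - ‖Q x‖)) with hη
  have hηBL : BL η := by
    refine ⟨⟨C, ?_⟩, 1, fun x => ?_⟩
    · have h1 : LipschitzWith C (fun x => R + 1 - ‖Q x‖) := by
        have h2 : LipschitzWith (1 * C) (fun x => ‖Q x‖) := lipschitzWith_one_norm.comp hQ
        have h3 := (LipschitzWith.const (R + 1)).sub h2
        simpa using h3
      have h2 := (LipschitzWith.const (1 : ℝ) (α := X)).min h1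
      have h3 := (LipschitzWith.const (0 : ℝ) (α := X)).max h2
      simpa using h3
    · rw [abs_of_nonneg (le_max_left _ _)]
      exact max_le zero_le_one (min_le_left _ _)
  have hfη : BL (f * η) := hf.mul hηBL
  have h1 : S f π = S (f * η) π := by
    have h2 : f = f * η + (f - f * η) := by ring
    have h3 : S (f - f * η) π = 0 := by
      refine hK _ _ ((hf.sub hfη).isTestPair hfπ.2.2) ?_
      intro x hx
      have h4 := hR (mem_image_of_mem Q hx)
      rw [mem_closedBall_zero_iff] at h4
      have h5 : η x = 1 := by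
        rw [hη]; simp only
        rw [min_eq_left (by linarith), max_eq_right zero_le_one]
      simp [h5]
    conv_lhs => rw [h2]
    rw [hS.add_left _ _ _ (hfη.isTestPair hfπ.2.2) ((hf.sub hfη).isTestPair hfπ.2.2), h3, add_zero]
  have hπ'L : LipT (fun i x => û i (Q x)) := fun i => ⟨_, (hû1 i).comp hQ⟩
  have h2 : S (f * η) π = S (f * η) (fun i x => û i (Q x)) := by
    rw [← ext_eq hS hfπ.2.2 hfη, ← ext_eq hS hπ'L hfη]
    refine ext_congr_coord hS hfη.bm hfπ.2.2 hπ'L ?_
    intro i x hx
    have h3 : ‖Q x‖ ≤ R + 1 := by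
      by_contra hcon
      push Not at hcon
      apply hx
      have : η x = 0 := by
        rw [hη]; simp only
        rw [max_eq_left]
        exact (min_le_right _ _).trans (by linarith)
      simp [this]
    have h4 := hû2 i (mem_closedBall_zero_iff.2 h3)
    simp only [heQ] at h4
    exact h4
  rw [h1, h2]
  -- mollify
  have hpos : ∀ j : ℕ, (0 : ℝ) < 1 / ((j : ℝ) + 1) := fun j => by positivity
  have hlim := hS.continuity (f * η) (fun i x => û i (Q x))
    (fun j i x => EMoll.moll (hpos j) (û i) (Q x)) (hfη.isTestPair hπ'L)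
    ⟨L' * C, fun j i => (EMoll.lipschitz_moll (hpos j) (hû1 i)).comp hQ⟩
    (by
      intro i x
      rw [tendsto_iff_dist_tendsto_zero]
      refine squeeze_zero (g := fun j : ℕ => L' * (1 / ((j : ℝ) + 1))) (fun j => dist_nonneg)
        (fun j => ?_) ?_
      · rw [Real.dist_eq]
        exact EMoll.abs_moll_sub_le_of_lipschitz (hpos j) (hû1 i) _
      · have := (tendsto_one_div_add_atTop_nhds_zero_nat (𝕜 := ℝ)).const_mul (L' : ℝ)
        simpa using this)
  have hzero : ∀ j : ℕ, S (f * η) (fun i x => EMoll.moll (hpos j) (û i) (Q x)) = 0 := by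
    intro j
    have hL2 : LipT (fun i x => EMoll.moll (hpos j) (û i) (Q x)) :=
      fun i => ⟨_, (EMoll.lipschitz_moll (hpos j) (hû1 i)).comp hQ⟩
    rw [← ext_eq hS hL2 hfη]
    exact ext_comp_eq_zero hS hQ (fun f _ => ext_crd_eq_zero hS hbd hQ hK hKb he heQ)
      (G := fun i => EMoll.moll (hpos j) (û i))
      (fun i => (EMoll.contDiff_moll (hpos j) (hû1 i).continuous).of_le (by simp))
      (fun i => EMoll.lipschitz_moll (hpos j) (hû1 i)) hfη.bm
  simp only [hzero] at hlim
  exact (tendsto_nhds_unique hlim tendsto_const_nhds)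

end Top

end Crest.Agent.R241.E2
end

-- ▼ part R241/D6
section

/-!
R241, block D6: `RigidTarget` (rigidity in Günther's volume inequality, `k = 0`).
-/

set_option autoImplicit false

open Set Filter Topology MeasureTheory MeasureTheory.Measure Matrix
open scoped ContDiff RealInnerProductSpace ENNReal
open Crest.GeometryTopology.Submanifold

noncomputable section

namespace Crest.Agent.R241.D6

variable {d N : ℕ} {k : ℝ} {S : Set (Euc N)} {X : Type} [MetricSpace X]



theorem injective_chart (M : CHModel d N k S X) (p : X) :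
    Function.Injective (fun v => M.ι (M.e p v)) :=
  M.ι_inj.comp (M.e_bij p).1




end Crest.Agent.R241.D6
end
end

-- ▼ part R241/E1c2
section

/-!
R241, block E1/C2: the mass of the top-dimensional chain `[[E]]` is the Riemannian volume of `E`.
-/

set_option autoImplicit false
set_option linter.unusedSectionVars false

open Set Filter Topology MeasureTheory MeasureTheory.Measure Matrix
open scoped ContDiff RealInnerProductSpace ENNReal NNReal
open Crest.GeometryTopology.Submanifold
open Crest.GeometryTopology.MetricCurrent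

noncomputable section

namespace Crest.Agent.R241.E1c2

/-! ### domination of measures tested with bounded Lipschitz functions -/

section Dominate

variable {E : Type*} [MetricSpace E] [MeasurableSpace E] [BorelSpace E]

theorem dominate {lam μ : Measure E} [IsFiniteMeasure μ] {A : Set E}
    {h : E → ℝ} (hm : Measurable h) (hi : IntegrableOn h A lam)
    (H : ∀ g : E → ℝ, G1.BL g → |∫ x in A, g x * h x ∂lam| ≤ ∫ x, |g x| ∂μ)
    {B : Set E} (hB : MeasurableSet B) (hBA : B ⊆ A) :
    ∫ x in B, |h x| ∂lam ≤ μ.real B := by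
  classical
  set κ : Measure E := (lam.restrict A).withDensity (fun x => ENNReal.ofReal |h x|) with hκ
  have hκf : IsFiniteMeasure κ := isFiniteMeasure_withDensity_ofReal hi.abs.2
  let f0 : E → ℝ := B.indicator (fun x => (SignType.sign (h x) : ℝ))
  have hsm : Measurable (fun x => (SignType.sign (h x) : ℝ)) := by
    have : (fun x => (SignType.sign (h x) : ℝ)) =
        fun x => if 0 < h x then (1 : ℝ) else if h x < 0 then -1 else 0 := by
      funext x
      rcases lt_trichotomy (h x) 0 with hx | hx | hx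
      · simp [sign_neg hx, hx, not_lt.2 hx.le]
      · simp [hx]
      · simp [sign_pos hx, hx]
    rw [this]
    exact Measurable.ite (measurableSet_lt measurable_const hm) measurable_const
      (Measurable.ite (measurableSet_lt hm measurable_const) measurable_const measurable_const)
  have hf0m : Measurable f0 := hsm.indicator hB
  have hf0b : ∀ x, |f0 x| ≤ 1 := by
    intro x
    by_cases hx : x ∈ B
    · simp only [f0, indicator_of_mem hx]
      rcases lt_trichotomy (h x) 0 with hx | hx | hx
      · simp [sign_neg hx]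
      · simp [hx]
      · simp [sign_pos hx]
    · simp [f0, indicator_of_notMem hx]
  obtain ⟨g, hg1, hg2, hg3⟩ := G1.exists_seq_BL (μ + κ) hf0m hf0b
  have hint : ∀ n, Integrable (fun x => |f0 x - g n x|) (μ + κ) := fun n =>
    Integrable.of_bound (hf0m.sub (hg1 n).measurable).abs.aestronglyMeasurable 2
      (Eventually.of_forall fun x => by
        rw [Real.norm_eq_abs, abs_abs]
        have := abs_sub (f0 x) (g n x)
        linarith [hf0b x, hg2 n x])
  have hsum : ∀ n, ∫ x, |f0 x - g n x| ∂(μ + κ) =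
      ∫ x, |f0 x - g n x| ∂μ + ∫ x, |f0 x - g n x| ∂κ := fun n =>
    integral_add_measure (integrable_add_measure.1 (hint n)).1
      (integrable_add_measure.1 (hint n)).2
  have hκint : ∀ n, ∫ x, |f0 x - g n x| ∂κ = ∫ x in A, |h x| * |f0 x - g n x| ∂lam := by
    intro n
    rw [hκ, integral_withDensity_eq_integral_toReal_smul (by fun_prop)
      (Eventually.of_forall fun x => ENNReal.ofReal_lt_top)]
    refine integral_congr_ae (Eventually.of_forall fun x => ?_)
    simp [ENNReal.toReal_ofReal (abs_nonneg _)]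
  have lim1 : Tendsto (fun n => ∫ x, |f0 x - g n x| ∂μ) atTop (𝓝 0) := by
    refine squeeze_zero (fun n => integral_nonneg fun x => abs_nonneg _) (fun n => ?_) hg3
    rw [hsum]
    linarith [show 0 ≤ ∫ x, |f0 x - g n x| ∂κ from integral_nonneg fun x => abs_nonneg _]
  have lim2 : Tendsto (fun n => ∫ x in A, |h x| * |f0 x - g n x| ∂lam) atTop (𝓝 0) := by
    refine squeeze_zero (fun n => integral_nonneg fun x => by positivity) (fun n => ?_) hg3
    rw [hsum, ← hκint]
    linarith [show 0 ≤ ∫ x, |f0 x - g n x| ∂μ from integral_nonneg fun x => abs_nonneg _]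
  -- integrability
  have hgi : ∀ n, IntegrableOn (fun x => g n x * h x) A lam := fun n =>
    hi.bdd_mul (c := 1) (hg1 n).measurable.aestronglyMeasurable
      (Eventually.of_forall fun x => by simpa using hg2 n x)
  have hf0i : IntegrableOn (fun x => f0 x * h x) A lam :=
    hi.bdd_mul (c := 1) hf0m.aestronglyMeasurable
      (Eventually.of_forall fun x => by simpa using hf0b x)
  have e1 : ∫ x in A, f0 x * h x ∂lam = ∫ x in B, |h x| ∂lam := by
    have : (fun x => f0 x * h x) = B.indicator (fun x => |h x|) := by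
      funext x
      by_cases hx : x ∈ B
      · simp only [f0, indicator_of_mem hx]
        rw [mul_comm]; exact self_mul_sign (h x)
      · simp [f0, indicator_of_notMem hx]
    rw [this, setIntegral_indicator hB, inter_eq_self_of_subset_right hBA]
  have lim3 : Tendsto (fun n => ∫ x in A, g n x * h x ∂lam) atTop (𝓝 (∫ x in B, |h x| ∂lam)) := by
    rw [← e1, tendsto_iff_norm_sub_tendsto_zero]
    refine squeeze_zero (fun n => norm_nonneg _) (fun n => ?_) lim2
    rw [← integral_sub (hgi n) hf0i]
    refine (norm_integral_le_integral_norm _).trans (le_of_eq ?_)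
    refine integral_congr_ae (Eventually.of_forall fun x => ?_)
    simp only [Real.norm_eq_abs]
    rw [← sub_mul, abs_mul, abs_sub_comm, mul_comm]
  have hgμ : ∀ n, ∫ x, |g n x| ∂μ ≤ μ.real B + ∫ x, |f0 x - g n x| ∂μ := by
    intro n
    have i1 : Integrable (fun x => |f0 x|) μ :=
      Integrable.of_bound hf0m.abs.aestronglyMeasurable 1
        (Eventually.of_forall fun x => by simpa using hf0b x)
    have i2 := (integrable_add_measure.1 (hint n)).1
    calc ∫ x, |g n x| ∂μ ≤ ∫ x, (|f0 x| + |f0 x - g n x|) ∂μ := by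
          refine integral_mono ((hg1 n).abs.integrable μ) (i1.add i2) fun x => ?_
          have := abs_sub_abs_le_abs_sub (g n x) (f0 x)
          rw [abs_sub_comm] at this
          simp only
          linarith
      _ = ∫ x, |f0 x| ∂μ + ∫ x, |f0 x - g n x| ∂μ := integral_add i1 i2
      _ ≤ μ.real B + ∫ x, |f0 x - g n x| ∂μ := by
          gcongr
          calc ∫ x, |f0 x| ∂μ ≤ ∫ x, B.indicator (fun _ => (1 : ℝ)) x ∂μ := by
                refine integral_mono i1 ((integrable_const 1).indicator hB) fun x => ?_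
                by_cases hx : x ∈ B
                · simpa [indicator_of_mem hx] using hf0b x
                · simp [f0, indicator_of_notMem hx]
            _ = μ.real B := by
                rw [integral_indicator hB]; simp
  have lim4 : Tendsto (fun n => μ.real B + ∫ x, |f0 x - g n x| ∂μ) atTop (𝓝 (μ.real B + 0)) :=
    tendsto_const_nhds.add lim1
  rw [add_zero] at lim4
  refine le_of_tendsto_of_tendsto' lim3 lim4 fun n => ?_
  exact (le_abs_self _).trans ((H (g n) (hg1 n)).trans (hgμ n))

end Dominate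

/-! ### the exponential chart -/

variable {d N : ℕ} {k : ℝ} {S : Set (Euc N)} {X : Type} [MetricSpace X]

theorem continuous_e (M : CHModel d N k S X) (p : X) : Continuous (M.e p) := by
  rw [continuous_iff_continuousAt]
  intro z
  obtain ⟨L, hL⟩ := M.e_lip p (‖z‖ + 1)
  exact hL.continuousOn.continuousAt (Metric.closedBall_mem_nhds_of_mem
    (by rw [Metric.mem_ball, dist_zero_right]; linarith))

/-- inverse of the exponential chart -/
def rho (M : CHModel d N k S X) (p : X) : X → Euc d := Function.surjInv (M.e_bij p).2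

theorem e_rho (M : CHModel d N k S X) (p x : X) : M.e p (rho M p x) = x :=
  Function.surjInv_eq (M.e_bij p).2 x

theorem rho_e (M : CHModel d N k S X) (p : X) (z : Euc d) : rho M p (M.e p z) = z :=
  (M.e_bij p).1 (e_rho M p _)

theorem lipschitz_rho (M : CHModel d N k S X) (p : X) : LipschitzWith 1 (rho M p) := by
  apply LipschitzWith.of_dist_le_mul
  intro x y
  have := M.e_expand p (rho M p x) (rho M p y)
  rw [e_rho, e_rho] at this
  simpa [dist_eq_norm] using this

theorem hasFDerivAt_chart (M : CHModel d N k S X) (p : X) (z : Euc d) :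
    HasFDerivAt (fun v => M.ι (M.e p v)) (fderiv ℝ (fun v => M.ι (M.e p v)) z) z :=
  (((M.smooth p).differentiable (by simp)) z).hasFDerivAt

/-- `1`-Lipschitz functions have gradient at most `1` for the Riemannian metric. -/
theorem abs_fderiv_le (M : CHModel d N k S X) (p : X) {u : X → ℝ} (hu : LipschitzWith 1 u)
    {z : Euc d} (hd : DifferentiableAt ℝ (fun v => u (M.e p v)) z) (w : Euc d) :
    |fderiv ℝ (fun v => u (M.e p v)) z w| ≤ ‖fderiv ℝ (fun v => M.ι (M.e p v)) z w‖ := by
  have hline : HasDerivAt (fun t : ℝ => z + t • w) w 0 := by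
    simpa using ((hasDerivAt_id (0 : ℝ)).smul_const w).const_add z
  have e0 : z + (0 : ℝ) • w = z := by simp
  have h1 : HasDerivAt (fun t : ℝ => u (M.e p (z + t • w)))
      (fderiv ℝ (fun v => u (M.e p v)) z w) 0 :=
    HasFDerivAt.comp_hasDerivAt (0 : ℝ) (f := fun t : ℝ => z + t • w)
      (l := fun v => u (M.e p v)) (by rw [e0]; exact hd.hasFDerivAt) hline
  have h2 : HasDerivAt (fun t : ℝ => M.ι (M.e p (z + t • w)))
      (fderiv ℝ (fun v => M.ι (M.e p v)) z w) 0 :=
    HasFDerivAt.comp_hasDerivAt (0 : ℝ) (f := fun t : ℝ => z + t • w)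
      (l := fun v => M.ι (M.e p v)) (by rw [e0]; exact hasFDerivAt_chart M p z) hline
  have s1 := (hasDerivAt_iff_tendsto_slope.1 h1).norm
  have s2 := (hasDerivAt_iff_tendsto_slope.1 h2).norm
  have hcont : Tendsto (fun t : ℝ => M.e p (z + t • w)) (𝓝[≠] 0) (𝓝 (M.e p z)) := by
    have : Continuous (fun t : ℝ => M.e p (z + t • w)) := (continuous_e M p).comp (by fun_prop)
    have h3 := this.tendsto 0
    simp only [zero_smul, add_zero] at h3
    exact h3.mono_left nhdsWithin_le_nhds
  refine le_of_forall_pos_le_add fun ε hε => ?_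
  set C := ‖fderiv ℝ (fun v => M.ι (M.e p v)) z w‖ with hC
  have hε' : 0 < ε / (C + 1) := by positivity
  obtain ⟨δ, hδ, hloc⟩ := M.ι_loc (M.e p z) (ε / (C + 1)) hε'
  have key : |fderiv ℝ (fun v => u (M.e p v)) z w| ≤ (1 + ε / (C + 1)) * C := by
    refine le_of_tendsto_of_tendsto s1 (s2.const_mul (1 + ε / (C + 1))) ?_
    filter_upwards [hcont.eventually (Metric.ball_mem_nhds (M.e p z) hδ)] with t ht
    have h4 := hloc (M.e p (z + t • w)) (M.e p z) ht (by simpa using hδ)
    have h5 := hu.dist_le_mul (M.e p (z + t • w)) (M.e p z)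
    rw [NNReal.coe_one, one_mul] at h5
    simp only [slope_def_module, zero_smul, add_zero, norm_smul]
    rw [← dist_eq_norm, ← dist_eq_norm]
    have h6 : dist (u (M.e p (z + t • w))) (u (M.e p z)) ≤
        (1 + ε / (C + 1)) * dist (M.ι (M.e p (z + t • w))) (M.ι (M.e p z)) := h5.trans h4
    calc ‖(t - 0)⁻¹‖ * dist (u (M.e p (z + t • w))) (u (M.e p z))
        ≤ ‖(t - 0)⁻¹‖ * ((1 + ε / (C + 1)) *
            dist (M.ι (M.e p (z + t • w))) (M.ι (M.e p z))) :=
          mul_le_mul_of_nonneg_left h6 (norm_nonneg _)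
      _ = _ := by ring
  refine key.trans ?_
  have h7 : ε / (C + 1) * C ≤ ε := by
    rw [div_mul_eq_mul_div, div_le_iff₀ (by positivity)]
    nlinarith [norm_nonneg (fderiv ℝ (fun v => M.ι (M.e p v)) z w)]
  linarith [h7]

/-- the Riemannian Jacobian of the chart -/
def J (M : CHModel d N k S X) (p : X) (z : Euc d) : ℝ :=
  AF.jac (fderiv ℝ (fun v => M.ι (M.e p v)) z)

theorem J_eq (M : CHModel d N k S X) (p : X) (z : Euc d) :
    J M p z = Real.sqrt (metricMat (fun v => M.ι (M.e p v)) z).det := AF.jac_eq_sqrt _ _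

theorem one_le_J (M : CHModel d N k S X) (p : X) (z : Euc d) : 1 ≤ J M p z := by
  rw [J_eq]; exact Real.one_le_sqrt.2 (E5b.one_le_det (M.fderiv_ge p z))

theorem continuous_fderiv_chart (M : CHModel d N k S X) (p : X) :
    Continuous (fderiv ℝ (fun v => M.ι (M.e p v))) :=
  (M.smooth p).continuous_fderiv (by simp)

theorem continuous_J (M : CHModel d N k S X) (p : X) : Continuous (J M p) := by
  have h1 : Continuous (fun x => metricMat (fun v => M.ι (M.e p v)) x) := by
    apply continuous_pi
    intro i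
    apply continuous_pi
    intro j
    have h2 : Continuous (fun x => pd (fun v => M.ι (M.e p v)) x i) :=
      (continuous_fderiv_chart M p).clm_apply continuous_const
    have h3 : Continuous (fun x => pd (fun v => M.ι (M.e p v)) x j) :=
      (continuous_fderiv_chart M p).clm_apply continuous_const
    exact h2.inner h3
  have : J M p = fun z => Real.sqrt (metricMat (fun v => M.ι (M.e p v)) z).det := by
    funext z; exact J_eq M p z
  rw [this]
  exact Real.continuous_sqrt.comp h1.matrix_det

theorem posSemidef_metricMat (f : Euc d → Euc N) (x : Euc d) : (metricMat f x).PosSemidef := by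
  rw [Matrix.posSemidef_iff_dotProduct_mulVec]
  refine ⟨E5b.metricMat_isHermitian f x, fun v => ?_⟩
  have := E5b.quad_metricMat f x (WithLp.toLp 2 v)
  simp only at this
  rw [star_trivial, this]
  positivity

theorem row_dot {f : Euc d → ℝ} {A : Set (Euc d)} {z : Euc d} (v : Fin d → ℝ) :
    (fun j => fderivWithin ℝ f A z (EuclideanSpace.single j (1 : ℝ))) ⬝ᵥ v =
      fderivWithin ℝ f A z (WithLp.toLp 2 v) := by
  have h1 : (WithLp.toLp 2 v : Euc d) = ∑ i, v i • stdVec d i :=
    (D.sum_stdVec (WithLp.toLp 2 v : Euc d)).symm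
  rw [h1, _root_.map_sum]
  simp only [dotProduct, map_smul, smul_eq_mul, stdVec]
  refine Finset.sum_congr rfl fun i _ => ?_
  ring

/-- Jacobians of tuples of `1`-Lipschitz functions are at most the Riemannian Jacobian. -/
theorem abs_jac_le (M : CHModel d N k S X) (p : X) {π : Fin d → X → ℝ}
    (hπ : ∀ i, LipschitzWith 1 (π i)) {O : Set (Euc d)} (hO : IsOpen O) {z : Euc d} (hz : z ∈ O)
    (hd : ∀ i, DifferentiableWithinAt ℝ (fun v => π i (M.e p v)) O z) :
    |B1Cur.jac O (M.e p) π z| ≤ J M p z := by
  rw [J_eq, B1Cur.jac]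
  refine B8LinAlg.abs_det_le_sqrt_det _ _ (posSemidef_metricMat _ _) fun i v => ?_
  have h1 := row_dot (f := fun w => π i (M.e p w)) (A := O) (z := z) v
  have h2 := E5b.quad_metricMat (fun v => M.ι (M.e p v)) z (WithLp.toLp 2 v)
  simp only at h2
  have hdi : DifferentiableAt ℝ (fun v => π i (M.e p v)) z :=
    (hd i).differentiableAt (hO.mem_nhds hz)
  have h3 := abs_fderiv_le M p (hπ i) hdi (WithLp.toLp 2 v)
  have h4 : ((Matrix.of fun i j => fderivWithin ℝ (fun w => π i (M.e p w)) O z
      (EuclideanSpace.single j (1 : ℝ))) i ⬝ᵥ v) =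
      fderiv ℝ (fun v => π i (M.e p v)) z (WithLp.toLp 2 v) := by
    rw [← fderivWithin_of_isOpen hO hz]
    exact h1
  rw [h4, h2, ← sq_abs]
  exact pow_le_pow_left₀ (abs_nonneg _) h3 2

/-! ### linear coordinates -/

/-- the tuple of linear coordinate functions -/
def lin (M : CHModel d N k S X) (u : Fin d → Euc N) (i : Fin d) (x : X) : ℝ := ⟪u i, M.ι x⟫

theorem lipschitz_lin (M : CHModel d N k S X) {u : Fin d → Euc N} (hu : ∀ i, ‖u i‖ ≤ 1)
    (i : Fin d) : LipschitzWith 1 (lin M u i) := by
  apply LipschitzWith.of_dist_le_mul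
  intro x y
  rw [NNReal.coe_one, one_mul, Real.dist_eq, lin, lin, ← inner_sub_right]
  calc |⟪u i, M.ι x - M.ι y⟫| ≤ ‖u i‖ * ‖M.ι x - M.ι y‖ := abs_real_inner_le_norm _ _
    _ ≤ 1 * ‖M.ι x - M.ι y‖ := by gcongr; exact hu i
    _ = dist (M.ι x) (M.ι y) := by rw [one_mul, dist_eq_norm]
    _ ≤ dist x y := M.ι_le x y

/-- the Jacobian of linear coordinates -/
def hu (M : CHModel d N k S X) (p : X) (u : Fin d → Euc N) (z : Euc d) : ℝ :=
  (Matrix.of fun i j => ⟪u i, pd (fun v => M.ι (M.e p v)) z j⟫).det

theorem continuous_hu (M : CHModel d N k S X) (p : X) (u : Fin d → Euc N) :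
    Continuous (hu M p u) := by
  have h1 : Continuous (fun z => (Matrix.of fun i j =>
      ⟪u i, pd (fun v => M.ι (M.e p v)) z j⟫ : Matrix (Fin d) (Fin d) ℝ)) := by
    apply continuous_pi
    intro i
    apply continuous_pi
    intro j
    have h3 : Continuous (fun x => pd (fun v => M.ι (M.e p v)) x j) :=
      (continuous_fderiv_chart M p).clm_apply continuous_const
    exact continuous_const.inner h3
  exact h1.matrix_det

theorem jac_lin (M : CHModel d N k S X) (p : X) (u : Fin d → Euc N) {O : Set (Euc d)}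
    (hO : IsOpen O) {z : Euc d} (hz : z ∈ O) :
    B1Cur.jac O (M.e p) (lin M u) z = hu M p u z := by
  rw [B1Cur.jac, hu]
  congr 1
  ext i j
  simp only [Matrix.of_apply]
  rw [fderivWithin_of_isOpen hO hz]
  have h1 : HasFDerivAt (fun v => lin M u i (M.e p v))
      ((innerSL ℝ (u i)).comp (fderiv ℝ (fun v => M.ι (M.e p v)) z)) z :=
    (innerSL ℝ (u i)).hasFDerivAt.comp z (hasFDerivAt_chart M p z)
  rw [h1.fderiv]
  rfl

/-- an optimal tuple exists at every point -/
theorem exists_hu_eq (M : CHModel d N k S X) (p : X) (z : Euc d) :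
    ∃ u : Fin d → Euc N, (∀ i, ‖u i‖ ≤ 1) ∧ |hu M p u z| = J M p z := by
  set A := fderiv ℝ (fun v => M.ι (M.e p v)) z with hA
  have hinj : Function.Injective A.toLinearMap := by
    intro v w hvw
    have h1 := M.fderiv_ge p z (v - w)
    have h2 : A (v - w) = 0 := by
      rw [map_sub]; exact sub_eq_zero.2 hvw
    rw [← hA, h2, norm_zero] at h1
    exact sub_eq_zero.1 (norm_le_zero_iff.1 h1)
  have hne : Nonempty (OrthonormalBasis (Fin (Module.finrank ℝ (Euc d))) ℝ A.toLinearMap.range) :=
    (A.toLinearMap.normDet_ne_zero_tfae.out 4 3).mp hinj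
  obtain ⟨b0⟩ := hne
  let b : OrthonormalBasis (Fin d) ℝ A.toLinearMap.range :=
    b0.reindex (finCongr (finrank_euclideanSpace_fin))
  refine ⟨fun i => (b i : Euc N), fun i => ?_, ?_⟩
  · have := b.orthonormal.1 i
    rw [← Submodule.coe_norm] at *
    exact le_of_eq this
  · rw [J, AF.jac, A.toLinearMap.normDet_eq_norm_det_toMatrix_rangeRestrict
      (EuclideanSpace.basisFun (Fin d) ℝ) b, Real.norm_eq_abs, hu]
    congr 2
    ext i j
    rw [LinearMap.toMatrix_apply, Matrix.of_apply]
    simp only [OrthonormalBasis.coe_toBasis, OrthonormalBasis.coe_toBasis_repr_apply,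
      OrthonormalBasis.repr_apply_apply]
    rw [Submodule.coe_inner]
    simp [pd, stdVec, hA]

/-! ### mass of the chain -/

section Mass

variable [MeasurableSpace X] [BorelSpace X]

/-- `A ⊆ ball 0 R'` measurable: the chain of the chart over `A`. -/
theorem chain_apply (M : CHModel d N k S X) (p : X) {A O : Set (Euc d)} (hA : MeasurableSet A)
    (hAO : A ⊆ O) {L : ℝ≥0} (hL : LipschitzOnWith L (M.e p) O) {f : X → ℝ}
    {π : Fin d → X → ℝ} (h : IsTestPair f π) :
    chartAction A (M.e p) (fun _ => 1) f π =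
      ∫ z in A, f (M.e p z) * B1Cur.jac O (M.e p) π z := by
  rw [B1Cur.chartAction_eq, B1Cur.chartR_of_test h]
  refine integral_congr_ae ?_
  filter_upwards [B1Cur.ae_jac_mono hA hAO hL h.2.2] with z hz
  rw [hz]; simp

/-- the Riemannian volume of `A` in the chart, transported to `X`. -/
def mu (M : CHModel d N k S X) (p : X) (A : Set (Euc d)) : Measure X :=
  Measure.map (M.e p) ((volume.restrict A).withDensity fun z => ENNReal.ofReal (J M p z))

theorem mu_univ (M : CHModel d N k S X) (p : X) (A : Set (Euc d)) :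
    mu M p A univ = ∫⁻ z in A, ENNReal.ofReal (J M p z) := by
  rw [mu, Measure.map_apply (continuous_e M p).measurable MeasurableSet.univ, preimage_univ,
    withDensity_apply _ MeasurableSet.univ, Measure.restrict_univ]

theorem lintegral_J_lt_top (M : CHModel d N k S X) (p : X) {A : Set (Euc d)}
    (hb : Bornology.IsBounded A) : ∫⁻ z in A, ENNReal.ofReal (J M p z) < ⊤ := by
  obtain ⟨R, hR⟩ := hb.subset_closedBall 0
  have h1 : IntegrableOn (J M p) (Metric.closedBall 0 R) :=
    (continuous_J M p).continuousOn.integrableOn_compact (isCompact_closedBall _ _)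
  have h2 : IntegrableOn (J M p) A := h1.mono_set hR
  exact (lintegral_ofReal_le_lintegral_enorm _).trans_lt h2.2

theorem isFiniteMeasure_mu (M : CHModel d N k S X) (p : X) {A : Set (Euc d)}
    (hb : Bornology.IsBounded A) : IsFiniteMeasure (mu M p A) :=
  ⟨by rw [mu_univ]; exact lintegral_J_lt_top M p hb⟩

theorem integral_mu (M : CHModel d N k S X) (p : X) (A : Set (Euc d)) {f : X → ℝ}
    (hf : Continuous f) : ∫ x, f x ∂(mu M p A) = ∫ z in A, J M p z * f (M.e p z) := by
  rw [mu, integral_map (continuous_e M p).measurable.aemeasurable hf.aestronglyMeasurable,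
    integral_withDensity_eq_integral_toReal_smul ((continuous_J M p).measurable.ennreal_ofReal)
      (Eventually.of_forall fun x => ENNReal.ofReal_lt_top)]
  refine integral_congr_ae (Eventually.of_forall fun z => ?_)
  simp [ENNReal.toReal_ofReal (zero_le_one.trans (one_le_J M p z))]

/-- upper bound -/
theorem controls_chain (M : CHModel d N k S X) (p : X) {A : Set (Euc d)} (hA : MeasurableSet A)
    (hb : Bornology.IsBounded A) :
    Controls (chartAction A (M.e p) (fun _ => 1)) (mu M p A) := by
  intro f π hfπ hπ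
  obtain ⟨R, hR⟩ := hb.subset_ball 0
  obtain ⟨L, hL⟩ := M.e_lip p R
  have hL' : LipschitzOnWith L (M.e p) (Metric.ball 0 R) := hL.mono Metric.ball_subset_closedBall
  rw [chain_apply M p hA hR hL' hfπ]
  have hf : G1.BL f := (G1.isTestPair_iff.1 hfπ).1
  rw [integral_mu M p A hf.abs.continuous, ← Real.norm_eq_abs]
  refine norm_integral_le_of_norm_le ?_ ?_
  · obtain ⟨C, hC⟩ := hf.2
    have h1 : IntegrableOn (J M p) A :=
      ((continuous_J M p).continuousOn.integrableOn_compact
        (isCompact_closedBall (0 : Euc d) R)).mono_set (hR.trans Metric.ball_subset_closedBall)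
    have h2 : IntegrableOn (fun z => |f (M.e p z)| * J M p z) A :=
      h1.bdd_mul (c := C)
        ((hf.abs.continuous.comp (continuous_e M p)).aestronglyMeasurable)
        (Eventually.of_forall fun x => by simpa using hC (M.e p x))
    refine h2.congr (Eventually.of_forall fun z => ?_)
    simp only; rw [mul_comm]
  · have h1 : ∀ᵐ z ∂(volume.restrict A), ∀ i,
        DifferentiableWithinAt ℝ (fun v => π i (M.e p v)) (Metric.ball 0 R) z := by
      refine ae_all_iff.2 fun i => ?_
      have := B1Cur.ae_good (E := Metric.ball (0 : Euc d) R) measurableSet_ball hL' ⟨1, hπ i⟩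
      have h2 : volume.restrict A ≤ volume.restrict (Metric.ball (0 : Euc d) R) :=
        Measure.restrict_mono_set _ hR
      filter_upwards [ae_mono h2 this] with z hz using hz.2
    filter_upwards [h1, ae_restrict_mem hA] with z hz hzA
    rw [norm_mul, Real.norm_eq_abs, Real.norm_eq_abs, mul_comm]
    exact mul_le_mul_of_nonneg_right (abs_jac_le M p hπ Metric.isOpen_ball (hR hzA) hz)
      (abs_nonneg _)

/-- lower bound -/
theorem le_of_controls (M : CHModel d N k S X) (p : X) {A : Set (Euc d)} (hA : MeasurableSet A)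
    (hb : Bornology.IsBounded A) {μ : Measure X} [IsFiniteMeasure μ]
    (hμ : Controls (chartAction A (M.e p) (fun _ => 1)) μ) :
    ∫⁻ z in A, ENNReal.ofReal (J M p z) ≤ μ univ := by
  obtain ⟨R, hR⟩ := hb.subset_ball 0
  obtain ⟨L, hL⟩ := M.e_lip p R
  have hL' : LipschitzOnWith L (M.e p) (Metric.ball 0 R) := hL.mono Metric.ball_subset_closedBall
  have hrm : Measurable (rho M p) := (lipschitz_rho M p).continuous.measurable
  set ν : Measure (Euc d) := μ.map (rho M p) with hν
  have hνf : IsFiniteMeasure ν := by rw [hν]; infer_instance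
  have hνu : ν univ = μ univ := by
    rw [hν, Measure.map_apply hrm MeasurableSet.univ, preimage_univ]
  -- domination of the Jacobian measures
  have hdom : ∀ u : Fin d → Euc N, (∀ i, ‖u i‖ ≤ 1) → ∀ B ⊆ A, MeasurableSet B →
      ∫⁻ z in B, ENNReal.ofReal |hu M p u z| ≤ ν B := by
    intro u hu1 B hBA hB
    have hi : IntegrableOn (hu M p u) A :=
      ((continuous_hu M p u).continuousOn.integrableOn_compact
        (isCompact_closedBall (0 : Euc d) R)).mono_set (hR.trans Metric.ball_subset_closedBall)
    have h1 : ∫ z in B, |hu M p u z| ≤ ν.real B := by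
      refine dominate (continuous_hu M p u).measurable hi ?_ hB hBA
      intro g hg
      have hgr : G1.BL (fun x => g (rho M p x)) := by
        obtain ⟨⟨K, hK⟩, C, hC⟩ := hg
        exact ⟨⟨_, hK.comp (lipschitz_rho M p)⟩, C, fun x => hC _⟩
      have htest : IsTestPair (fun x => g (rho M p x)) (lin M u) :=
        hgr.isTestPair fun i => ⟨1, lipschitz_lin M hu1 i⟩
      have h2 := hμ _ _ htest (lipschitz_lin M hu1)
      rw [chain_apply M p hA hR hL' htest] at h2
      have h3 : ∫ z in A, g (rho M p (M.e p z)) * B1Cur.jac (Metric.ball 0 R) (M.e p) (lin M u) z =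
          ∫ z in A, g z * hu M p u z := by
        refine setIntegral_congr_fun hA fun z hz => ?_
        rw [rho_e, jac_lin M p u Metric.isOpen_ball (hR hz)]
      rw [h3] at h2
      have h4 : ∫ x, |g (rho M p x)| ∂μ = ∫ z, |g z| ∂ν := by
        rw [hν, integral_map hrm.aemeasurable hg.abs.continuous.aestronglyMeasurable]
      rw [h4] at h2
      exact h2
    have h5 : IntegrableOn (fun z => |hu M p u z|) B := (hi.mono_set hBA).abs
    rw [← ofReal_integral_eq_lintegral_ofReal h5 (Eventually.of_forall fun z => abs_nonneg _)]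
    rw [← ENNReal.ofReal_toReal (measure_ne_top ν B)]
    exact ENNReal.ofReal_le_ofReal h1
  -- covering argument
  have key : ∀ c : ℝ, 0 < c → c < 1 →
      ENNReal.ofReal c * ∫⁻ z in A, ENNReal.ofReal (J M p z) ≤ ν univ := by
    intro c hc0 hc1
    let Oset : (Fin d → Euc N) → Set (Euc d) := fun u => {y | c * J M p y < |hu M p u y|}
    have hOo : ∀ u, IsOpen (Oset u) := fun u =>
      isOpen_lt (continuous_const.mul (continuous_J M p)) (continuous_hu M p u).abs
    let I := {u : Fin d → Euc N // ∀ i, ‖u i‖ ≤ 1}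
    obtain ⟨T, T_count, hT⟩ : ∃ T : Set I, T.Countable ∧
        ⋃ u ∈ T, Oset u.1 = ⋃ u : I, Oset u.1 :=
      TopologicalSpace.isOpen_iUnion_countable _ fun u => hOo u.1
    have huniv : ⋃ u : I, Oset u.1 = univ := by
      rw [eq_univ_iff_forall]
      intro z
      obtain ⟨u, hu1, hu2⟩ := exists_hu_eq M p z
      refine mem_iUnion.2 ⟨⟨u, hu1⟩, ?_⟩
      change c * J M p z < |hu M p u z|
      rw [hu2]
      have := one_le_J M p z
      nlinarith
    rw [huniv] at hT
    have hne : T.Nonempty := by
      rw [nonempty_iff_ne_empty]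
      rintro rfl
      have : (0 : Euc d) ∈ (univ : Set (Euc d)) := mem_univ _
      rw [← hT] at this
      simp at this
    obtain ⟨e, he⟩ := T_count.exists_eq_range hne
    let B : ℕ → Set (Euc d) := fun n => Oset (e n).1
    have hcov : ⋃ n, disjointed B n = univ := by
      rw [iUnion_disjointed, eq_univ_iff_forall]
      intro x
      have : x ∈ (univ : Set (Euc d)) := mem_univ _
      rw [← hT, he] at this
      simpa [B] using this
    have hD : ∀ n, MeasurableSet (disjointed B n) := fun n =>
      MeasurableSet.disjointed (fun i => (hOo _).measurableSet) n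
    have hsub : ∀ n, disjointed B n ⊆ B n := fun n => disjointed_subset _ _
    have hpart : ∀ n, ∫⁻ z in A ∩ disjointed B n, ENNReal.ofReal c * ENNReal.ofReal (J M p z) ≤
        ν (disjointed B n) := by
      intro n
      calc ∫⁻ z in A ∩ disjointed B n, ENNReal.ofReal c * ENNReal.ofReal (J M p z)
          ≤ ∫⁻ z in A ∩ disjointed B n, ENNReal.ofReal |hu M p (e n).1 z| := by
            refine setLIntegral_mono' (hA.inter (hD n)) fun z hz => ?_
            rw [← ENNReal.ofReal_mul hc0.le]
            exact ENNReal.ofReal_le_ofReal (le_of_lt (hsub n hz.2))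
        _ ≤ ν (A ∩ disjointed B n) := hdom _ (e n).2 _ inter_subset_left (hA.inter (hD n))
        _ ≤ ν (disjointed B n) := measure_mono inter_subset_right
    calc ENNReal.ofReal c * ∫⁻ z in A, ENNReal.ofReal (J M p z)
        = ∫⁻ z in A, ENNReal.ofReal c * ENNReal.ofReal (J M p z) := by
          rw [lintegral_const_mul _ (continuous_J M p).measurable.ennreal_ofReal]
      _ = ∫⁻ z in ⋃ n, A ∩ disjointed B n, ENNReal.ofReal c * ENNReal.ofReal (J M p z) := by
          rw [← inter_iUnion, hcov, inter_univ]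
      _ = ∑' n, ∫⁻ z in A ∩ disjointed B n, ENNReal.ofReal c * ENNReal.ofReal (J M p z) := by
          refine lintegral_iUnion (fun n => hA.inter (hD n)) ?_ _
          intro i j hij
          exact ((disjoint_disjointed B) hij).mono inter_subset_right inter_subset_right
      _ ≤ ∑' n, ν (disjointed B n) := ENNReal.tsum_le_tsum hpart
      _ = ν (⋃ n, disjointed B n) := (measure_iUnion (disjoint_disjointed _) hD).symm
      _ = ν univ := by rw [hcov]
  rw [← hνu]
  have T : Tendsto (fun c : ℝ => ENNReal.ofReal c * ∫⁻ z in A, ENNReal.ofReal (J M p z))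
      (𝓝[<] 1) (𝓝 (ENNReal.ofReal 1 * ∫⁻ z in A, ENNReal.ofReal (J M p z))) := by
    refine Tendsto.mono_left ?_ nhdsWithin_le_nhds
    exact ENNReal.Tendsto.mul_const (ENNReal.tendsto_ofReal tendsto_id)
      (Or.inr (lintegral_J_lt_top M p hb).ne)
  rw [ENNReal.ofReal_one, one_mul] at T
  refine le_of_tendsto T ?_
  filter_upwards [Ioo_mem_nhdsLT (zero_lt_one (α := ℝ))] with c hc
  exact key c hc.1 hc.2

/-- the mass of the chain is the Riemannian volume. -/
theorem mass_chart (M : CHModel d N k S X) (p : X) {A : Set (Euc d)} (hA : MeasurableSet A)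
    (hb : Bornology.IsBounded A) :
    mass (chartAction A (M.e p) (fun _ => 1)) =
      (∫⁻ z in A, ENNReal.ofReal (J M p z)).toReal := by
  have := isFiniteMeasure_mu M p hb
  rw [mass]
  refine IsLeast.csInf_eq ⟨⟨mu M p A, isFiniteMeasure_mu M p hb, controls_chain M p hA hb, ?_⟩, ?_⟩
  · rw [mu_univ]
  · rintro r ⟨μ, hμ1, hμ2, rfl⟩
    exact ENNReal.toReal_mono (measure_ne_top μ univ) (le_of_controls M p hA hb hμ2)

/-- area formula for the chart -/
theorem muHE_image (M : CHModel d N k S X) (p : X) {A : Set (Euc d)} (hA : MeasurableSet A) :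
    μHE[d] ((fun v => M.ι (M.e p v)) '' A) = ∫⁻ z in A, ENNReal.ofReal (J M p z) :=
  AF.muHE_image_Euc isOpen_univ (subset_univ _) hA
    ((M.smooth p).differentiable (by simp)).differentiableOn (D6.injective_chart M p).injOn

/-- preimage of a subset of `S` in the chart -/
theorem image_preimage (M : CHModel d N k S X) (p : X) {E : Set (Euc N)} (hE : E ⊆ S) :
    (fun v => M.ι (M.e p v)) '' {v | M.ι (M.e p v) ∈ E} = E := by
  apply Subset.antisymm
  · rintro _ ⟨v, hv, rfl⟩; exact hv
  · intro y hy
    have : y ∈ range M.ι := by rw [M.ι_range]; exact hE hy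
    obtain ⟨x, rfl⟩ := this
    obtain ⟨v, rfl⟩ := (M.e_bij p).2 x
    exact ⟨v, hy, rfl⟩

theorem isBounded_preimage (M : CHModel d N k S X) (p : X) {R : ℝ} {E : Set (Euc N)}
    (hE : E ⊆ M.ι '' Metric.closedBall p R) :
    {v | M.ι (M.e p v) ∈ E} ⊆ Metric.closedBall 0 R := by
  intro v hv
  obtain ⟨x, hx, hxv⟩ := hE hv
  rw [M.ι_inj hxv, Metric.mem_closedBall, dist_comm, M.e_dist] at hx
  simpa using hx

theorem mass_chain_eq (M : CHModel d N k S X) (p : X) {R : ℝ} {E : Set (Euc N)} (hES : E ⊆ S)
    (hE : MeasurableSet {v | M.ι (M.e p v) ∈ E}) (hER : E ⊆ M.ι '' Metric.closedBall p R) :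
    μHE[d] E = ENNReal.ofReal (mass (M.chain p E)) := by
  have hb : Bornology.IsBounded {v | M.ι (M.e p v) ∈ E} :=
    Metric.isBounded_closedBall.subset (isBounded_preimage M p hER)
  rw [CHModel.chain, mass_chart M p hE hb, ENNReal.ofReal_toReal (lintegral_J_lt_top M p hb).ne,
    ← muHE_image M p hE, image_preimage M p hES]

theorem isOpen_preimage (M : CHModel d N k S X) (p : X) {E : Set (Euc N)}
    (hE : ∃ U : Set (Euc N), IsOpen U ∧ E = S ∩ U) : IsOpen {v | M.ι (M.e p v) ∈ E} := by
  obtain ⟨U, hU, hE'⟩ := hE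
  have h1 : {v | M.ι (M.e p v) ∈ E} = (fun v => M.ι (M.e p v)) ⁻¹' U := by
    ext v
    simp only [hE']
    constructor
    · rintro ⟨_, h⟩; exact h
    · intro h
      refine ⟨?_, h⟩
      have : M.ι (M.e p v) ∈ range M.ι := ⟨_, rfl⟩
      rwa [M.ι_range] at this
  rw [h1]
  exact hU.preimage (M.smooth p).continuous

/-- conjunct 2 of `ChainTarget` -/
theorem c2 (M : CHModel d N k S X) (p : X) {R : ℝ} {E : Set (Euc N)} (hES : E ⊆ S)
    (hE : ∃ U : Set (Euc N), IsOpen U ∧ E = S ∩ U) (hER : E ⊆ M.ι '' Metric.closedBall p R) :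
    μHE[d] E = ENNReal.ofReal (mass (M.chain p E)) :=
  mass_chain_eq M p hES (isOpen_preimage M p hE).measurableSet hER

end Mass

end Crest.Agent.R241.E1c2
end
end

-- ▼ part R241/E2c4
section

/-!
R241 block E, `ChainTarget` conjunct 4 (helper475): uniqueness of top-dimensional fillings.
-/

set_option autoImplicit false
open MeasureTheory Set Filter Topology
open scoped ENNReal NNReal RealInnerProductSpace
open Crest.GeometryTopology.Submanifold
open Crest.GeometryTopology.MetricCurrent

noncomputable section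
namespace Crest.Agent.R241.E2c4

variable {d m N : ℕ} {k : ℝ} {S : Set (Euc N)} {X : Type} [MetricSpace X]

/-- The chart domain of a relatively open set is open. -/
theorem isOpen_dom (M : CHModel d N k S X) (p : X) {E : Set (Euc N)}
    (hE : ∃ U : Set (Euc N), IsOpen U ∧ E = S ∩ U) :
    IsOpen {v | M.ι (M.e p v) ∈ E} := by
  obtain ⟨U, hU, rfl⟩ := hE
  have h1 : {v | M.ι (M.e p v) ∈ S ∩ U} = (fun v => M.ι (M.e p v)) ⁻¹' U := by
    ext v
    constructor
    · intro hv; exact hv.2
    · intro hv
      refine ⟨?_, hv⟩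
      have h2 : M.ι (M.e p v) ∈ range M.ι := mem_range_self _
      exact M.ι_range.subset h2
  rw [h1]
  exact hU.preimage (M.smooth p).continuous

theorem dom_subset (M : CHModel d N k S X) (p : X) {R : ℝ} {E : Set (Euc N)}
    (hER : E ⊆ M.ι '' Metric.closedBall p R) :
    {v | M.ι (M.e p v) ∈ E} ⊆ Metric.closedBall 0 R := by
  intro v hv
  obtain ⟨y, hy, hyv⟩ := hER hv
  have h1 : y = M.e p v := M.ι_inj hyv
  subst h1
  rw [Metric.mem_closedBall, dist_comm, M.e_dist] at hy
  rw [mem_closedBall_zero_iff]; exact hy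

variable [MeasurableSpace X] [BorelSpace X]

theorem isCurrent_chain (M : CHModel d N k S X) (p : X) {R : ℝ} {E : Set (Euc N)}
    (hE : ∃ U : Set (Euc N), IsOpen U ∧ E = S ∩ U)
    (hER : E ⊆ M.ι '' Metric.closedBall p R) : IsCurrent (M.chain p E) := by
  have hsub := dom_subset M p hER
  obtain ⟨L, hL⟩ := M.e_lip p R
  refine B1Cur.isCurrent_chartAction (isOpen_dom M p hE).measurableSet (hL.mono hsub) ?_
  have h2 : IntegrableOn (fun _ : Euc d => (1 : ℝ)) {v | M.ι (M.e p v) ∈ E} := by
    refine integrableOn_const ?_ (by simp)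
    exact ((measure_mono hsub).trans_lt (isCompact_closedBall (0 : Euc d) R).measure_lt_top).ne
  simpa using h2

theorem isSupportedIn_chain (M : CHModel d N k S X) (p : X) {R : ℝ} {E : Set (Euc N)}
    (hE : ∃ U : Set (Euc N), IsOpen U ∧ E = S ∩ U)
    (hER : E ⊆ M.ι '' Metric.closedBall p R) :
    IsSupportedIn (Metric.closedBall p R) (M.chain p E) := by
  intro f π hfπ hf
  have hsub := dom_subset M p hER
  obtain ⟨L, hL⟩ := M.e_lip p R
  have h1 := E1c2.chain_apply M p (isOpen_dom M p hE).measurableSet hsub hL hfπ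
  rw [CHModel.chain, h1]
  refine setIntegral_eq_zero_of_forall_eq_zero fun v hv => ?_
  rw [hf _ (by
    rw [Metric.mem_closedBall, dist_comm, M.e_dist]
    simpa using hsub hv), zero_mul]

/-- **ChainTarget, conjunct 4**. -/
theorem c4 (M : CHModel (m + 2) N k S X) (p : X) {R : ℝ} {E : Set (Euc N)}
    (hE : ∃ U : Set (Euc N), IsOpen U ∧ E = S ∩ U)
    (hER : E ⊆ M.ι '' Metric.closedBall p R)
    (S' : Functional X (m + 2)) (hS' : IsInt (Metric.closedBall p R) S')
    (hbd : bd S' = bd (M.chain p E)) : S' = M.chain p E := by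
  have hcur := isCurrent_chain M p hE hER
  have hsup := isSupportedIn_chain M p hE hER
  have h1 : IsCurrent (S' - M.chain p E) := B10.IsCurrent.sub hS'.cur hcur
  have h2 : bd (S' - M.chain p E) = 0 := by rw [B10.bd_sub, hbd, sub_self]
  have h3 : IsSupportedIn (Metric.closedBall p R) (S' - M.chain p E) :=
    B10.isSupportedIn_sub hS'.supp hsup
  have h4 := E2.eq_zero h1 h2 (E1c2.lipschitz_rho M p) h3 Metric.isBounded_closedBall
    (e := M.e p) (E1c2.e_rho M p) (M.e_lip p)
  exact sub_eq_zero.mp h4

end Crest.Agent.R241.E2c4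
end
end

-- ▼ part R241/EChain

/-!
# R241, block E: assembly of `ChainTarget`
-/

set_option autoImplicit false

open MeasureTheory Filter Topology Set Metric
open scoped ENNReal NNReal ContDiff Matrix

universe u

namespace Crest.Agent.R241.EChain

open Crest.GeometryTopology.MetricCurrent
open Crest.GeometryTopology.Submanifold (Euc metricMat relBoundary)
open Crest.Agent.R241.G1

section General

variable {X : Type u} [MetricSpace X] [MeasurableSpace X] [BorelSpace X] {k : ℕ}

/-- The boundary of a current is a current as soon as it has finite mass. -/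
theorem isCurrent_bd {T : Functional X (k + 1)} (hT : IsCurrent T)
    (hfin : ∃ μ : Measure X, IsFiniteMeasure μ ∧ Controls (bd T) μ) : IsCurrent (bd T) := by
  have hcons0 : ∀ (f g : X → ℝ) (π : Fin k → X → ℝ),
      (Fin.cons g π : Fin (k + 1) → X → ℝ) = Function.update (Fin.cons f π) 0 g := by
    intro f g π
    rw [Fin.update_cons_zero]
  have hconsS : ∀ (f : X → ℝ) (π : Fin k → X → ℝ) (i : Fin k) (g : X → ℝ),
      (Fin.cons f (Function.update π i g) : Fin (k + 1) → X → ℝ) =
        Function.update (Fin.cons f π) i.succ g := by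
    intro f π i g
    rw [Fin.cons_update]
  refine isCurrent_of _ (fun f π h => B10.bd_apply_not h) ?_ ?_ ?_ ?_ ?_ ?_ hfin
  · intro f g π hf hg hπ
    rw [B10.bd_apply ((hf.add hg).isTestPair hπ), B10.bd_apply (hf.isTestPair hπ),
      B10.bd_apply (hg.isTestPair hπ), hcons0 f (f + g) π, hcons0 f g π]
    exact hT.add_coord (fun _ => 1) (Fin.cons f π) 0 g (B10.isTestPair_cons (hf.isTestPair hπ)) hg.1
  · intro c f π hf hπ
    rw [B10.bd_apply ((hf.smul c).isTestPair hπ), B10.bd_apply (hf.isTestPair hπ),
      hcons0 f (c • f) π]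
    exact hT.smul_coord (fun _ => 1) (Fin.cons f π) 0 c (B10.isTestPair_cons (hf.isTestPair hπ))
  · intro f π i g hf hπ hg
    have h1 : IsTestPair f (Function.update π i (π i + g)) :=
      hf.isTestPair (hπ.update i (lip_add (hπ i) hg))
    rw [B10.bd_apply h1, B10.bd_apply (hf.isTestPair hπ),
      B10.bd_apply (hf.isTestPair (hπ.update i hg)), hconsS, hconsS]
    exact hT.add_coord (fun _ => 1) (Fin.cons f π) i.succ g
      (B10.isTestPair_cons (hf.isTestPair hπ)) hg
  · intro f π i c hf hπ
    have h1 : IsTestPair f (Function.update π i (c • π i)) :=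
      hf.isTestPair (hπ.update i (lip_smul c (hπ i)))
    rw [B10.bd_apply h1, B10.bd_apply (hf.isTestPair hπ), hconsS]
    exact hT.smul_coord (fun _ => 1) (Fin.cons f π) i.succ c
      (B10.isTestPair_cons (hf.isTestPair hπ))
  · intro f π πs hf hπ hC hlim
    exact B10.bd_continuity hT f π πs (hf.isTestPair hπ) hC hlim
  · intro f π hf hπ i c h
    have htp := B10.isTestPair_cons (hf.isTestPair hπ)
    have hL : LipT (Fin.cons f π : Fin (k + 1) → X → ℝ) := htp.2.2
    rw [B10.bd_apply (hf.isTestPair hπ), ← ext_eq hT hL BL.one]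
    have hm : MeasurableSet {x | f x ≠ 0} :=
      (hf.measurable (measurableSet_singleton 0)).compl
    have h1 : (fun _ : X => (1 : ℝ)) =
        {x | f x ≠ 0}.indicator (fun _ => 1) + {x | f x ≠ 0}ᶜ.indicator (fun _ => 1) := by
      rw [indicator_self_add_compl]
    rw [h1, ext_add (BL.one.bm.indicator hm) (BL.one.bm.indicator hm.compl)]
    rw [ext_strong_locality hT (BL.one.bm.indicator hm) hL i.succ c ?_,
      ext_strong_locality hT (BL.one.bm.indicator hm.compl) hL 0 0 ?_, add_zero]
    · intro x hx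
      have hx' : x ∈ {x | f x ≠ 0}ᶜ := by
        by_contra hcon
        exact hx (indicator_of_notMem hcon _)
      simpa using hx'
    · intro x hx
      have hx' : x ∈ {x | f x ≠ 0} := by
        by_contra hcon
        exact hx (indicator_of_notMem hcon _)
      simpa using h x hx'

/-- a single bi-Lipschitz chart with multiplicity one is integer rectifiable -/
theorem isIntegerRectifiable_chart {A : Set (Euc k)} (hA : MeasurableSet A)
    (hAb : Bornology.IsBounded A) {e : Euc k → X} {L : ℝ≥0} (hL : LipschitzOnWith L e A) {C : ℝ}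
    (hC : ∀ z ∈ A, ∀ w ∈ A, dist z w ≤ C * dist (e z) (e w))
    (hcur : IsCurrent (chartAction A e (fun _ => 1))) :
    IsIntegerRectifiable (chartAction A e (fun _ => 1)) := by
  classical
  have hempty : ∀ (θ : Euc k → ℤ), chartAction ∅ e θ = (0 : Functional X k) := by
    intro θ
    funext f π
    unfold chartAction
    split_ifs <;> simp
  refine ⟨fun i => if i = 0 then A else ∅, fun _ => e, fun _ _ => 1, ?_, ?_, ?_, ?_, ?_, ?_, ?_,
    ?_⟩
  · intro i; dsimp only; split_ifs
    · exact ⟨hA, hAb⟩
    · exact ⟨MeasurableSet.empty, Bornology.isBounded_empty⟩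
  · intro i; dsimp only; split_ifs
    · exact ⟨L, hL⟩
    · exact ⟨0, fun x hx => hx.elim⟩
  · intro i; dsimp only; split_ifs
    · exact ⟨C, hC⟩
    · exact ⟨0, fun z hz => hz.elim⟩
  · intro i; dsimp only; split_ifs
    · simp only [Int.cast_one]
      have : IsFiniteMeasure (volume.restrict A) :=
        ⟨by rw [Measure.restrict_apply_univ]; exact hAb.measure_lt_top⟩
      exact integrable_const _
    · simp
  · intro i j hij
    dsimp only
    split_ifs with h1 h2 h2
    · exact absurd (h1.trans h2.symm) hij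
    · simp
    · simp
    · simp
  · intro i; dsimp only; split_ifs
    · exact hcur
    · rw [hempty]; exact B10.IsCurrent.zero
  · apply summable_of_ne_finset_zero (s := {0})
    intro i hi
    have hi' : i ≠ 0 := by simpa using hi
    dsimp only
    rw [if_neg hi', hempty, B10.mass_zero]
  · intro f π _
    rw [tsum_eq_single 0]
    · simp
    · intro i hi
      dsimp only
      rw [if_neg hi, hempty]
      rfl

end General

/-- perimeter bound in the chart (owner: helper777) -/
def PerimTarget : Prop :=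
  ∀ (m N : ℕ) (k : ℝ) (_ : 0 ≤ k) (S : Set (Euc N)) (X : Type) (_ : MetricSpace X)
    (_ : ProperSpace X)
    (M : CHModel (m + 2) N k S X) (p : X) (R : ℝ) (E : Set (Euc N)),
    E ⊆ S → (∃ U : Set (Euc N), IsOpen U ∧ E = S ∩ U) → E ⊆ M.ι '' Metric.closedBall p R →
    Measure.euclideanHausdorffMeasure (m + 1) (relBoundary S E) < ⊤ →
    ∃ ν : Measure (Euc (m + 2)), ν univ ≤ Measure.euclideanHausdorffMeasure (m + 1)
      (relBoundary S E) ∧ EP2.Perim (fun v => M.ι (M.e p v)) {v | M.ι (M.e p v) ∈ E} ν

/-- fifth part of `ChainTarget` -/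
def SphereTarget : Prop :=
  ∀ (m N : ℕ) (k : ℝ) (_ : 0 ≤ k) (S : Set (Euc N)) (X : Type) (_ : MetricSpace X)
    (_ : ProperSpace X) (_ : MeasurableSpace X) (_ : BorelSpace X)
    (M : CHModel (m + 2) N k S X) (p : X) (R : ℝ) (E : Set (Euc N)),
    E ⊆ S → (∃ U : Set (Euc N), IsOpen U ∧ E = S ∩ U) → E ⊆ M.ι '' Metric.closedBall p R →
    ∀ (x : X) (r : ℝ), 0 < r → IsSupportedIn (Metric.sphere x r) (bd (M.chain p E)) →
      0 < mass (M.chain p E) →
      Measure.euclideanHausdorffMeasure (m + 2) (symmDiff E (M.ι '' Metric.ball x r)) = 0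

/-- boundary mass bound: third part of `ChainTarget` -/
def BdTarget : Prop :=
  ∀ (m N : ℕ) (k : ℝ) (_ : 0 ≤ k) (S : Set (Euc N)) (X : Type) (_ : MetricSpace X)
    (_ : ProperSpace X) (_ : MeasurableSpace X) (_ : BorelSpace X)
    (M : CHModel (m + 2) N k S X) (p : X) (R : ℝ) (E : Set (Euc N)),
    E ⊆ S → (∃ U : Set (Euc N), IsOpen U ∧ E = S ∩ U) → E ⊆ M.ι '' Metric.closedBall p R →
    Measure.euclideanHausdorffMeasure (m + 1) (relBoundary S E) < ⊤ →
    ∃ μ : Measure X, μ univ ≤ Measure.euclideanHausdorffMeasure (m + 1) (relBoundary S E) ∧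
      Controls (bd (M.chain p E)) μ

theorem bdTarget_of_perim (hP : PerimTarget) : BdTarget := by
  intro m N k hk S X iX iP iM iB M p R E hES hE hER hfin
  obtain ⟨ν, hν, hper⟩ := hP m N k hk S X iX iP M p R E hES hE hER hfin
  have hνf : IsFiniteMeasure ν := ⟨lt_of_le_of_lt hν hfin⟩
  have hopen := E2c4.isOpen_dom M p hE
  have hsub := E2c4.dom_subset M p hER
  have hbdd : Bornology.IsBounded {v | M.ι (M.e p v) ∈ E} := isBounded_closedBall.subset hsub
  have hmeas : Measurable (M.e p) := (M.echart p).continuous_e.measurable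
  refine ⟨ν.map (M.e p), ?_, EP2.controls_bd (M.echart p) hopen hbdd hper⟩
  rw [Measure.map_apply hmeas MeasurableSet.univ, preimage_univ]
  exact hν

theorem chainTarget_of_bd (hP : BdTarget) (h5 : SphereTarget) : ChainTarget := by
  intro m N k hk S X iX iP iM iB M p R E hES hE hER hfin
  obtain ⟨μ, hμ, hctl⟩ := hP m N k hk S X iX iP iM iB M p R E hES hE hER hfin
  have hμf : IsFiniteMeasure μ := ⟨lt_of_le_of_lt hμ hfin⟩
  have hopen := E2c4.isOpen_dom M p hE
  have hsub := E2c4.dom_subset M p hER
  have hbdd : Bornology.IsBounded {v | M.ι (M.e p v) ∈ E} := isBounded_closedBall.subset hsub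
  have hcur := E2c4.isCurrent_chain M p hE hER
  obtain ⟨L, hL⟩ := M.e_lip p R
  refine ⟨⟨hcur, ?_, isCurrent_bd hcur ⟨_, hμf, hctl⟩, E2c4.isSupportedIn_chain M p hE hER⟩,
    E1c2.c2 M p hES hE hER, ?_, ?_, ?_⟩
  · exact isIntegerRectifiable_chart hopen.measurableSet hbdd (hL.mono hsub) (C := 1)
      (fun z _ w _ => by
        rw [one_mul, dist_eq_norm]; exact M.e_expand p z w) hcur
  · refine le_trans ?_ hμ
    exact (ENNReal.ofReal_le_ofReal (B10.mass_le hctl)).trans (ENNReal.ofReal_toReal_le)
  · exact fun S' hS' hbd => E2c4.c4 M p hE hER S' hS' hbd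
  · exact h5 m N k hk S X iX iP iM iB M p R E hES hE hER

theorem chainTarget (hP : PerimTarget) (h5 : SphereTarget) : ChainTarget :=
  chainTarget_of_bd (bdTarget_of_perim hP) h5

end Crest.Agent.R241.EChain
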