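import Mathlib
import Crest.Agent.R241.D3d

-- ▼ part R241/LB1
section

/-!
R241, block L: one-dimensional comparison lemmas for the scalar Jacobi equation.
-/

set_option autoImplicit false

open Set Filter Topology

noncomputable section

namespace Crest.Agent.R241.LB1

/-- The Wronskian of two solutions of `y'' = q y` is constant. -/
theorem wronskian_const {a b : ℝ} {f fd g gd q : ℝ → ℝ}
    (hf : ∀ t ∈ Ioo a b, HasDerivAt f (fd t) t)
    (hfd : ∀ t ∈ Ioo a b, HasDerivAt fd (q t * f t) t)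
    (hg : ∀ t ∈ Ioo a b, HasDerivAt g (gd t) t)
    (hgd : ∀ t ∈ Ioo a b, HasDerivAt gd (q t * g t) t) :
    ∀ s ∈ Ioo a b, ∀ t ∈ Ioo a b, f s * gd s - fd s * g s = f t * gd t - fd t * g t := by
  have hd : ∀ t ∈ Ioo a b, HasDerivAt (fun t => f t * gd t - fd t * g t) 0 t := by
    intro t ht
    refine (((hf t ht).mul (hgd t ht)).sub ((hfd t ht).mul (hg t ht))).congr_deriv ?_
    ring
  intro s hs t ht
  exact isOpen_Ioo.is_const_of_deriv_eq_zero isPreconnected_Ioo
    (fun t ht => (hd t ht).differentiableAt.differentiableWithinAt)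
    (fun t ht => (hd t ht).deriv) hs ht

/-- a function on `(0,∞)` with nonnegative derivative and limit `L` at `0` is `≥ L`. -/
theorem ge_of_deriv_nonneg {f fd : ℝ → ℝ} {L : ℝ} (hf : ∀ t, 0 < t → HasDerivAt f (fd t) t)
    (hfd : ∀ t, 0 < t → 0 ≤ fd t) (h0 : Tendsto f (𝓝[>] 0) (𝓝 L)) {t : ℝ} (ht : 0 < t) :
    L ≤ f t := by
  have hmono : MonotoneOn f (Ioi 0) := by
    apply monotoneOn_of_deriv_nonneg (convex_Ioi 0)
    · intro s hs; exact (hf s hs).continuousAt.continuousWithinAt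
    · intro s hs
      rw [interior_Ioi] at hs
      exact (hf s hs).differentiableAt.differentiableWithinAt
    · intro s hs
      rw [interior_Ioi] at hs
      rw [(hf s hs).deriv]
      exact hfd s hs
  refine le_of_tendsto h0 ?_
  filter_upwards [Ioo_mem_nhdsGT ht] with s hs
  exact hmono hs.1 ht hs.2.le

/-- a continuous function on `(0,∞)` without zeros, positive near `0`, is positive. -/
theorem pos_of_ne_zero {f : ℝ → ℝ} (hc : ContinuousOn f (Ioi 0)) (hne : ∀ t, 0 < t → f t ≠ 0)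
    (h0 : ∀ᶠ t in 𝓝[>] (0 : ℝ), 0 < f t) {t : ℝ} (ht : 0 < t) : 0 < f t := by
  by_contra hneg
  have h1 : f t < 0 := lt_of_le_of_ne (not_lt.1 hneg) (hne t ht)
  obtain ⟨s, hs, hs0⟩ := (h0.and (Ioo_mem_nhdsGT ht)).exists
  have : (0 : ℝ) ∈ f '' Icc s t :=
    intermediate_value_Icc' hs0.2.le (hc.mono fun x hx => lt_of_lt_of_le hs0.1 hx.1) ⟨h1.le, hs.le⟩
  obtain ⟨x, hx, hx0⟩ := this
  exact hne x (lt_of_lt_of_le hs0.1 hx.1) hx0

/-- Comparison for the cosine solution: `C' ≥ k² j`. -/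
theorem cosine_deriv_ge {k : ℝ} (hk : 0 ≤ k) {C Cd j jd q : ℝ → ℝ}
    (hq : ∀ t, 0 < t → k ^ 2 ≤ q t)
    (hC : ∀ t, 0 < t → HasDerivAt C (Cd t) t) (hCd : ∀ t, 0 < t → HasDerivAt Cd (q t * C t) t)
    (hj : ∀ t, 0 < t → HasDerivAt j (jd t) t) (hjd : ∀ t, 0 < t → HasDerivAt jd (q t * j t) t)
    (C0 : Tendsto C (𝓝[>] 0) (𝓝 1)) (Cd0 : Tendsto Cd (𝓝[>] 0) (𝓝 0))
    (j0 : Tendsto j (𝓝[>] 0) (𝓝 0)) (jd0 : Tendsto jd (𝓝[>] 0) (𝓝 1)) {t : ℝ} (ht : 0 < t) :
    k ^ 2 * j t ≤ Cd t := by
  -- φ = C - k j, m = φ' + k φ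
  set φ : ℝ → ℝ := fun t => C t - k * j t with hφ
  set ψ : ℝ → ℝ := fun t => C t + k * j t with hψ
  set m : ℝ → ℝ := fun t => Cd t - k * jd t + k * (C t - k * j t) with hm
  set n : ℝ → ℝ := fun t => Cd t + k * jd t - k * (C t + k * j t) with hn
  have hφd : ∀ t, 0 < t → HasDerivAt φ (m t - k * φ t) t := by
    intro t ht
    refine ((hC t ht).sub ((hj t ht).const_mul k)).congr_deriv ?_
    simp only [hm, hφ]; ring
  have hψd : ∀ t, 0 < t → HasDerivAt ψ (n t + k * ψ t) t := by
    intro t ht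
    refine ((hC t ht).add ((hj t ht).const_mul k)).congr_deriv ?_
    simp only [hn, hψ]; ring
  have hmd : ∀ t, 0 < t → HasDerivAt m (k * m t + (q t - k ^ 2) * φ t) t := by
    intro t ht
    refine (((hCd t ht).sub ((hjd t ht).const_mul k)).add
      (((hC t ht).sub ((hj t ht).const_mul k)).const_mul k)).congr_deriv ?_
    simp only [hm, hφ]; ring
  have hnd : ∀ t, 0 < t → HasDerivAt n (-(k * n t) + (q t - k ^ 2) * ψ t) t := by
    intro t ht
    refine (((hCd t ht).add ((hjd t ht).const_mul k)).sub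
      (((hC t ht).add ((hj t ht).const_mul k)).const_mul k)).congr_deriv ?_
    simp only [hn, hψ]; ring
  have φ0 : Tendsto φ (𝓝[>] 0) (𝓝 1) := by
    simpa using C0.sub (j0.const_mul k)
  have ψ0 : Tendsto ψ (𝓝[>] 0) (𝓝 1) := by
    simpa using C0.add (j0.const_mul k)
  have m0 : Tendsto m (𝓝[>] 0) (𝓝 0) := by
    simpa using (Cd0.sub (jd0.const_mul k)).add ((C0.sub (j0.const_mul k)).const_mul k)
  have n0 : Tendsto n (𝓝[>] 0) (𝓝 0) := by
    simpa using (Cd0.add (jd0.const_mul k)).sub ((C0.add (j0.const_mul k)).const_mul k)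
  have hmφ : ∀ t, 0 < t → 0 ≤ m t * φ t := by
    intro t ht
    refine ge_of_deriv_nonneg (f := fun t => m t * φ t)
      (fd := fun t => (q t - k ^ 2) * φ t ^ 2 + m t ^ 2)
      (fun t ht => ((hmd t ht).mul (hφd t ht)).congr_deriv (by ring)) ?_ ?_ ht
    · intro t ht
      have := hq t ht
      have h1 : 0 ≤ q t - k ^ 2 := by linarith
      positivity
    · simpa using m0.mul φ0
  have hnψ : ∀ t, 0 < t → 0 ≤ n t * ψ t := by
    intro t ht
    refine ge_of_deriv_nonneg (f := fun t => n t * ψ t)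
      (fd := fun t => (q t - k ^ 2) * ψ t ^ 2 + n t ^ 2)
      (fun t ht => ((hnd t ht).mul (hψd t ht)).congr_deriv (by ring)) ?_ ?_ ht
    · intro t ht
      have := hq t ht
      have h1 : 0 ≤ q t - k ^ 2 := by linarith
      positivity
    · simpa using n0.mul ψ0
  have hE : ∀ t : ℝ, HasDerivAt (fun t => Real.exp (2 * k * t)) (Real.exp (2 * k * t) * (2 * k)) t := by
    intro t
    simpa using ((hasDerivAt_id t).const_mul (2 * k)).exp
  have hφ2 : ∀ t, 0 < t → 1 ≤ φ t ^ 2 * Real.exp (2 * k * t) := by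
    intro t ht
    refine ge_of_deriv_nonneg (f := fun t => φ t ^ 2 * Real.exp (2 * k * t))
      (fd := fun t => 2 * Real.exp (2 * k * t) * (m t * φ t)) (fun t ht => ?_) ?_ ?_ ht
    · refine (((hφd t ht).pow 2).mul (hE t)).congr_deriv ?_
      simp only [Nat.cast_ofNat, Pi.pow_apply]; ring
    · intro t ht
      have := hmφ t ht
      positivity
    · have h1 : Tendsto (fun t : ℝ => Real.exp (2 * k * t)) (𝓝[>] 0) (𝓝 1) := by
        have : ContinuousAt (fun t : ℝ => Real.exp (2 * k * t)) 0 := by fun_prop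
        have h := this.tendsto
        simp only [mul_zero, Real.exp_zero] at h
        exact h.mono_left nhdsWithin_le_nhds
      simpa using (φ0.pow 2).mul h1
  have hψ2 : ∀ t, 0 < t → 1 ≤ ψ t ^ 2 := by
    intro t ht
    refine ge_of_deriv_nonneg (f := fun t => ψ t ^ 2)
      (fd := fun t => 2 * (n t * ψ t) + 2 * k * ψ t ^ 2) (fun t ht => ?_) ?_ ?_ ht
    · refine ((hψd t ht).pow 2).congr_deriv ?_
      simp only [Nat.cast_ofNat, Pi.pow_apply]; ring
    · intro t ht
      have := hnψ t ht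
      positivity
    · simpa using ψ0.pow 2
  have hφpos : 0 < φ t := by
    refine pos_of_ne_zero (f := φ) (fun s hs => (hφd s hs).continuousAt.continuousWithinAt) ?_
      (φ0.eventually (lt_mem_nhds one_pos)) ht
    intro s hs h0
    have := hφ2 s hs
    rw [h0] at this
    norm_num at this
  have hψpos : 0 < ψ t := by
    refine pos_of_ne_zero (f := ψ) (fun s hs => (hψd s hs).continuousAt.continuousWithinAt) ?_
      (ψ0.eventually (lt_mem_nhds one_pos)) ht
    intro s hs h0
    have := hψ2 s hs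
    rw [h0] at this
    norm_num at this
  have h1 : 0 ≤ m t := nonneg_of_mul_nonneg_left (hmφ t ht) hφpos
  have h2 : 0 ≤ n t := nonneg_of_mul_nonneg_left (hnψ t ht) hψpos
  have h3 : m t + n t = 2 * (Cd t - k ^ 2 * j t) := by simp only [hm, hn]; ring
  linarith

end Crest.Agent.R241.LB1
end
end

-- ▼ part R241/LB2
section

/-!
R241, block L: the scalar Jacobi equation along the geodesics of a surface `S ⊆ ℝ^N`
(`Geo 2 N κ S`).
-/

set_option autoImplicit false

open Set Filter Topology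
open scoped ContDiff RealInnerProductSpace
open Crest.GeometryTopology.Submanifold
open Crest.Agent.R241.DDefs
open Crest.Agent.R241.D2
open Crest.Agent.R241.D3b

noncomputable section

namespace Crest.Agent.R241.LB2

variable {N : ℕ} {κ : ℝ} {S : Set (Euc N)} (G : Geo 2 N κ S)

/-- `(e, n)` is an orthonormal pair in `T x`. -/
structure On (x e n : Euc N) : Prop where
  hx : x ∈ S
  he : e ∈ G.T x
  hn : n ∈ G.T x
  ne : ‖e‖ = 1
  nn : ‖n‖ = 1
  en : ⟪e, n⟫ = 0

variable {G}

/-- expansion of a tangent vector in an orthonormal pair -/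
theorem On.expand {x e n : Euc N} (h : On G x e n) {u : Euc N} (hu : u ∈ G.T x) :
    u = ⟪u, e⟫ • e + ⟪u, n⟫ • n := by
  have hon : Orthonormal ℝ (![⟨e, h.he⟩, ⟨n, h.hn⟩] : Fin 2 → G.T x) := by
    rw [orthonormal_iff_ite]
    intro i j
    fin_cases i <;> fin_cases j <;>
      simp [h.en, h.ne, h.nn, real_inner_comm e n ▸ h.en]
  have hcard : Fintype.card (Fin 2) = Module.finrank ℝ (G.T x) := by
    rw [G.finrank_T x h.hx]; rfl
  have hfr : Module.finrank ℝ (G.T x) = 2 := G.finrank_T x h.hx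
  have : FiniteDimensional ℝ (G.T x) := FiniteDimensional.of_finrank_pos (by omega)
  let b := basisOfOrthonormalOfCardEqFinrank hon hcard
  let B : OrthonormalBasis (Fin 2) ℝ (G.T x) := b.toOrthonormalBasis (by
    rw [coe_basisOfOrthonormalOfCardEqFinrank]; exact hon)
  have h1 := B.sum_repr (⟨u, hu⟩ : G.T x)
  have hB0 : B 0 = ⟨e, h.he⟩ := by simp [B, b]
  have hB1 : B 1 = ⟨n, h.hn⟩ := by simp [B, b]
  rw [Fin.sum_univ_two, B.repr_apply_apply, B.repr_apply_apply, hB0, hB1] at h1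
  have h2 := congrArg (Subtype.val) h1
  simp only [Submodule.coe_inner, Submodule.coe_add, Submodule.coe_smul] at h2
  rw [real_inner_comm, real_inner_comm n u]
  exact h2.symm

theorem On.norm_sq {x e n : Euc N} (h : On G x e n) {u : Euc N} (hu : u ∈ G.T x) :
    ‖u‖ ^ 2 = ⟪u, e⟫ ^ 2 + ⟪u, n⟫ ^ 2 := by
  conv_lhs => rw [h.expand hu]
  rw [norm_add_sq_real, norm_smul, norm_smul, inner_smul_left, inner_smul_right, h.en, h.ne, h.nn]
  simp

/-- two unit normals to `e` in `T x` agree up to sign -/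
theorem On.unique {x e n n' : Euc N} (h : On G x e n) (h' : On G x e n') : n' = n ∨ n' = -n := by
  have h1 := h.expand h'.hn
  have h2 : ⟪n', e⟫ = 0 := by rw [real_inner_comm]; exact h'.en
  rw [h2, zero_smul, zero_add] at h1
  have h3 := h.norm_sq h'.hn
  rw [h'.nn, h2] at h3
  have h4 : ⟪n', n⟫ ^ 2 = 1 := by linarith
  have h4' : ⟪n', n⟫ * ⟪n', n⟫ = 1 := by rw [← sq]; exact h4
  rcases mul_self_eq_one_iff.1 h4' with h5 | h5
  · left; rw [h1, h5, one_smul]
  · right; rw [h1, h5, neg_one_smul]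

theorem On.neg_left {x e n : Euc N} (h : On G x e n) : On G x (-e) n :=
  ⟨h.hx, (G.T x).neg_mem h.he, h.hn, by rw [norm_neg]; exact h.ne, h.nn, by
    rw [inner_neg_left, h.en, neg_zero]⟩


theorem exists_On {x e : Euc N} (hx : x ∈ S) (he : e ∈ G.T x) (ne : ‖e‖ = 1) :
    ∃ n, On G x e n := by
  obtain ⟨v, hv⟩ := D3d.exists_frm G (p := ⟨x, hx⟩) he
  have hv1 : ‖v‖ = 1 := by rw [← D3d.norm_frm G ⟨x, hx⟩ v, hv, ne]
  have hv2 : v 0 ^ 2 + v 1 ^ 2 = 1 := by
    have := EuclideanSpace.real_norm_sq_eq v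
    rw [hv1, Fin.sum_univ_two] at this
    linarith
  refine ⟨D3d.frm G ⟨x, hx⟩ (!₂[-(v 1), v 0] : Euc 2), hx, he, D3d.frm_mem G ⟨x, hx⟩ _, ne, ?_, ?_⟩
  · rw [D3d.norm_frm, ← sq_eq_sq₀ (norm_nonneg _) zero_le_one, EuclideanSpace.real_norm_sq_eq,
      Fin.sum_univ_two]
    simp only [PiLp.toLp_apply, Matrix.cons_val_zero, Matrix.cons_val_one, Matrix.cons_val_fin_one]
    linarith
  · rw [← hv, D3d.inner_frm]
    simp [PiLp.inner_apply, Fin.sum_univ_two]
    ring

variable (G)

/-- Gauss curvature of the tangent plane at `x` computed in the orthonormal pair `(e, n)` -/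
def Kc (x e n : Euc N) : ℝ := ⟪II G x e e, II G x n n⟫ - ‖II G x e n‖ ^ 2

theorem Kc_neg_left (x e n : Euc N) : Kc G x (-e) n = Kc G x e n := by
  simp [Kc, II]

theorem Kc_neg_right (x e n : Euc N) : Kc G x e (-n) = Kc G x e n := by
  simp [Kc, II]

open Classical in
/-- Gauss curvature at `x` (through the direction `e`) -/
def Kv (x e : Euc N) : ℝ := if h : ∃ n, On G x e n then Kc G x e h.choose else 0

variable {G}

theorem On.Kv_eq {x e n : Euc N} (h : On G x e n) : Kv G x e = Kc G x e n := by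
  have hex : ∃ n, On G x e n := ⟨n, h⟩
  rw [Kv, dif_pos hex]
  rcases h.unique hex.choose_spec with h1 | h1
  · rw [h1]
  · rw [h1, Kc_neg_right]

theorem Kv_neg {x e : Euc N} (hx : x ∈ S) (he : e ∈ G.T x) (ne : ‖e‖ = 1) :
    Kv G x (-e) = Kv G x e := by
  obtain ⟨n, h⟩ := exists_On hx he ne
  rw [h.Kv_eq, h.neg_left.Kv_eq, Kc_neg_left]

theorem Kv_le {x e : Euc N} (hx : x ∈ S) (he : e ∈ G.T x) (ne : ‖e‖ = 1) : Kv G x e ≤ κ := by
  obtain ⟨n, h⟩ := exists_On hx he ne
  rw [h.Kv_eq]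
  have := G.curv x hx e he n h.hn
  rw [h.ne, h.nn, h.en] at this
  simpa [Kc, II] using this

variable (G)

/-- scalar Jacobian -/
def jj (p v w : Euc N) (t : ℝ) : ℝ := ‖J G p v w t‖

/-- its derivative for `t > 0` -/
def jd (p v w : Euc N) (t : ℝ) : ℝ := ⟪J' G p v w t, J G p v w t⟫ / ‖J G p v w t‖

variable {G} {p v w : Euc N}

theorem F_eq (hp : p ∈ S) (hv : v ∈ G.T p) (hw : w ∈ G.T p) (t : ℝ) :
    ‖J' G p v w t‖ ^ 2 - ⟪fderiv ℝ (fderiv ℝ (al G p v w)) (0, t) (0, 1) (0, 1),
        fderiv ℝ (fderiv ℝ (al G p v w)) (0, t) (1, 0) (1, 0)⟫ =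
      ‖G.P (al G p v w (0, t)) (J' G p v w t)‖ ^ 2 +
        ‖II G (al G p v w (0, t)) (ta G p v w (0, t)) (J G p v w t)‖ ^ 2 -
        ⟪II G (al G p v w (0, t)) (ta G p v w (0, t)) (ta G p v w (0, t)),
          II G (al G p v w (0, t)) (J G p v w t) (J G p v w t)⟫ := by
  have hsm := contDiff_al G hp hv hw
  set q : ℝ × ℝ := (0, t) with hq
  have hx := al_mem G hp hv hw q
  have hS : ∀ᶠ q' in 𝓝 q, al G p v w q' ∈ S := Eventually.of_forall fun q => al_mem G hp hv hw q
  have hT : ta G p v w q ∈ G.T (al G p v w q) := ta_mem G hp hv hw q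
  have hJ : J G p v w t ∈ G.T (al G p v w q) := J_mem G hp hv hw t
  have h1 := snd_deriv G (hsm.contDiffAt.of_le two_le) hS (0, 1) (1, 0)
  have h2 := snd_deriv G (hsm.contDiffAt.of_le two_le) hS (1, 0) (1, 0)
  rw [fderiv_al_t G hp hv hw] at h1
  have e1 : fderiv ℝ (fderiv ℝ (al G p v w)) q (0, 1) (1, 0) = J' G p v w t := rfl
  have e2 : fderiv ℝ (al G p v w) q (1, 0) = J G p v w t := rfl
  rw [e1, e2] at h1
  rw [e2] at h2
  rw [snd_al_tt G hp hv hw, h2]
  have h3 : ⟪II G (al G p v w q) (ta G p v w q) (ta G p v w q),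
      G.P (al G p v w q) (fderiv ℝ (fderiv ℝ (al G p v w)) q (1, 0) (1, 0))⟫ = 0 :=
    inner_II G hx hT hT (P_mem G hx)
  rw [inner_add_right, h3, zero_add]
  have h4 : ‖J' G p v w t‖ ^ 2 = ‖G.P (al G p v w q) (J' G p v w t)‖ ^ 2 +
      ‖II G (al G p v w q) (ta G p v w q) (J G p v w t)‖ ^ 2 := by
    have h5 : ⟪G.P (al G p v w q) (J' G p v w t),
        II G (al G p v w q) (ta G p v w q) (J G p v w t)⟫ = 0 := by
      rw [real_inner_comm]
      exact inner_II G hx hT hJ (P_mem G hx)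
    conv_lhs => rw [h1]
    rw [norm_add_sq_real, h5]
    ring
  rw [h4]

/-- flow line -/
theorem al_zero_left (t : ℝ) : al G p v w (0, t) = (fl G ((p, v), t)).1 := by simp [al]

theorem ta_zero_left (t : ℝ) : ta G p v w (0, t) = (fl G ((p, v), t)).2 := by simp [ta]

section

variable (h : On G p v w)
include h

theorem inner_J_T (t : ℝ) : ⟪J G p v w t, (fl G ((p, v), t)).2⟫ = 0 := by
  rw [← ta_zero_left (w := w), inner_J_ta G h.hx h.he h.hn, h.en, mul_zero]

theorem inner_J'_T (t : ℝ) : ⟪J' G p v w t, (fl G ((p, v), t)).2⟫ = 0 := by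
  rw [← ta_zero_left (w := w), inner_J'_ta G h.hx h.he h.hn, h.en]

theorem norm_T (t : ℝ) : ‖(fl G ((p, v), t)).2‖ = 1 := by
  rw [norm_fl G ⟨h.hx, h.he⟩, h.ne]

/-- the unit normal field along the geodesic given by the Jacobi field -/
theorem on_J {t : ℝ} (ht : J G p v w t ≠ 0) :
    On G (fl G ((p, v), t)).1 (fl G ((p, v), t)).2 (‖J G p v w t‖⁻¹ • J G p v w t) := by
  have hm := fl_mem G (q := (p, v)) ⟨h.hx, h.he⟩ t
  have hJ := J_mem G h.hx h.he h.hn t
  rw [al_zero_left] at hJ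
  refine ⟨hm.1, hm.2, (G.T _).smul_mem _ hJ, norm_T h t, ?_, ?_⟩
  · rw [norm_smul, norm_inv, norm_norm, inv_mul_cancel₀ (norm_ne_zero_iff.2 ht)]
  · rw [inner_smul_right, real_inner_comm, inner_J_T h, mul_zero]

theorem hasDerivAt_jj {t : ℝ} (ht : J G p v w t ≠ 0) :
    HasDerivAt (jj G p v w) (jd G p v w t) t := by
  have h1 := (hasDerivAt_J G h.hx h.he h.hn t).norm_sq
  have h2 := h1.sqrt (pow_ne_zero 2 (norm_ne_zero_iff.2 ht))
  have h3 : (fun y => √(‖J G p v w y‖ ^ 2)) = jj G p v w := by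
    ext y; exact Real.sqrt_sq (norm_nonneg _)
  rw [h3] at h2
  refine h2.congr_deriv ?_
  rw [Real.sqrt_sq (norm_nonneg _), jd, real_inner_comm]
  have : ‖J G p v w t‖ ≠ 0 := norm_ne_zero_iff.2 ht
  field_simp

/-- the scalar Jacobi equation -/
theorem hasDerivAt_jd {t : ℝ} (ht : J G p v w t ≠ 0) :
    HasDerivAt (jd G p v w)
      (-Kv G (fl G ((p, v), t)).1 (fl G ((p, v), t)).2 * jj G p v w t) t := by
  have hon := on_J h ht
  have h1 := hasDerivAt_inner G h.hx h.he h.hn t
  rw [F_eq h.hx h.he h.hn, al_zero_left, ta_zero_left] at h1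
  have hnz : ‖J G p v w t‖ ≠ 0 := norm_ne_zero_iff.2 ht
  have h2 := h1.div (hasDerivAt_jj h ht) hnz
  refine h2.congr_deriv ?_
  set x := (fl G ((p, v), t)).1 with hx
  set T := (fl G ((p, v), t)).2 with hT
  set n := ‖J G p v w t‖⁻¹ • J G p v w t with hn
  have hJn : J G p v w t = ‖J G p v w t‖ • n := by
    rw [hn, smul_smul, mul_inv_cancel₀ hnz, one_smul]
  have e1 : II G x T (J G p v w t) = ‖J G p v w t‖ • II G x T n := by
    conv_lhs => rw [hJn]
    simp [II]
  have e2 : II G x (J G p v w t) (J G p v w t) = ‖J G p v w t‖ ^ 2 • II G x n n := by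
    conv_lhs => rw [hJn]
    simp [II, smul_smul, sq]
  have hPJ : G.P x (J' G p v w t) ∈ G.T x := P_mem G hon.hx
  have e3 : ‖G.P x (J' G p v w t)‖ ^ 2 = jd G p v w t ^ 2 := by
    rw [hon.norm_sq hPJ, inner_P_left G hon.hx, inner_P_left G hon.hx,
      (P_eq_self G hon.hx).1 hon.he, (P_eq_self G hon.hx).1 hon.hn, inner_J'_T h, hn,
      inner_smul_right, jd]
    ring
  rw [e1, e2, e3, hon.Kv_eq, Kc, norm_smul, inner_smul_right, norm_norm]
  show ((jd G p v w t ^ 2 + _ - _) * jj G p v w t - _ * jd G p v w t) / jj G p v w t ^ 2 = _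
  have hjd : ⟪J' G p v w t, J G p v w t⟫ = jd G p v w t * ‖J G p v w t‖ := by
    rw [jd, div_mul_cancel₀ _ hnz]
  rw [hjd]
  simp only [jj]
  field_simp
  ring

end

end Crest.Agent.R241.LB2
end
end

-- ▼ part R241/LB3

/-!
R241, block L: symmetry of the scalar Jacobian and the cosine solution (`Geo 2 N (-(k²)) S`).
-/

set_option autoImplicit false
set_option linter.unusedSectionVars false

open Set Filter Topology
open scoped ContDiff RealInnerProductSpace
open Crest.GeometryTopology.Submanifold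
open Crest.Agent.R241.DDefs
open Crest.Agent.R241.D2
open Crest.Agent.R241.D3b
open Crest.Agent.R241.D3a
open Crest.Agent.R241.LB1
open Crest.Agent.R241.LB2

noncomputable section

namespace Crest.Agent.R241.LB3

variable {N : ℕ} {S : Set (Euc N)}

section general

variable {κ : ℝ} (G : Geo 2 N κ S) {p v w : Euc N}

theorem J_eq (hp : p ∈ S) (hv : v ∈ G.T p) (hw : w ∈ G.T p) (t : ℝ) :
    J G p v w t = (fderiv ℝ (fl G) ((p, v), t) ((0, w), 0)).1 ∧
    J' G p v w t = (fderiv ℝ (fl G) ((p, v), t) ((0, w), 0)).2 := by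
  have hd : HasFDerivAt (fl G) (fderiv ℝ (fl G) ((p, v), t)) ((p, v + (0 : ℝ) • w), t) := by
    have := ((contDiffAt_fl' G (q := (p, v)) ⟨hp, hv⟩ t).differentiableAt (by simp)).hasFDerivAt
    simpa using this
  have h1 : HasDerivAt (fun s : ℝ => (((p, v + s • w), t) : (Euc N × Euc N) × ℝ)) ((0, w), 0) 0 := by
    have h2 : HasDerivAt (fun s : ℝ => v + s • w) w 0 := by
      simpa using ((hasDerivAt_id (0 : ℝ)).smul_const w).const_add v
    exact ((hasDerivAt_const (0 : ℝ) p).prodMk h2).prodMk (hasDerivAt_const (0 : ℝ) t)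
  have h2 : HasDerivAt (fun s : ℝ => fl G ((p, v + s • w), t))
      (fderiv ℝ (fl G) ((p, v), t) ((0, w), 0)) 0 := hd.comp_hasDerivAt (0 : ℝ) h1
  constructor
  · have h3 := hasDerivAt_s (q := ((0 : ℝ), t))
      ((contDiff_al G hp hv hw).differentiable (by simp) ((0 : ℝ), t))
    exact h3.unique (hda_fst h2)
  · rw [J'_eq G hp hv hw]
    have h3 := hasDerivAt_s (q := ((0 : ℝ), t))
      ((contDiff_ta G hp hv hw).differentiable (by simp) ((0 : ℝ), t))
    exact h3.unique (hda_snd h2)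



/-- reversal of the flow line -/
theorem fl_reverse (hp : p ∈ S) (hv : v ∈ G.T p) (r s : ℝ) :
    fl G (((fl G ((p, v), r)).1, -(fl G ((p, v), r)).2), s) =
      ((fl G ((p, v), r - s)).1, -(fl G ((p, v), r - s)).2) := by
  have hq : (p, v) ∈ TS G := ⟨hp, hv⟩
  have hr := fl_mem G hq r
  have h1 := (fl_rev G (complete G hr (-s))).2
  rw [neg_neg, ← fl_add' G hq] at h1
  exact h1


end general

variable {k : ℝ} (hk : 0 ≤ k) (G : Geo 2 N (-(k ^ 2)) S) {p v w : Euc N}
include hk

theorem le_jj (h : On G p v w) {t : ℝ} (ht : 0 < t) : t ≤ jj G p v w t := by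
  have h1 := (jdata hk G h.hx h.he h.hn).le_norm (by
    simp only [J'_zero G h.hx h.he h.hn, ta_zero, zero_smul, add_zero]
    exact real_inner_comm _ _) ht
  rwa [J'_zero G h.hx h.he h.hn, h.nn, mul_one] at h1

theorem J_ne_zero (h : On G p v w) {t : ℝ} (ht : 0 < t) : J G p v w t ≠ 0 := by
  have := le_jj hk G h ht
  intro h0
  rw [jj, h0, norm_zero] at this
  linarith

omit hk in
theorem jj_zero (h : On G p v w) : jj G p v w 0 = 0 := by
  rw [jj, J_zero G h.hx h.he h.hn, norm_zero]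

omit hk in
theorem continuous_jj (h : On G p v w) : Continuous (jj G p v w) :=
  (continuous_iff_continuousAt.2 fun t =>
    (hasDerivAt_J G h.hx h.he h.hn t).continuousAt).norm

omit hk in
theorem tendsto_jj (h : On G p v w) : Tendsto (jj G p v w) (𝓝[>] 0) (𝓝 0) := by
  have := (continuous_jj G h).tendsto 0
  rw [jj_zero G h] at this
  exact this.mono_left nhdsWithin_le_nhds

theorem tendsto_jd (h : On G p v w) : Tendsto (jd G p v w) (𝓝[>] 0) (𝓝 1) := by
  have h1 := (hasDerivAt_J G h.hx h.he h.hn 0).tendsto_slope_zero_right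
  simp only [zero_add, J_zero G h.hx h.he h.hn, sub_zero, J'_zero G h.hx h.he h.hn] at h1
  have hc : Continuous (J' G p v w) := by
    have h2 : J' G p v w = fun t => fderiv ℝ (ta G p v w) (0, t) (1, 0) :=
      funext fun t => J'_eq G h.hx h.he h.hn t
    rw [h2]
    have h3 : Continuous (fderiv ℝ (ta G p v w)) :=
      (contDiff_ta G h.hx h.he h.hn).continuous_fderiv (by simp)
    exact (h3.comp (by fun_prop)).clm_apply continuous_const
  have h2 : Tendsto (J' G p v w) (𝓝[>] 0) (𝓝 w) := by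
    have := hc.tendsto 0
    rw [J'_zero G h.hx h.he h.hn] at this
    exact this.mono_left nhdsWithin_le_nhds
  have h3 := (h2.inner h1).div h1.norm (by rw [h.nn]; norm_num)
  rw [real_inner_self_eq_norm_sq, h.nn] at h3
  norm_num at h3
  refine h3.congr' ?_
  filter_upwards [self_mem_nhdsWithin] with t ht
  have ht' : (0 : ℝ) < t := ht
  have hJ := J_ne_zero hk G h ht'
  have hn : ‖J G p v w t‖ ≠ 0 := norm_ne_zero_iff.2 hJ
  rw [jd, Pi.div_apply, inner_smul_right, norm_smul, norm_inv, Real.norm_eq_abs, abs_of_pos ht']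
  field_simp

/-- symmetry of the scalar Jacobian -/
theorem jj_symm (h : On G p v w) {r : ℝ} (hr : 0 < r) {w' : Euc N}
    (h' : On G (fl G ((p, v), r)).1 (-(fl G ((p, v), r)).2) w') :
    jj G (fl G ((p, v), r)).1 (-(fl G ((p, v), r)).2) w' r = jj G p v w r := by
  set y := (fl G ((p, v), r)).1 with hy
  set V := (fl G ((p, v), r)).2 with hV
  set q : ℝ → ℝ := fun t => -Kv G (fl G ((p, v), t)).1 (fl G ((p, v), t)).2 with hq
  have hW := wronskian_const (a := 0) (b := r) (f := fun t => jj G y (-V) w' (r - t))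
    (fd := fun t => -jd G y (-V) w' (r - t)) (g := jj G p v w) (gd := jd G p v w) (q := q)
    ?_ ?_ (fun t ht => hasDerivAt_jj h (J_ne_zero hk G h ht.1))
    (fun t ht => hasDerivAt_jd h (J_ne_zero hk G h ht.1))
  · -- limits at both ends
    set W : ℝ → ℝ := fun t => jj G y (-V) w' (r - t) * jd G p v w t -
      -jd G y (-V) w' (r - t) * jj G p v w t with hWdef
    have hsub0 : Tendsto (fun t : ℝ => r - t) (𝓝[>] 0) (𝓝 r) := by
      have : Tendsto (fun t : ℝ => r - t) (𝓝 0) (𝓝 (r - 0)) :=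
        (continuous_const.sub continuous_id).tendsto 0
      rw [sub_zero] at this
      exact this.mono_left nhdsWithin_le_nhds
    have hsubr : Tendsto (fun t : ℝ => r - t) (𝓝[<] r) (𝓝[>] 0) := by
      apply tendsto_nhdsWithin_of_tendsto_nhds_of_eventually_within
      · have : Tendsto (fun t : ℝ => r - t) (𝓝 r) (𝓝 (r - r)) :=
          (continuous_const.sub continuous_id).tendsto r
        rw [sub_self] at this
        exact this.mono_left nhdsWithin_le_nhds
      · filter_upwards [self_mem_nhdsWithin] with t ht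
        have ht' : t < r := ht
        exact sub_pos.2 ht'
    have hJr : J G y (-V) w' r ≠ 0 := J_ne_zero hk G h' hr
    have hl0 : Tendsto W (𝓝[>] 0) (𝓝 (jj G y (-V) w' r)) := by
      have h1 := ((continuous_jj G h').tendsto r).comp hsub0
      have h2 := ((hasDerivAt_jd h' hJr).continuousAt.tendsto).comp hsub0
      have h3 := (h1.mul (tendsto_jd hk G h)).sub (h2.neg.mul (tendsto_jj G h))
      rw [mul_one, mul_zero, sub_zero] at h3
      exact h3
    have hlr : Tendsto W (𝓝[<] r) (𝓝 (jj G p v w r)) := by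
      have h1 := (tendsto_jj G h').comp hsubr
      have h2 := (tendsto_jd hk G h').comp hsubr
      have h4 : Tendsto (jj G p v w) (𝓝[<] r) (𝓝 (jj G p v w r)) :=
        ((continuous_jj G h).tendsto r).mono_left nhdsWithin_le_nhds
      have h5 : Tendsto (jd G p v w) (𝓝[<] r) (𝓝 (jd G p v w r)) :=
        ((hasDerivAt_jd h (J_ne_zero hk G h hr)).continuousAt.tendsto).mono_left
          nhdsWithin_le_nhds
      have h3 := (h1.mul h5).sub (h2.neg.mul h4)
      have e : (0 : ℝ) * jd G p v w r - -1 * jj G p v w r = jj G p v w r := by ring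
      rw [e] at h3
      exact h3
    have hmid : r / 2 ∈ Ioo (0 : ℝ) r := ⟨by linarith, by linarith⟩
    have c1 : Tendsto W (𝓝[>] 0) (𝓝 (W (r / 2))) := by
      refine tendsto_const_nhds.congr' ?_
      filter_upwards [Ioo_mem_nhdsGT hr] with t ht
      exact hW _ hmid _ ht
    have c2 : Tendsto W (𝓝[<] r) (𝓝 (W (r / 2))) := by
      refine tendsto_const_nhds.congr' ?_
      filter_upwards [Ioo_mem_nhdsLT hr] with t ht
      exact hW _ hmid _ ht
    exact (tendsto_nhds_unique hl0 c1).trans (tendsto_nhds_unique hlr c2).symm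
  · intro t ht
    have h1 := hasDerivAt_jj h' (J_ne_zero hk G h' (sub_pos.2 ht.2))
    have h2 : HasDerivAt (fun t : ℝ => r - t) (-1) t := by
      simpa using (hasDerivAt_id t).const_sub r
    have h3 := h1.comp t h2
    refine h3.congr_deriv (by ring)
  · intro t ht
    have h1 := hasDerivAt_jd h' (J_ne_zero hk G h' (sub_pos.2 ht.2))
    have h2 : HasDerivAt (fun t : ℝ => r - t) (-1) t := by
      simpa using (hasDerivAt_id t).const_sub r
    have h3 := (h1.comp t h2).neg
    refine h3.congr_deriv ?_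
    rw [hy, hV, fl_reverse G h.hx h.he, sub_sub_cancel]
    have hm := fl_mem G (q := (p, v)) ⟨h.hx, h.he⟩ t
    rw [Kv_neg hm.1 hm.2 (norm_T h t)]
    simp only [hq]
    ring

theorem one_le_jd (h : On G p v w) {t : ℝ} (ht : 0 < t) : 1 ≤ jd G p v w t := by
  refine ge_of_deriv_nonneg (fun s hs => hasDerivAt_jd h (J_ne_zero hk G h hs)) ?_
    (tendsto_jd hk G h) ht
  intro s hs
  have hm := fl_mem G (q := (p, v)) ⟨h.hx, h.he⟩ s
  have h1 := Kv_le hm.1 hm.2 (norm_T h s)
  have h2 : 0 ≤ jj G p v w s := norm_nonneg _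
  have h3 : 0 ≤ -Kv G (fl G ((p, v), s)).1 (fl G ((p, v), s)).2 := by nlinarith [sq_nonneg k]
  positivity

/-- `C` solution: value and derivative, computed from the point at distance one behind. -/
def _root_.Crest.Agent.R241.LB3.CC {κ : ℝ} (G : Geo 2 N κ S) (p v w z u wz : Euc N) (t : ℝ) : ℝ :=
  (jj G z u wz (t + 1) - jj G p v w t * jd G z u wz 1) / jj G z u wz 1

def _root_.Crest.Agent.R241.LB3.CD {κ : ℝ} (G : Geo 2 N κ S) (p v w z u wz : Euc N) (t : ℝ) : ℝ :=
  (jd G z u wz (t + 1) - jd G p v w t * jd G z u wz 1) / jj G z u wz 1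

section behind

variable {z u wz : Euc N} (h : On G p v w) (hz : On G z u wz) (hzp : fl G ((z, u), 1) = (p, v))
include h hz hzp

omit hk h in
theorem fl_behind (t : ℝ) : fl G ((z, u), t + 1) = fl G ((p, v), t) := by
  have h1 := fl_add' G (q := (z, u)) ⟨hz.hx, hz.he⟩ 1 t
  rw [hzp] at h1
  rw [add_comm, h1]

theorem CC_zero : CC G p v w z u wz 0 = 1 := by
  have h1 : jj G z u wz 1 ≠ 0 := norm_ne_zero_iff.2 (J_ne_zero hk G hz one_pos)
  rw [CC, jj_zero G h, zero_add, zero_mul, sub_zero, div_self h1]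

omit hk hzp in
theorem continuous_CC : Continuous (CC G p v w z u wz) := by
  have h1 := continuous_jj G h
  have h2 := continuous_jj G hz
  unfold CC
  exact ((h2.comp (continuous_id.add continuous_const)).sub (h1.mul continuous_const)).div_const _

theorem hasDerivAt_CC {t : ℝ} (ht : 0 < t) :
    HasDerivAt (CC G p v w z u wz) (CD G p v w z u wz t) t := by
  have h1 : HasDerivAt (fun t => jj G z u wz (t + 1)) (jd G z u wz (t + 1)) t := by
    exact (hasDerivAt_jj hz (J_ne_zero hk G hz (show 0 < t + 1 by linarith))).comp_add_const t 1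
  exact (h1.sub ((hasDerivAt_jj h (J_ne_zero hk G h ht)).mul_const _)).div_const _

theorem hasDerivAt_CD {t : ℝ} (ht : 0 < t) :
    HasDerivAt (CD G p v w z u wz)
      (-Kv G (fl G ((p, v), t)).1 (fl G ((p, v), t)).2 * CC G p v w z u wz t) t := by
  have h1 : HasDerivAt (fun t => jd G z u wz (t + 1))
      (-Kv G (fl G ((p, v), t)).1 (fl G ((p, v), t)).2 * jj G z u wz (t + 1)) t := by
    have h3 := (hasDerivAt_jd hz
      (J_ne_zero hk G hz (show 0 < t + 1 by linarith))).comp_add_const t 1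
    rwa [fl_behind G hz hzp] at h3
  refine ((h1.sub ((hasDerivAt_jd h (J_ne_zero hk G h ht)).mul_const _)).div_const _).congr_deriv ?_
  rw [CC]
  ring

theorem tendsto_CD : Tendsto (CD G p v w z u wz) (𝓝[>] 0) (𝓝 0) := by
  have h1 : Tendsto (fun t => jd G z u wz (t + 1)) (𝓝[>] 0) (𝓝 (jd G z u wz 1)) := by
    have h2 := (hasDerivAt_jd hz (J_ne_zero hk G hz one_pos)).continuousAt.tendsto
    have h3 : Tendsto (fun t : ℝ => t + 1) (𝓝[>] 0) (𝓝 1) := by
      have : Tendsto (fun t : ℝ => t + 1) (𝓝 0) (𝓝 (0 + 1)) :=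
        (continuous_id.add continuous_const).tendsto 0
      rw [zero_add] at this
      exact this.mono_left nhdsWithin_le_nhds
    exact h2.comp h3
  have h4 := (h1.sub ((tendsto_jd hk G h).mul_const (jd G z u wz 1))).div_const (jj G z u wz 1)
  rw [one_mul, sub_self, zero_div] at h4
  exact h4

theorem CD_ge {t : ℝ} (ht : 0 < t) : k ^ 2 * jj G p v w t ≤ CD G p v w z u wz t := by
  refine cosine_deriv_ge hk (q := fun t => -Kv G (fl G ((p, v), t)).1 (fl G ((p, v), t)).2)
    (fun s hs => ?_) (fun s hs => hasDerivAt_CC hk G h hz hzp hs)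
    (fun s hs => hasDerivAt_CD hk G h hz hzp hs)
    (fun s hs => hasDerivAt_jj h (J_ne_zero hk G h hs))
    (fun s hs => hasDerivAt_jd h (J_ne_zero hk G h hs)) ?_ (tendsto_CD hk G h hz hzp)
    (tendsto_jj G h) (tendsto_jd hk G h) ht
  · have hm := fl_mem G (q := (p, v)) ⟨h.hx, h.he⟩ s
    have h1 := Kv_le hm.1 hm.2 (norm_T h s)
    linarith
  · have := (continuous_CC G h hz).tendsto 0
    rw [CC_zero hk G h hz hzp] at this
    exact this.mono_left nhdsWithin_le_nhds

/-- the derivative of the Jacobian seen from the other end point is the cosine solution -/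
theorem jd_back {r : ℝ} (hr : 0 < r) {w' : Euc N}
    (h' : On G (fl G ((p, v), r)).1 (-(fl G ((p, v), r)).2) w') :
    jd G (fl G ((p, v), r)).1 (-(fl G ((p, v), r)).2) w' r = CC G p v w z u wz r := by
  have hsym := jj_symm hk G h hr h'
  set y := (fl G ((p, v), r)).1 with hy
  set V := (fl G ((p, v), r)).2 with hV
  set q : ℝ → ℝ := fun t => -Kv G (fl G ((p, v), t)).1 (fl G ((p, v), t)).2 with hq
  have hW := wronskian_const (a := -1) (b := r) (f := fun t => jj G y (-V) w' (r - t))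
    (fd := fun t => -jd G y (-V) w' (r - t)) (g := fun t => jj G z u wz (t + 1))
    (gd := fun t => jd G z u wz (t + 1)) (q := q) ?_ ?_ ?_ ?_
  · set W : ℝ → ℝ := fun t => jj G y (-V) w' (r - t) * jd G z u wz (t + 1) -
      -jd G y (-V) w' (r - t) * jj G z u wz (t + 1) with hWdef
    have hsubr : Tendsto (fun t : ℝ => r - t) (𝓝[<] r) (𝓝[>] 0) := by
      apply tendsto_nhdsWithin_of_tendsto_nhds_of_eventually_within
      · have : Tendsto (fun t : ℝ => r - t) (𝓝 r) (𝓝 (r - r)) :=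
          (continuous_const.sub continuous_id).tendsto r
        rw [sub_self] at this
        exact this.mono_left nhdsWithin_le_nhds
      · filter_upwards [self_mem_nhdsWithin] with t ht
        have ht' : t < r := ht
        exact sub_pos.2 ht'
    have haddr : Tendsto (fun t : ℝ => t + 1) (𝓝[<] r) (𝓝 (r + 1)) :=
      ((continuous_id.add continuous_const).tendsto r).mono_left nhdsWithin_le_nhds
    have hlr : Tendsto W (𝓝[<] r) (𝓝 (jj G z u wz (r + 1))) := by
      have h1 := (tendsto_jj G h').comp hsubr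
      have h2 := (tendsto_jd hk G h').comp hsubr
      have h4 := ((continuous_jj G hz).tendsto (r + 1)).comp haddr
      have h5 := ((hasDerivAt_jd hz (J_ne_zero hk G hz
        (show 0 < r + 1 by linarith))).continuousAt.tendsto).comp haddr
      have h3 := (h1.mul h5).sub (h2.neg.mul h4)
      have e : (0 : ℝ) * jd G z u wz (r + 1) - -1 * jj G z u wz (r + 1) = jj G z u wz (r + 1) := by
        ring
      rw [e] at h3
      exact h3
    have h0 : (0 : ℝ) ∈ Ioo (-1 : ℝ) r := ⟨by linarith, hr⟩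
    have c2 : Tendsto W (𝓝[<] r) (𝓝 (W 0)) := by
      refine tendsto_const_nhds.congr' ?_
      filter_upwards [Ioo_mem_nhdsLT (show (-1 : ℝ) < r by linarith)] with t ht
      exact hW _ h0 _ ht
    have h6 := tendsto_nhds_unique hlr c2
    simp only [hWdef, sub_zero, zero_add, hsym] at h6
    have h1 : jj G z u wz 1 ≠ 0 := norm_ne_zero_iff.2 (J_ne_zero hk G hz one_pos)
    rw [CC, h6]
    field_simp
    ring
  · intro t ht
    have h1 := hasDerivAt_jj h' (J_ne_zero hk G h' (sub_pos.2 ht.2))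
    have h2 : HasDerivAt (fun t : ℝ => r - t) (-1) t := by
      simpa using (hasDerivAt_id t).const_sub r
    have h3 := h1.comp t h2
    refine h3.congr_deriv (by ring)
  · intro t ht
    have h1 := hasDerivAt_jd h' (J_ne_zero hk G h' (sub_pos.2 ht.2))
    have h2 : HasDerivAt (fun t : ℝ => r - t) (-1) t := by
      simpa using (hasDerivAt_id t).const_sub r
    have h3 := (h1.comp t h2).neg
    refine h3.congr_deriv ?_
    rw [hy, hV, fl_reverse G h.hx h.he, sub_sub_cancel]
    have hm := fl_mem G (q := (p, v)) ⟨h.hx, h.he⟩ t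
    rw [Kv_neg hm.1 hm.2 (norm_T h t)]
    simp only [hq]
    ring
  · intro t ht
    exact (hasDerivAt_jj hz
      (J_ne_zero hk G hz (show 0 < t + 1 by linarith [ht.1]))).comp_add_const t 1
  · intro t ht
    have h3 := (hasDerivAt_jd hz
      (J_ne_zero hk G hz (show 0 < t + 1 by linarith [ht.1]))).comp_add_const t 1
    rwa [fl_behind G hz hzp] at h3

end behind

end Crest.Agent.R241.LB3
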