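import Mathlib
import Crest.Prelude.Def_Submanifold
import Crest.Agent.R241.E1c
import Crest.Agent.R241.G1b
import Crest.Agent.R241.LC
import Crest.Agent.R241.LSob882
import Crest.Agent.R241.E5

-- ▼ part R241/LTargets
section

/-!
R241, block L (surface case `n = 2` of S0372 and S0373, owner helper631): independent sub-targets.
-/

set_option autoImplicit false

open MeasureTheory Set Filter Topology
open Crest.GeometryTopology.Submanifold (Euc)

namespace Crest.Agent.R241.LTargets

/-- equality case of the planar isoperimetric inequality for open sets with boundary of finite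
length (OPEN for takers). -/
def PlanarEq : Prop :=
  ∀ (A : Set (Euc 2)) (r : ℝ), IsOpen A → Bornology.IsBounded A → 0 < r →
    volume A = ENNReal.ofReal (Real.pi * r ^ 2) →
    Measure.euclideanHausdorffMeasure 1 (frontier A) ≤ ENNReal.ofReal (2 * Real.pi * r) →
    ∃ c : Euc 2, volume (symmDiff A (Metric.ball c r)) = 0

end Crest.Agent.R241.LTargets
end

-- ▼ part R241/LPa
section

/-!
R241, block L-P (helper861): equality case of the planar isoperimetric inequality.
Part a: the measure theoretic outer normal of an open set with boundary of finite length.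
-/

set_option autoImplicit false

open MeasureTheory MeasureTheory.Measure Metric Filter Set Topology
open scoped NNReal ENNReal RealInnerProductSpace
open Crest.GeometryTopology.Submanifold (Euc)

noncomputable section

namespace Crest.Agent.R241.LPx

open G1

/-- bounded Lipschitz functions as a submodule -/
def BLs : Submodule ℝ (Euc 2 → ℝ) where
  carrier := {f | BL f}
  add_mem' := fun hf hg => BL.add hf hg
  zero_mem' := BL.zero
  smul_mem' := fun c _ hf => BL.smul hf c

/-- compactly supported `C¹` functions -/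
def Cs : Submodule ℝ BLs where
  carrier := {f | ContDiff ℝ 1 f.1 ∧ HasCompactSupport f.1}
  add_mem' := fun hf hg => ⟨hf.1.add hg.1, hf.2.add hg.2⟩
  zero_mem' := ⟨contDiff_const, HasCompactSupport.zero⟩
  smul_mem' := fun c f hf => ⟨contDiff_const.smul hf.1, hf.2.smul_left (f := fun _ => c)⟩

theorem BL_of_contDiff {η : Euc 2 → ℝ} (hη : ContDiff ℝ 1 η) (hc : HasCompactSupport η) :
    BL η := by
  refine ⟨?_, ?_⟩
  · exact ⟨_, (hη.lipschitzWith_of_hasCompactSupport hc (by simp)).choose_spec⟩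
  · obtain ⟨C, hC⟩ := hη.continuous.bounded_above_of_compact_support hc
    exact ⟨C, fun x => by simpa using hC x⟩

variable {A : Set (Euc 2)}

/-- length measure on the boundary -/
def tau (A : Set (Euc 2)) : Measure (Euc 2) := (μHE[1] : Measure (Euc 2)).restrict (frontier A)

theorem isFinite_tau (hfin : μHE[1] (frontier A) ≠ ∞) : IsFiniteMeasure (tau A) :=
  ⟨by rw [tau, Measure.restrict_apply_univ]; exact hfin.lt_top⟩

theorem integrable_fderiv {η : Euc 2 → ℝ} (hη : ContDiff ℝ 1 η) (hb : Bornology.IsBounded A)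
    (v : Euc 2) : IntegrableOn (fun x => fderiv ℝ η x v) A := by
  obtain ⟨R, hR⟩ := hb.subset_closedBall 0
  have hc : Continuous (fun x => fderiv ℝ η x v) :=
    (hη.continuous_fderiv (by simp)).clm_apply continuous_const
  exact (hc.continuousOn.integrableOn_compact (isCompact_closedBall _ _)).mono_set hR

theorem directional' (hA : IsOpen A) (hfin : μHE[1] (frontier A) ≠ ∞) {v : Euc 2} (hv : ‖v‖ = 1)
    {η : Euc 2 → ℝ} (hη : ContDiff ℝ 1 η) (hc : HasCompactSupport η) :
    |∫ x in A, fderiv ℝ η x v| ≤ ∫ x, |η x| ∂(tau A) := by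
  have hτ := isFinite_tau hfin
  have h1 := E1.directional (V := Euc 2) (n := 1) (by simp) hv hA
    (fun R => ne_top_of_le_ne_top hfin (measure_mono inter_subset_left)) hη hc
  have h2 : Integrable (fun x => |η x|) (tau A) := (BL_of_contDiff hη hc).abs.integrable _
  have h3 : ENNReal.ofReal (∫ x, |η x| ∂(tau A)) =
      ∫⁻ x in frontier A, ENNReal.ofReal |η x| ∂μHE[1] := by
    rw [ofReal_integral_eq_lintegral_ofReal h2 (Eventually.of_forall fun x => abs_nonneg _)]
    rfl
  rw [← h3] at h1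
  exact (ENNReal.ofReal_le_ofReal_iff (integral_nonneg fun x => abs_nonneg _)).1 h1

/-- density of the distributional derivative in a unit direction -/
theorem exists_dens (hA : IsOpen A) (hb : Bornology.IsBounded A)
    (hfin : μHE[1] (frontier A) ≠ ∞) {v : Euc 2} (hv : ‖v‖ = 1) :
    ∃ g : Euc 2 → ℝ, Measurable g ∧ (∀ x, |g x| ≤ 1) ∧
      ∀ η : Euc 2 → ℝ, ContDiff ℝ 1 η → HasCompactSupport η →
        ∫ x in A, fderiv ℝ η x v = ∫ x, η x * g x ∂(tau A) := by
  classical
  have hτ := isFinite_tau hfin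
  let Lf : BLs →ₗ.[ℝ] ℝ :=
    { domain := Cs
      toFun :=
        { toFun := fun f => ∫ x in A, fderiv ℝ f.1.1 x v
          map_add' := by
            intro f g
            rw [← integral_add (integrable_fderiv f.2.1 hb v) (integrable_fderiv g.2.1 hb v)]
            refine integral_congr_ae (Eventually.of_forall fun x => ?_)
            have h1 : DifferentiableAt ℝ f.1.1 x := (f.2.1.differentiable (by simp)) x
            have h2 : DifferentiableAt ℝ g.1.1 x := (g.2.1.differentiable (by simp)) x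
            change fderiv ℝ (f.1.1 + g.1.1) x v = _
            rw [fderiv_add h1 h2]
            rfl
          map_smul' := by
            intro c f
            rw [RingHom.id_apply, smul_eq_mul, ← integral_const_mul]
            refine integral_congr_ae (Eventually.of_forall fun x => ?_)
            have h1 : DifferentiableAt ℝ f.1.1 x := (f.2.1.differentiable (by simp)) x
            change fderiv ℝ (c • f.1.1) x v = _
            rw [fderiv_const_smul h1]
            rfl } }
  obtain ⟨g, hg1, hg2⟩ := exists_extension_of_le_sublinear Lf (fun f => ∫ x, |f.1 x| ∂(tau A))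
    (by
      intro c hc f
      rw [← integral_const_mul]
      refine integral_congr_ae (Eventually.of_forall fun x => ?_)
      change |c * f.1 x| = _
      rw [abs_mul, abs_of_pos hc])
    (by
      intro f g
      have i1 : Integrable (fun x => |f.1 x|) (tau A) := (BL.abs f.2).integrable _
      have i2 : Integrable (fun x => |g.1 x|) (tau A) := (BL.abs g.2).integrable _
      rw [← integral_add i1 i2]
      refine integral_mono ((BL.abs (BL.add f.2 g.2)).integrable _) (i1.add i2) fun x => ?_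
      exact abs_add_le _ _)
    (by
      intro f
      exact (le_abs_self _).trans (directional' hA hfin hv f.2.1 f.2.2))
  have hgabs : ∀ f : BLs, |g f| ≤ ∫ x, |f.1 x| ∂(tau A) := by
    intro f
    rw [abs_le]
    refine ⟨?_, hg2 f⟩
    have h1 := hg2 (-f)
    rw [map_neg] at h1
    have h2 : ∫ x, |(-f : BLs).1 x| ∂(tau A) = ∫ x, |f.1 x| ∂(tau A) := by
      refine integral_congr_ae (Eventually.of_forall fun x => ?_)
      change |(-f.1) x| = _
      rw [Pi.neg_apply, abs_neg]
    rw [h2] at h1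
    linarith
  let L : (Euc 2 → ℝ) → ℝ := fun f => if h : BL f then g ⟨f, h⟩ else 0
  have hL : ∀ (f) (h : BL f), L f = g ⟨f, h⟩ := fun f h => by simp only [L, h, dif_pos]
  obtain ⟨d, hd1, hd2, hd3⟩ := exists_density (tau A) L
    (by
      intro f1 f2 h1 h2
      rw [hL _ h1, hL _ h2, hL _ (h1.add h2), ← map_add]
      rfl)
    (by
      intro c f h
      rw [hL _ h, hL _ (h.smul c), ← smul_eq_mul, ← map_smul]
      rfl)
    (zero_le_one) (by
      intro f h
      rw [hL _ h, one_mul]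
      exact hgabs _)
  refine ⟨d, hd1, hd2, fun η hη hc => ?_⟩
  have hBL := BL_of_contDiff hη hc
  rw [← hd3 η hBL, hL _ hBL]
  have hmem : (⟨η, hBL⟩ : BLs) ∈ Cs := ⟨hη, hc⟩
  exact (hg1 ⟨⟨η, hBL⟩, hmem⟩).symm

/-- compactly supported test functions can be replaced by arbitrary `C¹` functions -/
theorem extend_test (hA : IsOpen A) (hb : Bornology.IsBounded A)
    {v : Euc 2} {g : Euc 2 → ℝ}
    (hg : ∀ η : Euc 2 → ℝ, ContDiff ℝ 1 η → HasCompactSupport η →
        ∫ x in A, fderiv ℝ η x v = ∫ x, η x * g x ∂(tau A))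
    {η : Euc 2 → ℝ} (hη : ContDiff ℝ 1 η) :
    ∫ x in A, fderiv ℝ η x v = ∫ x, η x * g x ∂(tau A) := by
  obtain ⟨R, hR⟩ := hb.closure.subset_ball 0
  have hR0 : 0 < R ∨ A = ∅ := by
    rcases A.eq_empty_or_nonempty with h | ⟨x, hx⟩
    · exact Or.inr h
    · left
      have := hR (subset_closure hx)
      exact lt_of_le_of_lt dist_nonneg this
  rcases hR0 with hR0 | rfl
  swap
  · simp [tau]
  let χ : ContDiffBump (0 : Euc 2) := ⟨R, R + 1, hR0, by linarith⟩
  have hχ : ContDiff ℝ 1 χ := χ.contDiff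
  have h1 := hg (fun x => χ x * η x) (hχ.mul hη) χ.hasCompactSupport.mul_right
  have h2 : ∫ x in A, fderiv ℝ (fun x => χ x * η x) x v = ∫ x in A, fderiv ℝ η x v := by
    refine setIntegral_congr_fun hA.measurableSet fun x hx => ?_
    have hev : (fun x => χ x * η x) =ᶠ[𝓝 x] η := by
      have : ball (0 : Euc 2) R ∈ 𝓝 x := isOpen_ball.mem_nhds (hR (subset_closure hx))
      filter_upwards [this] with y hy
      rw [χ.one_of_mem_closedBall (ball_subset_closedBall hy), one_mul]
    simp only [hev.fderiv_eq]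
  have h3 : ∫ x, χ x * η x * g x ∂(tau A) = ∫ x, η x * g x ∂(tau A) := by
    rw [tau]
    refine setIntegral_congr_fun isClosed_frontier.measurableSet fun x hx => ?_
    have : x ∈ ball (0 : Euc 2) R := hR (frontier_subset_closure hx)
    simp only [χ.one_of_mem_closedBall (ball_subset_closedBall this), one_mul]
  rw [← h2, h1, h3]

/-- coordinate vectors -/
def e (i : Fin 2) : Euc 2 := EuclideanSpace.single i 1

theorem norm_e (i : Fin 2) : ‖e i‖ = 1 := by simp [e]

/-- **the measure theoretic normal**. -/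
theorem exists_normal (hA : IsOpen A) (hb : Bornology.IsBounded A)
    (hfin : μHE[1] (frontier A) ≠ ∞) :
    ∃ n : Fin 2 → Euc 2 → ℝ, (∀ i, Measurable (n i)) ∧ (∀ x, n 0 x ^ 2 + n 1 x ^ 2 ≤ 1) ∧
      ∀ V : Fin 2 → Euc 2 → ℝ, (∀ i, ContDiff ℝ 1 (V i)) →
        ∫ x in A, (fderiv ℝ (V 0) x (e 0) + fderiv ℝ (V 1) x (e 1)) =
          ∫ x, (V 0 x * n 0 x + V 1 x * n 1 x) ∂(tau A) := by
  classical
  have hτ := isFinite_tau hfin
  choose! d hdm hd1 hd using fun (v : Euc 2) (hv : ‖v‖ = 1) => exists_dens hA hb hfin hv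
  -- `d v = v 0 * d e₀ + v 1 * d e₁`
  have hlin : ∀ v : Euc 2, ‖v‖ = 1 →
      ∀ᵐ x ∂(tau A), d v x = v 0 * d (e 0) x + v 1 * d (e 1) x := by
    intro v hv
    have i0 : Integrable (d (e 0)) (tau A) :=
      (BM.integrable ⟨hdm _ (norm_e 0), 1, hd1 _ (norm_e 0)⟩ _)
    have i1 : Integrable (d (e 1)) (tau A) :=
      (BM.integrable ⟨hdm _ (norm_e 1), 1, hd1 _ (norm_e 1)⟩ _)
    have iv : Integrable (d v) (tau A) := (BM.integrable ⟨hdm _ hv, 1, hd1 _ hv⟩ _)
    refine ae_eq_of_integral_contDiff_smul_eq (E := Euc 2) iv.locallyIntegrable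
      ((i0.const_mul _).add (i1.const_mul _)).locallyIntegrable fun η hη hc => ?_
    have hη1 : ContDiff ℝ 1 η := hη.of_le (by simp)
    have hη2 : ContDiff ℝ 1 η := hη1
    have e1 : ∫ x, η x • d v x ∂(tau A) = ∫ x in A, fderiv ℝ η x v := (hd v hv η hη1 hc).symm
    have hBL := BL_of_contDiff hη1 hc
    have j0 : Integrable (fun x => η x * d (e 0) x) (tau A) :=
      (hBL.bm.mul ⟨hdm _ (norm_e 0), 1, hd1 _ (norm_e 0)⟩).integrable _
    have j1 : Integrable (fun x => η x * d (e 1) x) (tau A) :=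
      (hBL.bm.mul ⟨hdm _ (norm_e 1), 1, hd1 _ (norm_e 1)⟩).integrable _
    have e2 : ∫ x, η x • (v 0 * d (e 0) x + v 1 * d (e 1) x) ∂(tau A) =
        v 0 * ∫ x, η x * d (e 0) x ∂(tau A) + v 1 * ∫ x, η x * d (e 1) x ∂(tau A) := by
      rw [← integral_const_mul, ← integral_const_mul,
        ← integral_add (j0.const_mul _) (j1.const_mul _)]
      refine integral_congr_ae (Eventually.of_forall fun x => ?_)
      simp only [smul_eq_mul]; ring
    rw [e1]
    change _ = ∫ x, η x • (v 0 * d (e 0) x + v 1 * d (e 1) x) ∂(tau A)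
    rw [e2, ← hd _ (norm_e 0) η hη1 hc, ← hd _ (norm_e 1) η hη1 hc, ← integral_const_mul,
      ← integral_const_mul, ← integral_add ((integrable_fderiv hη1 hb _).const_mul _)
        ((integrable_fderiv hη1 hb _).const_mul _)]
    refine integral_congr_ae (Eventually.of_forall fun x => ?_)
    simp only
    have hv' : v = v 0 • e 0 + v 1 • e 1 := by
      ext i; fin_cases i <;> simp [e]
    conv_lhs => rw [hv', map_add, map_smul, map_smul]
    simp
  -- the norm bound
  have hnorm : ∀ᵐ x ∂(tau A), d (e 0) x ^ 2 + d (e 1) x ^ 2 ≤ 1 := by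
    -- countable dense family of angles
    have h1 : ∀ᵐ x ∂(tau A), ∀ q : ℚ,
        Real.cos q * d (e 0) x + Real.sin q * d (e 1) x ≤ 1 := by
      rw [ae_all_iff]
      intro q
      let v : Euc 2 := !₂[Real.cos q, Real.sin q]
      have hv : ‖v‖ = 1 := by
        rw [EuclideanSpace.norm_eq]
        simp [v, Fin.sum_univ_two]
      filter_upwards [hlin v hv] with x hx
      have h2 := hd1 v hv x
      rw [hx] at h2
      have h3 := (abs_le.1 h2).2
      simpa [v] using h3
    filter_upwards [h1] with x hx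
    have h2 : ∀ t : ℝ, Real.cos t * d (e 0) x + Real.sin t * d (e 1) x ≤ 1 := by
      intro t
      have hc : Continuous fun t : ℝ => Real.cos t * d (e 0) x + Real.sin t * d (e 1) x := by
        fun_prop
      have hcl : IsClosed {t : ℝ | Real.cos t * d (e 0) x + Real.sin t * d (e 1) x ≤ 1} :=
        isClosed_le hc continuous_const
      have := (Rat.denseRange_cast (𝕜 := ℝ)).induction_on (p := fun t : ℝ =>
        Real.cos t * d (e 0) x + Real.sin t * d (e 1) x ≤ 1) t hcl hx
      exact this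
    -- choose the angle of the vector
    let z : ℂ := ⟨d (e 0) x, d (e 1) x⟩
    have h3 := h2 (Complex.arg z)
    have h4 : d (e 0) x = ‖z‖ * Real.cos (Complex.arg z) := (Complex.norm_mul_cos_arg z).symm
    have h5 : d (e 1) x = ‖z‖ * Real.sin (Complex.arg z) := (Complex.norm_mul_sin_arg z).symm
    have h6 : ‖z‖ ≤ 1 := by
      rw [h4, h5] at h3
      have := Real.sin_sq_add_cos_sq (Complex.arg z)
      nlinarith
    have h7 : d (e 0) x ^ 2 + d (e 1) x ^ 2 = ‖z‖ ^ 2 := by
      rw [Complex.sq_norm, Complex.normSq_apply]; ring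
    rw [h7]
    nlinarith [norm_nonneg z]
  -- modify on a null set
  let G : Set (Euc 2) := {x | d (e 0) x ^ 2 + d (e 1) x ^ 2 ≤ 1}
  have hG : MeasurableSet G :=
    measurableSet_le (((hdm _ (norm_e 0)).pow_const 2).add ((hdm _ (norm_e 1)).pow_const 2))
      measurable_const
  refine ⟨fun i => G.indicator (d (e i)), fun i => (hdm _ (norm_e i)).indicator hG, ?_, ?_⟩
  · intro x
    by_cases hx : x ∈ G
    · simp only [indicator_of_mem hx]; exact hx
    · simp [indicator_of_notMem hx]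
  · intro V hV
    have hae : ∀ᵐ x ∂(tau A), x ∈ G := hnorm
    have e1 : ∫ x, (V 0 x * G.indicator (d (e 0)) x + V 1 x * G.indicator (d (e 1)) x) ∂(tau A) =
        ∫ x, (V 0 x * d (e 0) x + V 1 x * d (e 1) x) ∂(tau A) := by
      refine integral_congr_ae ?_
      filter_upwards [hae] with x hx
      rw [indicator_of_mem hx, indicator_of_mem hx]
    rw [e1, integral_add (integrable_fderiv (hV 0) hb _) (integrable_fderiv (hV 1) hb _),
      extend_test hA hb (hd _ (norm_e 0)) (hV 0), extend_test hA hb (hd _ (norm_e 1)) (hV 1)]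
    have hint : ∀ i, Integrable (fun x => V i x * d (e i) x) (tau A) := by
      intro i
      obtain ⟨R, hR⟩ := hb.closure.subset_closedBall 0
      have hcomp : IsCompact (frontier A) :=
        (isCompact_closedBall (0 : Euc 2) R).of_isClosed_subset isClosed_frontier
          (frontier_subset_closure.trans hR)
      obtain ⟨C, hC⟩ := hcomp.exists_bound_of_continuousOn (hV i).continuous.continuousOn
      refine Integrable.of_bound ((hV i).continuous.measurable.mul
        (hdm _ (norm_e i))).aestronglyMeasurable C ?_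
      rw [tau, ae_restrict_iff' isClosed_frontier.measurableSet]
      refine Eventually.of_forall fun x hx => ?_
      rw [norm_mul]
      have h1 := hC x hx
      have h2 := hd1 _ (norm_e i) x
      rw [← Real.norm_eq_abs] at h2
      nlinarith [norm_nonneg (V i x), norm_nonneg (d (e i) x)]
    rw [integral_add (hint 0) (hint 1)]

end Crest.Agent.R241.LPx
end
end

-- ▼ part R241/LPb
section

/-!
R241, block L-P (helper861): equality case of the planar isoperimetric inequality.
Part b: kernels and the identity `∫∫ ⟨ν(z),e⟩⟨ν(w),e⟩ dτ dτ = -2π|A|`.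
-/

set_option autoImplicit false

open MeasureTheory MeasureTheory.Measure Metric Filter Set Topology
open scoped NNReal ENNReal RealInnerProductSpace
open Crest.GeometryTopology.Submanifold (Euc)

noncomputable section

namespace Crest.Agent.R241.LPx

open G1

/-- regularised squared distance -/
def s (δ : ℝ) (q : Euc 2) : ℝ := q 0 ^ 2 + q 1 ^ 2 + δ ^ 2

theorem s_pos {δ : ℝ} (hδ : δ ≠ 0) (q : Euc 2) : 0 < s δ q := by
  unfold s; positivity

/-- the vector kernel coefficient -/
def wk (δ : ℝ) (q : Euc 2) : ℝ := 1 / s δ q + 2 * δ ^ 2 / s δ q ^ 2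

/-- approximate identity (of total mass `2π`) -/
def mk (δ : ℝ) (q : Euc 2) : ℝ := -2 * δ ^ 2 / s δ q ^ 2 + 8 * δ ^ 4 / s δ q ^ 3

theorem contDiff_s (δ : ℝ) : ContDiff ℝ 1 (s δ) := by
  unfold s; fun_prop

theorem contDiff_coord (i : Fin 2) : ContDiff ℝ 1 (fun q : Euc 2 => q i) := by fun_prop

theorem continuous_s (δ : ℝ) : Continuous (s δ) := (contDiff_s δ).continuous

theorem fderiv_line {f : Euc 2 → ℝ} {x : Euc 2} (hf : ContDiff ℝ 1 f) (i : Fin 2) {d : ℝ}
    (h : HasDerivAt (fun t : ℝ => f (x + t • e i)) d 0) : fderiv ℝ f x (e i) = d := by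
  have h1 : HasFDerivAt f (fderiv ℝ f x) (x + (0 : ℝ) • e i) := by
    rw [zero_smul, add_zero]; exact ((hf.differentiable (by simp)) x).hasFDerivAt
  have h2 : HasDerivAt (fun t : ℝ => x + t • e i) (e i) 0 := by
    simpa using ((hasDerivAt_id (0 : ℝ)).smul_const (e i)).const_add x
  exact (h1.comp_hasDerivAt (0 : ℝ) h2).unique h

/-- first field: `w ↦ (a q₀ + b q₁) q_j / s`, `q = z - w` -/
def V1 (δ a b : ℝ) (z : Euc 2) (j : Fin 2) (w : Euc 2) : ℝ :=
  (a * (z 0 - w 0) + b * (z 1 - w 1)) * (z j - w j) / s δ (z - w)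

theorem contDiff_V1 {δ : ℝ} (hδ : δ ≠ 0) (a b : ℝ) (z : Euc 2) (j : Fin 2) :
    ContDiff ℝ 1 (V1 δ a b z j) := by
  unfold V1
  refine ContDiff.div ?_ ((contDiff_s δ).comp (contDiff_const.sub contDiff_id))
    fun w => (s_pos hδ _).ne'
  fun_prop

theorem div_V1 {δ : ℝ} (hδ : δ ≠ 0) (a b : ℝ) (z w : Euc 2) :
    fderiv ℝ (V1 δ a b z 0) w (e 0) + fderiv ℝ (V1 δ a b z 1) w (e 1) =
      -((a * (z 0 - w 0) + b * (z 1 - w 1)) * wk δ (z - w)) := by
  set p := z 0 - w 0 with hp
  set q := z 1 - w 1 with hq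
  have hs : s δ (z - w) = p ^ 2 + q ^ 2 + δ ^ 2 := by simp [s, hp, hq]
  have hs0 : p ^ 2 + q ^ 2 + δ ^ 2 ≠ 0 := by positivity
  have h0 : HasDerivAt (fun t : ℝ => V1 δ a b z 0 (w + t • e 0))
      ((((-a) * p + (a * p + b * q) * (-1)) * (p ^ 2 + q ^ 2 + δ ^ 2) -
        (a * p + b * q) * p * (-2 * p)) / (p ^ 2 + q ^ 2 + δ ^ 2) ^ 2) 0 := by
    have e1 : (fun t : ℝ => V1 δ a b z 0 (w + t • e 0)) =
        fun t : ℝ => (a * (p - t) + b * q) * (p - t) / ((p - t) ^ 2 + q ^ 2 + δ ^ 2) := by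
      funext t
      simp [V1, s, e, hp, hq]
      ring
    rw [e1]
    have d1 : HasDerivAt (fun t : ℝ => p - t) (-1) 0 := by
      simpa using (hasDerivAt_id (0 : ℝ)).const_sub p
    have d2 : HasDerivAt (fun t : ℝ => (a * (p - t) + b * q)) (a * (-1)) 0 :=
      (d1.const_mul a).add_const _
    have d3 := d2.mul d1
    have d4 : HasDerivAt (fun t : ℝ => (p - t) ^ 2 + q ^ 2 + δ ^ 2) (2 * (p - 0) ^ 1 * (-1)) 0 := by
      have := ((d1.pow 2).add_const (q ^ 2)).add_const (δ ^ 2)
      simpa using this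
    have d5 := d3.div d4 (by simpa using hs0)
    refine d5.congr_deriv ?_
    simp only [Pi.mul_apply, sub_zero]
    ring
  have h1 : HasDerivAt (fun t : ℝ => V1 δ a b z 1 (w + t • e 1))
      ((((-b) * q + (a * p + b * q) * (-1)) * (p ^ 2 + q ^ 2 + δ ^ 2) -
        (a * p + b * q) * q * (-2 * q)) / (p ^ 2 + q ^ 2 + δ ^ 2) ^ 2) 0 := by
    have e1 : (fun t : ℝ => V1 δ a b z 1 (w + t • e 1)) =
        fun t : ℝ => (a * p + b * (q - t)) * (q - t) / (p ^ 2 + (q - t) ^ 2 + δ ^ 2) := by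
      funext t
      simp [V1, s, e, hp, hq]
      ring
    rw [e1]
    have d1 : HasDerivAt (fun t : ℝ => q - t) (-1) 0 := by
      simpa using (hasDerivAt_id (0 : ℝ)).const_sub q
    have d2 : HasDerivAt (fun t : ℝ => (a * p + b * (q - t))) (b * (-1)) 0 :=
      (d1.const_mul b).const_add _
    have d3 := d2.mul d1
    have d4 : HasDerivAt (fun t : ℝ => p ^ 2 + (q - t) ^ 2 + δ ^ 2) (2 * (q - 0) ^ 1 * (-1)) 0 := by
      have := ((d1.pow 2).const_add (p ^ 2)).add_const (δ ^ 2)
      simpa using this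
    have d5 := d3.div d4 (by simpa using hs0)
    refine d5.congr_deriv ?_
    simp only [Pi.mul_apply, sub_zero]
    ring
  rw [fderiv_line (contDiff_V1 hδ a b z 0) 0 h0, fderiv_line (contDiff_V1 hδ a b z 1) 1 h1]
  rw [wk, hs]
  field_simp
  ring

/-- second field: `z ↦ q_i wk(q)`, `q = z - w` -/
def V2 (δ : ℝ) (w : Euc 2) (i : Fin 2) (z : Euc 2) : ℝ := (z i - w i) * wk δ (z - w)

theorem contDiff_wk {δ : ℝ} (hδ : δ ≠ 0) : ContDiff ℝ 1 (wk δ) := by
  unfold wk
  exact (contDiff_const.div (contDiff_s δ) fun w => (s_pos hδ _).ne').add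
    (contDiff_const.div ((contDiff_s δ).pow 2) fun w => (pow_pos (s_pos hδ _) 2).ne')

theorem continuous_mk {δ : ℝ} (hδ : δ ≠ 0) : Continuous (mk δ) := by
  unfold mk
  exact (continuous_const.div ((continuous_s δ).pow 2) fun w => (pow_pos (s_pos hδ _) 2).ne').add
    (continuous_const.div ((continuous_s δ).pow 3) fun w => (pow_pos (s_pos hδ _) 3).ne')

theorem contDiff_V2 {δ : ℝ} (hδ : δ ≠ 0) (w : Euc 2) (i : Fin 2) : ContDiff ℝ 1 (V2 δ w i) := by
  unfold V2
  exact ((contDiff_coord i).sub contDiff_const).mul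
    ((contDiff_wk hδ).comp (contDiff_id.sub contDiff_const))

theorem div_V2 {δ : ℝ} (hδ : δ ≠ 0) (z w : Euc 2) :
    fderiv ℝ (V2 δ w 0) z (e 0) + fderiv ℝ (V2 δ w 1) z (e 1) = mk δ (z - w) := by
  set p := z 0 - w 0 with hp
  set q := z 1 - w 1 with hq
  have hs : s δ (z - w) = p ^ 2 + q ^ 2 + δ ^ 2 := by simp [s, hp, hq]
  have hs0 : p ^ 2 + q ^ 2 + δ ^ 2 ≠ 0 := by positivity
  let D : ℝ → ℝ → ℝ := fun p q =>
    (1 * (1 / (p ^ 2 + q ^ 2 + δ ^ 2) + 2 * δ ^ 2 / (p ^ 2 + q ^ 2 + δ ^ 2) ^ 2) +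
        p * (-(2 * p) / (p ^ 2 + q ^ 2 + δ ^ 2) ^ 2 -
          2 * δ ^ 2 * (2 * (p ^ 2 + q ^ 2 + δ ^ 2) * (2 * p)) / (p ^ 2 + q ^ 2 + δ ^ 2) ^ 4))
  have key : ∀ (p q : ℝ), p ^ 2 + q ^ 2 + δ ^ 2 ≠ 0 →
      HasDerivAt (fun t : ℝ => (p + t) * (1 / ((p + t) ^ 2 + q ^ 2 + δ ^ 2) +
        2 * δ ^ 2 / ((p + t) ^ 2 + q ^ 2 + δ ^ 2) ^ 2)) (D p q) 0 := by
    intro p q h
    have d1 : HasDerivAt (fun t : ℝ => p + t) 1 0 := by
      simpa using (hasDerivAt_id (0 : ℝ)).const_add p
    have d4 : HasDerivAt (fun t : ℝ => (p + t) ^ 2 + q ^ 2 + δ ^ 2) (2 * p) 0 := by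
      have := ((d1.pow 2).add_const (q ^ 2)).add_const (δ ^ 2)
      simpa using this
    have h' : (p + 0) ^ 2 + q ^ 2 + δ ^ 2 ≠ 0 := by simpa using h
    have d5 := (hasDerivAt_const (0 : ℝ) (1 : ℝ)).div d4 h'
    have d6 := (hasDerivAt_const (0 : ℝ) (2 * δ ^ 2)).div (d4.pow 2) (pow_ne_zero 2 h')
    have d7 := d1.mul (d5.add d6)
    refine d7.congr_deriv ?_
    simp only [Pi.pow_apply, Pi.add_apply, Pi.div_apply, add_zero, D]
    ring
  have h0 : HasDerivAt (fun t : ℝ => V2 δ w 0 (z + t • e 0)) (D p q) 0 := by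
    have e1 : (fun t : ℝ => V2 δ w 0 (z + t • e 0)) =
        fun t : ℝ => (p + t) * (1 / ((p + t) ^ 2 + q ^ 2 + δ ^ 2) +
        2 * δ ^ 2 / ((p + t) ^ 2 + q ^ 2 + δ ^ 2) ^ 2) := by
      funext t
      have e2 : s δ (z + t • e 0 - w) = (p + t) ^ 2 + q ^ 2 + δ ^ 2 := by
        simp [s, e, hp, hq]; ring
      rw [V2, wk, e2]
      simp [e, hp]; left; ring
    rw [e1]
    exact key p q hs0
  have h1 : HasDerivAt (fun t : ℝ => V2 δ w 1 (z + t • e 1)) (D q p) 0 := by
    have e1 : (fun t : ℝ => V2 δ w 1 (z + t • e 1)) =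
        fun t : ℝ => (q + t) * (1 / ((q + t) ^ 2 + p ^ 2 + δ ^ 2) +
        2 * δ ^ 2 / ((q + t) ^ 2 + p ^ 2 + δ ^ 2) ^ 2) := by
      funext t
      have e2 : s δ (z + t • e 1 - w) = (q + t) ^ 2 + p ^ 2 + δ ^ 2 := by
        simp [s, e, hp, hq]; ring
      rw [V2, wk, e2]
      simp [e, hq]; left; ring
    rw [e1]
    exact key q p (by rw [add_comm (q ^ 2)]; exact hs0)
  rw [fderiv_line (contDiff_V2 hδ w 0) 0 h0, fderiv_line (contDiff_V2 hδ w 1) 1 h1]
  have hqp : q ^ 2 + p ^ 2 + δ ^ 2 = p ^ 2 + q ^ 2 + δ ^ 2 := by ring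
  simp only [D]
  rw [hqp, mk, hs]
  obtain ⟨S, hS⟩ : ∃ S, S = p ^ 2 + q ^ 2 + δ ^ 2 := ⟨_, rfl⟩
  rw [← hS]
  have hδ2 : δ ^ 2 = S - p ^ 2 - q ^ 2 := by rw [hS]; ring
  have hδ4 : δ ^ 4 = (S - p ^ 2 - q ^ 2) ^ 2 := by rw [← hδ2]; ring
  rw [hδ4, hδ2]
  have hS0 : S ≠ 0 := by rw [hS]; exact hs0
  clear h0 h1 hδ4 hδ2 hS key D hqp hs hs0 hp hq
  clear_value p q
  field_simp
  ring

end Crest.Agent.R241.LPx
end
end

-- ▼ part R241/LPc
section

/-!
R241, block L-P (helper861): equality case of the planar isoperimetric inequality.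
Part c: the limit `δ → 0`.
-/

set_option autoImplicit false

open MeasureTheory MeasureTheory.Measure Metric Filter Set Topology
open scoped NNReal ENNReal RealInnerProductSpace
open Crest.GeometryTopology.Submanifold (Euc)

noncomputable section

namespace Crest.Agent.R241.LPx

open G1

/-! ### the approximate identity -/

/-- radial profile of `mk 1` -/
def rk (y : ℝ) : ℝ := -2 / (y ^ 2 + 1) ^ 2 + 8 / (y ^ 2 + 1) ^ 3

theorem s_one (q : Euc 2) : s 1 q = ‖q‖ ^ 2 + 1 := by
  rw [EuclideanSpace.norm_sq_eq]; simp [s, Fin.sum_univ_two]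

theorem mk_one (q : Euc 2) : mk 1 q = rk ‖q‖ := by
  rw [mk, rk, s_one]; norm_num

theorem abs_mk_one_le (q : Euc 2) : |mk 1 q| ≤ 10 * ((1 : ℝ) + ‖q‖ ^ 2) ^ (-(4 : ℝ) / 2) := by
  have h1 : (0 : ℝ) < 1 + ‖q‖ ^ 2 := by positivity
  have h1' : (1 : ℝ) ≤ 1 + ‖q‖ ^ 2 := by nlinarith [sq_nonneg ‖q‖]
  have h2 : ((1 : ℝ) + ‖q‖ ^ 2) ^ (-(4 : ℝ) / 2) = 1 / (1 + ‖q‖ ^ 2) ^ 2 := by
    rw [show -(4 : ℝ) / 2 = -(2 : ℕ) by norm_num, Real.rpow_neg h1.le, Real.rpow_natCast, one_div]
  rw [h2, mk_one, rk]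
  rw [show ‖q‖ ^ 2 + 1 = 1 + ‖q‖ ^ 2 by ring]
  set S := 1 + ‖q‖ ^ 2
  have h3 : 8 / S ^ 3 ≤ 8 / S ^ 2 := by
    apply div_le_div_of_nonneg_left (by norm_num) (by positivity)
    exact pow_le_pow_right₀ h1' (by norm_num)
  have h4 : |(-2 : ℝ) / S ^ 2| = 2 / S ^ 2 := by
    rw [abs_div, abs_of_pos (by positivity : (0 : ℝ) < S ^ 2)]; norm_num
  have h5 : |8 / S ^ 3| = 8 / S ^ 3 := abs_of_pos (by positivity)
  refine (abs_add_le _ _).trans ?_
  rw [h4, h5]
  have : 10 * (1 / S ^ 2) = 2 / S ^ 2 + 8 / S ^ 2 := by ring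
  rw [this]
  linarith

theorem integrable_mk_one : Integrable (mk 1) := by
  have h1 : Integrable (fun q : Euc 2 => 10 * ((1 : ℝ) + ‖q‖ ^ 2) ^ (-(4 : ℝ) / 2)) :=
    (integrable_rpow_neg_one_add_norm_sq (by simp; norm_num)).const_mul 10
  exact h1.mono' (continuous_mk one_ne_zero).aestronglyMeasurable
    (Eventually.of_forall fun q => by rw [Real.norm_eq_abs]; exact abs_mk_one_le q)

theorem integral_mk_one : ∫ q, mk 1 q = 2 * Real.pi := by
  have hi : Integrable (fun q : Euc 2 => rk ‖q‖) :=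
    integrable_mk_one.congr (Eventually.of_forall mk_one)
  have h1 : ∫ q, mk 1 q = ∫ q : Euc 2, rk ‖q‖ := integral_congr_ae (Eventually.of_forall mk_one)
  rw [h1, integral_fun_norm_addHaar volume rk]
  have hio := (integrable_fun_norm_addHaar (μ := (volume : Measure (Euc 2)))).1 hi
  have hd : Module.finrank ℝ (Euc 2) = 2 := by simp
  rw [hd] at hio ⊢
  have hF : ∀ x ∈ Ioi (0 : ℝ), HasDerivAt (fun y : ℝ => 1 / (y ^ 2 + 1) - 2 / (y ^ 2 + 1) ^ 2)
      (x ^ (2 - 1) • rk x) x := by
    intro x _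
    have hx : x ^ 2 + 1 ≠ 0 := by positivity
    have d1 : HasDerivAt (fun y : ℝ => y ^ 2 + 1) (2 * x) x := by
      simpa using (hasDerivAt_pow 2 x).add_const 1
    have d2 := ((hasDerivAt_const x (1 : ℝ)).div d1 hx).sub
      ((hasDerivAt_const x (2 : ℝ)).div (d1.pow 2) (pow_ne_zero 2 hx))
    refine d2.congr_deriv ?_
    rw [rk, smul_eq_mul]
    simp only [Pi.pow_apply]
    field_simp
    ring
  have hlim : Tendsto (fun y : ℝ => 1 / (y ^ 2 + 1) - 2 / (y ^ 2 + 1) ^ 2) atTop (𝓝 (0 - 0)) := by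
    have t1 : Tendsto (fun y : ℝ => y ^ 2 + 1) atTop atTop :=
      tendsto_atTop_add_const_right _ _ (tendsto_pow_atTop (by norm_num))
    have t2 : Tendsto (fun y : ℝ => (y ^ 2 + 1) ^ 2) atTop atTop :=
      (tendsto_pow_atTop (by norm_num)).comp t1
    exact (t1.const_div_atTop 1).sub (t2.const_div_atTop 2)
  have h2 := integral_Ioi_of_hasDerivAt_of_tendsto (a := 0)
    (f := fun y : ℝ => 1 / (y ^ 2 + 1) - 2 / (y ^ 2 + 1) ^ 2)
    (f' := fun x => x ^ (2 - 1) • rk x) (m := 0 - 0)
    (by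
      apply Continuous.continuousWithinAt
      have h3 : Continuous fun y : ℝ => y ^ 2 + 1 := by fun_prop
      exact (continuous_const.div h3 fun y => by positivity).sub
        (continuous_const.div (h3.pow 2) fun y => by positivity))
    hF hio hlim
  rw [h2]
  have hball : (volume : Measure (Euc 2)).real (ball 0 1) = Real.pi := by
    rw [Measure.real, EuclideanSpace.volume_ball_fin_two]
    simp [Real.pi_pos.le]
  rw [hball]
  simp; ring

theorem mk_smul {δ : ℝ} (hδ : δ ≠ 0) (q : Euc 2) : mk δ (δ • q) = (δ ^ 2)⁻¹ * mk 1 q := by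
  have h1 : s δ (δ • q) = δ ^ 2 * s 1 q := by
    simp [s]; ring
  have h2 := (s_pos (one_ne_zero (α := ℝ)) q).ne'
  rw [mk, mk, h1]
  field_simp

variable {A : Set (Euc 2)}

theorem inner_mk (hA : MeasurableSet A) {δ : ℝ} (hδ : 0 < δ) (w : Euc 2) :
    ∫ z in A, mk δ (z - w) = ∫ q, A.indicator (fun _ => (1 : ℝ)) (w + δ • q) * mk 1 q := by
  classical
  rw [← integral_indicator hA]
  have h1 : ∫ z, A.indicator (fun z => mk δ (z - w)) z =
      ∫ q : Euc 2, A.indicator (fun z => mk δ (z - w)) (w + q) :=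
    (integral_add_left_eq_self _ w).symm
  have h2 := integral_comp_smul (volume : Measure (Euc 2))
    (fun q => A.indicator (fun z => mk δ (z - w)) (w + q)) δ
  have hd : Module.finrank ℝ (Euc 2) = 2 := by simp
  rw [hd, abs_of_pos (by positivity), smul_eq_mul] at h2
  rw [h1]
  have h3 : ∫ q : Euc 2, A.indicator (fun z => mk δ (z - w)) (w + q) =
      δ ^ 2 * ∫ q : Euc 2, A.indicator (fun z => mk δ (z - w)) (w + δ • q) := by
    rw [h2]; field_simp
  rw [h3, ← integral_const_mul]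
  refine integral_congr_ae (Eventually.of_forall fun q => ?_)
  simp only
  by_cases hq : w + δ • q ∈ A
  · rw [indicator_of_mem hq, indicator_of_mem hq, add_sub_cancel_left, mk_smul hδ.ne']
    field_simp
  · rw [indicator_of_notMem hq, indicator_of_notMem hq]; simp

/-- the sequence of regularisation parameters -/
def dn (n : ℕ) : ℝ := 1 / ((n : ℝ) + 1)

theorem dn_pos (n : ℕ) : 0 < dn n := by unfold dn; positivity

theorem tendsto_dn : Tendsto dn atTop (𝓝 0) := tendsto_one_div_add_atTop_nhds_zero_nat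

theorem tendsto_double (hA : IsOpen A) (hfin : volume A ≠ ∞) :
    Tendsto (fun n => ∫ w in A, ∫ z in A, mk (dn n) (z - w)) atTop
      (𝓝 (2 * Real.pi * (volume A).toReal)) := by
  have hbound : ∀ (n : ℕ) (w q : Euc 2),
      ‖A.indicator (fun _ => (1 : ℝ)) (w + dn n • q) * mk 1 q‖ ≤ |mk 1 q| := by
    intro n w q
    rw [norm_mul, Real.norm_eq_abs, Real.norm_eq_abs]
    have : |A.indicator (fun _ => (1 : ℝ)) (w + dn n • q)| ≤ 1 := by
      by_cases h : w + dn n • q ∈ A
      · simp [indicator_of_mem h]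
      · simp [indicator_of_notMem h]
    nlinarith [abs_nonneg (mk 1 q)]
  have hmeas : ∀ n : ℕ, Measurable (fun p : Euc 2 × Euc 2 =>
      A.indicator (fun _ => (1 : ℝ)) (p.1 + dn n • p.2) * mk 1 p.2) := by
    intro n
    refine Measurable.mul ?_ ((continuous_mk one_ne_zero).measurable.comp measurable_snd)
    exact (measurable_const.indicator hA.measurableSet).comp
      (measurable_fst.add (measurable_snd.const_smul (dn n)))
  -- inner limit
  have hinner : ∀ w ∈ A, Tendsto (fun n => ∫ z in A, mk (dn n) (z - w)) atTop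
      (𝓝 (2 * Real.pi)) := by
    intro w hw
    rw [← integral_mk_one]
    simp only [inner_mk hA.measurableSet (dn_pos _)]
    refine tendsto_integral_of_dominated_convergence (fun q => |mk 1 q|) (fun n => ?_)
      integrable_mk_one.abs (fun n => Eventually.of_forall fun q => hbound n w q)
      (Eventually.of_forall fun q => ?_)
    · exact ((hmeas n).comp (measurable_const.prodMk measurable_id)).aestronglyMeasurable
    · have h1 : Tendsto (fun n => w + dn n • q) atTop (𝓝 w) := by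
        have := (tendsto_dn.smul_const q).const_add w
        simpa using this
      have h2 : ∀ᶠ n in atTop, w + dn n • q ∈ A := h1.eventually (hA.mem_nhds hw)
      refine tendsto_const_nhds.congr' ?_
      filter_upwards [h2] with n hn
      rw [indicator_of_mem hn, one_mul]
  have hfinA : IsFiniteMeasure (volume.restrict A) :=
    ⟨by rw [Measure.restrict_apply_univ]; exact hfin.lt_top⟩
  have h3 : ∫ _ in A, 2 * Real.pi = 2 * Real.pi * (volume A).toReal := by
    rw [integral_const, smul_eq_mul, mul_comm]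
    simp [Measure.real]
  rw [← h3]
  refine tendsto_integral_of_dominated_convergence (fun _ => ∫ q, |mk 1 q|) (fun n => ?_)
    (integrable_const _) (fun n => Eventually.of_forall fun w => ?_) ?_
  · have h4 : (fun w => ∫ z in A, mk (dn n) (z - w)) =
        fun w => ∫ q, A.indicator (fun _ => (1 : ℝ)) (w + dn n • q) * mk 1 q := by
      funext w; exact inner_mk hA.measurableSet (dn_pos n) w
    rw [h4]
    exact (StronglyMeasurable.integral_prod_right (ν := volume)
      (f := fun (w q : Euc 2) => A.indicator (fun _ => (1 : ℝ)) (w + dn n • q) * mk 1 q)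
      (hmeas n).stronglyMeasurable).aestronglyMeasurable
  · rw [inner_mk hA.measurableSet (dn_pos n)]
    exact norm_integral_le_of_norm_le integrable_mk_one.abs
      (Eventually.of_forall fun q => hbound n w q)
  · rw [ae_restrict_iff' hA.measurableSet]
    exact Eventually.of_forall hinner

/-! ### the normal kernel -/

/-- `⟨n(z),q⟩⟨n(w),q⟩/s`, `q = z - w` -/
def Qd (δ : ℝ) (n : Fin 2 → Euc 2 → ℝ) (z w : Euc 2) : ℝ :=
  (n 0 z * (z 0 - w 0) + n 1 z * (z 1 - w 1)) * (n 0 w * (z 0 - w 0) + n 1 w * (z 1 - w 1)) /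
    s δ (z - w)

theorem measurable_Qd (δ : ℝ) {n : Fin 2 → Euc 2 → ℝ} (hn : ∀ i, Measurable (n i)) :
    Measurable (fun p : Euc 2 × Euc 2 => Qd δ n p.1 p.2) := by
  have c : ∀ i : Fin 2, Measurable (fun p : Euc 2 × Euc 2 => p.1 i - p.2 i) := by
    intro i; fun_prop
  have n1 : ∀ i, Measurable (fun p : Euc 2 × Euc 2 => n i p.1) := fun i =>
    (hn i).comp measurable_fst
  have n2 : ∀ i, Measurable (fun p : Euc 2 × Euc 2 => n i p.2) := fun i =>
    (hn i).comp measurable_snd
  have hs : Measurable (fun p : Euc 2 × Euc 2 => s δ (p.1 - p.2)) :=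
    (continuous_s δ).measurable.comp (measurable_fst.sub measurable_snd)
  exact ((((n1 0).mul (c 0)).add ((n1 1).mul (c 1))).mul
    (((n2 0).mul (c 0)).add ((n2 1).mul (c 1)))).div hs

theorem cs2 {a b p q : ℝ} (h : a ^ 2 + b ^ 2 ≤ 1) : (a * p + b * q) ^ 2 ≤ p ^ 2 + q ^ 2 := by
  nlinarith [sq_nonneg (a * q - b * p), sq_nonneg p, sq_nonneg q, sq_nonneg (p ^ 2 + q ^ 2)]

theorem abs_Qd_le (δ : ℝ) {n : Fin 2 → Euc 2 → ℝ} (hn : ∀ x, n 0 x ^ 2 + n 1 x ^ 2 ≤ 1)
    (z w : Euc 2) : |Qd δ n z w| ≤ 1 := by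
  rw [Qd, abs_div]
  set p := z 0 - w 0
  set q := z 1 - w 1
  have hs : s δ (z - w) = p ^ 2 + q ^ 2 + δ ^ 2 := by simp [s, p, q]
  have h1 := cs2 (p := p) (q := q) (hn z)
  have h2 := cs2 (p := p) (q := q) (hn w)
  rw [hs]
  have h0 : 0 ≤ p ^ 2 + q ^ 2 + δ ^ 2 := by positivity
  rw [abs_of_nonneg h0]
  apply div_le_one_of_le₀ _ h0
  rw [abs_mul]
  have h3 : |n 0 z * p + n 1 z * q| * |n 0 w * p + n 1 w * q| ≤
      ((n 0 z * p + n 1 z * q) ^ 2 + (n 0 w * p + n 1 w * q) ^ 2) / 2 := by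
    nlinarith [sq_nonneg (|n 0 z * p + n 1 z * q| - |n 0 w * p + n 1 w * q|),
      sq_abs (n 0 z * p + n 1 z * q), sq_abs (n 0 w * p + n 1 w * q)]
  nlinarith [sq_nonneg δ]

theorem tendsto_Qd {n : Fin 2 → Euc 2 → ℝ} (z w : Euc 2) :
    Tendsto (fun k => Qd (dn k) n z w) atTop (𝓝 (Qd 0 n z w)) := by
  unfold Qd
  by_cases h : s 0 (z - w) = 0
  · have h1 : z 0 - w 0 = 0 := by
      simp [s] at h
      nlinarith [sq_nonneg (z 0 - w 0), sq_nonneg (z 1 - w 1)]
    have h2 : z 1 - w 1 = 0 := by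
      simp [s] at h
      nlinarith [sq_nonneg (z 0 - w 0), sq_nonneg (z 1 - w 1)]
    simp only [h1, h2]
    simp
  · refine tendsto_const_nhds.div ?_ h
    unfold s
    exact (tendsto_dn.pow 2).const_add _

end Crest.Agent.R241.LPx
end
end

-- ▼ part R241/LPd
section

/-!
R241, block L-P (helper861): equality case of the planar isoperimetric inequality.
Part d: the reflection identity and the equality case.
-/

set_option autoImplicit false

open MeasureTheory MeasureTheory.Measure Metric Filter Set Topology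
open scoped NNReal ENNReal RealInnerProductSpace
open Crest.GeometryTopology.Submanifold (Euc)

noncomputable section

namespace Crest.Agent.R241.LPx

open G1

variable {A : Set (Euc 2)}

/-- the divergence theorem with normal `n` -/
def IsNormal (A : Set (Euc 2)) (n : Fin 2 → Euc 2 → ℝ) : Prop :=
  (∀ i, Measurable (n i)) ∧ (∀ x, n 0 x ^ 2 + n 1 x ^ 2 ≤ 1) ∧
      ∀ V : Fin 2 → Euc 2 → ℝ, (∀ i, ContDiff ℝ 1 (V i)) →
        ∫ x in A, (fderiv ℝ (V 0) x (e 0) + fderiv ℝ (V 1) x (e 1)) =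
          ∫ x, (V 0 x * n 0 x + V 1 x * n 1 x) ∂(tau A)

theorem abs_coord_wk {δ : ℝ} (hδ : 0 < δ) (q : Euc 2) (i : Fin 2) :
    |q i * wk δ q| ≤ 3 / (2 * δ) := by
  have hs := s_pos hδ.ne' q
  have hs1 : q i ^ 2 + δ ^ 2 ≤ s δ q := by
    unfold s
    fin_cases i
    · simp; positivity
    · simp; positivity
  have h1 : 2 * δ * |q i| ≤ s δ q := by
    nlinarith [sq_nonneg (|q i| - δ), sq_abs (q i)]
  have h2 : wk δ q ≤ 3 / s δ q := by
    unfold wk
    rw [show 3 / s δ q = 1 / s δ q + 2 / s δ q by ring]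
    gcongr 1 / s δ q + ?_
    rw [div_le_div_iff₀ (by positivity) hs]
    have : δ ^ 2 ≤ s δ q := by unfold s; nlinarith [sq_nonneg (q 0), sq_nonneg (q 1)]
    nlinarith
  have h3 : 0 ≤ wk δ q := by unfold wk; positivity
  rw [abs_mul, abs_of_nonneg h3]
  calc |q i| * wk δ q ≤ |q i| * (3 / s δ q) := by gcongr
    _ ≤ (s δ q / (2 * δ)) * (3 / s δ q) := by
        gcongr
        rw [le_div_iff₀ (by positivity)]
        linarith
    _ = 3 / (2 * δ) := by field_simp

/-- Identity at parameter `δ`. -/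
theorem ident_delta (hA : IsOpen A) (hb : Bornology.IsBounded A)
    (hfin : μHE[1] (frontier A) ≠ ∞) {n : Fin 2 → Euc 2 → ℝ} (hn : IsNormal A n)
    {δ : ℝ} (hδ : 0 < δ) :
    ∫ z, ∫ w, Qd δ n z w ∂(tau A) ∂(tau A) = - ∫ w in A, ∫ z in A, mk δ (z - w) := by
  have hτ := isFinite_tau hfin
  obtain ⟨hm, hle, hdiv⟩ := hn
  have hvA : IsFiniteMeasure (volume.restrict A) :=
    ⟨by rw [Measure.restrict_apply_univ]; exact hb.measure_lt_top⟩
  -- step 1
  have h1 : ∀ z, ∫ w, Qd δ n z w ∂(tau A) =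
      - ∫ w in A, (n 0 z * (z 0 - w 0) + n 1 z * (z 1 - w 1)) * wk δ (z - w) := by
    intro z
    have h2 := hdiv (V1 δ (n 0 z) (n 1 z) z) (contDiff_V1 hδ.ne' _ _ z)
    simp only [div_V1 hδ.ne'] at h2
    rw [integral_neg] at h2
    rw [h2]
    refine integral_congr_ae (Eventually.of_forall fun w => ?_)
    simp only [Qd, V1]
    ring
  simp only [h1]
  rw [integral_neg]
  congr 1
  -- Fubini
  have hswap : ∫ z, (∫ w in A, (n 0 z * (z 0 - w 0) + n 1 z * (z 1 - w 1)) * wk δ (z - w)) ∂(tau A)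
      = ∫ w in A, ∫ z, (n 0 z * (z 0 - w 0) + n 1 z * (z 1 - w 1)) * wk δ (z - w) ∂(tau A) := by
    apply integral_integral_swap
    have c : ∀ i : Fin 2, Measurable (fun p : Euc 2 × Euc 2 => p.1 i - p.2 i) := by
      intro i; fun_prop
    have n1 : ∀ i, Measurable (fun p : Euc 2 × Euc 2 => n i p.1) := fun i =>
      (hm i).comp measurable_fst
    have hw : Measurable (fun p : Euc 2 × Euc 2 => wk δ (p.1 - p.2)) :=
      (contDiff_wk hδ.ne').continuous.measurable.comp (measurable_fst.sub measurable_snd)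
    have hmeas : Measurable (fun p : Euc 2 × Euc 2 =>
        (n 0 p.1 * (p.1 0 - p.2 0) + n 1 p.1 * (p.1 1 - p.2 1)) * wk δ (p.1 - p.2)) :=
      (((n1 0).mul (c 0)).add ((n1 1).mul (c 1))).mul hw
    refine Integrable.of_bound hmeas.aestronglyMeasurable (3 / (2 * δ) + 3 / (2 * δ))
      (Eventually.of_forall fun p => ?_)
    have b0 := abs_coord_wk hδ (p.1 - p.2) 0
    have b1 := abs_coord_wk hδ (p.1 - p.2) 1
    have hl := hle p.1
    have a0 : |n 0 p.1| ≤ 1 := by
      rw [← sq_le_one_iff_abs_le_one]; nlinarith [sq_nonneg (n 1 p.1)]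
    have a1 : |n 1 p.1| ≤ 1 := by
      rw [← sq_le_one_iff_abs_le_one]; nlinarith [sq_nonneg (n 0 p.1)]
    have e1 : (n 0 p.1 * (p.1 0 - p.2 0) + n 1 p.1 * (p.1 1 - p.2 1)) * wk δ (p.1 - p.2) =
        n 0 p.1 * ((p.1 - p.2) 0 * wk δ (p.1 - p.2)) +
        n 1 p.1 * ((p.1 - p.2) 1 * wk δ (p.1 - p.2)) := by
      simp only [PiLp.sub_apply]; ring
    rw [Real.norm_eq_abs]
    change |(n 0 p.1 * (p.1 0 - p.2 0) + n 1 p.1 * (p.1 1 - p.2 1)) * wk δ (p.1 - p.2)| ≤ _
    rw [e1]
    refine (abs_add_le _ _).trans ?_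
    rw [abs_mul (n 0 p.1), abs_mul (n 1 p.1)]
    have : 0 ≤ 3 / (2 * δ) := by positivity
    refine add_le_add ?_ ?_
    · calc _ ≤ 1 * (3 / (2 * δ)) := by gcongr
        _ = _ := one_mul _
    · calc _ ≤ 1 * (3 / (2 * δ)) := by gcongr
        _ = _ := one_mul _
  rw [hswap]
  refine integral_congr_ae (Eventually.of_forall fun w => ?_)
  simp only
  have h3 := hdiv (V2 δ w) (contDiff_V2 hδ.ne' w)
  simp only [div_V2 hδ.ne'] at h3
  rw [h3]
  refine integral_congr_ae (Eventually.of_forall fun z => ?_)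
  simp only [V2]
  ring

/-- the limit identity -/
theorem ident (hA : IsOpen A) (hb : Bornology.IsBounded A)
    (hfin : μHE[1] (frontier A) ≠ ∞) {n : Fin 2 → Euc 2 → ℝ} (hn : IsNormal A n) :
    ∫ z, ∫ w, Qd 0 n z w ∂(tau A) ∂(tau A) = - (2 * Real.pi * (volume A).toReal) := by
  have hτ := isFinite_tau hfin
  have h1 := (tendsto_double hA hb.measure_lt_top.ne).neg
  have h2 : Tendsto (fun k => ∫ z, ∫ w, Qd (dn k) n z w ∂(tau A) ∂(tau A)) atTop
      (𝓝 (∫ z, ∫ w, Qd 0 n z w ∂(tau A) ∂(tau A))) := by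
    have hint : ∀ δ, Integrable (fun p : Euc 2 × Euc 2 => Qd δ n p.1 p.2)
        ((tau A).prod (tau A)) := fun δ =>
      Integrable.of_bound (measurable_Qd δ hn.1).aestronglyMeasurable 1
        (Eventually.of_forall fun p => abs_Qd_le δ hn.2.1 p.1 p.2)
    have e1 : ∀ δ, ∫ z, ∫ w, Qd δ n z w ∂(tau A) ∂(tau A) =
        ∫ p, Qd δ n p.1 p.2 ∂((tau A).prod (tau A)) := fun δ =>
      (integral_prod _ (hint δ)).symm
    simp only [e1]
    exact tendsto_integral_of_dominated_convergence (fun _ => 1)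
      (fun k => (measurable_Qd _ hn.1).aestronglyMeasurable) (integrable_const _)
      (fun k => Eventually.of_forall fun p => abs_Qd_le _ hn.2.1 p.1 p.2)
      (Eventually.of_forall fun p => tendsto_Qd p.1 p.2)
  refine tendsto_nhds_unique h2 (h1.congr fun k => ?_)
  rw [ident_delta hA hb hfin hn (dn_pos k)]

/-- the mean of the normal is zero -/
theorem mean_zero {n : Fin 2 → Euc 2 → ℝ} (hn : IsNormal A n) (i : Fin 2) :
    ∫ x, n i x ∂(tau A) = 0 := by
  have h := hn.2.2 (fun j _ => if j = i then 1 else 0) (fun j => contDiff_const)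
  simp only [fderiv_fun_const] at h
  fin_cases i
  · simpa using h.symm
  · simpa using h.symm

/-- reflection kernel -/
def Rk (n : Fin 2 → Euc 2 → ℝ) (z w : Euc 2) : ℝ :=
  n 0 z * n 0 w + n 1 z * n 1 w - 2 * Qd 0 n z w

/-- algebra: the reflection. -/
theorem refl_alg {a0 a1 b0 b1 p q : ℝ} (ha : a0 ^ 2 + a1 ^ 2 ≤ 1) (hb : b0 ^ 2 + b1 ^ 2 ≤ 1) :
    a0 * b0 + a1 * b1 - 2 * ((a0 * p + a1 * q) * (b0 * p + b1 * q) / (p ^ 2 + q ^ 2 + 0 ^ 2)) ≤ 1 ∧
    (a0 * b0 + a1 * b1 - 2 * ((a0 * p + a1 * q) * (b0 * p + b1 * q) / (p ^ 2 + q ^ 2 + 0 ^ 2)) = 1 →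
      a0 = b0 - 2 * (b0 * p + b1 * q) * p / (p ^ 2 + q ^ 2) ∧
      a1 = b1 - 2 * (b0 * p + b1 * q) * q / (p ^ 2 + q ^ 2) ∧ a0 ^ 2 + a1 ^ 2 = 1 ∧
      b0 ^ 2 + b1 ^ 2 = 1) := by
  have e0 : p ^ 2 + q ^ 2 + 0 ^ 2 = p ^ 2 + q ^ 2 := by ring
  rw [e0]
  set c0 := b0 - 2 * (b0 * p + b1 * q) * p / (p ^ 2 + q ^ 2) with hc0
  set c1 := b1 - 2 * (b0 * p + b1 * q) * q / (p ^ 2 + q ^ 2) with hc1
  have e1 : a0 * b0 + a1 * b1 - 2 * ((a0 * p + a1 * q) * (b0 * p + b1 * q) / (p ^ 2 + q ^ 2)) =
      a0 * c0 + a1 * c1 := by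
    rw [hc0, hc1]; ring
  have e2 : c0 ^ 2 + c1 ^ 2 = b0 ^ 2 + b1 ^ 2 := by
    by_cases h : p ^ 2 + q ^ 2 = 0
    · rw [hc0, hc1, h]; simp
    · rw [hc0, hc1]; field_simp; ring
  rw [e1]
  have h3 : a0 * c0 + a1 * c1 ≤ ((a0 ^ 2 + a1 ^ 2) + (c0 ^ 2 + c1 ^ 2)) / 2 := by
    nlinarith [sq_nonneg (a0 - c0), sq_nonneg (a1 - c1)]
  rw [e2] at h3
  refine ⟨by linarith, fun h => ?_⟩
  have h4 : (a0 - c0) ^ 2 + (a1 - c1) ^ 2 ≤ 0 := by nlinarith
  have h5 : a0 - c0 = 0 := by nlinarith [sq_nonneg (a0 - c0), sq_nonneg (a1 - c1)]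
  have h6 : a1 - c1 = 0 := by nlinarith [sq_nonneg (a0 - c0), sq_nonneg (a1 - c1)]
  have h7 : a0 = c0 := by linarith
  have h8 : a1 = c1 := by linarith
  refine ⟨h7, h8, ?_, ?_⟩
  · rw [← h7, ← h8] at h; nlinarith
  · rw [← h7, ← h8] at h e2; nlinarith

theorem Rk_le_one {n : Fin 2 → Euc 2 → ℝ} (hn : ∀ x, n 0 x ^ 2 + n 1 x ^ 2 ≤ 1) (z w : Euc 2) :
    Rk n z w ≤ 1 := by
  have := (refl_alg (p := z 0 - w 0) (q := z 1 - w 1) (hn z) (hn w)).1
  simpa [Rk, Qd, s] using this

/-- the reflection relation -/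
def Refl (n : Fin 2 → Euc 2 → ℝ) (z w : Euc 2) : Prop :=
  n 0 z = n 0 w - 2 * (n 0 w * (z 0 - w 0) + n 1 w * (z 1 - w 1)) * (z 0 - w 0) /
      ((z 0 - w 0) ^ 2 + (z 1 - w 1) ^ 2) ∧
  n 1 z = n 1 w - 2 * (n 0 w * (z 0 - w 0) + n 1 w * (z 1 - w 1)) * (z 1 - w 1) /
      ((z 0 - w 0) ^ 2 + (z 1 - w 1) ^ 2) ∧
  n 0 z ^ 2 + n 1 z ^ 2 = 1 ∧ n 0 w ^ 2 + n 1 w ^ 2 = 1

theorem refl_of_Rk {n : Fin 2 → Euc 2 → ℝ} (hn : ∀ x, n 0 x ^ 2 + n 1 x ^ 2 ≤ 1) {z w : Euc 2}
    (h : Rk n z w = 1) : Refl n z w := by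
  refine (refl_alg (p := z 0 - w 0) (q := z 1 - w 1) (hn z) (hn w)).2 ?_
  simpa [Rk, Qd, s] using h

/-- **equality case**: if the length is at most `2πr` and the area is `πr²`, the reflection
relation holds almost everywhere and the length is `2πr`. -/
theorem equality (hA : IsOpen A) (hb : Bornology.IsBounded A) {r : ℝ} (hr : 0 < r)
    (hvol : volume A = ENNReal.ofReal (Real.pi * r ^ 2))
    (hlen : μHE[1] (frontier A) ≤ ENNReal.ofReal (2 * Real.pi * r))
    {n : Fin 2 → Euc 2 → ℝ} (hn : IsNormal A n) :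
    (tau A).real univ = 2 * Real.pi * r ∧
      ∀ᵐ w ∂(tau A), ∀ᵐ z ∂(tau A), Refl n z w := by
  have hfin : μHE[1] (frontier A) ≠ ∞ := ne_top_of_le_ne_top ENNReal.ofReal_ne_top hlen
  have hτ := isFinite_tau hfin
  have hpi := Real.pi_pos
  have hu : (tau A).real univ ≤ 2 * Real.pi * r := by
    rw [Measure.real, tau, Measure.restrict_apply_univ]
    exact ENNReal.toReal_le_of_le_ofReal (by positivity) hlen
  have hid := ident hA hb hfin hn
  rw [hvol, ENNReal.toReal_ofReal (by positivity)] at hid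
  have hintQ : Integrable (fun p : Euc 2 × Euc 2 => Qd 0 n p.1 p.2) ((tau A).prod (tau A)) :=
    Integrable.of_bound (measurable_Qd 0 hn.1).aestronglyMeasurable 1
      (Eventually.of_forall fun p => abs_Qd_le 0 hn.2.1 p.1 p.2)
  have hbm : ∀ i, ∀ x, |n i x| ≤ 1 := by
    intro i x
    have := hn.2.1 x
    rw [← sq_le_one_iff_abs_le_one]
    fin_cases i
    · simp only [Fin.zero_eta]; nlinarith [sq_nonneg (n 1 x)]
    · simp only [Fin.mk_one]; nlinarith [sq_nonneg (n 0 x)]
  have hintn : ∀ i, Integrable (n i) (tau A) := fun i =>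
    Integrable.of_bound (hn.1 i).aestronglyMeasurable 1 (Eventually.of_forall fun x => hbm i x)
  have hprod : ∀ i, Integrable (fun p : Euc 2 × Euc 2 => n i p.1 * n i p.2)
      ((tau A).prod (tau A)) := fun i => (hintn i).mul_prod (hintn i)
  have hprod0 : ∀ i, ∫ p : Euc 2 × Euc 2, n i p.1 * n i p.2 ∂((tau A).prod (tau A)) = 0 := by
    intro i
    rw [integral_prod_mul, mean_zero hn i, zero_mul]
  have hR : ∫ p, (1 - Rk n p.1 p.2) ∂((tau A).prod (tau A)) =
      (tau A).real univ ^ 2 - 4 * Real.pi * (Real.pi * r ^ 2) := by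
    have e1 : (fun p : Euc 2 × Euc 2 => 1 - Rk n p.1 p.2) = fun p =>
        1 - ((n 0 p.1 * n 0 p.2 + n 1 p.1 * n 1 p.2) - 2 * Qd 0 n p.1 p.2) := rfl
    have i3 : Integrable (fun p : Euc 2 × Euc 2 => n 0 p.1 * n 0 p.2 + n 1 p.1 * n 1 p.2)
      ((tau A).prod (tau A)) := (hprod 0).add (hprod 1)
    have i4 : Integrable (fun p : Euc 2 × Euc 2 => 2 * Qd 0 n p.1 p.2)
      ((tau A).prod (tau A)) := hintQ.const_mul 2
    have i5 : Integrable (fun p : Euc 2 × Euc 2 =>
      (n 0 p.1 * n 0 p.2 + n 1 p.1 * n 1 p.2) - 2 * Qd 0 n p.1 p.2)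
      ((tau A).prod (tau A)) := i3.sub i4
    rw [e1, integral_sub (integrable_const _) i5, integral_sub i3 i4,
      integral_add (hprod 0) (hprod 1), hprod0, hprod0, integral_const_mul, integral_prod _ hintQ,
      hid, integral_const]
    have e2 : ((tau A).prod (tau A)).real univ = (tau A).real univ ^ 2 := by
      rw [Measure.real, ← univ_prod_univ, Measure.prod_prod, ENNReal.toReal_mul, sq]; rfl
    rw [e2]
    simp only [smul_eq_mul]
    ring
  have hnn : 0 ≤ ∫ p, (1 - Rk n p.1 p.2) ∂((tau A).prod (tau A)) :=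
    integral_nonneg fun p => by
      have := Rk_le_one hn.2.1 p.1 p.2
      simp only [Pi.zero_apply]; linarith
  have h0 : (tau A).real univ = 2 * Real.pi * r := by
    apply le_antisymm hu
    rw [hR] at hnn
    have h1 : (2 * Real.pi * r) ^ 2 ≤ (tau A).real univ ^ 2 := by nlinarith
    exact abs_le_of_sq_le_sq' h1 measureReal_nonneg |>.2
  refine ⟨h0, ?_⟩
  have hzero : ∫ p, (1 - Rk n p.1 p.2) ∂((tau A).prod (tau A)) = 0 := by
    rw [hR, h0]; ring
  have hintR : Integrable (fun p : Euc 2 × Euc 2 => 1 - Rk n p.1 p.2)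
      ((tau A).prod (tau A)) :=
    (integrable_const _).sub (((hprod 0).add (hprod 1)).sub (hintQ.const_mul 2))
  have hae : ∀ᵐ p ∂((tau A).prod (tau A)), Rk n p.1 p.2 = 1 := by
    have := (integral_eq_zero_iff_of_nonneg (fun p => by
      have := Rk_le_one hn.2.1 p.1 p.2
      simp only [Pi.zero_apply]; linarith) hintR).1 hzero
    filter_upwards [this] with p hp
    simp only [Pi.zero_apply] at hp
    linarith
  have hae' : ∀ᵐ p ∂((tau A).prod (tau A)), Rk n p.2 p.1 = 1 := by
    have := (Measure.measurePreserving_swap (μ := tau A) (ν := tau A)).quasiMeasurePreserving.ae hae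
    exact this
  filter_upwards [Measure.ae_ae_of_ae_prod hae'] with w hw
  filter_upwards [hw] with z hz
  exact refl_of_Rk hn.2.1 hz

end Crest.Agent.R241.LPx
end
end

-- ▼ part R241/LPe
section

/-!
R241, block L-P (helper861): equality case of the planar isoperimetric inequality.
Part e: plane geometry and `PlanarEq`.
-/

set_option autoImplicit false

open MeasureTheory MeasureTheory.Measure Metric Filter Set Topology
open scoped NNReal ENNReal RealInnerProductSpace ComplexConjugate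
open Crest.GeometryTopology.Submanifold (Euc)

noncomputable section

namespace Crest.Agent.R241.LPx

open G1

variable {A : Set (Euc 2)}

def toC (x : Euc 2) : ℂ := ⟨x 0, x 1⟩

def NC (n : Fin 2 → Euc 2 → ℝ) (x : Euc 2) : ℂ := ⟨n 0 x, n 1 x⟩

theorem toC_inj {x y : Euc 2} (h : toC x = toC y) : x = y := by
  have h0 := congrArg Complex.re h
  have h1 := congrArg Complex.im h
  ext i
  fin_cases i
  · exact h0
  · exact h1

theorem refl_C {n : Fin 2 → Euc 2 → ℝ} {z w : Euc 2} (h : Refl n z w) (hne : z ≠ w) :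
    NC n z * conj (toC z - toC w) = -(conj (NC n w) * (toC z - toC w)) ∧
      NC n z * conj (NC n z) = 1 ∧ NC n w * conj (NC n w) = 1 := by
  obtain ⟨h1, h2, h3, h4⟩ := h
  have hS : (z 0 - w 0) ^ 2 + (z 1 - w 1) ^ 2 ≠ 0 := by
    intro hS
    apply hne
    have a0 : z 0 - w 0 = 0 := by nlinarith [sq_nonneg (z 0 - w 0), sq_nonneg (z 1 - w 1)]
    have a1 : z 1 - w 1 = 0 := by nlinarith [sq_nonneg (z 0 - w 0), sq_nonneg (z 1 - w 1)]
    ext i
    fin_cases i
    · simp only [Fin.zero_eta]; linarith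
    · simp only [Fin.mk_one]; linarith
  refine ⟨?_, ?_, ?_⟩
  · apply Complex.ext
    · simp only [NC, toC, Complex.mul_re, Complex.sub_re, Complex.sub_im, Complex.conj_re,
        Complex.conj_im, Complex.neg_re]
      rw [h1, h2]
      field_simp
      ring
    · simp only [NC, toC, Complex.mul_im, Complex.sub_re, Complex.sub_im, Complex.conj_re,
        Complex.conj_im, Complex.neg_im]
      rw [h1, h2]
      field_simp
      ring
  · apply Complex.ext
    · simp only [NC, Complex.mul_re, Complex.conj_re, Complex.conj_im, Complex.one_re]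
      nlinarith
    · simp only [NC, Complex.mul_im, Complex.conj_re, Complex.conj_im, Complex.one_im]
      ring
  · apply Complex.ext
    · simp only [NC, Complex.mul_re, Complex.conj_re, Complex.conj_im, Complex.one_re]
      nlinarith
    · simp only [NC, Complex.mul_im, Complex.conj_re, Complex.conj_im, Complex.one_im]
      ring

/-- key relation between two base points. -/
theorem key_rel {NZ N0 N1 Q0 Q1 : ℂ} (hz : NZ * conj NZ = 1)
    (h0 : NZ * conj Q0 = -(conj N0 * Q0)) (h1 : NZ * conj Q1 = -(conj N1 * Q1)) :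
    conj Q0 * Q1 = conj N0 * N1 * (Q0 * conj Q1) := by
  have h1' : conj NZ * Q1 = -(N1 * conj Q1) := by
    have := congrArg conj h1
    simpa using this
  have : NZ * conj NZ * (conj Q0 * Q1) = conj N0 * N1 * (Q0 * conj Q1) := by
    calc NZ * conj NZ * (conj Q0 * Q1) = (NZ * conj Q0) * (conj NZ * Q1) := by ring
      _ = _ := by rw [h0, h1']; ring
  rwa [hz, one_mul] at this

/-- line case -/
theorem line_case {NZ N0 N1 Q0 U : ℂ} (hμ : conj N0 * N1 = 1) (hQ : Q0 ≠ 0)
    (hU : U ≠ 0) (h0 : NZ * conj Q0 = -(conj N0 * Q0))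
    (hk : conj Q0 * (Q0 - U) = conj N0 * N1 * (Q0 * conj (Q0 - U))) :
    NZ = -(conj N0 * U) / conj U := by
  have hU' : conj U ≠ 0 := by simpa using hU
  rw [hμ, one_mul, map_sub] at hk
  have h2 : conj Q0 * U = Q0 * conj U := by linear_combination -hk
  rw [eq_div_iff hU']
  have h3 : NZ * (Q0 * conj U) = -(conj N0 * Q0 * U) := by
    rw [← h2]
    calc NZ * (conj Q0 * U) = (NZ * conj Q0) * U := by ring
      _ = _ := by rw [h0]; ring
  have h4 : Q0 * (NZ * conj U + conj N0 * U) = 0 := by linear_combination h3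
  rcases mul_eq_zero.1 h4 with h | h
  · exact absurd h hQ
  · linear_combination h

/-- circle case -/
theorem circle_case {NZ N0 μ Q0 u0 : ℂ} (hμ : μ * conj μ = 1) (hμ1 : μ ≠ 1) (hQ : Q0 ≠ 0)
    (hu : u0 ≠ 0) (h0 : NZ * conj Q0 = -(conj N0 * Q0))
    (hk : conj Q0 * (Q0 + (1 - μ) * u0) = μ * (Q0 * conj (Q0 + (1 - μ) * u0))) :
    (Q0 + u0) * conj (Q0 + u0) = u0 * conj u0 ∧ NZ = conj N0 / conj u0 * (Q0 + u0) := by
  have hu' : conj u0 ≠ 0 := by simpa using hu
  have hQ' : conj Q0 ≠ 0 := by simpa using hQ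
  have h1 : (1 - μ) ≠ 0 := sub_ne_zero.2 (Ne.symm hμ1)
  simp only [map_add, map_mul, map_sub, map_one] at hk
  have h2 : (1 - μ) * (Q0 * conj Q0 + conj Q0 * u0 + Q0 * conj u0) = 0 := by
    linear_combination hk - Q0 * conj u0 * hμ
  have h3 : Q0 * conj Q0 + conj Q0 * u0 + Q0 * conj u0 = 0 := by
    rcases mul_eq_zero.1 h2 with h | h
    · exact absurd h h1
    · exact h
  refine ⟨?_, ?_⟩
  · simp only [map_add]
    linear_combination h3
  · have h4 : NZ * conj u0 = conj N0 * (Q0 + u0) := by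
      have : conj Q0 * (NZ * conj u0 - conj N0 * (Q0 + u0)) = 0 := by
        linear_combination conj u0 * h0 - conj N0 * h3
      rcases mul_eq_zero.1 this with h | h
      · exact absurd h hQ'
      · linear_combination h
    rw [div_mul_eq_mul_div, eq_div_iff hu', h4]

theorem tau_singleton (x : Euc 2) : tau A {x} = 0 := by
  have h1 : μHE[1] ({x} : Set (Euc 2)) = 0 := by
    rcases euclideanHausdorffMeasure_zero_or_top (d₁ := 0) (d₂ := 1) (by norm_num)
      ({x} : Set (Euc 2)) with h | h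
    · exact h
    · rw [euclideanHausdorffMeasure_zero] at h
      simp at h
  exact le_antisymm ((Measure.restrict_apply_le _ _).trans h1.le) bot_le

theorem fderiv_coord (c : ℝ) (i j : Fin 2) (x : Euc 2) :
    fderiv ℝ (fun y : Euc 2 => y i - c) x (e j) = if i = j then 1 else 0 := by
  have h1 : ContDiff ℝ 1 (fun y : Euc 2 => y i - c) := by fun_prop
  apply fderiv_line h1
  by_cases h : i = j
  · subst h
    simp only [if_true]
    have : (fun t : ℝ => (x + t • e i) i - c) = fun t => x i + t - c := by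
      funext t; simp [e]
    rw [this]
    simpa using ((hasDerivAt_id (0 : ℝ)).const_add (x i)).sub_const c
  · simp only [if_neg h]
    have : (fun t : ℝ => (x + t • e j) i - c) = fun t => x i - c := by
      funext t; simp [e, h]
    rw [this]
    exact hasDerivAt_const _ _

theorem NC_re (n : Fin 2 → Euc 2 → ℝ) (x : Euc 2) : (NC n x).re = n 0 x := rfl
theorem NC_im (n : Fin 2 → Euc 2 → ℝ) (x : Euc 2) : (NC n x).im = n 1 x := rfl

/-- the normal cannot be constant -/
theorem not_const (hvol0 : 0 < (volume A).toReal)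
    {n : Fin 2 → Euc 2 → ℝ} (hn : IsNormal A n) {N' : ℂ} (hN' : N' * conj N' = 1)
    (hc : ∀ᵐ z ∂(tau A), NC n z = N') : False := by
  have hN1 : N'.re ^ 2 + N'.im ^ 2 = 1 := by
    have := congrArg Complex.re hN'
    simp only [Complex.mul_re, Complex.conj_re, Complex.conj_im, Complex.one_re] at this
    nlinarith
  have h := hn.2.2 (fun i x => (if i = 0 then -N'.im else N'.re) * (-N'.im * x 0 + N'.re * x 1))
    (fun i => by fun_prop)
  have hL : ∀ c : ℝ, ∀ (x : Euc 2) (i : Fin 2),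
      fderiv ℝ (fun x : Euc 2 => c * (-N'.im * x 0 + N'.re * x 1)) x (e i) =
        c * (if i = 0 then -N'.im else N'.re) := by
    intro c x i
    have hcd : ContDiff ℝ 1 (fun x : Euc 2 => c * (-N'.im * x 0 + N'.re * x 1)) := by fun_prop
    apply fderiv_line hcd
    fin_cases i
    · have : (fun t : ℝ => c * (-N'.im * (x + t • e 0) 0 + N'.re * (x + t • e 0) 1)) =
          fun t => c * (-N'.im) * t + c * (-N'.im * x 0 + N'.re * x 1) := by
        funext t; simp [e]; ring
      simp only [Fin.zero_eta, if_true]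
      rw [this]
      simpa using ((hasDerivAt_id (0 : ℝ)).const_mul (c * (-N'.im))).add_const
        (c * (-N'.im * x 0 + N'.re * x 1))
    · have : (fun t : ℝ => c * (-N'.im * (x + t • e 1) 0 + N'.re * (x + t • e 1) 1)) =
          fun t => c * N'.re * t + c * (-N'.im * x 0 + N'.re * x 1) := by
        funext t; simp [e]; ring
      simp only [Fin.mk_one, one_ne_zero, if_false]
      rw [this]
      simpa using ((hasDerivAt_id (0 : ℝ)).const_mul (c * N'.re)).add_const
        (c * (-N'.im * x 0 + N'.re * x 1))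
  simp only [hL, if_true, one_ne_zero, if_false] at h
  have h1 : ∫ _ in A, (-N'.im * -N'.im + N'.re * N'.re) = (volume A).toReal := by
    have : (-N'.im * -N'.im + N'.re * N'.re) = 1 := by nlinarith
    rw [this]
    simp [Measure.real]
  rw [h1] at h
  have h2 : ∫ x, (-N'.im * (-N'.im * x 0 + N'.re * x 1) * n 0 x +
      N'.re * (-N'.im * x 0 + N'.re * x 1) * n 1 x) ∂(tau A) = 0 := by
    rw [← integral_zero (Euc 2) ℝ (μ := tau A)]
    refine integral_congr_ae ?_
    filter_upwards [hc] with z hz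
    have e0 : n 0 z = N'.re := congrArg Complex.re hz
    have e1 : n 1 z = N'.im := congrArg Complex.im hz
    simp only [e0, e1]
    ring
  rw [h2] at h
  linarith

/-- the normal of a circle -/
theorem circle_end (hA : IsOpen A) (hb : Bornology.IsBounded A) {r : ℝ} (hr : 0 < r)
    (hvol : volume A = ENNReal.ofReal (Real.pi * r ^ 2))
    (hτf : IsFiniteMeasure (tau A)) (hτ : (tau A).real univ = 2 * Real.pi * r)
    {n : Fin 2 → Euc 2 → ℝ} (hn : IsNormal A n) {θ : ℂ} {c : Euc 2} {ρ2 : ℝ}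
    (hθ : (θ.re ^ 2 + θ.im ^ 2) * ρ2 = 1)
    (hc : ∀ᵐ z ∂(tau A), (z 0 - c 0) ^ 2 + (z 1 - c 1) ^ 2 = ρ2 ∧
      NC n z = θ * (toC z - toC c)) :
    volume (symmDiff A (ball c r)) = 0 := by
  have hpi := Real.pi_pos
  have hnn : ∀ᵐ z ∂(tau A), (z 0 - c 0) ^ 2 + (z 1 - c 1) ^ 2 = ρ2 ∧
      n 0 z = θ.re * (z 0 - c 0) - θ.im * (z 1 - c 1) ∧
      n 1 z = θ.re * (z 1 - c 1) + θ.im * (z 0 - c 0) := by
    filter_upwards [hc] with z hz
    refine ⟨hz.1, ?_, ?_⟩
    · have := congrArg Complex.re hz.2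
      rw [NC_re] at this
      rw [this]; simp [toC]
    · have := congrArg Complex.im hz.2
      rw [NC_im] at this
      rw [this]; simp [toC]
  have hcst : ∀ K : ℝ, ∫ _ : Euc 2, K ∂(tau A) = K * (2 * Real.pi * r) := by
    intro K; rw [integral_const, hτ, smul_eq_mul, mul_comm]
  -- radial field
  have hrad := hn.2.2 (fun i x => x i - c i) (fun i => by fun_prop)
  simp only [fderiv_coord, if_true] at hrad
  have e1 : ∫ _ in A, ((1 : ℝ) + 1) = 2 * (Real.pi * r ^ 2) := by
    rw [integral_const, Measure.real, Measure.restrict_apply_univ, hvol,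
      ENNReal.toReal_ofReal (by positivity), smul_eq_mul]; ring
  have e2 : ∫ x, ((x 0 - c 0) * n 0 x + (x 1 - c 1) * n 1 x) ∂(tau A) =
      θ.re * ρ2 * (2 * Real.pi * r) := by
    rw [← hcst]
    refine integral_congr_ae ?_
    filter_upwards [hnn] with z hz
    rw [hz.2.1, hz.2.2, ← hz.1]
    ring
  rw [e1, e2] at hrad
  -- rotation field
  have hrot := hn.2.2 (fun i x => if i = 0 then -(x 1 - c 1) else x 0 - c 0)
    (fun i => by split_ifs <;> fun_prop)
  simp only [if_true, one_ne_zero, if_false] at hrot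
  have e3 : ∀ x : Euc 2, fderiv ℝ (fun y : Euc 2 => -(y 1 - c 1)) x (e 0) = 0 := by
    intro x
    rw [fderiv_fun_neg, _root_.neg_apply, fderiv_coord]
    simp
  have e4 : ∀ x : Euc 2, fderiv ℝ (fun y : Euc 2 => (y 0 - c 0)) x (e 1) = 0 := by
    intro x; rw [fderiv_coord]; simp
  simp only [e3, e4, add_zero, integral_zero] at hrot
  have e5 : ∫ x, (-(x 1 - c 1) * n 0 x + (x 0 - c 0) * n 1 x) ∂(tau A) =
      θ.im * ρ2 * (2 * Real.pi * r) := by
    rw [← hcst]
    refine integral_congr_ae ?_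
    filter_upwards [hnn] with z hz
    rw [hz.2.1, hz.2.2, ← hz.1]
    ring
  rw [e5] at hrot
  have hρ0 : ρ2 ≠ 0 := by rintro rfl; simp at hθ
  have him : θ.im = 0 := by
    have h1 : θ.im * ρ2 = 0 := by
      have : (2 * Real.pi * r) ≠ 0 := by positivity
      rcases mul_eq_zero.1 hrot.symm with h | h
      · exact h
      · exact absurd h this
    rcases mul_eq_zero.1 h1 with h | h
    · exact h
    · exact absurd h hρ0
  have hre : θ.re * ρ2 = r := by
    have : (2 * Real.pi * r) * (θ.re * ρ2 - r) = 0 := by nlinarith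
    rcases mul_eq_zero.1 this with h | h
    · exact absurd h (by positivity)
    · linarith
  have hρ : ρ2 = r ^ 2 := by
    rw [him] at hθ
    have : (θ.re * ρ2) ^ 2 = ρ2 := by
      calc (θ.re * ρ2) ^ 2 = (θ.re ^ 2 + 0 ^ 2) * ρ2 * ρ2 := by ring
        _ = ρ2 := by rw [hθ, one_mul]
    rw [hre] at this
    exact this.symm
  subst hρ
  -- outer field
  let g : ℝ → ℝ := expNegInvGlue
  have hg : ContDiff ℝ 1 g := expNegInvGlue.contDiff (n := 1)
  have hgd : ∀ y, HasDerivAt g (deriv g y) y := fun y =>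
    (hg.differentiable (by simp) y).hasDerivAt
  have hg' : ∀ y, 0 ≤ deriv g y := fun y => by
    exact (expNegInvGlue.monotone).deriv_nonneg
  let G : Euc 2 → ℝ := fun x => g ((x 0 - c 0) ^ 2 + (x 1 - c 1) ^ 2 - r ^ 2)
  have hGc : ContDiff ℝ 1 G := by
    refine hg.comp ?_
    fun_prop
  have hG0 : ∀ x, 0 ≤ G x := fun x => expNegInvGlue.nonneg _
  have hV := hn.2.2 (fun i x => G x * (x i - c i)) (fun i => by
    refine hGc.mul ?_
    fun_prop)
  have hdiv : ∀ x : Euc 2, fderiv ℝ (fun x => G x * (x 0 - c 0)) x (e 0) +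
      fderiv ℝ (fun x => G x * (x 1 - c 1)) x (e 1) =
      2 * G x + 2 * deriv g ((x 0 - c 0) ^ 2 + (x 1 - c 1) ^ 2 - r ^ 2) *
        ((x 0 - c 0) ^ 2 + (x 1 - c 1) ^ 2) := by
    intro x
    have key : ∀ p q : ℝ, HasDerivAt (fun t : ℝ => g ((p + t) ^ 2 + q ^ 2 - r ^ 2) * (p + t))
        (deriv g (p ^ 2 + q ^ 2 - r ^ 2) * (2 * p) * p + g (p ^ 2 + q ^ 2 - r ^ 2)) 0 := by
      intro p q
      have d1 : HasDerivAt (fun t : ℝ => p + t) 1 0 := by
        simpa using (hasDerivAt_id (0 : ℝ)).const_add p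
      have d2 : HasDerivAt (fun t : ℝ => (p + t) ^ 2 + q ^ 2 - r ^ 2) (2 * p) 0 := by
        have := ((d1.pow 2).add_const (q ^ 2)).sub_const (r ^ 2)
        simpa using this
      have d3 : HasDerivAt (fun t : ℝ => g ((p + t) ^ 2 + q ^ 2 - r ^ 2))
          (deriv g (p ^ 2 + q ^ 2 - r ^ 2) * (2 * p)) 0 := by
        have h0 : HasDerivAt g (deriv g (p ^ 2 + q ^ 2 - r ^ 2)) ((p + 0) ^ 2 + q ^ 2 - r ^ 2) := by
          rw [add_zero]; exact hgd _
        exact h0.comp (0 : ℝ) d2
      have d4 := d3.mul d1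
      refine d4.congr_deriv ?_
      simp
    let D : ℝ → ℝ → ℝ := fun p q =>
      deriv g (p ^ 2 + q ^ 2 - r ^ 2) * (2 * p) * p + g (p ^ 2 + q ^ 2 - r ^ 2)
    have f0 : fderiv ℝ (fun x => G x * (x 0 - c 0)) x (e 0) = D (x 0 - c 0) (x 1 - c 1) := by
      apply fderiv_line (hGc.mul (by fun_prop))
      have : (fun t : ℝ => G (x + t • e 0) * ((x + t • e 0) 0 - c 0)) =
          fun t => g (((x 0 - c 0) + t) ^ 2 + (x 1 - c 1) ^ 2 - r ^ 2) * ((x 0 - c 0) + t) := by
        funext t
        simp only [G, e, PiLp.add_apply, PiLp.smul_apply, smul_eq_mul]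
        simp
        ring_nf
      rw [this]
      exact key _ _
    have f1 : fderiv ℝ (fun x => G x * (x 1 - c 1)) x (e 1) = D (x 1 - c 1) (x 0 - c 0) := by
      apply fderiv_line (hGc.mul (by fun_prop))
      have : (fun t : ℝ => G (x + t • e 1) * ((x + t • e 1) 1 - c 1)) =
          fun t => g (((x 1 - c 1) + t) ^ 2 + (x 0 - c 0) ^ 2 - r ^ 2) * ((x 1 - c 1) + t) := by
        funext t
        simp only [G, e, PiLp.add_apply, PiLp.smul_apply, smul_eq_mul]
        simp
        ring_nf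
      rw [this]
      exact key _ _
    rw [f0, f1]
    simp only [D]
    have : (x 1 - c 1) ^ 2 + (x 0 - c 0) ^ 2 - r ^ 2 = (x 0 - c 0) ^ 2 + (x 1 - c 1) ^ 2 - r ^ 2 := by
      ring
    rw [this]
    simp only [G]
    ring
  simp only [hdiv] at hV
  have hR : ∫ x, (G x * (x 0 - c 0) * n 0 x + G x * (x 1 - c 1) * n 1 x) ∂(tau A) = 0 := by
    rw [← integral_zero (Euc 2) ℝ (μ := tau A)]
    refine integral_congr_ae ?_
    filter_upwards [hnn] with z hz
    have : G z = 0 := by
      simp only [G]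
      rw [hz.1]
      exact expNegInvGlue.zero_of_nonpos (by simp)
    rw [this]; ring
  rw [hR] at hV
  have hdc : Continuous (deriv g) := hg.continuous_deriv (by simp)
  have hFc : Continuous (fun x : Euc 2 => 2 * G x +
      2 * deriv g ((x 0 - c 0) ^ 2 + (x 1 - c 1) ^ 2 - r ^ 2) *
        ((x 0 - c 0) ^ 2 + (x 1 - c 1) ^ 2)) := by
    have := hGc.continuous
    have h2 : Continuous (fun x : Euc 2 => deriv g ((x 0 - c 0) ^ 2 + (x 1 - c 1) ^ 2 - r ^ 2)) :=
      hdc.comp (by fun_prop)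
    fun_prop
  have hFi : IntegrableOn (fun x : Euc 2 => 2 * G x +
      2 * deriv g ((x 0 - c 0) ^ 2 + (x 1 - c 1) ^ 2 - r ^ 2) *
        ((x 0 - c 0) ^ 2 + (x 1 - c 1) ^ 2)) A := by
    obtain ⟨R, hR⟩ := hb.subset_closedBall 0
    exact (hFc.continuousOn.integrableOn_compact (isCompact_closedBall _ _)).mono_set hR
  have hF0 : ∀ x : Euc 2, 0 ≤ 2 * G x +
      2 * deriv g ((x 0 - c 0) ^ 2 + (x 1 - c 1) ^ 2 - r ^ 2) *
        ((x 0 - c 0) ^ 2 + (x 1 - c 1) ^ 2) := by
    intro x
    have h1 := hG0 x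
    have h2 := hg' ((x 0 - c 0) ^ 2 + (x 1 - c 1) ^ 2 - r ^ 2)
    positivity
  have hae := (setIntegral_eq_zero_iff_of_nonneg_ae (Eventually.of_forall hF0) hFi).1 hV
  have hdist : ∀ x : Euc 2, dist x c ^ 2 = (x 0 - c 0) ^ 2 + (x 1 - c 1) ^ 2 := by
    intro x
    rw [EuclideanSpace.dist_eq, Real.sq_sqrt (by positivity)]
    simp [Fin.sum_univ_two, Real.dist_eq, sq_abs]
  have hout : volume (A \ closedBall c r) = 0 := by
    rw [EventuallyEq, ae_restrict_iff' hA.measurableSet, ae_iff] at hae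
    refine measure_mono_null ?_ hae
    rintro x ⟨hxA, hxB⟩
    simp only [mem_ofPred_eq, Classical.not_imp, Pi.zero_apply]
    refine ⟨hxA, ?_⟩
    have h1 : r < dist x c := by simpa [mem_closedBall] using hxB
    have h2 : r ^ 2 < (x 0 - c 0) ^ 2 + (x 1 - c 1) ^ 2 := by
      rw [← hdist]; exact pow_lt_pow_left₀ h1 hr.le (by norm_num)
    have h3 : 0 < G x := expNegInvGlue.pos_of_pos (by linarith)
    have h4 := hg' ((x 0 - c 0) ^ 2 + (x 1 - c 1) ^ 2 - r ^ 2)
    have h5 : 0 < 2 * G x + 2 * deriv g ((x 0 - c 0) ^ 2 + (x 1 - c 1) ^ 2 - r ^ 2) *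
        ((x 0 - c 0) ^ 2 + (x 1 - c 1) ^ 2) := by positivity
    exact h5.ne'
  have hball : volume (ball c r) = ENNReal.ofReal (Real.pi * r ^ 2) := by
    rw [EuclideanSpace.volume_ball_fin_two, ← ENNReal.ofReal_pow hr.le,
      ← ENNReal.ofReal_mul (by positivity), mul_comm]
  have h1 : volume (A \ ball c r) = 0 := by
    have : A \ ball c r ⊆ (A \ closedBall c r) ∪ sphere c r := by
      rintro x ⟨hx, hx'⟩
      by_cases h : x ∈ closedBall c r
      · right
        rw [mem_sphere]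
        rw [mem_closedBall] at h
        rw [mem_ball, not_lt] at hx'
        exact le_antisymm h hx'
      · exact Or.inl ⟨hx, h⟩
    refine measure_mono_null this (measure_union_null hout ?_)
    exact Measure.addHaar_sphere_of_ne_zero _ _ hr.ne'
  have h2 : volume (ball c r \ A) = 0 := by
    have e6 : volume (A ∩ ball c r) = volume A := by
      have := measure_inter_add_sdiff (μ := volume) A (measurableSet_ball (x := c) (ε := r))
      rw [h1, add_zero] at this
      exact this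
    have e7 := measure_inter_add_sdiff (μ := volume) (ball c r) hA.measurableSet
    rw [inter_comm, e6, hvol, hball] at e7
    have hne : ENNReal.ofReal (Real.pi * r ^ 2) ≠ ∞ := ENNReal.ofReal_ne_top
    exact (ENNReal.add_right_inj hne).1 (by rw [e7, add_zero])
  rw [Set.symmDiff_def]
  exact measure_union_null h1 h2

/-- **Equality case of the planar isoperimetric inequality.** -/
theorem planarEq : LTargets.PlanarEq := by
  intro A r hA hb hr hvol hlen
  have hpi := Real.pi_pos
  have hfin : μHE[1] (frontier A) ≠ ∞ := ne_top_of_le_ne_top ENNReal.ofReal_ne_top hlen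
  have hτf := isFinite_tau hfin
  obtain ⟨n, hn⟩ : ∃ n, IsNormal A n := exists_normal hA hb hfin
  obtain ⟨hτ, hrefl⟩ := equality hA hb hr hvol hlen hn
  have hτpos : 0 < (tau A).real univ := by rw [hτ]; positivity
  have hτne : tau A ≠ 0 := by
    rintro h; rw [h] at hτpos; simp at hτpos
  have hne : (ae (tau A)).NeBot := ae_neBot.2 hτne
  have hat : ∀ x, ∀ᵐ z ∂(tau A), z ≠ x := by
    intro x
    rw [ae_iff]
    simpa using tau_singleton (A := A) x
  obtain ⟨w0, hw0⟩ := hrefl.exists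
  obtain ⟨w1, hw1, hw10⟩ := (hrefl.and (hat w0)).exists
  -- everything needed at a generic point
  have hgen : ∀ᵐ z ∂(tau A), Refl n z w0 ∧ Refl n z w1 ∧ z ≠ w0 ∧ z ≠ w1 := by
    filter_upwards [hw0, hw1, hat w0, hat w1] with z h1 h2 h3 h4
    exact ⟨h1, h2, h3, h4⟩
  obtain ⟨z0, hz0⟩ := hgen.exists
  have hN0 : NC n w0 * conj (NC n w0) = 1 := (refl_C hz0.1 hz0.2.2.1).2.2
  have hN1 : NC n w1 * conj (NC n w1) = 1 := (refl_C hz0.2.1 hz0.2.2.2).2.2
  have hN0' : NC n w0 ≠ 0 := by intro h; rw [h] at hN0; simp at hN0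
  have hvol0 : 0 < (volume A).toReal := by
    rw [hvol, ENNReal.toReal_ofReal (by positivity)]; positivity
  have hU : toC w1 - toC w0 ≠ 0 := by
    intro h
    exact hw10 (toC_inj (sub_eq_zero.1 h))
  by_cases hμ1 : conj (NC n w0) * NC n w1 = 1
  · -- line
    exfalso
    refine not_const hvol0 hn
      (N' := -(conj (NC n w0) * (toC w1 - toC w0)) / conj (toC w1 - toC w0)) ?_ ?_
    · have hU' : conj (toC w1 - toC w0) ≠ 0 := (map_ne_zero _).2 hU
      rw [map_div₀, map_neg, map_mul, Complex.conj_conj, Complex.conj_conj]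
      field_simp
      linear_combination hN0
    · filter_upwards [hgen] with z hz
      obtain ⟨r0, r1, ne0, ne1⟩ := hz
      obtain ⟨c0, cz, -⟩ := refl_C r0 ne0
      obtain ⟨c1, -, -⟩ := refl_C r1 ne1
      have hQ : toC z - toC w0 ≠ 0 := fun h => ne0 (toC_inj (sub_eq_zero.1 h))
      have hk := key_rel cz c0 c1
      have e1 : toC z - toC w1 = (toC z - toC w0) - (toC w1 - toC w0) := by ring
      rw [e1] at hk
      exact line_case hμ1 hQ hU c0 hk
  · -- circle
    set μ := conj (NC n w0) * NC n w1 with hμ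
    have hμμ : μ * conj μ = 1 := by
      rw [hμ, map_mul, Complex.conj_conj]
      calc conj (NC n w0) * NC n w1 * (NC n w0 * conj (NC n w1))
          = (NC n w0 * conj (NC n w0)) * (NC n w1 * conj (NC n w1)) := by ring
        _ = 1 := by rw [hN0, hN1, one_mul]
    have h1μ : 1 - μ ≠ 0 := sub_ne_zero.2 (Ne.symm hμ1)
    set u0 : ℂ := (toC w0 - toC w1) / (1 - μ) with hu0
    have hu : u0 ≠ 0 := by
      rw [hu0]
      apply div_ne_zero _ h1μ
      rw [← neg_ne_zero, neg_sub]; exact hU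
    have hu1 : (1 - μ) * u0 = toC w0 - toC w1 := by rw [hu0]; field_simp
    let cC : ℂ := toC w0 - u0
    let c : Euc 2 := !₂[cC.re, cC.im]
    have hcC : toC c = cC := by
      apply Complex.ext <;> simp [toC, c]
    have hu' : conj u0 ≠ 0 := by simpa using hu
    refine ⟨c, circle_end hA hb hr hvol hτf hτ hn (θ := conj (NC n w0) / conj u0) (c := c)
      (ρ2 := Complex.normSq u0) ?_ ?_⟩
    · have h1 : (conj (NC n w0) / conj u0).re ^ 2 + (conj (NC n w0) / conj u0).im ^ 2 =
          Complex.normSq (conj (NC n w0) / conj u0) := by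
        rw [Complex.normSq_apply]; ring
      have h2 : Complex.normSq (NC n w0) = 1 := by
        have := hN0
        rw [Complex.mul_conj] at this
        exact_mod_cast this
      have h3 : Complex.normSq u0 ≠ 0 := by simpa using hu
      rw [h1, Complex.normSq_div, Complex.normSq_conj, Complex.normSq_conj, h2]
      field_simp
    · filter_upwards [hgen] with z hz
      obtain ⟨r0, r1, ne0, ne1⟩ := hz
      obtain ⟨c0, cz, -⟩ := refl_C r0 ne0
      obtain ⟨c1, -, -⟩ := refl_C r1 ne1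
      have hQ : toC z - toC w0 ≠ 0 := fun h => ne0 (toC_inj (sub_eq_zero.1 h))
      have hk := key_rel cz c0 c1
      have e1 : toC z - toC w1 = (toC z - toC w0) + (1 - μ) * u0 := by rw [hu1]; ring
      rw [e1] at hk
      obtain ⟨k1, k2⟩ := circle_case hμμ hμ1 hQ hu c0 hk
      have e2 : toC z - toC w0 + u0 = toC z - toC c := by rw [hcC]; simp only [cC]; ring
      rw [e2] at k1 k2
      refine ⟨?_, k2⟩
      rw [Complex.mul_conj, Complex.mul_conj] at k1
      have k3 : Complex.normSq (toC z - toC c) = Complex.normSq u0 := by exact_mod_cast k1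
      rw [← k3, Complex.normSq_apply]
      simp only [toC, Complex.sub_re, Complex.sub_im]
      ring

end Crest.Agent.R241.LPx

/-- Stable name for the consumers. -/
theorem Crest.Agent.R241.LP.planarEq : Crest.Agent.R241.LTargets.PlanarEq :=
  Crest.Agent.R241.LPx.planarEq
end
end

-- ▼ part R241/Surf373a
section

/-!
# R241, block L-D (helper734): the surface case `n = 2` of S0373, part a.

The Fatou step, and the equality `W = 0` a.e. on `A × A` from the sharp Sobolev inequality.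
-/

set_option autoImplicit false

open MeasureTheory MeasureTheory.Measure Filter Topology Set
open scoped ENNReal NNReal ContDiff

namespace Crest.Agent.R241.Surf373

open Crest.GeometryTopology.Submanifold
open Crest.Agent.R241.LSob

lemma ae_ne_prod : ∀ᵐ q : Euc 2 × Euc 2 ∂((volume : Measure (Euc 2)).prod volume), q.1 ≠ q.2 := by
  have h : ((volume : Measure (Euc 2)).prod volume) {q | q.1 = q.2} = 0 := by
    have hm : MeasurableSet {q : Euc 2 × Euc 2 | q.1 = q.2} := measurableSet_diagonal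
    rw [Measure.measure_prod_null hm]
    refine Eventually.of_forall fun x => ?_
    have : Prod.mk x ⁻¹' {q : Euc 2 × Euc 2 | q.1 = q.2} = {x} := by
      ext y; simp [eq_comm]
    simp only [Pi.zero_apply, this, measure_singleton]
  rw [ae_iff]
  simpa using h

/-- The Fatou step. -/
theorem null_of_bounds {W : Euc 2 → Euc 2 → ℝ} {J : Euc 2 → ℝ}
    (hW : Measurable fun q : Euc 2 × Euc 2 => W q.1 q.2)
    (hW0 : ∀ z w, z ≠ w → 0 ≤ W z w) (hJm : Measurable J) (hJ : ∀ z, 0 < J z)
    {A : Set (Euc 2)} (hA : MeasurableSet A)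
    {u : ℕ → Euc 2 → ℝ} (hum : ∀ n, Measurable (u n))
    (he : ∀ n, ∫⁻ z, ENNReal.ofReal (|u n z - A.indicator (fun _ => (1 : ℝ)) z| * J z) ≤
      ENNReal.ofReal ((1 / 2) ^ n))
    (hD : Tendsto (fun n => ∫⁻ q : Euc 2 × Euc 2,
      ENNReal.ofReal (W q.1 q.2 * (u n q.1 * J q.1) * (u n q.2 * J q.2))
        ∂((volume : Measure (Euc 2)).prod volume)) atTop (𝓝 0)) :
    ∀ᵐ z ∂(volume.restrict A), ∀ᵐ w ∂(volume.restrict A), W z w = 0 := by
  -- almost everywhere convergence
  have hconv : ∀ᵐ z ∂(volume : Measure (Euc 2)),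
      Tendsto (fun n => u n z) atTop (𝓝 (A.indicator (fun _ => (1 : ℝ)) z)) := by
    have hmeas : ∀ n, Measurable fun z : Euc 2 =>
        ENNReal.ofReal (|u n z - A.indicator (fun _ => (1 : ℝ)) z| * J z) := fun n =>
      ((((hum n).sub (measurable_const.indicator hA)).abs).mul hJm).ennreal_ofReal
    have h1 : ∫⁻ z : Euc 2, ∑' n, ENNReal.ofReal (|u n z - A.indicator (fun _ => (1 : ℝ)) z| * J z)
        ≠ ⊤ := by
      rw [lintegral_tsum fun n => (hmeas n).aemeasurable]
      refine ne_top_of_le_ne_top ?_ (ENNReal.tsum_le_tsum he)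
      rw [← ENNReal.ofReal_tsum_of_nonneg (fun n => by positivity) summable_geometric_two]
      exact ENNReal.ofReal_ne_top
    have h2 := ae_lt_top (Measurable.tsum hmeas) h1
    filter_upwards [h2] with z hz
    have h3 := ENNReal.tendsto_atTop_zero_of_tsum_ne_top hz.ne
    have h4 : Tendsto (fun n => |u n z - A.indicator (fun _ => (1 : ℝ)) z| * J z) atTop
        (𝓝 0) := by
      have h5 := (ENNReal.tendsto_toReal ENNReal.zero_ne_top).comp h3
      simp only [ENNReal.toReal_zero] at h5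
      refine h5.congr fun n => ?_
      simp only [Function.comp]
      rw [ENNReal.toReal_ofReal (mul_nonneg (abs_nonneg _) (hJ z).le)]
    have h6 := h4.div_const (J z)
    simp only [mul_div_assoc, div_self (hJ z).ne', mul_one, zero_div] at h6
    rw [tendsto_iff_dist_tendsto_zero]
    simpa [Real.dist_eq] using h6
  -- Fatou
  set F : ℕ → Euc 2 × Euc 2 → ℝ≥0∞ := fun n q =>
    ENNReal.ofReal (W q.1 q.2 * (u n q.1 * J q.1) * (u n q.2 * J q.2)) with hF
  set G : Euc 2 × Euc 2 → ℝ := fun q => W q.1 q.2 *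
    (A.indicator (fun _ => (1 : ℝ)) q.1 * J q.1) * (A.indicator (fun _ => (1 : ℝ)) q.2 * J q.2)
    with hG
  have hFm : ∀ n, Measurable (F n) := by
    intro n
    refine Measurable.ennreal_ofReal ?_
    exact (hW.mul (((hum n).comp measurable_fst).mul (hJm.comp measurable_fst))).mul
      (((hum n).comp measurable_snd).mul (hJm.comp measurable_snd))
  have hlim : ∀ᵐ q ∂((volume : Measure (Euc 2)).prod volume),
      Tendsto (fun n => F n q) atTop (𝓝 (ENNReal.ofReal (G q))) := by
    have e1 := (quasiMeasurePreserving_fst (μ := (volume : Measure (Euc 2)))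
      (ν := (volume : Measure (Euc 2)))).ae hconv
    have e2 := (quasiMeasurePreserving_snd (μ := (volume : Measure (Euc 2)))
      (ν := (volume : Measure (Euc 2)))).ae hconv
    filter_upwards [e1, e2] with q h1 h2
    refine ENNReal.tendsto_ofReal ?_
    exact (tendsto_const_nhds.mul (h1.mul_const _)).mul (h2.mul_const _)
  have hfat : ∫⁻ q, ENNReal.ofReal (G q) ∂((volume : Measure (Euc 2)).prod volume) = 0 := by
    have h1 : ∫⁻ q, ENNReal.ofReal (G q) ∂((volume : Measure (Euc 2)).prod volume) =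
        ∫⁻ q, liminf (fun n => F n q) atTop ∂((volume : Measure (Euc 2)).prod volume) := by
      refine lintegral_congr_ae ?_
      filter_upwards [hlim] with q hq
      exact hq.liminf_eq.symm
    rw [h1]
    refine le_antisymm ?_ zero_le
    refine (lintegral_liminf_le hFm).trans ?_
    rw [hD.liminf_eq]
  have hGm : Measurable fun q => ENNReal.ofReal (G q) := by
    refine Measurable.ennreal_ofReal ?_
    have hi : Measurable (A.indicator (fun _ => (1 : ℝ))) := measurable_const.indicator hA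
    exact (hW.mul ((hi.comp measurable_fst).mul (hJm.comp measurable_fst))).mul
      ((hi.comp measurable_snd).mul (hJm.comp measurable_snd))
  have hzero := (lintegral_eq_zero_iff hGm).1 hfat
  have hfin : ∀ᵐ q ∂((volume : Measure (Euc 2)).prod volume), q.1 ∈ A → q.2 ∈ A →
      W q.1 q.2 = 0 := by
    filter_upwards [hzero, ae_ne_prod] with q hq hne h1 h2
    have h3 : G q = W q.1 q.2 * J q.1 * J q.2 := by
      simp [hG, h1, h2]
    have h4 : ENNReal.ofReal (G q) = 0 := hq
    rw [h3, ENNReal.ofReal_eq_zero] at h4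
    have h5 : 0 ≤ W q.1 q.2 := hW0 _ _ hne
    have h6 := hJ q.1
    have h7 := hJ q.2
    have h8 : W q.1 q.2 * (J q.1 * J q.2) ≤ 0 := by rw [← mul_assoc]; exact h4
    have h9 : 0 < J q.1 * J q.2 := mul_pos h6 h7
    nlinarith
  have h10 := ae_ae_of_ae_prod hfin
  rw [ae_restrict_iff' hA]
  filter_upwards [h10] with z hz hzA
  rw [ae_restrict_iff' hA]
  filter_upwards [hz] with w hw hwA
  exact hw hzA hwA

section model

variable {N : ℕ} {k : ℝ} {S : Set (Euc N)} {X : Type} [MetricSpace X]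

lemma contDiff_psi (M : CHModel 2 N k S X) (p : X) : ContDiff ℝ ∞ (psi M p) := M.smooth p

lemma continuous_e (M : CHModel 2 N k S X) (p : X) : Continuous (M.e p) := by
  rw [M.ι_emb.isInducing.continuous_iff]
  exact (contDiff_psi M p).continuous

/-- `e p` as a homeomorphism. -/
noncomputable def homeo (M : CHModel 2 N k S X) (p : X) : Euc 2 ≃ₜ X where
  toEquiv := Equiv.ofBijective (M.e p) (M.e_bij p)
  continuous_toFun := continuous_e M p
  continuous_invFun := by
    have h : LipschitzWith 1 (Equiv.ofBijective (M.e p) (M.e_bij p)).symm := by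
      refine LipschitzWith.of_dist_le_mul fun x y => ?_
      obtain ⟨v, rfl⟩ := (Equiv.ofBijective (M.e p) (M.e_bij p)).surjective x
      obtain ⟨w, rfl⟩ := (Equiv.ofBijective (M.e p) (M.e_bij p)).surjective y
      rw [Equiv.symm_apply_apply, Equiv.symm_apply_apply, NNReal.coe_one, one_mul, dist_eq_norm]
      exact M.e_expand p v w
    exact h.continuous

lemma closedEmb (M : CHModel 2 N k S X) (p : X) (hclosed : IsClosed S) :
    IsClosedEmbedding (psi M p) := by
  have h1 : IsClosedEmbedding M.ι := ⟨M.ι_emb, by rw [M.ι_range]; exact hclosed⟩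
  exact h1.comp (homeo M p).isClosedEmbedding

lemma range_psi (M : CHModel 2 N k S X) (p : X) : range (psi M p) = S :=
  ((M.e_bij p).2.range_comp M.ι).trans M.ι_range

lemma inj_psi (M : CHModel 2 N k S X) (p : X) : Function.Injective (psi M p) :=
  M.ι_inj.comp (M.e_bij p).1

lemma image_preimage_psi (M : CHModel 2 N k S X) (p : X) {E : Set (Euc N)} (hES : E ⊆ S) :
    psi M p '' (psi M p ⁻¹' E) = E := by
  rw [image_preimage_eq_inter_range, range_psi, inter_eq_left.2 hES]

lemma dn_eq (M : CHModel 2 N k S X) (p : X) (z : Euc 2) :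
    dn M p z = AF.jac (fderiv ℝ (psi M p) z) := (AF.jac_eq_sqrt _ _).symm

lemma dn_pos (M : CHModel 2 N k S X) (p : X) (z : Euc 2) : 0 < dn M p z := by
  have h := E5b.one_le_det (f := psi M p) (x := z) (fun w => M.fderiv_ge p z w)
  unfold dn
  exact Real.sqrt_pos.2 (by linarith)

lemma continuous_dn (M : CHModel 2 N k S X) (p : X) : Continuous (dn M p) := by
  have h : dn M p = fun z => AF.jac (fderiv ℝ (psi M p) z) := funext (dn_eq M p)
  rw [h]
  exact LC.continuous_jac' ((contDiff_psi M p).of_le (by exact_mod_cast le_top))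

lemma isOpen_preimage (M : CHModel 2 N k S X) (p : X) {E : Set (Euc N)}
    (hopen : ∃ U : Set (Euc N), IsOpen U ∧ E = S ∩ U) : IsOpen (psi M p ⁻¹' E) := by
  obtain ⟨U, hU, rfl⟩ := hopen
  have h : psi M p ⁻¹' (S ∩ U) = psi M p ⁻¹' U := by
    ext v
    simp only [mem_preimage, mem_inter_iff, and_iff_right_iff_imp]
    intro _
    exact (range_psi M p).subset (mem_range_self v)
  rw [h]
  exact hU.preimage (contDiff_psi M p).continuous

/-- the volume in the chart -/
lemma muHE_eq (M : CHModel 2 N k S X) (p : X) {E : Set (Euc N)} (hES : E ⊆ S)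
    (hopen : ∃ U : Set (Euc N), IsOpen U ∧ E = S ∩ U) :
    μHE[2] E = ∫⁻ z in psi M p ⁻¹' E, ENNReal.ofReal (dn M p z) := by
  have h := AF.muHE_image_Euc (f := psi M p) (s := psi M p ⁻¹' E) isOpen_univ (subset_univ _)
    (isOpen_preimage M p hopen).measurableSet
    ((contDiff_psi M p).differentiable (by simp)).differentiableOn (inj_psi M p).injOn
  rw [image_preimage_psi M p hES] at h
  rw [h]
  simp only [dn_eq]

/-- `W = 0` almost everywhere on `A × A`. -/
theorem kernel_null (M : CHModel 2 N 0 S X) (p : X) {W : Euc 2 → Euc 2 → ℝ}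
    (hK : Kernel M p W) (hclosed : IsClosed S) {E : Set (Euc N)} (hES : E ⊆ S)
    (hopen : ∃ U : Set (Euc N), IsOpen U ∧ E = S ∩ U) {r : ℝ} (hr : 0 < r)
    (hvol : μHE[2] E = ENNReal.ofReal (Real.pi * r ^ 2))
    (harea : μHE[1] (relBoundary S E) ≤ ENNReal.ofReal (2 * Real.pi * r)) :
    ∀ᵐ z ∂(volume.restrict (psi M p ⁻¹' E)), ∀ᵐ w ∂(volume.restrict (psi M p ⁻¹' E)),
      W z w = 0 := by
  set A := psi M p ⁻¹' E with hA
  set J := dn M p with hJ
  have hAo : IsOpen A := isOpen_preimage M p hopen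
  have hJc : Continuous J := continuous_dn M p
  have hJ0 : ∀ z, 0 < J z := dn_pos M p
  have hPi := Real.pi_pos
  have hP : μHE[1] (relBoundary S E) ≠ ⊤ := ne_top_of_le_ne_top ENNReal.ofReal_ne_top harea
  have hP' : (μHE[1] (relBoundary S E)).toReal ≤ 2 * Real.pi * r :=
    ENNReal.toReal_le_of_le_ofReal (by positivity) harea
  have hV : μHE[1 + 1] E ≠ ⊤ := by
    change μHE[2] E ≠ ⊤
    rw [hvol]; exact ENNReal.ofReal_ne_top
  have happ : ∀ n : ℕ, ∃ u c : Euc 2 → ℝ, ContDiff ℝ ∞ u ∧ HasCompactSupport u ∧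
      (∀ x, 0 ≤ u x ∧ u x ≤ 1) ∧
      Continuous c ∧ HasCompactSupport c ∧ (∀ x, 0 ≤ c x) ∧
      (∀ x w, |fderiv ℝ u x w| ≤ c x * ‖fderiv ℝ (psi M p) x w‖) ∧
      ∫ x, c x * J x ≤ 2 * Real.pi * r + (1 / 2) ^ n ∧
      Integrable (fun x => |u x - A.indicator (fun _ => (1 : ℝ)) x| * J x) ∧
      ∫ x, |u x - A.indicator (fun _ => (1 : ℝ)) x| * J x ≤ (1 / 2) ^ n := by
    intro n
    obtain ⟨u, c, h1, h2, h3, h4, h5, h6, h7, h8, h9, h10⟩ :=
      LC.approx_set (n := 1) (contDiff_psi M p) (closedEmb M p hclosed)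
        (fun x w => M.fderiv_ge p x w) (range_psi M p) hES hopen hP hV
        (ε := (1 / 2) ^ n) (by positivity)
    have hJe : ∀ x, AF.jac (fderiv ℝ (psi M p) x) = J x := fun x => (dn_eq M p x).symm
    simp only [hJe] at h8 h9 h10
    have h8' : ∫ x, c x * J x ≤ 2 * Real.pi * r + (1 / 2) ^ n := h8.trans (by linarith)
    exact ⟨u, c, h1, h2, h3, h4, h5, h6, h7, h8', h9, h10⟩
  choose u c hu1 hu2 hu3 hc1 hc2 hc3 hc4 hc5 hi he using happ
  -- the volume
  have hAJ : IntegrableOn J A := by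
    refine ⟨hJc.aestronglyMeasurable, ?_⟩
    rw [hasFiniteIntegral_iff_ofReal (Eventually.of_forall fun x => (hJ0 x).le)]
    rw [← muHE_eq M p hES hopen, hvol]
    exact ENNReal.ofReal_lt_top
  have hvol' : ∫ z in A, J z = Real.pi * r ^ 2 := by
    rw [integral_eq_lintegral_of_nonneg_ae (Eventually.of_forall fun x => (hJ0 x).le)
      hJc.aestronglyMeasurable, ← muHE_eq M p hES hopen, hvol,
      ENNReal.toReal_ofReal (by positivity)]
  refine null_of_bounds hK.meas (fun z w h => by simpa using hK.ge z w h) hJc.measurable hJ0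
    hAo.measurableSet (u := u) (fun n => (hu1 n).continuous.measurable) (fun n => ?_) ?_
  · rw [← ofReal_integral_eq_lintegral_ofReal (hi n)
      (Eventually.of_forall fun x => mul_nonneg (abs_nonneg _) (hJ0 x).le)]
    exact ENNReal.ofReal_le_ofReal (he n)
  · -- the remainder tends to zero
    have hsob := fun n => hK.sob (u n) (c n) (hu1 n) (hu2 n) (fun z => (hu3 n z).1)
      (hc1 n).measurable (hc4 n)
      (((hc1 n).mul hJc).integrable_of_hasCompactSupport (hc2 n).mul_right)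
    set D : ℕ → ℝ := fun n => ∫ q : Euc 2 × Euc 2,
      W q.1 q.2 * (u n q.1 * J q.1) * (u n q.2 * J q.2) ∂(volume.prod volume) with hD
    have hnn : ∀ n, ∀ᵐ q ∂((volume : Measure (Euc 2)).prod volume),
        0 ≤ W q.1 q.2 * (u n q.1 * J q.1) * (u n q.2 * J q.2) := by
      intro n
      filter_upwards [ae_ne_prod] with q hq
      have h1 : 0 ≤ W q.1 q.2 := by simpa using hK.ge _ _ hq
      have h2 := (hu3 n q.1).1
      have h3 := (hu3 n q.2).1
      have h4 := (hJ0 q.1).le
      have h5 := (hJ0 q.2).le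
      positivity
    have hD0 : ∀ n, 0 ≤ D n := fun n => integral_nonneg_of_ae (hnn n)
    have hDle : ∀ n, D n ≤ (2 * Real.pi * r + (1 / 2) ^ n) ^ 2 -
        4 * Real.pi * (Real.pi * r ^ 2 - 2 * (1 / 2) ^ n) := by
      intro n
      have h1 := (hsob n).2
      have h2 : (∫ z, c n z * dn M p z) ^ 2 ≤ (2 * Real.pi * r + (1 / 2) ^ n) ^ 2 := by
        have h3 : 0 ≤ ∫ z, c n z * dn M p z :=
          integral_nonneg fun z => mul_nonneg (hc3 n z) (hJ0 z).le
        exact pow_le_pow_left₀ h3 (hc5 n) 2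
      have h4 : Real.pi * r ^ 2 - 2 * (1 / 2) ^ n ≤ ∫ z, u n z ^ 2 * dn M p z := by
        have i1 : Integrable (fun z => A.indicator J z) :=
          (integrable_indicator_iff hAo.measurableSet).2 hAJ
        have i2 : Integrable (fun z => u n z ^ 2 * J z) := by
          refine (((hu1 n).continuous.pow 2).mul hJc).integrable_of_hasCompactSupport ?_
          have h6 : (fun z => u n z ^ 2) = u n * u n := by
            funext z
            simp [sq]
          have h7 : HasCompactSupport fun z => u n z ^ 2 := by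
            rw [h6]
            exact (hu2 n).mul_left
          exact h7.mul_right
        have h5 : ∫ z, (A.indicator J z - 2 * (|u n z - A.indicator (fun _ => (1 : ℝ)) z| * J z))
            ≤ ∫ z, u n z ^ 2 * J z := by
          refine integral_mono (i1.sub ((hi n).const_mul 2)) i2 fun z => ?_
          have h6 := hu3 n z
          have h7 := (hJ0 z).le
          by_cases hz : z ∈ A
          · simp only [indicator_of_mem hz]
            rw [abs_of_nonpos (by linarith [h6.2])]
            nlinarith [sq_nonneg (1 - u n z)]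
          · simp only [indicator_of_notMem hz, sub_zero, zero_sub]
            rw [abs_of_nonneg h6.1]
            nlinarith [sq_nonneg (u n z), mul_nonneg h6.1 h7]
        rw [integral_sub i1 ((hi n).const_mul 2), integral_indicator hAo.measurableSet, hvol',
          integral_const_mul] at h5
        have h8 := he n
        linarith
      have h9 : 4 * Real.pi * (Real.pi * r ^ 2 - 2 * (1 / 2) ^ n) ≤
          4 * Real.pi * ∫ z, u n z ^ 2 * dn M p z :=
        mul_le_mul_of_nonneg_left h4 (by positivity)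
      simp only [hD]
      linarith
    have hgeo : Tendsto (fun n : ℕ => ((1 : ℝ) / 2) ^ n) atTop (𝓝 0) :=
      tendsto_pow_atTop_nhds_zero_of_lt_one (by norm_num) (by norm_num)
    have hlim : Tendsto (fun n : ℕ => (2 * Real.pi * r + (1 / 2) ^ n) ^ 2 -
        4 * Real.pi * (Real.pi * r ^ 2 - 2 * (1 / 2) ^ n)) atTop (𝓝 0) := by
      have h1 := ((tendsto_const_nhds (x := 2 * Real.pi * r)).add hgeo).pow 2
      have h2 := ((tendsto_const_nhds (x := Real.pi * r ^ 2)).sub
        (hgeo.const_mul 2)).const_mul (4 * Real.pi)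
      have h3 := h1.sub h2
      have h4 : (2 * Real.pi * r + 0) ^ 2 - 4 * Real.pi * (Real.pi * r ^ 2 - 2 * 0) = 0 := by
        ring
      rw [h4] at h3
      exact h3
    have hDt : Tendsto D atTop (𝓝 0) := squeeze_zero hD0 hDle hlim
    have h5 := ENNReal.tendsto_ofReal hDt
    rw [ENNReal.ofReal_zero] at h5
    refine h5.congr fun n => ?_
    simp only [hD]
    rw [ofReal_integral_eq_lintegral_ofReal (hsob n).1 (hnn n)]

end model

end Crest.Agent.R241.Surf373
end

-- ▼ part R241/Surf373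

/-!
# R241, block L-D (helper734): the surface case `n = 2` of S0373.
-/

set_option autoImplicit false

open MeasureTheory MeasureTheory.Measure Filter Topology Set
open scoped ENNReal NNReal ContDiff

namespace Crest.Agent.R241.Surf373

open Crest.GeometryTopology.Submanifold
open Crest.Agent.R241.LSob

lemma unitBallVol_two : unitBallVol 2 = Real.pi := by
  unfold unitBallVol
  rw [EuclideanSpace.volume_ball_fin_two]
  simp [Real.pi_pos.le]

lemma modelVolume_two (r : ℝ) : modelVolume 2 0 r = Real.pi * r ^ 2 := by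
  rw [E5c.modelVolume_zero (by norm_num), unitBallVol_two]

lemma modelArea_two (r : ℝ) : modelArea 2 0 r = 2 * Real.pi * r := by
  unfold modelArea unitSphereArea
  rw [unitBallVol_two]
  simp [snk]

section model

variable {N : ℕ} {k : ℝ} {S : Set (Euc N)} {X : Type} [MetricSpace X]

/-- The frontier in the chart is not longer than the relative boundary. -/
theorem muHE_frontier_le (M : CHModel 2 N k S X) (p : X) (hclosed : IsClosed S)
    {E : Set (Euc N)} (hES : E ⊆ S) :
    μHE[1] (frontier (psi M p ⁻¹' E)) ≤ μHE[1] (relBoundary S E) := by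
  have hemb := closedEmb M p hclosed
  rw [LC.relBoundary_eq hemb (range_psi M p) hES]
  set F := frontier (psi M p ⁻¹' E) with hF
  set f : Euc N → Euc 2 := Function.invFun (psi M p) with hf
  have hfp : ∀ v, f (psi M p v) = v := Function.leftInverse_invFun (inj_psi M p)
  have himg : f '' (psi M p '' F) = F := by
    rw [image_image]
    simp only [hfp, image_id']
  have h := AF.muHE_image_le_of_local (f := f) (s := psi M p '' F) 1 ?_
  · rw [himg] at h
    exact h
  · rintro _ ⟨v₀, -, rfl⟩ K hK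
    obtain ⟨δ, hδ, hloc⟩ := M.ι_loc (M.e p v₀) ((K : ℝ) - 1) (by
      have : (1 : ℝ) < K := by exact_mod_cast hK
      linarith)
    have hcont : Filter.Tendsto M.ι (𝓝 (M.e p v₀)) (𝓝 (M.ι (M.e p v₀))) :=
      M.ι_emb.continuous.continuousAt
    obtain ⟨ρ, hρ, hball⟩ : ∃ ρ > 0, ∀ a : X, dist (M.ι a) (M.ι (M.e p v₀)) < ρ →
        dist a (M.e p v₀) < δ := by
      have h1 : Metric.ball (M.e p v₀) δ ∈ 𝓝 (M.e p v₀) := Metric.ball_mem_nhds _ hδ
      rw [M.ι_emb.isInducing.nhds_eq_comap] at h1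
      obtain ⟨t, ht, hts⟩ := h1
      obtain ⟨ρ, hρ, hρt⟩ := Metric.mem_nhds_iff.1 ht
      exact ⟨ρ, hρ, fun a ha => hts (hρt ha)⟩
    refine ⟨ρ, hρ, LipschitzOnWith.of_dist_le_mul ?_⟩
    rintro _ ⟨⟨v, -, rfl⟩, hv⟩ _ ⟨⟨w, -, rfl⟩, hw⟩
    rw [hfp, hfp]
    have h1 := hloc (M.e p v) (M.e p w) (hball _ hv) (hball _ hw)
    have h2 := M.e_expand p v w
    rw [dist_eq_norm]
    refine h2.trans (h1.trans (le_of_eq ?_))
    simp only [psi]
    ring

end model

/-- **L-D**: the surface case of S0373. -/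
theorem surface_373 (hSob : SobTarget) : E5.Stmt 2 := by
  intro N S hS hclosed hconn hsc hsec E hES hEc hopen r hr hvol harea
  rw [modelVolume_two] at hvol
  have harea' : μHE[1] (relBoundary S E) ≤ ENNReal.ofReal (2 * Real.pi * r) := by
    rw [← modelArea_two]; exact harea.le
  have hPi := Real.pi_pos
  obtain ⟨X, _, _, _, M, hM⟩ := hSob N 0 le_rfl S hS hclosed hconn hsc (by
    intro p hp f V hf u v
    have := hsec p hp f V hf u v
    simpa using this)
  obtain ⟨p⟩ := (inferInstance : Nonempty X)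
  obtain ⟨W, hW⟩ := hM p
  have hnull := kernel_null M p hW hclosed hES hopen hr hvol harea'
  have hAo := isOpen_preimage M p hopen
  -- a base point in `E`
  have hne : (psi M p ⁻¹' E).Nonempty := by
    by_contra hcon
    rw [not_nonempty_iff_eq_empty] at hcon
    have h1 := muHE_eq M p hES hopen
    rw [hcon, hvol] at h1
    simp only [Measure.restrict_empty, lintegral_zero_measure] at h1
    rw [ENNReal.ofReal_eq_zero] at h1
    have : 0 < Real.pi * r ^ 2 := by positivity
    linarith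
  obtain ⟨z₀, hz₀⟩ := hne
  set x₀ := M.e p z₀ with hx₀
  set B := psi M x₀ ⁻¹' E with hB
  have hBo : IsOpen B := isOpen_preimage M x₀ hopen
  -- the chart at `x₀` is isometric at the points of `B`
  have hiso : ∀ v ∈ B, metricMat (psi M x₀) v = 1 := by
    intro v hv
    obtain ⟨w₀, hw₀⟩ := (M.e_bij p).2 (M.e x₀ v)
    have hw₀A : w₀ ∈ psi M p ⁻¹' E := by
      change M.ι (M.e p w₀) ∈ E
      rw [hw₀]
      exact hv
    have h1 := hW.rigid rfl (psi M p ⁻¹' E) hAo hnull z₀ hz₀ w₀ hw₀A v hw₀.symm 1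
      ⟨zero_le_one, le_rfl⟩
    rwa [one_smul] at h1
  -- volume
  have hvolB : volume B = ENNReal.ofReal (Real.pi * r ^ 2) := by
    rw [← hvol, muHE_eq M x₀ hES hopen]
    have h1 : ∫⁻ z in psi M x₀ ⁻¹' E, ENNReal.ofReal (dn M x₀ z) =
        ∫⁻ _ in psi M x₀ ⁻¹' E, 1 := by
      refine setLIntegral_congr_fun hBo.measurableSet fun z hz => ?_
      simp only [dn, hiso z hz, Matrix.det_one, Real.sqrt_one, ENNReal.ofReal_one]
    rw [h1, setLIntegral_one]
  -- boundedness
  have hbd : Bornology.IsBounded B := by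
    have h1 : IsCompact (psi M x₀ ⁻¹' closure E) :=
      (closedEmb M x₀ hclosed).isCompact_preimage hEc
    exact h1.isBounded.subset (preimage_mono subset_closure)
  -- the planar equality case
  obtain ⟨c, hc⟩ := LP.planarEq B r hBo hbd hr hvolB
    ((muHE_frontier_le M x₀ hclosed hES).trans harea')
  -- the parametrisation
  set Ψ : Euc 2 → Euc N := fun v => psi M x₀ (c + v) with hΨ
  have hΨs : ContDiff ℝ ∞ Ψ := (contDiff_psi M x₀).comp (contDiff_const.add contDiff_id)
  have himg : Ψ '' Metric.ball 0 r = psi M x₀ '' Metric.ball c r := by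
    ext y
    constructor
    · rintro ⟨v, hv, rfl⟩
      refine ⟨c + v, ?_, rfl⟩
      rw [Metric.mem_ball, dist_eq_norm] at hv ⊢
      simpa using hv
    · rintro ⟨v, hv, rfl⟩
      refine ⟨v - c, ?_, ?_⟩
      · rw [Metric.mem_ball, dist_eq_norm] at hv ⊢
        simpa using hv
      · simp [hΨ]
  refine E5c.finish (by norm_num) hr (by rw [modelVolume_two]; exact hvol) hΨs ?_ ?_ ?_ ?_
  · intro v w hvw
    have h1 := inj_psi M x₀ hvw
    simpa using h1
  · have hemb := (closedEmb M x₀ hclosed).isInducing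
    obtain ⟨U, hU, hUe⟩ := hemb.isOpen_iff.1 (Metric.isOpen_ball (x := c) (ε := r))
    refine ⟨U, hU, ?_⟩
    rw [himg, ← hUe, image_preimage_eq_inter_range, range_psi, inter_comm]
  · intro v w
    have h1 : fderiv ℝ Ψ v = fderiv ℝ (psi M x₀) (c + v) := by
      simp only [hΨ]
      exact fderiv_comp_add_left c
    rw [h1]
    exact M.fderiv_ge x₀ (c + v) w
  · rw [himg]
    have h1 : symmDiff E (psi M x₀ '' Metric.ball c r) =
        psi M x₀ '' symmDiff B (Metric.ball c r) := by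
      rw [image_symmDiff (inj_psi M x₀), hB, image_preimage_psi M x₀ hES]
    rw [h1]
    have h2 := AF.muHE_image_null (U := Euc 2) (V := Euc N) (f := psi M x₀)
      (s := symmDiff B (Metric.ball c r))
      ((contDiff_psi M x₀).differentiable (by simp)).differentiableOn hc
    rw [AF.finrank_Euc] at h2
    exact h2

end Crest.Agent.R241.Surf373
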