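import Crest.Agent.R241.Targets
import Crest.Agent.R241.LSob882
import Crest.Agent.R241.LC
import Crest.Agent.R241.E4
import Crest.Agent.R241.EModel
import Crest.Agent.R241.EChart

-- ▼ part R241/Cut882
section

/-!
# R241, block E3: cut-off of unbounded sets (Eilenberg's inequality)  (helper882)
-/

set_option autoImplicit false

open MeasureTheory Filter Topology Set
open scoped ENNReal NNReal

namespace Crest.Agent.R241.Cut882

open Crest.GeometryTopology.Submanifold (Euc relBoundary)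

/-- **Eilenberg's inequality** (constant one, with diameters). -/
theorem eilenberg {X : Type*} [MetricSpace X] [MeasurableSpace X] [BorelSpace X] {f : X → ℝ}
    (hf : LipschitzWith 1 f) (d : ℕ) (hd : 1 ≤ d) (s : Set X) :
    ∃ g : ℝ → ℝ≥0∞, Measurable g ∧ ∫⁻ t, g t ≤ μH[((d + 1 : ℕ) : ℝ)] s ∧
      ∀ t, μH[(d : ℝ)] (s ∩ f ⁻¹' {t}) ≤ g t := by
  by_cases htop : μH[((d + 1 : ℕ) : ℝ)] s = ⊤
  · exact ⟨fun _ => ⊤, measurable_const, by rw [htop]; exact le_top, fun t => le_top⟩
  -- covers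
  have hcov : ∀ j : ℕ, ∃ t : ℕ → Set X, s ⊆ ⋃ n, t n ∧
      (∀ n, Metric.ediam (t n) ≤ ((j : ℝ≥0∞) + 1)⁻¹) ∧
      ∑' n, ⨆ _ : (t n).Nonempty, Metric.ediam (t n) ^ ((d + 1 : ℕ) : ℝ) ≤
        μH[((d + 1 : ℕ) : ℝ)] s + ((j : ℝ≥0∞) + 1)⁻¹ := by
    intro j
    have hr : (0 : ℝ≥0∞) < ((j : ℝ≥0∞) + 1)⁻¹ := by
      apply ENNReal.inv_pos.2
      simp
    have h1 : ⨅ (t : ℕ → Set X) (_ : s ⊆ ⋃ n, t n)
        (_ : ∀ n, Metric.ediam (t n) ≤ ((j : ℝ≥0∞) + 1)⁻¹),
        ∑' n, ⨆ _ : (t n).Nonempty, Metric.ediam (t n) ^ ((d + 1 : ℕ) : ℝ) ≤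
        μH[((d + 1 : ℕ) : ℝ)] s := by
      rw [Measure.hausdorffMeasure_apply]
      exact le_iSup₂ (f := fun (r : ℝ≥0∞) (_ : 0 < r) => ⨅ (t : ℕ → Set X)
        (_ : s ⊆ ⋃ n, t n) (_ : ∀ n, Metric.ediam (t n) ≤ r),
        ∑' n, ⨆ _ : (t n).Nonempty, Metric.ediam (t n) ^ ((d + 1 : ℕ) : ℝ)) _ hr
    have h2 := lt_of_le_of_lt h1 (ENNReal.lt_add_right htop hr.ne')
    simp only [iInf_lt_iff] at h2
    obtain ⟨t, ht1, ht2, ht3⟩ := h2
    exact ⟨t, ht1, ht2, ht3.le⟩
  choose t ht1 ht2 ht3 using hcov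
  set I : ℕ → ℕ → Set ℝ := fun j n => closure (f '' (t j n)) with hI
  have hIm : ∀ j n, MeasurableSet (I j n) := fun j n => isClosed_closure.measurableSet
  set g : ℕ → ℝ → ℝ≥0∞ := fun j x =>
    ∑' n, (I j n).indicator (fun _ => Metric.ediam (t j n) ^ (d : ℝ)) x with hg
  have hgm : ∀ j, Measurable (g j) := fun j =>
    Measurable.ennreal_tsum fun n => measurable_const.indicator (hIm j n)
  have hdpos : (0 : ℝ) < d := by exact_mod_cast hd
  have hgint : ∀ j, ∫⁻ x, g j x ≤ μH[((d + 1 : ℕ) : ℝ)] s + ((j : ℝ≥0∞) + 1)⁻¹ := by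
    intro j
    refine le_trans ?_ (ht3 j)
    simp only [hg]
    rw [lintegral_tsum fun n => (measurable_const.indicator (hIm j n)).aemeasurable]
    apply ENNReal.tsum_le_tsum
    intro n
    rw [lintegral_indicator (hIm j n), setLIntegral_const]
    rcases (t j n).eq_empty_or_nonempty with he | hne
    · simp [hI, he]
    · simp only [hne, iSup_pos]
      have hvol : volume (I j n) ≤ Metric.ediam (t j n) := by
        calc volume (I j n) ≤ Metric.ediam (I j n) := Real.volume_le_diam _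
          _ = Metric.ediam (f '' (t j n)) := Metric.ediam_closure _
          _ ≤ (1 : ℝ≥0) * Metric.ediam (t j n) := hf.ediam_image_le _
          _ = Metric.ediam (t j n) := by simp
      calc Metric.ediam (t j n) ^ (d : ℝ) * volume (I j n)
          ≤ Metric.ediam (t j n) ^ (d : ℝ) * Metric.ediam (t j n) := by gcongr
        _ = Metric.ediam (t j n) ^ ((d + 1 : ℕ) : ℝ) := by
          have hfin : Metric.ediam (t j n) ≠ ⊤ :=
            ne_top_of_le_ne_top (by simp) (ht2 j n)
          push_cast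
          by_cases h0 : Metric.ediam (t j n) = 0
          · rw [h0, ENNReal.zero_rpow_of_pos hdpos, ENNReal.zero_rpow_of_pos (by linarith)]
            simp
          · rw [ENNReal.rpow_add _ _ h0 hfin, ENNReal.rpow_one]
  refine ⟨fun x => liminf (fun j => g j x) atTop, Measurable.liminf hgm, ?_, ?_⟩
  · calc ∫⁻ x, liminf (fun j => g j x) atTop ≤ liminf (fun j => ∫⁻ x, g j x) atTop :=
          lintegral_liminf_le hgm
      _ ≤ liminf (fun j : ℕ => μH[((d + 1 : ℕ) : ℝ)] s + ((j : ℝ≥0∞) + 1)⁻¹) atTop :=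
          liminf_le_liminf (Eventually.of_forall hgint)
      _ = μH[((d + 1 : ℕ) : ℝ)] s := by
          apply Tendsto.liminf_eq
          have h : Tendsto (fun j : ℕ => ((j : ℝ≥0∞) + 1)⁻¹) atTop (𝓝 0) := by
            have h0 := (ENNReal.tendsto_inv_nat_nhds_zero).comp (tendsto_add_atTop_nat 1)
            refine h0.congr fun j => ?_
            simp
          simpa using tendsto_const_nhds.add h
  · intro x
    have h := Measure.hausdorffMeasure_le_liminf_tsum (ι := fun _ : ℕ => ℕ) (d : ℝ)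
      (s ∩ f ⁻¹' {x}) (l := atTop) (fun j : ℕ => ((j : ℝ≥0∞) + 1)⁻¹) ?_
      (fun j n => t j n ∩ f ⁻¹' {x}) ?_ ?_
    · refine h.trans (liminf_le_liminf (Eventually.of_forall fun j => ?_))
      apply ENNReal.tsum_le_tsum
      intro n
      by_cases hx : x ∈ I j n
      · rw [indicator_of_mem hx]
        gcongr
        exact inter_subset_left
      · have : t j n ∩ f ⁻¹' {x} = ∅ := by
          rw [eq_empty_iff_forall_notMem]
          rintro y ⟨hy1, hy2⟩
          apply hx
          exact subset_closure ⟨y, hy1, hy2⟩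
        rw [this, Metric.ediam_empty, ENNReal.zero_rpow_of_pos hdpos]
        exact zero_le
    · have h0 := (ENNReal.tendsto_inv_nat_nhds_zero).comp (tendsto_add_atTop_nat 1)
      refine h0.congr fun j => ?_
      simp
    · exact Eventually.of_forall fun j n => (Metric.ediam_mono inter_subset_left).trans (ht2 j n)
    · refine Eventually.of_forall fun j => ?_
      rintro y ⟨hy1, hy2⟩
      obtain ⟨n, hn⟩ := mem_iUnion.1 (ht1 j hy1)
      exact mem_iUnion.2 ⟨n, hn, hy2⟩

theorem relBoundary_inter_ball {N : ℕ} {S E : Set (Euc N)} (hS : IsClosed S) (hES : E ⊆ S)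
    (R : ℝ) :
    relBoundary S (E ∩ Metric.ball 0 R) ⊆
      relBoundary S E ∪ (E ∩ (fun x : Euc N => ‖x‖) ⁻¹' {R}) := by
  rintro x ⟨hx1, hx2⟩
  have hxE : x ∈ closure E := closure_mono inter_subset_left hx1
  have hxS : x ∈ S := hS.closure_subset_iff.2 hES hxE
  have hxR : ‖x‖ ≤ R := by
    have h := closure_mono (s := E ∩ Metric.ball 0 R) inter_subset_right hx1
    have h2 := Metric.closure_ball_subset_closedBall h
    simpa using h2
  by_cases hb : x ∈ closure (S \ E)
  · exact Or.inl ⟨hxE, hb⟩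
  · right
    have hxin : x ∈ E := by
      by_contra h
      exact hb (subset_closure ⟨hxS, h⟩)
    refine ⟨hxin, ?_⟩
    have hsub : S \ (E ∩ Metric.ball 0 R) ⊆ (S \ E) ∪ (S \ Metric.ball 0 R) := by
      rintro y ⟨hy1, hy2⟩
      by_cases h : y ∈ E
      · exact Or.inr ⟨hy1, fun h' => hy2 ⟨h, h'⟩⟩
      · exact Or.inl ⟨hy1, h⟩
    have h3 := closure_mono hsub hx2
    rw [closure_union] at h3
    rcases h3 with h3 | h3
    · exact absurd h3 hb
    · have h4 : x ∈ closure {y : Euc N | R ≤ ‖y‖} := by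
        refine closure_mono ?_ h3
        rintro y ⟨_, hy⟩
        simpa using hy
      rw [(isClosed_le continuous_const continuous_norm).closure_eq] at h4
      exact le_antisymm hxR h4

theorem cutTarget : CutTarget := by
  intro d N hd S E hS hES hopen hvol hper ε hε
  obtain ⟨U, hU, hEU⟩ := hopen
  have hEm : MeasurableSet E := by
    rw [hEU]; exact hS.measurableSet.inter hU.measurableSet
  -- the tail
  have htail : ∃ n : ℕ, Measure.euclideanHausdorffMeasure (d + 1) (E \ Metric.ball 0 (n : ℝ)) ≤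
      ENNReal.ofReal ε := by
    have h1 : Tendsto (fun n : ℕ => Measure.euclideanHausdorffMeasure (d + 1)
        (E \ Metric.ball (0 : Euc N) (n : ℝ))) atTop
        (𝓝 (Measure.euclideanHausdorffMeasure (d + 1)
          (⋂ n : ℕ, E \ Metric.ball (0 : Euc N) (n : ℝ)))) := by
      apply tendsto_measure_iInter_atTop
      · intro n
        exact (hEm.diff Metric.isOpen_ball.measurableSet).nullMeasurableSet
      · intro a b hab
        exact sdiff_subset_sdiff_right (Metric.ball_subset_ball (by exact_mod_cast hab))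
      · exact ⟨0, ne_top_of_le_ne_top hvol.ne (measure_mono sdiff_subset)⟩
    have h2 : (⋂ n : ℕ, E \ Metric.ball (0 : Euc N) (n : ℝ)) = ∅ := by
      rw [eq_empty_iff_forall_notMem]
      intro x hx
      obtain ⟨n, hn⟩ := exists_nat_gt ‖x‖
      have := (mem_iInter.1 hx n).2
      apply this
      simpa using hn
    rw [h2, measure_empty] at h1
    have h3 := h1.eventually (ge_mem_nhds (ENNReal.ofReal_pos.2 hε))
    exact h3.exists
  obtain ⟨n, hn⟩ := htail
  set E' : Set (Euc N) := E \ Metric.ball 0 (n : ℝ) with hE'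
  obtain ⟨g, hgm, hgi, hgle⟩ := eilenberg (X := Euc N) (f := fun x => ‖x‖) lipschitzWith_one_norm
    d hd E'
  set c1 := Measure.addHaarScalarFactor (volume : Measure (EuclideanSpace ℝ (Fin (d + 1))))
    μH[((d + 1 : ℕ) : ℝ)] with hc1
  set c0 := Measure.addHaarScalarFactor (volume : Measure (EuclideanSpace ℝ (Fin d)))
    μH[(d : ℝ)] with hc0
  have hc1ne : c1 ≠ 0 := Measure.addHaarScalarFactor_volume_hausdorffMeasure_ne_zero (d + 1)
  have hE'fin : μH[((d + 1 : ℕ) : ℝ)] E' < ⊤ := by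
    have h1 : Measure.euclideanHausdorffMeasure (d + 1) E' < ⊤ :=
      lt_of_le_of_lt (measure_mono sdiff_subset) hvol
    rw [Measure.euclideanHausdorffMeasure_def, Measure.smul_apply, ENNReal.smul_def,
      smul_eq_mul] at h1
    by_contra hcon
    rw [not_lt, top_le_iff] at hcon
    rw [hcon, ENNReal.mul_top] at h1
    · exact absurd h1 (lt_irrefl _)
    · exact_mod_cast hc1ne
  -- a good radius
  have hR : ∃ R : ℝ, (n : ℝ) < R ∧ (c0 : ℝ≥0∞) * g R ≤ ENNReal.ofReal ε := by
    by_contra hcon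
    push Not at hcon
    have h1 : ∫⁻ t in Ioi (n : ℝ), ENNReal.ofReal ε ≤ ∫⁻ t in Ioi (n : ℝ), (c0 : ℝ≥0∞) * g t := by
      apply setLIntegral_mono (hgm.const_mul _)
      intro t ht
      exact (hcon t ht).le
    have h2 : ∫⁻ t in Ioi (n : ℝ), (c0 : ℝ≥0∞) * g t < ⊤ := by
      calc ∫⁻ t in Ioi (n : ℝ), (c0 : ℝ≥0∞) * g t ≤ ∫⁻ t, (c0 : ℝ≥0∞) * g t :=
            setLIntegral_le_lintegral _ _
        _ = (c0 : ℝ≥0∞) * ∫⁻ t, g t := lintegral_const_mul _ hgm
        _ ≤ (c0 : ℝ≥0∞) * μH[((d + 1 : ℕ) : ℝ)] E' := by gcongr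
        _ < ⊤ := ENNReal.mul_lt_top ENNReal.coe_lt_top hE'fin
    rw [setLIntegral_const, Real.volume_Ioi, ENNReal.mul_top (ENNReal.ofReal_pos.2 hε).ne'] at h1
    exact absurd (lt_of_le_of_lt h1 h2) (lt_irrefl _)
  obtain ⟨R, hnR, hgR⟩ := hR
  have hR0 : 0 < R := lt_of_le_of_lt (Nat.cast_nonneg n) hnR
  refine ⟨R, hR0, ?_, ?_⟩
  · refine le_trans (measure_mono ?_) hn
    exact sdiff_subset_sdiff_right (Metric.ball_subset_ball hnR.le)
  · refine (measure_mono (relBoundary_inter_ball hS hES R)).trans ?_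
    refine (measure_union_le _ _).trans ?_
    gcongr
    rw [Measure.euclideanHausdorffMeasure_def, Measure.smul_apply, ENNReal.smul_def, smul_eq_mul]
    refine le_trans ?_ hgR
    gcongr
    refine le_trans (measure_mono ?_) (hgle R)
    rintro x ⟨hx1, hx2⟩
    refine ⟨⟨hx1, ?_⟩, hx2⟩
    have hx2' : ‖x‖ = R := hx2
    simp only [Metric.mem_ball, dist_zero_right, not_lt]
    linarith

end Crest.Agent.R241.Cut882
end

-- ▼ part R241/Surf576

/-!
# R241, surfaces, block L-C (final): `S0372` for `n = 2` from `LSob.SobTarget`.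

`main_ineq`: `4 π V + ∬_{A×A} W dn dn ≤ P²`.
-/

set_option autoImplicit false

open MeasureTheory Measure Filter Topology Set Metric
open scoped ENNReal NNReal ContDiff

namespace Crest.Agent.R241.Surf576

open Crest.GeometryTopology.Submanifold

theorem sphArea_one : sphArea 1 = 2 * Real.pi := by
  have h : unitBallVol 2 = Real.pi := by
    unfold unitBallVol
    rw [EuclideanSpace.volume_ball_fin_two]
    simp [Real.pi_pos.le]
  unfold sphArea
  rw [show (1 + 1 : ℕ) = 2 from rfl, h]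
  push_cast
  ring

/-- `zk` primitive of `sn`. -/
theorem modelV_one (k r : ℝ) : modelV 1 k r = 2 * Real.pi * zk k r := by
  unfold modelV
  rw [sphArea_one]
  congr 1
  simp only [pow_one]
  rw [intervalIntegral.integral_eq_sub_of_hasDerivAt (f := zk k)
    (fun x _ => EModel.hasDerivAt_zk k x) ((EModel.continuous_sn k).intervalIntegrable _ _)]
  rw [EModel.zk_zero, sub_zero]

theorem modelA_one (k r : ℝ) : modelA 1 k r = 2 * Real.pi * sn k r := by
  unfold modelA
  rw [sphArea_one, pow_one]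

theorem model_id (k r : ℝ) :
    modelA 1 k r ^ 2 = 4 * Real.pi * modelV 1 k r + k ^ 2 * modelV 1 k r ^ 2 := by
  rw [modelA_one, modelV_one]
  have h := EModel.two_zk k r
  linear_combination (-(4 * Real.pi ^ 2)) * h

variable {N : ℕ} {k : ℝ} {S : Set (Euc N)} {X : Type} [MetricSpace X]

theorem isClosedEmbedding_psi {m : ℕ} (M : CHModel m N k S X) (p : X)
    (hS : IsClosed S) : Topology.IsClosedEmbedding (fun v => M.ι (M.e p v)) := by
  have h1 : Topology.IsClosedEmbedding M.ι := ⟨M.ι_emb, by rw [M.ι_range]; exact hS⟩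
  have h2 : Topology.IsClosedEmbedding (M.e p) :=
    Function.LeftInverse.isClosedEmbedding (f := (M.echart p).P) (fun v => (M.echart p).P_e v)
      (M.echart p).P_lip.continuous (M.echart p).continuous_e
  exact h1.comp h2

theorem range_psi {m : ℕ} (M : CHModel m N k S X) (p : X) :
    range (fun v => M.ι (M.e p v)) = S := by
  refine Eq.trans ?_ M.ι_range
  ext y
  constructor
  · rintro ⟨v, rfl⟩
    exact ⟨_, rfl⟩
  · rintro ⟨x, rfl⟩
    obtain ⟨v, rfl⟩ := (M.e_bij p).2 x
    exact ⟨v, rfl⟩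

theorem isOpen_dom {m : ℕ} (M : CHModel m N k S X) (p : X) (hS : IsClosed S) {E : Set (Euc N)}
    (hopen : ∃ U : Set (Euc N), IsOpen U ∧ E = S ∩ U) : IsOpen {v | M.ι (M.e p v) ∈ E} := by
  obtain ⟨U, hU, rfl⟩ := hopen
  have h : {v | M.ι (M.e p v) ∈ S ∩ U} = (fun v => M.ι (M.e p v)) ⁻¹' U := by
    ext v
    have h0 : M.ι (M.e p v) ∈ S :=
      (range_psi M p).subset (mem_range_self (f := fun v => M.ι (M.e p v)) v)
    exact ⟨fun h => h.2, fun h => ⟨h0, h⟩⟩
  rw [h]
  exact hU.preimage (isClosedEmbedding_psi M p hS).continuous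

theorem dn_nonneg (M : CHModel 2 N k S X) (p : X) (z : Euc 2) : 0 ≤ LSob.dn M p z :=
  Real.sqrt_nonneg _

theorem dn_eq_jac (M : CHModel 2 N k S X) (p : X) (z : Euc 2) :
    LSob.dn M p z = AF.jac (fderiv ℝ (fun v => M.ι (M.e p v)) z) :=
  (AF.jac_eq_sqrt _ z).symm

theorem dn_pos (M : CHModel 2 N k S X) (p : X) (z : Euc 2) : 0 < LSob.dn M p z := by
  rw [dn_eq_jac]
  exact LC.jac_pos (n := 1) (fun x w => M.fderiv_ge p x w) z

theorem continuous_dn (M : CHModel 2 N k S X) (p : X) : Continuous (LSob.dn M p) := by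
  have h : LSob.dn M p = fun z => AF.jac (fderiv ℝ (fun v => M.ι (M.e p v)) z) := by
    funext z
    exact dn_eq_jac M p z
  rw [h]
  exact LC.continuous_jac' (n := 1) ((M.smooth p).of_le (by exact_mod_cast le_top))

theorem lintegral_dn (M : CHModel 2 N k S X) (p : X) (hS : IsClosed S) {E : Set (Euc N)}
    (hES : E ⊆ S) (hopen : ∃ U : Set (Euc N), IsOpen U ∧ E = S ∩ U) :
    ∫⁻ z in {v | M.ι (M.e p v) ∈ E}, ENNReal.ofReal (LSob.dn M p z) =
      Measure.euclideanHausdorffMeasure 2 E := by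
  have hA := isOpen_dom M p hS hopen
  have h := AF.lintegral_jac_eq_muHE_image (U := Euc 2) (V := Euc N)
    (f := fun v => M.ι (M.e p v))
    (f' := fun x => fderiv ℝ (fun v => M.ι (M.e p v)) x) hA.measurableSet
    (fun x _ => (((M.smooth p).differentiable (by simp)) x).hasFDerivAt.hasFDerivWithinAt)
    (isClosedEmbedding_psi M p hS).injective.injOn
  have himg : (fun v => M.ι (M.e p v)) '' {v | M.ι (M.e p v) ∈ E} = E := by
    have h1 : {v | M.ι (M.e p v) ∈ E} = (fun v => M.ι (M.e p v)) ⁻¹' E := rfl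
    rw [h1, image_preimage_eq_inter_range, range_psi M p, inter_eq_left.2 hES]
  rw [himg, finrank_euclideanSpace_fin] at h
  rw [← h]
  refine lintegral_congr fun z => ?_
  rw [dn_eq_jac]

/-- the diagonal is null -/
theorem ae_ne : ∀ᵐ q : Euc 2 × Euc 2 ∂(volume.prod volume), q.1 ≠ q.2 := by
  have h : MeasurableSet {q : Euc 2 × Euc 2 | q.1 = q.2} := measurableSet_eq_fun measurable_fst
    measurable_snd
  rw [ae_iff]
  simp only [ne_eq, not_not]
  rw [Measure.measure_prod_null h]
  refine Eventually.of_forall fun x => ?_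
  have : (Prod.mk x ⁻¹' {q : Euc 2 × Euc 2 | q.1 = q.2}) = {x} := by
    ext y
    simp [eq_comm]
  simp only [this]
  simp

/-- **Main inequality for surfaces**: `4 π V + ∬_{A×A} W dn dn ≤ P²`. -/
theorem main_ineq (M : CHModel 2 N k S X) (p : X) {W : Euc 2 → Euc 2 → ℝ}
    (hW : LSob.Kernel M p W) (hS : IsClosed S) {E : Set (Euc N)}
    (hES : E ⊆ S) (hopen : ∃ U : Set (Euc N), IsOpen U ∧ E = S ∩ U)
    (hP : Measure.euclideanHausdorffMeasure 1 (relBoundary S E) ≠ ⊤)
    (hvol : Measure.euclideanHausdorffMeasure 2 E ≠ ⊤) :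
    ENNReal.ofReal (4 * Real.pi) * Measure.euclideanHausdorffMeasure 2 E +
      ∫⁻ q : Euc 2 × Euc 2 in {v | M.ι (M.e p v) ∈ E} ×ˢ {v | M.ι (M.e p v) ∈ E},
        ENNReal.ofReal (W q.1 q.2 * LSob.dn M p q.1 * LSob.dn M p q.2) ∂(volume.prod volume) ≤
      Measure.euclideanHausdorffMeasure 1 (relBoundary S E) ^ 2 := by
  classical
  set A : Set (Euc 2) := {v | M.ι (M.e p v) ∈ E} with hAdef
  have hA : IsOpen A := isOpen_dom M p hS hopen
  have hAm : MeasurableSet A := hA.measurableSet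
  set dn : Euc 2 → ℝ := LSob.dn M p with hdn
  have hdn0 : ∀ z, 0 ≤ dn z := dn_nonneg M p
  have hdnpos : ∀ z, 0 < dn z := dn_pos M p
  have hdnc : Continuous dn := continuous_dn M p
  set V : ℝ := (Measure.euclideanHausdorffMeasure 2 E).toReal with hV
  set P : ℝ := (Measure.euclideanHausdorffMeasure 1 (relBoundary S E)).toReal with hPdef
  have hlA : ∫⁻ z in A, ENNReal.ofReal (dn z) = Measure.euclideanHausdorffMeasure 2 E :=
    lintegral_dn M p hS hES hopen
  -- `dn` is integrable on `A`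
  have hintA : IntegrableOn dn A := by
    refine ⟨hdnc.aestronglyMeasurable, ?_⟩
    rw [hasFiniteIntegral_iff_ofReal (Eventually.of_forall hdn0), hlA]
    exact lt_top_iff_ne_top.2 hvol
  have hVA : ∫ z in A, dn z = V := by
    rw [integral_eq_lintegral_of_nonneg_ae (Eventually.of_forall hdn0)
      hdnc.aestronglyMeasurable, hlA]
  set g : Euc 2 → ℝ := A.indicator (fun _ => (1 : ℝ)) with hg
  have hg01 : ∀ z, 0 ≤ g z ∧ g z ≤ 1 := fun z => by
    rw [hg]
    by_cases hz : z ∈ A
    · rw [indicator_of_mem hz]; norm_num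
    · rw [indicator_of_notMem hz]; norm_num
  have hgg : ∀ z, g z ^ 2 = g z := fun z => by
    rw [hg]
    by_cases hz : z ∈ A
    · rw [indicator_of_mem hz]; norm_num
    · rw [indicator_of_notMem hz]; norm_num
  have hgdn : (fun z => g z * dn z) = A.indicator dn := by
    funext z
    rw [hg]
    by_cases hz : z ∈ A
    · rw [indicator_of_mem hz, indicator_of_mem hz, one_mul]
    · rw [indicator_of_notMem hz, indicator_of_notMem hz, zero_mul]
  have hgint : Integrable (fun z => g z * dn z) := by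
    rw [hgdn]
    exact (integrable_indicator_iff hAm).2 hintA
  have hgV : ∫ z, g z * dn z = V := by
    rw [hgdn, integral_indicator hAm, hVA]
  -- the approximating sequence
  have happ : ∀ j : ℕ, ∃ u c : Euc 2 → ℝ, ContDiff ℝ ∞ u ∧ HasCompactSupport u ∧
      (∀ x, 0 ≤ u x ∧ u x ≤ 1) ∧ Continuous c ∧ HasCompactSupport c ∧ (∀ x, 0 ≤ c x) ∧
      (∀ x w, |fderiv ℝ u x w| ≤ c x * ‖fderiv ℝ (fun v => M.ι (M.e p v)) x w‖) ∧
      ∫ x, c x * dn x ≤ P + (1 / 2 : ℝ) ^ j ∧
      Integrable (fun x => |u x - g x| * dn x) ∧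
      ∫ x, |u x - g x| * dn x ≤ (1 / 2 : ℝ) ^ j := by
    intro j
    have h := LC.approx_set (n := 1) (M.smooth p) (isClosedEmbedding_psi M p hS)
      (fun x w => M.fderiv_ge p x w) (range_psi M p) hES hopen hP hvol
      (ε := (1 / 2 : ℝ) ^ j) (by positivity)
    obtain ⟨u, c, h1, h2, h3, h4, h5, h6, h7, h8, h9, h10⟩ := h
    simp only [← dn_eq_jac M p] at h8 h9 h10
    exact ⟨u, c, h1, h2, h3, h4, h5, h6, h7, h8, h9, h10⟩
  choose u c hu huc hu01 hc hcc hc0 hder hcP hui huε using happ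
  -- volume estimates
  have hudn : ∀ j, Integrable (fun z => u j z ^ 2 * dn z) := fun j => by
    refine Continuous.integrable_of_hasCompactSupport ((hu j).continuous.pow 2 |>.mul hdnc) ?_
    refine HasCompactSupport.mul_right ?_
    have : HasCompactSupport (fun z => u j z * u j z) := (huc j).mul_right
    simpa [pow_two] using this
  have hu2 : ∀ j, V - 2 * (1 / 2 : ℝ) ^ j ≤ ∫ z, u j z ^ 2 * dn z := fun j => by
    have h1 : (∫ z, g z * dn z) - ∫ z, u j z ^ 2 * dn z = ∫ z, (g z * dn z - u j z ^ 2 * dn z) :=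
      (integral_sub hgint (hudn j)).symm
    have h2 : ∫ z, (g z * dn z - u j z ^ 2 * dn z) ≤ ∫ z, 2 * (|u j z - g z| * dn z) := by
      refine integral_mono (hgint.sub (hudn j)) ((hui j).const_mul 2) fun z => ?_
      have h3 : g z - u j z ^ 2 ≤ 2 * |u j z - g z| := by
        have e1 : g z - u j z ^ 2 = (g z - u j z) * (g z + u j z) := by
          linear_combination -(hgg z)
        rw [e1]
        have e2 : g z - u j z ≤ |u j z - g z| := by
          rw [abs_sub_comm]; exact le_abs_self _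
        have e3 := (hg01 z).1
        have e4 := (hg01 z).2
        have e5 := (hu01 j z).1
        have e6 := (hu01 j z).2
        have e7 : 0 ≤ |u j z - g z| := abs_nonneg _
        nlinarith
      have h4 := mul_le_mul_of_nonneg_right h3 (hdn0 z)
      simp only
      linarith [h4]
    rw [integral_const_mul] at h2
    have h5 := huε j
    rw [hgV] at h1
    linarith
  -- the Sobolev inequality for `u j`
  have hsob := fun j => hW.sob (u j) (c j) (hu j) (huc j) (fun z => (hu01 j z).1)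
    (hc j).measurable (hder j)
    (Continuous.integrable_of_hasCompactSupport ((hc j).mul hdnc) ((hcc j).mul_right))
  have hWae : ∀ᵐ q : Euc 2 × Euc 2 ∂(volume.prod volume), 0 ≤ W q.1 q.2 := by
    filter_upwards [ae_ne] with q hq
    exact (sq_nonneg k).trans (hW.ge _ _ hq)
  have hcint0 : ∀ j, 0 ≤ ∫ z, c j z * dn z := fun j =>
    integral_nonneg fun z => mul_nonneg (hc0 j z) (hdn0 z)
  have hP0 : 0 ≤ P := ENNReal.toReal_nonneg
  have hV0 : 0 ≤ V := ENNReal.toReal_nonneg
  have hkey : ∀ j, 4 * Real.pi * (V - 2 * (1 / 2 : ℝ) ^ j) +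
      ∫ q : Euc 2 × Euc 2, W q.1 q.2 * (u j q.1 * dn q.1) * (u j q.2 * dn q.2)
        ∂(volume.prod volume) ≤ (P + (1 / 2 : ℝ) ^ j) ^ 2 := fun j => by
    refine le_trans ?_ ((hsob j).2.trans ?_)
    · have := mul_le_mul_of_nonneg_left (hu2 j) (by positivity : (0 : ℝ) ≤ 4 * Real.pi)
      linarith
    · exact pow_le_pow_left₀ (hcint0 j) (hcP j) 2
  have hIW0 : ∀ j, 0 ≤ ∫ q : Euc 2 × Euc 2, W q.1 q.2 * (u j q.1 * dn q.1) * (u j q.2 * dn q.2)
        ∂(volume.prod volume) := fun j => by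
    refine integral_nonneg_of_ae ?_
    filter_upwards [hWae] with q hq
    have e5 := (hu01 j q.1).1
    have e6 := (hu01 j q.2).1
    have e7 := hdn0 q.1
    have e8 := hdn0 q.2
    exact mul_nonneg (mul_nonneg hq (mul_nonneg e5 e7)) (mul_nonneg e6 e8)
  -- a.e. convergence
  have hae : ∀ᵐ z : Euc 2, Tendsto (fun j => u j z) atTop (𝓝 (g z)) := by
    have hmeas : ∀ j, AEMeasurable (fun z => ENNReal.ofReal (|u j z - g z| * dn z)) := fun j =>
      (hui j).aestronglyMeasurable.aemeasurable.ennreal_ofReal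
    have hsum : ∫⁻ z, ∑' j, ENNReal.ofReal (|u j z - g z| * dn z) ≠ ⊤ := by
      rw [lintegral_tsum hmeas]
      have h1 : ∀ j, ∫⁻ z, ENNReal.ofReal (|u j z - g z| * dn z) ≤
          ENNReal.ofReal ((1 / 2 : ℝ) ^ j) := fun j => by
        rw [← ofReal_integral_eq_lintegral_ofReal (hui j)
          (Eventually.of_forall fun z => mul_nonneg (abs_nonneg _) (hdn0 z))]
        exact ENNReal.ofReal_le_ofReal (huε j)
      refine ne_top_of_le_ne_top ?_ (ENNReal.tsum_le_tsum h1)
      rw [← ENNReal.ofReal_tsum_of_nonneg (fun j => by positivity) summable_geometric_two]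
      exact ENNReal.ofReal_ne_top
    have h2 := ae_lt_top' (AEMeasurable.tsum hmeas) hsum
    filter_upwards [h2] with z hz
    have h3 := ENNReal.tendsto_atTop_zero_of_tsum_ne_top hz.ne
    have h4 : Tendsto (fun j => (ENNReal.ofReal (|u j z - g z| * dn z)).toReal) atTop (𝓝 0) := by
      have := (ENNReal.tendsto_toReal ENNReal.zero_ne_top).comp h3
      rw [ENNReal.toReal_zero] at this
      exact this
    have h5 : ∀ j, (ENNReal.ofReal (|u j z - g z| * dn z)).toReal = |u j z - g z| * dn z :=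
      fun j => ENNReal.toReal_ofReal (mul_nonneg (abs_nonneg _) (hdn0 z))
    simp only [h5] at h4
    have h6 : Tendsto (fun j => |u j z - g z|) atTop (𝓝 0) := by
      have h7 := h4.mul_const (dn z)⁻¹
      rw [zero_mul] at h7
      refine h7.congr fun j => ?_
      rw [mul_assoc, mul_inv_cancel₀ (hdnpos z).ne', mul_one]
    have h8 : Tendsto (fun j => u j z - g z) atTop (𝓝 0) :=
      tendsto_zero_iff_abs_tendsto_zero _ |>.2 h6
    have h9 := h8.add_const (g z)
    simpa using h9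
  have hae2 : ∀ᵐ q : Euc 2 × Euc 2 ∂(volume.prod volume),
      Tendsto (fun j => u j q.1) atTop (𝓝 (g q.1)) ∧
      Tendsto (fun j => u j q.2) atTop (𝓝 (g q.2)) := by
    have h1 := (Measure.quasiMeasurePreserving_fst (μ := (volume : Measure (Euc 2)))
      (ν := (volume : Measure (Euc 2)))).ae hae
    have h2 := (Measure.quasiMeasurePreserving_snd (μ := (volume : Measure (Euc 2)))
      (ν := (volume : Measure (Euc 2)))).ae hae
    filter_upwards [h1, h2] with q h3 h4
    exact ⟨h3, h4⟩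
  -- Fatou
  have hmeasF : ∀ j, Measurable (fun q : Euc 2 × Euc 2 =>
      ENNReal.ofReal (W q.1 q.2 * (u j q.1 * dn q.1) * (u j q.2 * dn q.2))) := fun j => by
    refine ((hW.meas.mul ?_).mul ?_).ennreal_ofReal
    · exact ((hu j).continuous.measurable.comp measurable_fst).mul
        (hdnc.measurable.comp measurable_fst)
    · exact ((hu j).continuous.measurable.comp measurable_snd).mul
        (hdnc.measurable.comp measurable_snd)
  have hfatou : ∫⁻ q : Euc 2 × Euc 2 in A ×ˢ A,
        ENNReal.ofReal (W q.1 q.2 * dn q.1 * dn q.2) ∂(volume.prod volume) ≤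
      ENNReal.ofReal (P ^ 2 - 4 * Real.pi * V) := by
    calc ∫⁻ q : Euc 2 × Euc 2 in A ×ˢ A,
          ENNReal.ofReal (W q.1 q.2 * dn q.1 * dn q.2) ∂(volume.prod volume)
        ≤ ∫⁻ q : Euc 2 × Euc 2 in A ×ˢ A, liminf (fun j =>
            ENNReal.ofReal (W q.1 q.2 * (u j q.1 * dn q.1) * (u j q.2 * dn q.2))) atTop
              ∂(volume.prod volume) := by
          refine lintegral_mono_ae ?_
          filter_upwards [ae_restrict_of_ae hae2,
            ae_restrict_mem (hAm.prod hAm)] with q hq hqA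
          have e1 : g q.1 = 1 := by rw [hg, indicator_of_mem hqA.1]
          have e2 : g q.2 = 1 := by rw [hg, indicator_of_mem hqA.2]
          rw [e1, e2] at hq
          have h3 : Tendsto (fun j => ENNReal.ofReal
              (W q.1 q.2 * (u j q.1 * dn q.1) * (u j q.2 * dn q.2))) atTop
              (𝓝 (ENNReal.ofReal (W q.1 q.2 * (1 * dn q.1) * (1 * dn q.2)))) := by
            refine ENNReal.tendsto_ofReal ?_
            exact ((hq.1.mul_const _).const_mul _).mul (hq.2.mul_const _)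
          rw [h3.liminf_eq, one_mul, one_mul]
      _ ≤ ∫⁻ q : Euc 2 × Euc 2, liminf (fun j =>
            ENNReal.ofReal (W q.1 q.2 * (u j q.1 * dn q.1) * (u j q.2 * dn q.2))) atTop
              ∂(volume.prod volume) := lintegral_mono' Measure.restrict_le_self le_rfl
      _ ≤ liminf (fun j => ∫⁻ q : Euc 2 × Euc 2,
            ENNReal.ofReal (W q.1 q.2 * (u j q.1 * dn q.1) * (u j q.2 * dn q.2))
              ∂(volume.prod volume)) atTop := lintegral_liminf_le hmeasF
      _ ≤ liminf (fun j : ℕ => ENNReal.ofReal ((P + (1 / 2 : ℝ) ^ j) ^ 2 -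
            4 * Real.pi * (V - 2 * (1 / 2 : ℝ) ^ j))) atTop := by
          refine liminf_le_liminf (Eventually.of_forall fun j => ?_)
          rw [← ofReal_integral_eq_lintegral_ofReal (hsob j).1]
          · refine ENNReal.ofReal_le_ofReal ?_
            have := hkey j
            linarith
          · filter_upwards [hWae] with q hq
            exact mul_nonneg (mul_nonneg hq (mul_nonneg (hu01 j q.1).1 (hdn0 q.1)))
              (mul_nonneg (hu01 j q.2).1 (hdn0 q.2))
      _ = ENNReal.ofReal (P ^ 2 - 4 * Real.pi * V) := by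
          have h0 : Tendsto (fun j : ℕ => (1 / 2 : ℝ) ^ j) atTop (𝓝 0) :=
            tendsto_pow_atTop_nhds_zero_of_lt_one (by norm_num) (by norm_num)
          have h1 : Tendsto (fun j : ℕ => (P + (1 / 2 : ℝ) ^ j) ^ 2 -
              4 * Real.pi * (V - 2 * (1 / 2 : ℝ) ^ j)) atTop
              (𝓝 ((P + 0) ^ 2 - 4 * Real.pi * (V - 2 * 0))) :=
            ((h0.const_add P).pow 2).sub ((((h0.const_mul 2).const_sub V)).const_mul _)
          rw [(ENNReal.tendsto_ofReal h1).liminf_eq]
          congr 1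
          ring
  have hpos : 4 * Real.pi * V ≤ P ^ 2 := by
    have h0 : Tendsto (fun j : ℕ => (1 / 2 : ℝ) ^ j) atTop (𝓝 0) :=
      tendsto_pow_atTop_nhds_zero_of_lt_one (by norm_num) (by norm_num)
    have h1 : Tendsto (fun j : ℕ => 4 * Real.pi * (V - 2 * (1 / 2 : ℝ) ^ j)) atTop
        (𝓝 (4 * Real.pi * (V - 2 * 0))) := (((h0.const_mul 2).const_sub V)).const_mul _
    have h2 : Tendsto (fun j : ℕ => (P + (1 / 2 : ℝ) ^ j) ^ 2) atTop (𝓝 ((P + 0) ^ 2)) :=
      (h0.const_add P).pow 2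
    have h3 := le_of_tendsto_of_tendsto' h1 h2 fun j => by
      have h4 := hkey j
      have h5 := hIW0 j
      linarith
    simpa using h3
  have hVe : Measure.euclideanHausdorffMeasure 2 E = ENNReal.ofReal V :=
    (ENNReal.ofReal_toReal hvol).symm
  have hPe : Measure.euclideanHausdorffMeasure 1 (relBoundary S E) = ENNReal.ofReal P :=
    (ENNReal.ofReal_toReal hP).symm
  rw [hVe, hPe, ← ENNReal.ofReal_mul (by positivity), ← ENNReal.ofReal_pow hP0]
  calc ENNReal.ofReal (4 * Real.pi * V) + _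
      ≤ ENNReal.ofReal (4 * Real.pi * V) + ENNReal.ofReal (P ^ 2 - 4 * Real.pi * V) := by
        gcongr
    _ = ENNReal.ofReal (P ^ 2) := by
        rw [← ENNReal.ofReal_add (by positivity) (by linarith)]
        congr 1
        ring

/-- `k² V² ≤ ∬_{A×A} W dn dn`. -/
theorem kernel_ge (M : CHModel 2 N k S X) (p : X) {W : Euc 2 → Euc 2 → ℝ}
    (hW : LSob.Kernel M p W) (hS : IsClosed S) {E : Set (Euc N)}
    (hES : E ⊆ S) (hopen : ∃ U : Set (Euc N), IsOpen U ∧ E = S ∩ U) :
    ENNReal.ofReal (k ^ 2) * Measure.euclideanHausdorffMeasure 2 E ^ 2 ≤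
      ∫⁻ q : Euc 2 × Euc 2 in {v | M.ι (M.e p v) ∈ E} ×ˢ {v | M.ι (M.e p v) ∈ E},
        ENNReal.ofReal (W q.1 q.2 * LSob.dn M p q.1 * LSob.dn M p q.2) ∂(volume.prod volume) := by
  have hm : Measurable fun z => ENNReal.ofReal (LSob.dn M p z) :=
    (continuous_dn M p).measurable.ennreal_ofReal
  have hm2 : Measurable fun z : Euc 2 × Euc 2 =>
      ENNReal.ofReal (LSob.dn M p z.1) * ENNReal.ofReal (LSob.dn M p z.2) :=
    (hm.comp measurable_fst).mul (hm.comp measurable_snd)
  rw [← lintegral_dn M p hS hES hopen, pow_two (∫⁻ z in _, _),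
    ← lintegral_prod_mul hm.aemeasurable hm.aemeasurable, Measure.prod_restrict,
    ← lintegral_const_mul _ hm2]
  refine lintegral_mono_ae ?_
  filter_upwards [ae_restrict_of_ae ae_ne] with q hq
  rw [← ENNReal.ofReal_mul (dn_nonneg M p _), ← ENNReal.ofReal_mul (sq_nonneg k), mul_assoc]
  refine ENNReal.ofReal_le_ofReal ?_
  exact mul_le_mul_of_nonneg_right (hW.ge _ _ hq)
    (mul_nonneg (dn_nonneg M p _) (dn_nonneg M p _))

/-- the isoperimetric inequality of a surface with a kernel -/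
theorem iso_of_kernel (M : CHModel 2 N k S X) (p : X) {W : Euc 2 → Euc 2 → ℝ}
    (hW : LSob.Kernel M p W) (hS : IsClosed S) {E : Set (Euc N)}
    (hES : E ⊆ S) (hopen : ∃ U : Set (Euc N), IsOpen U ∧ E = S ∩ U)
    {r : ℝ} (hr : 0 ≤ r)
    (hvol : Measure.euclideanHausdorffMeasure 2 E = ENNReal.ofReal (modelV 1 k r)) :
    ENNReal.ofReal (modelA 1 k r) ≤ Measure.euclideanHausdorffMeasure 1 (relBoundary S E) := by
  by_cases hP : Measure.euclideanHausdorffMeasure 1 (relBoundary S E) = ⊤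
  · rw [hP]; exact le_top
  have hvol' : Measure.euclideanHausdorffMeasure 2 E ≠ ⊤ := by
    rw [hvol]; exact ENNReal.ofReal_ne_top
  have h1 := main_ineq M p hW hS hES hopen hP hvol'
  have h2 := (add_le_add_right (kernel_ge M p hW hS hES hopen) _).trans h1
  have hV0 : 0 ≤ modelV 1 k r := EModel.modelV_nonneg hr
  have hA0 : 0 ≤ modelA 1 k r := EModel.modelA_nonneg hr
  rw [hvol, ← ENNReal.ofReal_pow hV0, ← ENNReal.ofReal_mul (by positivity),
    ← ENNReal.ofReal_mul (sq_nonneg k), ← ENNReal.ofReal_add (by positivity) (by positivity),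
    ← model_id, ENNReal.ofReal_pow hA0] at h2
  by_contra hlt
  rw [not_le] at hlt
  exact absurd h2 (not_le.2 (ENNReal.pow_lt_pow_left two_ne_zero hlt))

/-- **S0372 for surfaces** -/
theorem surface_372 (hSob : LSob.SobTarget) : E4.Stmt 2 := by
  intro N κ hκ S hS hclosed hconn hsc hsec E hES hopen r hr hvol
  obtain ⟨k, hk, rfl⟩ : ∃ k : ℝ, 0 ≤ k ∧ κ = -(k ^ 2) :=
    ⟨√(-κ), Real.sqrt_nonneg _, by rw [Real.sq_sqrt (by linarith)]; ring⟩
  have h1 : modelArea 2 (-(k ^ 2)) r = modelA 1 k r := EModel.modelArea_succ hk 1 r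
  have h2 : modelVolume 2 (-(k ^ 2)) r = modelV 1 k r := EModel.modelVolume_succ hk 1 r
  rw [h2] at hvol
  rw [h1]
  obtain ⟨X, iX, iP, ⟨p⟩, M, hM⟩ := hSob N k hk S hS hclosed hconn hsc hsec
  obtain ⟨W, hW⟩ := hM p
  exact iso_of_kernel M p hW hclosed hES hopen hr hvol

end Crest.Agent.R241.Surf576
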