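import Crest.Agent.R241.D5c
import Crest.Agent.R241.D1c
import Crest.Agent.R241.D3e
import Mathlib
import Crest.Agent.R241.E1i777
import Crest.Agent.R241.EChain
import Crest.Agent.R241.ESphere576
import Crest.Agent.R241.AAll723_Mg
import Crest.Agent.R241.Surf576_Mg
import Crest.Agent.R241.Surf373
import Crest.Agent.R241.LB3
import Crest.Agent.R241.D4Arc
import Crest.Agent.R241.AF3
import Crest.Agent.R241.LSob882
import Crest.Agent.R241.E5b

-- ▼ part R241/D5d
section

/-!
R241 block D5d (helper475): the final target of block D, from the Hessian inequality.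
-/

set_option autoImplicit false
open Set Filter Topology
open scoped ContDiff RealInnerProductSpace NNReal
open Crest.GeometryTopology.Submanifold
open Crest.Agent.R241.DDefs Crest.Agent.R241.D2 Crest.Agent.R241.D4Met Crest.Agent.R241.D5b
open Crest.Agent.R241.D5c

noncomputable section
namespace Crest.Agent.R241.D5d

/-- The Hessian inequality for all Cartan-Hadamard submanifolds. -/
def HessTarget : Prop :=
  ∀ (n N : ℕ) (S : Set (Euc N)) (k : ℝ) (hk : 0 ≤ k) (G : Geo n N (-(k ^ 2)) S)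
    (hS : IsSubmanifold n N S) (hsc : SimplyConnectedSpace S),
    D5.HessIneq (xdata hk G hS hsc) 0 ∧ D5.HessIneq (xdata hk G hS hsc) k

theorem chTarget_of (h : HessTarget) : CHTarget := by
  intro d N _ k hk S hS hcl hconn hsc hsec
  obtain ⟨G, -⟩ := D.d1 d N (-(k ^ 2)) S hS hcl hsec
  obtain ⟨h0, h1⟩ := h d N S k hk G hS hsc
  obtain ⟨p, hp⟩ := hconn.nonempty
  exact ⟨XX hk G hS hsc, inferInstance, inferInstance, ⟨XS.of _ ⟨p, hp⟩⟩,
    ⟨chModel hk G hS hsc h0 h1⟩⟩

end Crest.Agent.R241.D5d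
end
end

-- ▼ part R241/D5e
section

/-!
R241 block D, end: `CHTarget` (metric model of a Cartan-Hadamard submanifold).
-/

set_option autoImplicit false

namespace Crest.Agent.R241.D5e

theorem hessTarget : D5d.HessTarget := fun _ _ _ _ hk G hS hsc =>
  ⟨D3e.hessIneq hk G hS hsc _ le_rfl hk, D3e.hessIneq hk G hS hsc _ hk le_rfl⟩

theorem chTarget : CHTarget := D5d.chTarget_of hessTarget

end Crest.Agent.R241.D5e
end

-- ▼ part R241/E1j777
section

/-! Row 241, block E1 (helper777), part j: `EChain.PerimTarget` and `EChain.BdTarget` hold. -/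

set_option autoImplicit false

namespace Crest.Agent.R241.E1

theorem perimTarget : EChain.PerimTarget := by
  intro m N k _ S X _ _ M p R E _ hE _ hfin
  exact ⟨_, perim_model M p hE hfin⟩

theorem bdTarget : EChain.BdTarget := EChain.bdTarget_of_perim perimTarget

end Crest.Agent.R241.E1
end

-- ▼ part R241/EFinal576
section

/-! # R241, block E: `ChainTarget` (unconditional) -/

set_option autoImplicit false

namespace Crest.Agent.R241.EFinal

theorem chainTarget : ChainTarget := EChain.chainTarget_of_bd E1.bdTarget ESphere.sphereTarget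

end Crest.Agent.R241.EFinal
end

-- ▼ part R241/Final882
section

/-!
# R241: final assembly of S0372 and S0373 from the two surface statements (helper882)
-/

set_option autoImplicit false

open MeasureTheory Filter Topology Set
open scoped ENNReal NNReal

namespace Crest.Agent.R241.Final882

open Crest.GeometryTopology.Submanifold

theorem ballInputs : E4.BallInputs :=
  CBall.e4BallInputs B9Final.fvarAll CBall.coneAll AAll723.aAll

theorem fillInputs : E4.FillInputs := E4.fillInputs_of ballInputs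

theorem fillEqInputs : E5.FillEqInputs :=
  E5.fillEqInputs_of ballInputs (CBall.e5EqInputs AAll723.aeqAll)

/-- `S0372` in every dimension `n ≥ 3`. -/
theorem stmt372 {n : ℕ} (hn : 3 ≤ n) : E4.Stmt n :=
  E4.stmt_of_three_le D5e.chTarget EFinal.chainTarget Cut882.cutTarget fillInputs hn

/-- `S0373` in every dimension `n ≥ 3`. -/
theorem stmt373 {n : ℕ} (hn : 3 ≤ n) : E5.Stmt n :=
  E5.stmt_of_three_le D5e.chTarget EFinal.chainTarget fillInputs fillEqInputs hn

end Crest.Agent.R241.Final882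
end

-- ▼ part R241/FinalB882
section

/-!
# R241: S0372 and S0373 from the surface Sobolev inequality `LSob.SobTarget` (helper882)
-/

set_option autoImplicit false

open MeasureTheory Filter Topology Set
open scoped ENNReal NNReal

namespace Crest.Agent.R241.FinalB882

open Crest.GeometryTopology.Submanifold

/-- `S0372` in every dimension. -/
theorem stmt372 (h : LSob.SobTarget) {n : ℕ} (hn : 2 ≤ n) : E4.Stmt n := by
  rcases Nat.lt_or_ge 2 n with h3 | h2
  · exact Final882.stmt372 h3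
  · obtain rfl : n = 2 := le_antisymm h2 hn
    exact Surf576.surface_372 h

/-- `S0373` in every dimension. -/
theorem stmt373 (h : LSob.SobTarget) {n : ℕ} (hn : 2 ≤ n) : E5.Stmt n := by
  rcases Nat.lt_or_ge 2 n with h3 | h2
  · exact Final882.stmt373 h3
  · obtain rfl : n = 2 := le_antisymm h2 hn
    exact Surf373.surface_373 h

end Crest.Agent.R241.FinalB882
end

-- ▼ part R241/LB4a
section

/-!
R241, block L: the logarithm as a continuous map into the tangent bundle, frame free formulas for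
the scalar Jacobian, and the kernel `K`.
-/

set_option autoImplicit false
set_option linter.unusedSectionVars false

open Set Filter Topology
open scoped ContDiff RealInnerProductSpace
open Crest.GeometryTopology.Submanifold
open Crest.Agent.R241.DDefs
open Crest.Agent.R241.D2
open Crest.Agent.R241.D3b
open Crest.Agent.R241.D3a
open Crest.Agent.R241.D4Met
open Crest.Agent.R241.LB1
open Crest.Agent.R241.LB2
open Crest.Agent.R241.LB3

noncomputable section

namespace Crest.Agent.R241.LB4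

variable {N : ℕ} {S : Set (Euc N)}

/-! ### Hilbert–Schmidt formulas -/

section HS

variable {κ : ℝ} {G : Geo 2 N κ S} {p e n : Euc N}

/-- the trace of `⟪A1 P ·, A2 P ·⟫` -/
theorem trace_eq (h : On G p e n) (A1 A2 : Euc N →L[ℝ] Euc N) :
    ∑ i, ⟪A1 (G.P p (EuclideanSpace.single i 1)), A2 (G.P p (EuclideanSpace.single i 1))⟫ =
      ⟪A1 e, A2 e⟫ + ⟪A1 n, A2 n⟫ := by
  have hP : ∀ i : Fin N, G.P p (EuclideanSpace.single i 1) = (e i) • e + (n i) • n := by
    intro i
    have h1 := h.expand (P_mem G h.hx (v := EuclideanSpace.single i 1))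
    rw [inner_P_left G h.hx, inner_P_left G h.hx, (P_eq_self G h.hx).1 h.he,
      (P_eq_self G h.hx).1 h.hn, EuclideanSpace.inner_single_left,
      EuclideanSpace.inner_single_left] at h1
    simpa using h1
  have hee : ∑ i, e i * e i = 1 := by
    have := EuclideanSpace.real_norm_sq_eq e
    rw [h.ne] at this
    simp only [sq] at this
    linarith
  have hnn : ∑ i, n i * n i = 1 := by
    have := EuclideanSpace.real_norm_sq_eq n
    rw [h.nn] at this
    simp only [sq] at this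
    linarith
  have hen : ∑ i, e i * n i = 0 := by
    have := h.en
    rw [PiLp.inner_apply] at this
    simp only [RCLike.inner_apply, conj_trivial] at this
    rw [← this]
    exact Finset.sum_congr rfl fun i _ => by ring
  have h2 : ∀ i : Fin N, ⟪A1 (G.P p (EuclideanSpace.single i 1)),
      A2 (G.P p (EuclideanSpace.single i 1))⟫ =
        (e i * e i) * ⟪A1 e, A2 e⟫ + (e i * n i) * (⟪A1 e, A2 n⟫ + ⟪A1 n, A2 e⟫) +
          (n i * n i) * ⟪A1 n, A2 n⟫ := by
    intro i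
    rw [hP i]
    simp only [map_add, map_smul, inner_add_left, inner_add_right, inner_smul_left,
      inner_smul_right, RCLike.conj_to_real]
    ring
  simp only [h2, Finset.sum_add_distrib, ← Finset.sum_mul, hee, hnn, hen]
  ring

variable (G)

/-- first component of the derivative of the flow in the direction of the velocity -/
def A1 (p v : Euc N) (t : ℝ) : Euc N →L[ℝ] Euc N :=
  (ContinuousLinearMap.fst ℝ (Euc N) (Euc N)).comp ((fderiv ℝ (fl G) ((p, v), t)).comp
    ((ContinuousLinearMap.inl ℝ (Euc N × Euc N) ℝ).comp (ContinuousLinearMap.inr ℝ (Euc N) (Euc N))))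

/-- second component -/
def A2 (p v : Euc N) (t : ℝ) : Euc N →L[ℝ] Euc N :=
  (ContinuousLinearMap.snd ℝ (Euc N) (Euc N)).comp ((fderiv ℝ (fl G) ((p, v), t)).comp
    ((ContinuousLinearMap.inl ℝ (Euc N × Euc N) ℝ).comp (ContinuousLinearMap.inr ℝ (Euc N) (Euc N))))

theorem A1_apply {v w : Euc N} (hp : p ∈ S) (hv : v ∈ G.T p) (hw : w ∈ G.T p) (t : ℝ) :
    A1 G p v t w = J G p v w t := (J_eq G hp hv hw t).1.symm

theorem A2_apply {v w : Euc N} (hp : p ∈ S) (hv : v ∈ G.T p) (hw : w ∈ G.T p) (t : ℝ) :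
    A2 G p v t w = J' G p v w t := (J_eq G hp hv hw t).2.symm

/-- square of the scalar Jacobian, frame free -/
def hs1 (q : (Euc N × Euc N) × ℝ) : ℝ :=
  (∑ i, ⟪A1 G q.1.1 q.1.2 q.2 (G.P q.1.1 (EuclideanSpace.single i 1)),
    A1 G q.1.1 q.1.2 q.2 (G.P q.1.1 (EuclideanSpace.single i 1))⟫) - q.2 ^ 2

/-- product of the scalar Jacobian with its derivative, frame free -/
def hs2 (q : (Euc N × Euc N) × ℝ) : ℝ :=
  (∑ i, ⟪A2 G q.1.1 q.1.2 q.2 (G.P q.1.1 (EuclideanSpace.single i 1)),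
    A1 G q.1.1 q.1.2 q.2 (G.P q.1.1 (EuclideanSpace.single i 1))⟫) - q.2

/-- the Jacobi field in the direction of the geodesic -/
theorem J_self (hp : p ∈ S) {v : Euc N} (hv : v ∈ G.T p) (t : ℝ) :
    J G p v v t = t • (fl G ((p, v), t)).2 ∧
    J' G p v v t = (fl G ((p, v), t)).2 +
      t • fderiv ℝ G.P (fl G ((p, v), t)).1 (fl G ((p, v), t)).2 (fl G ((p, v), t)).2 := by
  have hq : (p, v) ∈ TS G := ⟨hp, hv⟩
  have hs : ∀ s : ℝ, fl G ((p, v + s • v), t) =
      ((fl G ((p, v), (1 + s) * t)).1, (1 + s) • (fl G ((p, v), (1 + s) * t)).2) := by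
    intro s
    have := fl_scale G hq (1 + s) t
    rw [add_smul, one_smul] at this
    exact this
  have hm : HasDerivAt (fun s : ℝ => (1 + s) * t) t 0 := by
    simpa using ((hasDerivAt_id (0 : ℝ)).const_add 1).mul_const t
  have h1 := (hasDerivAt_fl G (complete G hq ((1 + 0) * t))).scomp (0 : ℝ) hm
  rw [add_zero, one_mul] at h1
  have h1a : HasDerivAt (fun s : ℝ => (fl G ((p, v), (1 + s) * t)).1)
      (t • (fl G ((p, v), t)).2) 0 := hda_fst h1
  have h1b : HasDerivAt (fun s : ℝ => (fl G ((p, v), (1 + s) * t)).2)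
      (t • fderiv ℝ G.P (fl G ((p, v), t)).1 (fl G ((p, v), t)).2 (fl G ((p, v), t)).2) 0 :=
    hda_snd h1
  constructor
  · have h3 := hasDerivAt_s (q := ((0 : ℝ), t))
      ((contDiff_al G hp hv hv).differentiable (by simp) ((0 : ℝ), t))
    refine h3.unique ?_
    refine h1a.congr_of_eventuallyEq (Eventually.of_forall fun s => ?_)
    show (fl G ((p, v + s • v), t)).1 = _
    rw [hs s]
  · rw [J'_eq G hp hv hv]
    have h3 := hasDerivAt_s (q := ((0 : ℝ), t))
      ((contDiff_ta G hp hv hv).differentiable (by simp) ((0 : ℝ), t))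
    refine h3.unique ?_
    have h4 : HasDerivAt (fun s : ℝ => (1 + s) • (fl G ((p, v), (1 + s) * t)).2)
        ((1 + (0 : ℝ)) • (t • fderiv ℝ G.P (fl G ((p, v), t)).1 (fl G ((p, v), t)).2
          (fl G ((p, v), t)).2) + (1 : ℝ) • (fl G ((p, v), (1 + 0) * t)).2) 0 :=
      ((hasDerivAt_id (0 : ℝ)).const_add 1).smul h1b
    rw [add_zero, one_smul, one_mul, one_smul, add_comm] at h4
    refine h4.congr_of_eventuallyEq (Eventually.of_forall fun s => ?_)
    show (fl G ((p, v + s • v), t)).2 = _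
    rw [hs s]

theorem hs1_eq {v w : Euc N} (h : On G p v w) (t : ℝ) :
    hs1 G ((p, v), t) = jj G p v w t ^ 2 := by
  have h1 := J_self G h.hx h.he t
  have h2 := norm_T h t
  simp only [hs1]
  rw [trace_eq h, A1_apply G h.hx h.he h.he, A1_apply G h.hx h.he h.hn, h1.1,
    real_inner_self_eq_norm_sq, real_inner_self_eq_norm_sq, norm_smul, h2, jj, mul_one,
    Real.norm_eq_abs, sq_abs]
  ring

theorem hs2_eq {v w : Euc N} (h : On G p v w) (t : ℝ) :
    hs2 G ((p, v), t) = ⟪J' G p v w t, J G p v w t⟫ := by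
  have h1 := J_self G h.hx h.he t
  have h2 := norm_T h t
  have hm := fl_mem G (q := (p, v)) ⟨h.hx, h.he⟩ t
  have h3 := inner_II G hm.1 hm.2 hm.2 hm.2
  unfold II at h3
  simp only [hs2]
  rw [trace_eq h, A1_apply G h.hx h.he h.he, A1_apply G h.hx h.he h.hn,
    A2_apply G h.hx h.he h.he, A2_apply G h.hx h.he h.hn, h1.1, h1.2, inner_add_left,
    inner_smul_right, inner_smul_right, inner_smul_left, h3, real_inner_self_eq_norm_sq, h2]
  simp

theorem continuousAt_hs {p v : Euc N} (hp : p ∈ S) (hv : v ∈ G.T p) (t : ℝ) :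
    ContinuousAt (hs1 G) ((p, v), t) ∧ ContinuousAt (hs2 G) ((p, v), t) := by
  have h1 : ContinuousAt (fderiv ℝ (fl G)) ((p, v), t) :=
    (contDiffAt_fl' G (q := (p, v)) ⟨hp, hv⟩ t).fderiv_right (m := 0) (by simp) |>.continuousAt
  have h2 : ContinuousAt (fun q : (Euc N × Euc N) × ℝ => A1 G q.1.1 q.1.2 q.2) ((p, v), t) := by
    unfold A1
    exact continuousAt_const.clm_comp (h1.clm_comp continuousAt_const)
  have h3 : ContinuousAt (fun q : (Euc N × Euc N) × ℝ => A2 G q.1.1 q.1.2 q.2) ((p, v), t) := by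
    unfold A2
    exact continuousAt_const.clm_comp (h1.clm_comp continuousAt_const)
  have h4 : ∀ i : Fin N, ContinuousAt (fun q : (Euc N × Euc N) × ℝ =>
      G.P q.1.1 (EuclideanSpace.single i 1)) ((p, v), t) := by
    intro i
    exact (((G.contDiff_P.continuous.comp (continuous_fst.comp continuous_fst)).clm_apply
      continuous_const)).continuousAt
  constructor
  · unfold hs1
    refine ContinuousAt.sub (tendsto_finsetSum _ fun i _ => ?_) ?_
    · exact (h2.clm_apply (h4 i)).inner (h2.clm_apply (h4 i))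
    · exact (continuous_snd.pow 2).continuousAt
  · unfold hs2
    refine ContinuousAt.sub (tendsto_finsetSum _ fun i _ => ?_) ?_
    · exact (h3.clm_apply (h4 i)).inner (h2.clm_apply (h4 i))
    · exact continuous_snd.continuousAt

end HS

/-! ### the logarithm -/

section log

variable {k : ℝ} (hk : 0 ≤ k) (G : Geo 2 N (-(k ^ 2)) S) (sub : IsSubmanifold 2 N S)
  (sc : SimplyConnectedSpace S)

/-- exponential data -/
abbrev DD : ExpData 2 N S := D3d.expData hk G sub sc

theorem coe_homeo (p : S) (v : Euc 2) :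
    ((DD hk G sub sc).homeo p v : Euc N) = Exp G p (D3d.frm G p v) :=
  (DD hk G sub sc).homeo_coe p v

/-- initial velocity of the geodesic from `y` to `x` (reached at time one) -/
def logv (y x : S) : Euc N := D3d.frm G y ((DD hk G sub sc).log y x)

theorem logv_mem (y x : S) : logv hk G sub sc y x ∈ G.T y := D3d.frm_mem G y _

theorem Exp_logv (y x : S) : Exp G y (logv hk G sub sc y x) = x := by
  have := coe_homeo hk G sub sc y ((DD hk G sub sc).log y x)
  rw [(DD hk G sub sc).homeo_log] at this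
  exact this.symm

theorem logv_unique {y x : S} {v : Euc N} (hv : v ∈ G.T y) (h : Exp G y v = x) :
    v = logv hk G sub sc y x := by
  obtain ⟨u, rfl⟩ := D3d.exists_frm G (p := y) hv
  have h1 : (DD hk G sub sc).homeo y u = x := Subtype.ext (by rw [coe_homeo]; exact h)
  rw [logv, ← h1, (DD hk G sub sc).log_homeo]

theorem norm_logv (y x : S) : ‖logv hk G sub sc y x‖ = ‖(DD hk G sub sc).log y x‖ :=
  D3d.norm_frm G y _


theorem logv_ne_zero {y x : S} (h : y ≠ x) : logv hk G sub sc y x ≠ 0 := by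
  intro h0
  apply h
  apply (DD hk G sub sc).eq_of_norm_log_eq_zero
  rw [← norm_logv, h0, norm_zero]

theorem continuous_norm_logv :
    Continuous fun q : S × S => ‖logv hk G sub sc q.1 q.2‖ := by
  have h1 : (fun q : S × S => ‖logv hk G sub sc q.1 q.2‖) =
      fun q : S × S => dist (XS.of (DD hk G sub sc) q.1) (XS.of (DD hk G sub sc) q.2) := by
    funext q
    rw [norm_logv, XS.dist_of]
  rw [h1]
  exact ((XS.continuous_of _).comp continuous_fst).dist ((XS.continuous_of _).comp continuous_snd)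

theorem continuous_logv : Continuous fun q : S × S => logv hk G sub sc q.1 q.2 := by
  rw [continuous_iff_continuousAt]
  intro q
  rw [ContinuousAt, tendsto_iff_ultrafilter]
  intro U hU
  -- boundedness
  have hn := (continuous_norm_logv hk G sub sc).tendsto q
  have hb : ∀ᶠ q' in (U : Filter (S × S)), logv hk G sub sc q'.1 q'.2 ∈
      Metric.closedBall (0 : Euc N) (‖logv hk G sub sc q.1 q.2‖ + 1) := by
    have : ∀ᶠ q' in 𝓝 q, ‖logv hk G sub sc q'.1 q'.2‖ < ‖logv hk G sub sc q.1 q.2‖ + 1 :=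
      hn.eventually (gt_mem_nhds (by linarith))
    filter_upwards [hU this] with q' hq'
    rw [mem_closedBall_zero_iff]
    exact hq'.le
  obtain ⟨v, -, hv⟩ := (isCompact_closedBall (0 : Euc N) (‖logv hk G sub sc q.1 q.2‖ + 1)
    ).ultrafilter_le_nhds (U.map fun q' : S × S => logv hk G sub sc q'.1 q'.2)
    (by rw [Filter.le_principal_iff, Ultrafilter.coe_map]; exact hb)
  have hv' : Tendsto (fun q' : S × S => logv hk G sub sc q'.1 q'.2) (U : Filter (S × S))
    (𝓝 v) := hv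
  have h1 : Tendsto (fun q' : S × S => (q'.1 : Euc N)) U (𝓝 (q.1 : Euc N)) :=
    ((continuous_subtype_val.comp continuous_fst).tendsto q).mono_left hU
  have h2 : Tendsto (fun q' : S × S => (q'.2 : Euc N)) U (𝓝 (q.2 : Euc N)) :=
    ((continuous_subtype_val.comp continuous_snd).tendsto q).mono_left hU
  have h3 : Tendsto (fun q' : S × S => ((q'.1 : Euc N), logv hk G sub sc q'.1 q'.2)) U
      (𝓝 ((q.1 : Euc N), v)) := h1.prodMk_nhds hv'
  have hmem : ((q.1 : Euc N), v) ∈ TS G :=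
    (isClosed_TS G).mem_of_tendsto h3 (Eventually.of_forall fun q' =>
      ⟨q'.1.2, logv_mem hk G sub sc q'.1 q'.2⟩)
  have hExp : ContinuousAt (fun q : Euc N × Euc N => Exp G q.1 q.2) ((q.1 : Euc N), v) :=
    (contDiffAt_Exp G hmem.1 hmem.2).continuousAt
  have h4 : Tendsto (fun q' : S × S => Exp G q'.1 (logv hk G sub sc q'.1 q'.2)) U
      (𝓝 (Exp G q.1 v)) := Tendsto.comp (g := fun q : Euc N × Euc N => Exp G q.1 q.2)
        (f := fun q' : S × S => ((q'.1 : Euc N), logv hk G sub sc q'.1 q'.2)) hExp h3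
  have h5 : (fun q' : S × S => Exp G q'.1 (logv hk G sub sc q'.1 q'.2)) =
      fun q' : S × S => (q'.2 : Euc N) := funext fun q' => Exp_logv hk G sub sc q'.1 q'.2
  rw [h5] at h4
  have h6 : Exp G q.1 v = q.2 := tendsto_nhds_unique h4 h2
  have h7 := logv_unique hk G sub sc hmem.2 h6
  rw [← h7]
  exact hv'

end log

end Crest.Agent.R241.LB4
end
end

-- ▼ part R241/LB4b
section

/-!
R241, block L: the kernel `K` and its values in polar coordinates at both ends.
-/

set_option autoImplicit false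
set_option linter.unusedSectionVars false

open Set Filter Topology
open scoped ContDiff RealInnerProductSpace
open Crest.GeometryTopology.Submanifold
open Crest.Agent.R241.DDefs
open Crest.Agent.R241.D2
open Crest.Agent.R241.D3b
open Crest.Agent.R241.D3a
open Crest.Agent.R241.D4Met
open Crest.Agent.R241.LB1
open Crest.Agent.R241.LB2
open Crest.Agent.R241.LB3

noncomputable section

namespace Crest.Agent.R241.LB4

variable {N : ℕ} {S : Set (Euc N)}

/-- unit vector -/
def Eθ (θ : ℝ) : Euc 2 := !₂[Real.cos θ, Real.sin θ]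

/-- rotated unit vector -/
def Rθ (θ : ℝ) : Euc 2 := !₂[-Real.sin θ, Real.cos θ]

theorem norm_Eθ (θ : ℝ) : ‖Eθ θ‖ = 1 := by
  rw [← sq_eq_sq₀ (norm_nonneg _) zero_le_one, EuclideanSpace.real_norm_sq_eq, Fin.sum_univ_two]
  simp [Eθ]

theorem norm_Rθ (θ : ℝ) : ‖Rθ θ‖ = 1 := by
  rw [← sq_eq_sq₀ (norm_nonneg _) zero_le_one, EuclideanSpace.real_norm_sq_eq, Fin.sum_univ_two]
  simp [Rθ]

theorem inner_Eθ_Rθ (θ : ℝ) : ⟪Eθ θ, Rθ θ⟫ = 0 := by
  simp [Eθ, Rθ, PiLp.inner_apply, Fin.sum_univ_two]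
  ring

theorem Eθ_eq : Eθ = fun θ => Real.cos θ • (EuclideanSpace.single 0 1 : Euc 2) +
    Real.sin θ • (EuclideanSpace.single 1 1 : Euc 2) := by
  funext θ
  ext i
  fin_cases i <;> simp [Eθ]

theorem Rθ_eq : Rθ = fun θ => (-Real.sin θ) • (EuclideanSpace.single 0 1 : Euc 2) +
    Real.cos θ • (EuclideanSpace.single 1 1 : Euc 2) := by
  funext θ
  ext i
  fin_cases i <;> simp [Rθ]

theorem hasDerivAt_Eθ (θ : ℝ) : HasDerivAt Eθ (Rθ θ) θ := by
  rw [Eθ_eq, Rθ_eq]
  exact ((Real.hasDerivAt_cos θ).smul_const _).add ((Real.hasDerivAt_sin θ).smul_const _)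

theorem continuous_Eθ : Continuous Eθ :=
  continuous_iff_continuousAt.2 fun θ => (hasDerivAt_Eθ θ).continuousAt

theorem hasDerivAt_Rθ (θ : ℝ) : HasDerivAt Rθ (-Eθ θ) θ := by
  rw [Eθ_eq, Rθ_eq]
  refine (((Real.hasDerivAt_sin θ).neg.smul_const _).add
    ((Real.hasDerivAt_cos θ).smul_const _)).congr_deriv ?_
  simp only [neg_smul]
  abel

theorem continuous_Rθ : Continuous Rθ :=
  continuous_iff_continuousAt.2 fun θ => (hasDerivAt_Rθ θ).continuousAt

section frames

variable {κ : ℝ} (G : Geo 2 N κ S)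

/-- frame -/
def ev (x : S) (θ : ℝ) : Euc N := D3d.frm G x (Eθ θ)

/-- frame -/
def nv (x : S) (θ : ℝ) : Euc N := D3d.frm G x (Rθ θ)

theorem on_ev (x : S) (θ : ℝ) : On G (x : Euc N) (ev G x θ) (nv G x θ) :=
  ⟨x.2, D3d.frm_mem G x _, D3d.frm_mem G x _, by rw [ev, D3d.norm_frm, norm_Eθ],
    by rw [nv, D3d.norm_frm, norm_Rθ], by rw [ev, nv, D3d.inner_frm, inner_Eθ_Rθ]⟩

theorem ev_eq (x : S) (θ : ℝ) :
    ev G x θ = Real.cos θ • ev G x 0 + Real.sin θ • nv G x 0 := by
  rw [ev, ev, nv, ← map_smul, ← map_smul, ← map_add]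
  congr 1
  ext i
  fin_cases i <;> simp [Eθ, Rθ]


theorem continuous_ev (x : S) : Continuous (ev G x) := (D3d.frm G x).continuous.comp continuous_Eθ

theorem continuous_nv (x : S) : Continuous (nv G x) := (D3d.frm G x).continuous.comp continuous_Rθ

/-- the polar velocity -/
def vel (x : S) (ρ θ : ℝ) : Euc N := (fl G (((x : Euc N), ev G x θ), ρ)).2

/-- the scalar Jacobian in polar coordinates -/
def Jc (x : S) (ρ θ : ℝ) : ℝ := jj G x (ev G x θ) (nv G x θ) ρ

/-- its radial derivative -/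
def Jd (x : S) (ρ θ : ℝ) : ℝ := jd G x (ev G x θ) (nv G x θ) ρ

/-- the angular unit vector -/
def nrm (x : S) (ρ θ : ℝ) : Euc N :=
  (Jc G x ρ θ)⁻¹ • J G x (ev G x θ) (nv G x θ) ρ

/-- point at distance one behind -/
def zb (x : S) (θ : ℝ) : Euc N := (fl G (((x : Euc N), ev G x θ), -1)).1

/-- velocity at distance one behind -/
def ub (x : S) (θ : ℝ) : Euc N := (fl G (((x : Euc N), ev G x θ), -1)).2

theorem exists_wb (x : S) (θ : ℝ) : ∃ w, On G (zb G x θ) (ub G x θ) w := by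
  have h := on_ev G x θ
  have hm := fl_mem G (q := ((x : Euc N), ev G x θ)) ⟨h.hx, h.he⟩ (-1)
  exact exists_On hm.1 hm.2 (norm_T h (-1))

/-- normal at distance one behind -/
def wb (x : S) (θ : ℝ) : Euc N := (exists_wb G x θ).choose

theorem on_wb (x : S) (θ : ℝ) : On G (zb G x θ) (ub G x θ) (wb G x θ) :=
  (exists_wb G x θ).choose_spec

theorem fl_zb (x : S) (θ : ℝ) :
    fl G ((zb G x θ, ub G x θ), 1) = ((x : Euc N), ev G x θ) := by
  have h := on_ev G x θ
  have h1 := fl_add' G (q := ((x : Euc N), ev G x θ)) ⟨h.hx, h.he⟩ (-1) 1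
  rw [neg_add_cancel, fl_zero] at h1
  exact h1.symm

/-- cosine solution -/
def Cc (x : S) (ρ θ : ℝ) : ℝ :=
  CC G x (ev G x θ) (nv G x θ) (zb G x θ) (ub G x θ) (wb G x θ) ρ

/-- its derivative -/
def Cd (x : S) (ρ θ : ℝ) : ℝ :=
  CD G x (ev G x θ) (nv G x θ) (zb G x θ) (ub G x θ) (wb G x θ) ρ

end frames

variable {k : ℝ} (hk : 0 ≤ k) (G : Geo 2 N (-(k ^ 2)) S) (sub : IsSubmanifold 2 N S)
  (sc : SimplyConnectedSpace S)

/-- polar point map -/
def pt (x : S) (ρ θ : ℝ) : S := (DD hk G sub sc).homeo x (ρ • Eθ θ)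

theorem coe_pt (x : S) (ρ θ : ℝ) :
    (pt hk G sub sc x ρ θ : Euc N) = (fl G (((x : Euc N), ev G x θ), ρ)).1 := by
  rw [pt, coe_homeo, map_smul, Exp_smul G x.2 (D3d.frm_mem G x _)]
  rfl

/-- base point, direction and distance -/
def dat (y x : S) : (Euc N × Euc N) × ℝ :=
  (((y : Euc N), ‖logv hk G sub sc y x‖⁻¹ • logv hk G sub sc y x), ‖logv hk G sub sc y x‖)

/-- the kernel -/
def KK (x y : S) : Euc N :=
  ((hs2 G (dat hk G sub sc y x) + √(hs1 G (dat hk G sub sc y x))) / hs1 G (dat hk G sub sc y x)) •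
    (‖logv hk G sub sc y x‖⁻¹ • logv hk G sub sc y x)

theorem dat_eq {y x : S} {e : Euc N} (he : e ∈ G.T y) (ne : ‖e‖ = 1) {ρ : ℝ} (hρ : 0 < ρ)
    (h : (fl G (((y : Euc N), e), ρ)).1 = x) :
    logv hk G sub sc y x = ρ • e ∧ dat hk G sub sc y x = (((y : Euc N), e), ρ) := by
  have h1 : logv hk G sub sc y x = ρ • e := by
    symm
    apply logv_unique hk G sub sc ((G.T y).smul_mem ρ he)
    rw [Exp_smul G y.2 he, h]
  have h2 : ‖ρ • e‖ = ρ := by rw [norm_smul, ne, mul_one, Real.norm_eq_abs, abs_of_pos hρ]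
  refine ⟨h1, ?_⟩
  rw [dat, h1, h2, smul_smul, inv_mul_cancel₀ hρ.ne', one_smul]

theorem KK_eq {y x : S} {e n : Euc N} (ho : On G (y : Euc N) e n) {ρ : ℝ} (hρ : 0 < ρ)
    (h : (fl G (((y : Euc N), e), ρ)).1 = x) :
    jj G y e n ρ • KK hk G sub sc x y = (jd G y e n ρ + 1) • e := by
  obtain ⟨h1, h2⟩ := dat_eq hk G sub sc ho.he ho.ne hρ h
  have hn : ‖ρ • e‖ = ρ := by rw [norm_smul, ho.ne, mul_one, Real.norm_eq_abs, abs_of_pos hρ]
  have hj : 0 < jj G y e n ρ := hρ.trans_le (le_jj hk G ho hρ)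
  rw [KK, h2, h1, hn, hs1_eq G ho, hs2_eq G ho, Real.sqrt_sq hj.le, smul_smul, smul_smul,
    smul_smul]
  congr 1
  have : jd G y e n ρ = ⟪J' G y e n ρ, J G y e n ρ⟫ / jj G y e n ρ := rfl
  rw [this]
  field_simp

theorem K_src (y : S) {ρ : ℝ} (hρ : 0 < ρ) (θ : ℝ) :
    Jc G y ρ θ • KK hk G sub sc (pt hk G sub sc y ρ θ) y =
      (Jd G y ρ θ + 1) • (Real.cos θ • ev G y 0 + Real.sin θ • nv G y 0) := by
  rw [← ev_eq]
  exact KK_eq hk G sub sc (on_ev G y θ) hρ (coe_pt hk G sub sc y ρ θ).symm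

theorem K_tgt (x : S) {ρ : ℝ} (hρ : 0 < ρ) (θ : ℝ) :
    Jc G x ρ θ • KK hk G sub sc x (pt hk G sub sc x ρ θ) =
      -((Cc G x ρ θ + 1) • vel G x ρ θ) := by
  have h := on_ev G x θ
  set y := pt hk G sub sc x ρ θ with hy
  have hyc : (y : Euc N) = (fl G (((x : Euc N), ev G x θ), ρ)).1 := coe_pt hk G sub sc x ρ θ
  have hm := fl_mem G (q := ((x : Euc N), ev G x θ)) ⟨h.hx, h.he⟩ ρ
  obtain ⟨n', hn'⟩ := exists_On (G := G) hm.1 ((G.T _).neg_mem hm.2)
    (by rw [norm_neg]; exact norm_T h ρ)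
  have hrev := fl_reverse G h.hx h.he ρ ρ
  rw [sub_self, fl_zero] at hrev
  have hn'' : On G (y : Euc N) (-(fl G (((x : Euc N), ev G x θ), ρ)).2) n' := by
    rw [hyc]; exact hn'
  have h1 := KK_eq hk G sub sc (y := y) (x := x) hn'' hρ (by rw [hyc, hrev])
  rw [hyc, jj_symm hk G h hρ hn',
    jd_back hk G h (on_wb G x θ) (fl_zb G x θ) hρ hn', smul_neg] at h1
  exact h1

theorem continuousOn_dat :
    ContinuousOn (fun q : S × S => dat hk G sub sc q.2 q.1) {q | q.1 ≠ q.2} := by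
  have h1 : Continuous fun q : S × S => logv hk G sub sc q.2 q.1 := by
    have h0 := continuous_logv hk G sub sc
    have h0' : Continuous (fun q : S × S => (q.2, q.1)) := continuous_snd.prodMk continuous_fst
    have h := h0.comp h0'
    simp only [Function.comp_def] at h
    exact h
  have h2 : ContinuousOn (fun q : S × S => ‖logv hk G sub sc q.2 q.1‖⁻¹) {q | q.1 ≠ q.2} :=
    h1.norm.continuousOn.inv₀ fun q hq =>
      norm_ne_zero_iff.2 (logv_ne_zero hk G sub sc (Ne.symm hq))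
  have h3 : ContinuousOn (fun q : S × S =>
      ‖logv hk G sub sc q.2 q.1‖⁻¹ • logv hk G sub sc q.2 q.1) {q | q.1 ≠ q.2} :=
    h2.smul h1.continuousOn
  have h4 : ContinuousOn (fun q : S × S => (q.2 : Euc N)) {q | q.1 ≠ q.2} :=
    (continuous_subtype_val.comp continuous_snd).continuousOn
  exact (h4.prodMk h3).prodMk h1.norm.continuousOn

theorem exists_dat {y x : S} (h : x ≠ y) : ∃ e n ρ, On G (y : Euc N) e n ∧ 0 < ρ ∧
    (fl G (((y : Euc N), e), ρ)).1 = x ∧ logv hk G sub sc y x = ρ • e := by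
  have h0 := logv_ne_zero hk G sub sc (Ne.symm h)
  have h0' : ‖logv hk G sub sc y x‖ ≠ 0 := norm_ne_zero_iff.2 h0
  set e := ‖logv hk G sub sc y x‖⁻¹ • logv hk G sub sc y x with he
  have heT : e ∈ G.T y := (G.T y).smul_mem _ (logv_mem hk G sub sc y x)
  have ne : ‖e‖ = 1 := by
    rw [he, norm_smul, norm_inv, norm_norm, inv_mul_cancel₀ h0']
  obtain ⟨n, hn⟩ := exists_On (G := G) y.2 heT ne
  have h3 : logv hk G sub sc y x = ‖logv hk G sub sc y x‖ • e := by
    rw [he, smul_smul, mul_inv_cancel₀ h0', one_smul]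
  refine ⟨e, n, ‖logv hk G sub sc y x‖, hn, norm_pos_iff.2 h0, ?_, h3⟩
  rw [← Exp_smul G y.2 heT, ← h3, Exp_logv]

theorem continuousOn_KK :
    ContinuousOn (fun q : S × S => KK hk G sub sc q.1 q.2) {q | q.1 ≠ q.2} := by
  intro q hq
  have hq' : q.1 ≠ q.2 := hq
  obtain ⟨e, n, ρ, ho, hρ, hfl, -⟩ := exists_dat hk G sub sc hq'
  have hd := (continuousOn_dat hk G sub sc) q hq
  have hde := (dat_eq hk G sub sc ho.he ho.ne hρ hfl).2
  obtain ⟨c1, c2⟩ := continuousAt_hs G (p := (q.2 : Euc N)) (v := e) ho.hx ho.he ρ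
  rw [← hde] at c1 c2
  have d1 : ContinuousWithinAt (fun q : S × S => hs1 G (dat hk G sub sc q.2 q.1)) {q | q.1 ≠ q.2} q :=
    ContinuousAt.comp_continuousWithinAt (f := fun q : S × S => dat hk G sub sc q.2 q.1) c1 hd
  have d2 : ContinuousWithinAt (fun q : S × S => hs2 G (dat hk G sub sc q.2 q.1)) {q | q.1 ≠ q.2} q :=
    ContinuousAt.comp_continuousWithinAt (f := fun q : S × S => dat hk G sub sc q.2 q.1) c2 hd
  have hj : 0 < jj G q.2 e n ρ := hρ.trans_le (le_jj hk G ho hρ)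
  have h0 : hs1 G (dat hk G sub sc q.2 q.1) ≠ 0 := by
    rw [hde, hs1_eq G ho]
    exact (pow_pos hj 2).ne'
  have d3 : ContinuousWithinAt (fun q : S × S =>
      ‖logv hk G sub sc q.2 q.1‖⁻¹ • logv hk G sub sc q.2 q.1) {q | q.1 ≠ q.2} q :=
    hd.fst.snd
  exact (((d2.add d1.sqrt).div d1 h0).smul d3)

theorem KK_self (x : S) : KK hk G sub sc x x = 0 := by
  have : logv hk G sub sc x x = 0 := by
    rw [← norm_eq_zero, norm_logv, (DD hk G sub sc).log_self, norm_zero]
  rw [KK, this, smul_zero, smul_zero]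

end Crest.Agent.R241.LB4
end
end

-- ▼ part R241/LA
section

/-!
R241, block L (surfaces): the sharp Sobolev inequality of Banchoff–Pohl type on a surface with
curvature `≤ -k²`, in an abstract form which only uses polar coordinates at every point.

`(∫ ‖grad u‖)² ≥ 4 π ∫ u² + ∫ u(x) ∫∫ u(pt x ρ θ) C'(x, ρ, θ) dρ dθ dμ(x)`.
-/

set_option autoImplicit false

open MeasureTheory Set Filter Topology Real
open scoped RealInnerProductSpace ENNReal

noncomputable section

namespace Crest.Agent.R241.LA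

/-- integration by parts on the half line for a compactly supported function -/
theorem radial_parts {R : ℝ} (hR : 0 < R) {U Ur J J' : ℝ → ℝ}
    (hU : ContinuousOn U (Icc 0 R)) (hUd : ∀ ρ ∈ Ioo 0 R, HasDerivAt U (Ur ρ) ρ)
    (hUr : IntervalIntegrable Ur volume 0 R)
    (hJ : ContinuousOn J (Icc 0 R)) (hJd : ∀ ρ ∈ Ioo 0 R, HasDerivAt J (J' ρ) ρ)
    (hJi : IntervalIntegrable J' volume 0 R)
    (hU0 : ∀ ρ, R ≤ ρ → U ρ = 0) (hUr0 : ∀ ρ, R ≤ ρ → Ur ρ = 0) :
    ∫ ρ in Ioi (0 : ℝ), Ur ρ * J ρ = - (U 0 * J 0) - ∫ ρ in Ioi (0 : ℝ), U ρ * J' ρ := by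
  have key : ∀ f : ℝ → ℝ, (∀ ρ, R ≤ ρ → f ρ = 0) →
      ∫ ρ in Ioi (0 : ℝ), f ρ = ∫ ρ in (0 : ℝ)..R, f ρ := by
    intro f hf
    rw [intervalIntegral.integral_of_le hR.le]
    apply setIntegral_eq_of_subset_of_forall_sdiff_eq_zero measurableSet_Ioi Ioc_subset_Ioi_self
    intro ρ hρ
    apply hf
    by_contra h
    exact hρ.2 ⟨hρ.1, (not_le.1 h).le⟩
  rw [key _ (fun ρ h => by rw [hUr0 ρ h, zero_mul]), key _ (fun ρ h => by rw [hU0 ρ h, zero_mul])]
  have h := intervalIntegral.integral_mul_deriv_eq_deriv_mul_of_hasDerivAt (a := 0) (b := R)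
    (u := U) (v := J) (u' := Ur) (v' := J') (by rwa [uIcc_of_le hR.le])
    (by rwa [uIcc_of_le hR.le])
    (by rwa [min_eq_left hR.le, max_eq_right hR.le])
    (by rwa [min_eq_left hR.le, max_eq_right hR.le]) hUr hJi
  rw [hU0 R le_rfl, zero_mul] at h
  linarith

/-- periodic integration by parts -/
theorem angular_parts {U Ut d d' : ℝ → ℝ} (hUd : ∀ θ, HasDerivAt U (Ut θ) θ)
    (hUt : Continuous Ut) (hd : ∀ θ, HasDerivAt d (d' θ) θ) (hd' : Continuous d')
    (hper : U (-π) = U π) (hdper : d (-π) = d π) :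
    ∫ θ in Ioo (-π) π, Ut θ * d θ = - ∫ θ in Ioo (-π) π, U θ * d' θ := by
  rw [← integral_Ioc_eq_integral_Ioo, ← integral_Ioc_eq_integral_Ioo,
    ← intervalIntegral.integral_of_le (by linarith [pi_pos]),
    ← intervalIntegral.integral_of_le (by linarith [pi_pos])]
  have h := intervalIntegral.integral_mul_deriv_eq_deriv_mul (a := -π) (b := π)
    (u := U) (v := d) (u' := Ut) (v' := d') (fun x _ => hUd x) (fun x _ => hd x)
    (hUt.intervalIntegrable _ _) (hd'.intervalIntegrable _ _)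
  rw [hper, hdper] at h
  linarith

/-- Lebesgue measure on the half line -/
abbrev nu1 : Measure ℝ := (volume : Measure ℝ).restrict (Ioi 0)

/-- Lebesgue measure on the circle of directions -/
abbrev nu2 : Measure ℝ := (volume : Measure ℝ).restrict (Ioo (-π) π)

theorem integrable_half_of_supp {f : ℝ → ℝ} {R : ℝ} (hR : 0 < R)
    (hf : IntervalIntegrable f volume 0 R) (h0 : ∀ ρ, R ≤ ρ → f ρ = 0) : Integrable f nu1 := by
  rw [intervalIntegrable_iff_integrableOn_Ioc_of_le hR.le] at hf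
  have h2 : IntegrableOn f (Ioi R) := by
    have h3 : IntegrableOn (fun _ : ℝ => (0 : ℝ)) (Ioi R) := integrableOn_zero
    refine h3.congr_fun ?_ measurableSet_Ioi
    intro ρ hρ
    exact (h0 ρ (le_of_lt hρ)).symm
  have := hf.union h2
  rwa [Ioc_union_Ioi_eq_Ioi hR.le] at this

variable {X V : Type*} [MeasurableSpace X] [NormedAddCommGroup V] [InnerProductSpace ℝ V]

/-- Polar coordinates at every point of a surface `S`: `pt x ρ θ` is the point at distance `ρ` from
`x` in direction `θ`, `vel`/`nrm` the radial / angular unit vectors there, `J` the Jacobian,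
`C` the cosine Jacobi solution; `K x y` is the kernel `(C + 1)/J` times a unit vector at `y`. -/
structure Polar (μ : Measure X) (S : Set X) (V : Type*) [NormedAddCommGroup V]
    [InnerProductSpace ℝ V] where
  pt : X → ℝ → ℝ → X
  vel : X → ℝ → ℝ → V
  nrm : X → ℝ → ℝ → V
  b1 : X → V
  b2 : X → V
  J : X → ℝ → ℝ → ℝ
  J' : X → ℝ → ℝ → ℝ
  C : X → ℝ → ℝ → ℝ
  C' : X → ℝ → ℝ → ℝ
  K : X → X → V
  pt_mem : ∀ x ∈ S, ∀ ρ θ, pt x ρ θ ∈ S
  pt_zero : ∀ x ∈ S, ∀ θ, pt x 0 θ = x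
  pt_per : ∀ x ∈ S, ∀ ρ, pt x ρ (-π) = pt x ρ π
  base_orth : ∀ x ∈ S, ‖b1 x‖ = 1 ∧ ‖b2 x‖ = 1 ∧ ⟪b1 x, b2 x⟫ = 0
  frame_orth : ∀ x ∈ S, ∀ ρ, 0 < ρ → ∀ θ,
    ‖vel x ρ θ‖ = 1 ∧ ‖nrm x ρ θ‖ = 1 ∧ ⟪vel x ρ θ, nrm x ρ θ⟫ = 0
  J_pos : ∀ x ∈ S, ∀ ρ, 0 < ρ → ∀ θ, 0 ≤ J x ρ θ
  J_zero : ∀ x ∈ S, ∀ θ, J x 0 θ = 0
  J_cont : ∀ x ∈ S, ∀ θ, ContinuousOn (fun ρ => J x ρ θ) (Ici 0)
  J_deriv : ∀ x ∈ S, ∀ θ, ∀ ρ, 0 < ρ → HasDerivAt (fun ρ => J x ρ θ) (J' x ρ θ) ρ
  J'_int : ∀ x ∈ S, ∀ θ R, 0 < R → IntervalIntegrable (fun ρ => J' x ρ θ) volume 0 R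
  C_zero : ∀ x ∈ S, ∀ θ, C x 0 θ = 1
  C_cont : ∀ x ∈ S, ∀ θ, ContinuousOn (fun ρ => C x ρ θ) (Ici 0)
  C_deriv : ∀ x ∈ S, ∀ θ, ∀ ρ, 0 < ρ → HasDerivAt (fun ρ => C x ρ θ) (C' x ρ θ) ρ
  C'_int : ∀ x ∈ S, ∀ θ R, 0 < R → IntervalIntegrable (fun ρ => C' x ρ θ) volume 0 R
  K_src : ∀ y ∈ S, ∀ ρ, 0 < ρ → ∀ θ,
    J y ρ θ • K (pt y ρ θ) y = (J' y ρ θ + 1) • (cos θ • b1 y + sin θ • b2 y)
  K_tgt : ∀ x ∈ S, ∀ ρ, 0 < ρ → ∀ θ,
    J x ρ θ • K x (pt x ρ θ) = -((C x ρ θ + 1) • vel x ρ θ)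
  polar : ∀ x ∈ S, ∀ F : X → ℝ, Integrable F μ →
    Integrable (fun p : ℝ × ℝ => J x p.1 p.2 * F (pt x p.1 p.2))
      (nu1.prod nu2) ∧
    ∫ p, J x p.1 p.2 * F (pt x p.1 p.2)
      ∂(nu1.prod nu2) = ∫ z, F z ∂μ

/-- test functions with their gradients -/
structure Polar.Test {μ : Measure X} {S : Set X} (P : Polar μ S V) (u : X → ℝ) (g : X → V) :
    Prop where
  rad : ∀ x ∈ S, ∀ θ, ∀ ρ, 0 < ρ →
    HasDerivAt (fun ρ => u (P.pt x ρ θ)) ⟪g (P.pt x ρ θ), P.vel x ρ θ⟫ ρ
  rad_cont : ∀ x ∈ S, ∀ θ, ContinuousOn (fun ρ => u (P.pt x ρ θ)) (Ici 0)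
  rad_int : ∀ x ∈ S, ∀ θ R, 0 < R →
    IntervalIntegrable (fun ρ => ⟪g (P.pt x ρ θ), P.vel x ρ θ⟫) volume 0 R
  ang : ∀ x ∈ S, ∀ ρ, 0 < ρ → ∀ θ,
    HasDerivAt (fun θ => u (P.pt x ρ θ)) (P.J x ρ θ * ⟪g (P.pt x ρ θ), P.nrm x ρ θ⟫) θ
  ang_cont : ∀ x ∈ S, ∀ ρ, 0 < ρ →
    Continuous (fun θ => P.J x ρ θ * ⟪g (P.pt x ρ θ), P.nrm x ρ θ⟫)
  supp : ∀ x ∈ S, ∃ R, 0 < R ∧ ∀ ρ, R ≤ ρ → ∀ θ, u (P.pt x ρ θ) = 0 ∧ g (P.pt x ρ θ) = 0
  bdd : ∃ M, ∀ x ∈ S, |u x| ≤ M
  int_g : Integrable (fun x => ‖g x‖) μ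
  int_u2 : Integrable (fun x => u x ^ 2) μ
  meas_strip : ∀ x ∈ S, AEStronglyMeasurable (fun p : ℝ × ℝ => u (P.pt x p.1 p.2))
      (nu1.prod nu2)
  meas_vel : ∀ x ∈ S, AEStronglyMeasurable
      (fun p : ℝ × ℝ => ⟪g (P.pt x p.1 p.2), P.vel x p.1 p.2⟫)
      (nu1.prod nu2)
  meas_nrm : ∀ x ∈ S, AEStronglyMeasurable
      (fun p : ℝ × ℝ => ⟪g (P.pt x p.1 p.2), P.nrm x p.1 p.2⟫)
      (nu1.prod nu2)
  meas_J : ∀ x ∈ S, AEStronglyMeasurable
      (fun p : ℝ × ℝ => P.J x p.1 p.2)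
      (nu1.prod nu2)
  int_K : Integrable (fun p : X × X => u p.1 * ⟪g p.2, P.K p.1 p.2⟫) (μ.prod μ)

variable {μ : Measure X} {S : Set X} (P : Polar μ S V) {u : X → ℝ} {g : X → V}

/-- Bessel inequality for an orthonormal pair -/
theorem bessel2 {e n v : V} (he : ‖e‖ = 1) (hn : ‖n‖ = 1) (hen : ⟪e, n⟫ = 0) :
    ⟪v, e⟫ ^ 2 + ⟪v, n⟫ ^ 2 ≤ ‖v‖ ^ 2 := by
  have h : 0 ≤ ‖v - ⟪v, e⟫ • e - ⟪v, n⟫ • n‖ ^ 2 := by positivity
  have hne : ⟪n, e⟫ = 0 := by rw [real_inner_comm]; exact hen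
  have he2 : ⟪e, e⟫ = 1 := by rw [real_inner_self_eq_norm_sq, he]; norm_num
  have hn2 : ⟪n, n⟫ = 1 := by rw [real_inner_self_eq_norm_sq, hn]; norm_num
  rw [← real_inner_self_eq_norm_sq] at h ⊢
  simp only [inner_sub_left, inner_sub_right, inner_smul_left, inner_smul_right,
    RCLike.conj_to_real, hen, hne, he2, hn2, mul_zero, mul_one, sub_zero] at h
  rw [real_inner_comm v e, real_inner_comm v n] at h
  linarith

/-- the pointwise bound for the double form -/
theorem form_le {a b c d A B : ℝ} (h1 : a ^ 2 + b ^ 2 ≤ A ^ 2) (h2 : c ^ 2 + d ^ 2 ≤ B ^ 2)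
    (hA : 0 ≤ A) (hB : 0 ≤ B) : -(a * c) + b * d ≤ A * B := by
  have h3 : (-(a * c) + b * d) ^ 2 ≤ (A * B) ^ 2 := by
    calc (-(a * c) + b * d) ^ 2 ≤ (a ^ 2 + b ^ 2) * (c ^ 2 + d ^ 2) := by
          nlinarith [sq_nonneg (a * d + b * c)]
      _ ≤ A ^ 2 * B ^ 2 := by gcongr
      _ = (A * B) ^ 2 := by ring
  exact abs_le_of_sq_le_sq' h3 (by positivity) |>.2

theorem ae_strip_pos : ∀ᵐ p : ℝ × ℝ ∂(nu1.prod nu2), 0 < p.1 := by
  have : ∀ᵐ r : ℝ ∂nu1, 0 < r := ae_restrict_mem measurableSet_Ioi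
  exact Measure.quasiMeasurePreserving_fst.ae this

theorem integrable_of_supp {f : ℝ × ℝ → ℝ} {R M : ℝ}
    (hf : AEStronglyMeasurable f (nu1.prod nu2)) (hM : ∀ p, |f p| ≤ M)
    (hR : ∀ p : ℝ × ℝ, R ≤ p.1 → f p = 0) : Integrable f (nu1.prod nu2) := by
  have h1 : Integrable (fun p : ℝ × ℝ => (Ioo 0 R).indicator (fun _ => M) p.1 * (1 : ℝ))
      (nu1.prod nu2) := by
    apply Integrable.mul_prod (f := (Ioo 0 R).indicator (fun _ => M)) (g := fun _ : ℝ => (1 : ℝ))
    · apply Integrable.restrict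
      rw [integrable_indicator_iff measurableSet_Ioo]
      exact integrableOn_const (by simp)
    · exact integrableOn_const (by simp)
  apply h1.mono' hf
  filter_upwards [ae_strip_pos] with p hp
  rw [mul_one, Real.norm_eq_abs]
  by_cases h : R ≤ p.1
  · rw [hR p h, abs_zero]
    exact indicator_nonneg (fun _ _ => (abs_nonneg _).trans (hM p)) _
  · rw [indicator_of_mem (show p.1 ∈ Ioo 0 R from ⟨hp, not_le.1 h⟩)]
    exact hM p

theorem source_le (T : P.Test u g) {y : X} (hy : y ∈ S)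
    (hF : Integrable (fun x => u x * ⟪g y, P.K x y⟫) μ) :
    ∫ x, u x * ⟪g y, P.K x y⟫ ∂μ ≤ ‖g y‖ * ∫ x, ‖g x‖ ∂μ := by
  obtain ⟨R, hR, hsupp⟩ := T.supp y hy
  obtain ⟨M, hM⟩ := T.bdd
  set η := g y with hη
  set U : ℝ → ℝ → ℝ := fun ρ θ => u (P.pt y ρ θ) with hU
  set a : ℝ → ℝ → ℝ := fun ρ θ => ⟪g (P.pt y ρ θ), P.vel y ρ θ⟫ with ha
  set b : ℝ → ℝ → ℝ := fun ρ θ => ⟪g (P.pt y ρ θ), P.nrm y ρ θ⟫ with hb
  set d : ℝ → ℝ := fun θ => cos θ * ⟪η, P.b1 y⟫ + sin θ * ⟪η, P.b2 y⟫ with hd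
  set dn : ℝ → ℝ := fun θ => -sin θ * ⟪η, P.b1 y⟫ + cos θ * ⟪η, P.b2 y⟫ with hdn
  have hdd : ∀ θ, HasDerivAt d (dn θ) θ := fun θ =>
    ((hasDerivAt_cos θ).mul_const _).add ((hasDerivAt_sin θ).mul_const _)
  have hdnd : ∀ θ, HasDerivAt dn (-d θ) θ := by
    intro θ
    have := ((hasDerivAt_sin θ).neg.mul_const ⟪η, P.b1 y⟫).add
      ((hasDerivAt_cos θ).mul_const ⟪η, P.b2 y⟫)
    refine this.congr_deriv ?_
    simp only [hd]; ring
  have hdcont : Continuous d := by simp only [hd]; fun_prop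
  have hdncont : Continuous dn := by simp only [hdn]; fun_prop
  have hbase := P.base_orth y hy
  have hdsq : ∀ θ, d θ ^ 2 + dn θ ^ 2 ≤ ‖η‖ ^ 2 := by
    intro θ
    have h := bessel2 (v := η) hbase.1 hbase.2.1 hbase.2.2
    have h2 := sin_sq_add_cos_sq θ
    have : d θ ^ 2 + dn θ ^ 2 = (sin θ ^ 2 + cos θ ^ 2) * (⟪η, P.b1 y⟫ ^ 2 + ⟪η, P.b2 y⟫ ^ 2) := by
      simp only [hd, hdn]; ring
    rw [this, h2, one_mul]; exact h
  have hdabs : ∀ θ, |d θ| ≤ ‖η‖ := fun θ => abs_le_of_sq_le_sq (by nlinarith [hdsq θ, sq_nonneg (dn θ)]) (norm_nonneg _)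
  have hdnabs : ∀ θ, |dn θ| ≤ ‖η‖ := fun θ => abs_le_of_sq_le_sq (by nlinarith [hdsq θ, sq_nonneg (d θ)]) (norm_nonneg _)
  -- the kernel integral in polar coordinates
  obtain ⟨hpi, hpe⟩ := P.polar y hy _ hF
  obtain ⟨hgi, hge⟩ := P.polar y hy _ T.int_g
  have hker : ∀ p : ℝ × ℝ, 0 < p.1 →
      P.J y p.1 p.2 * (u (P.pt y p.1 p.2) * ⟪η, P.K (P.pt y p.1 p.2) y⟫) =
        U p.1 p.2 * (P.J' y p.1 p.2 + 1) * d p.2 := by
    intro p hp
    have h := P.K_src y hy p.1 hp p.2
    have h2 : P.J y p.1 p.2 * ⟪η, P.K (P.pt y p.1 p.2) y⟫ = (P.J' y p.1 p.2 + 1) * d p.2 := by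
      have h3 := congrArg (fun v => ⟪η, v⟫) h
      simpa only [inner_smul_right, inner_add_right, hd] using h3
    calc _ = U p.1 p.2 * (P.J y p.1 p.2 * ⟪η, P.K (P.pt y p.1 p.2) y⟫) := by simp only [hU]; ring
      _ = _ := by rw [h2]; ring
  have hpi' : Integrable (fun p : ℝ × ℝ => U p.1 p.2 * (P.J' y p.1 p.2 + 1) * d p.2)
      (nu1.prod nu2) := by
    refine hpi.congr ?_
    filter_upwards [ae_strip_pos] with p hp using hker p hp
  have hpe' : ∫ x, u x * ⟪η, P.K x y⟫ ∂μ =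
      ∫ p : ℝ × ℝ, U p.1 p.2 * (P.J' y p.1 p.2 + 1) * d p.2 ∂(nu1.prod nu2) := by
    rw [← hpe]
    apply integral_congr_ae
    filter_upwards [ae_strip_pos] with p hp using hker p hp
  -- integrability of the two pieces
  have hab : ∀ p : ℝ × ℝ, 0 < p.1 → a p.1 p.2 ^ 2 + b p.1 p.2 ^ 2 ≤ ‖g (P.pt y p.1 p.2)‖ ^ 2 := by
    intro p hp
    have h := P.frame_orth y hy p.1 hp p.2
    exact bessel2 h.1 h.2.1 h.2.2
  have hi1 : Integrable (fun p : ℝ × ℝ => a p.1 p.2 * P.J y p.1 p.2 * d p.2) (nu1.prod nu2) := by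
    refine (hgi.const_mul ‖η‖).mono' ?_ ?_
    · exact ((T.meas_vel y hy).mul (T.meas_J y hy)).mul
        (hdcont.comp continuous_snd).aestronglyMeasurable
    · filter_upwards [ae_strip_pos] with p hp
      have h1 : |a p.1 p.2| ≤ ‖g (P.pt y p.1 p.2)‖ :=
        abs_le_of_sq_le_sq (by nlinarith [hab p hp, sq_nonneg (b p.1 p.2)]) (norm_nonneg _)
      have hJ := P.J_pos y hy p.1 hp p.2
      rw [Real.norm_eq_abs, abs_mul, abs_mul, abs_of_nonneg hJ]
      calc |a p.1 p.2| * P.J y p.1 p.2 * |d p.2|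
          ≤ ‖g (P.pt y p.1 p.2)‖ * P.J y p.1 p.2 * ‖η‖ := by
            gcongr
            exact hdabs _
        _ = _ := by ring
  have hi2 : Integrable (fun p : ℝ × ℝ => P.J y p.1 p.2 * b p.1 p.2 * dn p.2) (nu1.prod nu2) := by
    refine (hgi.const_mul ‖η‖).mono' ?_ ?_
    · exact ((T.meas_J y hy).mul (T.meas_nrm y hy)).mul
        (hdncont.comp continuous_snd).aestronglyMeasurable
    · filter_upwards [ae_strip_pos] with p hp
      have h1 : |b p.1 p.2| ≤ ‖g (P.pt y p.1 p.2)‖ :=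
        abs_le_of_sq_le_sq (by nlinarith [hab p hp, sq_nonneg (a p.1 p.2)]) (norm_nonneg _)
      have hJ := P.J_pos y hy p.1 hp p.2
      rw [Real.norm_eq_abs, abs_mul, abs_mul, abs_of_nonneg hJ]
      calc P.J y p.1 p.2 * |b p.1 p.2| * |dn p.2|
          ≤ P.J y p.1 p.2 * ‖g (P.pt y p.1 p.2)‖ * ‖η‖ := by
            gcongr
            exact hdnabs _
        _ = _ := by ring
  have hi3 : Integrable (fun p : ℝ × ℝ => U p.1 p.2 * d p.2) (nu1.prod nu2) := by
    apply integrable_of_supp (R := R) (M := M * ‖η‖)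
    · exact (T.meas_strip y hy).mul (hdcont.comp continuous_snd).aestronglyMeasurable
    · intro p
      rw [abs_mul]
      have := hM _ (P.pt_mem y hy p.1 p.2)
      have hM0 : 0 ≤ M := (abs_nonneg _).trans this
      gcongr
      exact hdabs _
    · intro p hp
      simp only [hU, (hsupp p.1 hp p.2).1, zero_mul]
  -- radial integration by parts
  have hrad : ∀ θ, ∫ ρ, U ρ θ * (P.J' y ρ θ + 1) * d θ ∂nu1 =
      -(∫ ρ, a ρ θ * P.J y ρ θ * d θ ∂nu1) + ∫ ρ, U ρ θ * d θ ∂nu1 := by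
    intro θ
    have hUc : ContinuousOn (fun ρ => U ρ θ) (Icc 0 R) :=
      (T.rad_cont y hy θ).mono Icc_subset_Ici_self
    have h := radial_parts hR (U := fun ρ => U ρ θ) (Ur := fun ρ => a ρ θ)
      (J := fun ρ => P.J y ρ θ) (J' := fun ρ => P.J' y ρ θ) hUc
      (fun ρ hρ => T.rad y hy θ ρ hρ.1) (T.rad_int y hy θ R hR)
      ((P.J_cont y hy θ).mono Icc_subset_Ici_self) (fun ρ hρ => P.J_deriv y hy θ ρ hρ.1)
      (P.J'_int y hy θ R hR) (fun ρ hρ => (hsupp ρ hρ θ).1)
      (fun ρ hρ => by simp only [ha, (hsupp ρ hρ θ).2, inner_zero_left])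
    rw [P.J_zero y hy θ, mul_zero, neg_zero, zero_sub] at h
    have hint := fun (f : ℝ → ℝ) => integrable_half_of_supp (f := f) hR
    have h1 : Integrable (fun ρ => U ρ θ * P.J' y ρ θ) nu1 := by
      apply hint
      · exact (P.J'_int y hy θ R hR).continuousOn_mul (by rwa [uIcc_of_le hR.le])
      · intro ρ hρ
        simp only [hU, (hsupp ρ hρ θ).1, zero_mul]
    have h2 : Integrable (fun ρ => U ρ θ) nu1 := by
      apply hint
      · exact ContinuousOn.intervalIntegrable (by rwa [uIcc_of_le hR.le])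
      · intro ρ hρ
        simp only [hU, (hsupp ρ hρ θ).1]
    have e1 : (fun ρ => U ρ θ * (P.J' y ρ θ + 1) * d θ) =
        fun ρ => (U ρ θ * P.J' y ρ θ) * d θ + U ρ θ * d θ := by
      funext ρ; ring
    rw [e1, integral_add (h1.mul_const _) (h2.mul_const _), integral_mul_const,
      integral_mul_const, integral_mul_const]
    rw [h]
    ring
  have hang : ∀ ρ, 0 < ρ → ∫ θ, U ρ θ * d θ ∂nu2 = ∫ θ, P.J y ρ θ * b ρ θ * dn θ ∂nu2 := by
    intro ρ hρ
    have h := angular_parts (U := fun θ => U ρ θ) (Ut := fun θ => P.J y ρ θ * b ρ θ)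
      (d := dn) (d' := fun θ => -d θ) (T.ang y hy ρ hρ) (T.ang_cont y hy ρ hρ) hdnd
      hdcont.neg (by simp only [hU, P.pt_per y hy ρ]) (by simp [hdn])
    rw [h, ← integral_neg]
    apply integral_congr_ae
    filter_upwards with θ
    ring
  have hfin : ∫ x, u x * ⟪η, P.K x y⟫ ∂μ =
      ∫ p : ℝ × ℝ, (-(a p.1 p.2 * P.J y p.1 p.2 * d p.2) + P.J y p.1 p.2 * b p.1 p.2 * dn p.2)
        ∂(nu1.prod nu2) := by
    have hi1n : Integrable (fun p : ℝ × ℝ => -(a p.1 p.2 * P.J y p.1 p.2 * d p.2))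
      (nu1.prod nu2) := hi1.neg
    rw [hpe', integral_prod_symm _ hpi', integral_add hi1n hi2, integral_neg,
      integral_prod_symm _ hi1, integral_prod _ hi2]
    have e1 : ∫ ρ, ∫ θ, P.J y ρ θ * b ρ θ * dn θ ∂nu2 ∂nu1 = ∫ ρ, ∫ θ, U ρ θ * d θ ∂nu2 ∂nu1 := by
      apply setIntegral_congr_fun measurableSet_Ioi
      intro ρ hρ
      exact (hang ρ hρ).symm
    have hA : Integrable (fun θ => -∫ ρ, a ρ θ * P.J y ρ θ * d θ ∂nu1) nu2 :=
      hi1.integral_prod_right.neg
    have hB : Integrable (fun θ => ∫ ρ, U ρ θ * d θ ∂nu1) nu2 := hi3.integral_prod_right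
    rw [e1, ← integral_prod _ hi3, integral_prod_symm _ hi3, ← integral_neg]
    simp only []
    rw [← integral_add hA hB]
    apply integral_congr_ae
    filter_upwards with θ
    rw [hrad θ]
  rw [hfin, ← hge, ← integral_const_mul]
  apply integral_mono_ae (hi1.neg.add hi2) (hgi.const_mul _)
  filter_upwards [ae_strip_pos] with p hp
  have hJ := P.J_pos y hy p.1 hp p.2
  have h := form_le (hab p hp) (hdsq p.2) (norm_nonneg _) (norm_nonneg _)
  calc -(a p.1 p.2 * P.J y p.1 p.2 * d p.2) + P.J y p.1 p.2 * b p.1 p.2 * dn p.2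
      = P.J y p.1 p.2 * (-(a p.1 p.2 * d p.2) + b p.1 p.2 * dn p.2) := by ring
    _ ≤ P.J y p.1 p.2 * (‖g (P.pt y p.1 p.2)‖ * ‖η‖) := by gcongr
    _ = _ := by ring

theorem target_eq (T : P.Test u g) {x : X} (hx : x ∈ S)
    (hF : Integrable (fun y => ⟪g y, P.K x y⟫) μ) :
    ∫ y, ⟪g y, P.K x y⟫ ∂μ =
      4 * π * u x + ∫ θ, ∫ ρ, u (P.pt x ρ θ) * P.C' x ρ θ ∂nu1 ∂nu2 ∧
    Integrable (fun θ => ∫ ρ, u (P.pt x ρ θ) * P.C' x ρ θ ∂nu1) nu2 := by
  obtain ⟨R, hR, hsupp⟩ := T.supp x hx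
  obtain ⟨hpi, hpe⟩ := P.polar x hx _ hF
  have hker : ∀ p : ℝ × ℝ, 0 < p.1 →
      P.J x p.1 p.2 * ⟪g (P.pt x p.1 p.2), P.K x (P.pt x p.1 p.2)⟫ =
        -(⟪g (P.pt x p.1 p.2), P.vel x p.1 p.2⟫ * (P.C x p.1 p.2 + 1)) := by
    intro p hp
    have h := P.K_tgt x hx p.1 hp p.2
    have h3 := congrArg (fun v => ⟪g (P.pt x p.1 p.2), v⟫) h
    simp only [inner_smul_right, inner_neg_right] at h3
    rw [h3]; ring
  have hpi' : Integrable (fun p : ℝ × ℝ =>
      -(⟪g (P.pt x p.1 p.2), P.vel x p.1 p.2⟫ * (P.C x p.1 p.2 + 1))) (nu1.prod nu2) := by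
    refine hpi.congr ?_
    filter_upwards [ae_strip_pos] with p hp using hker p hp
  have hpe' : ∫ y, ⟪g y, P.K x y⟫ ∂μ = ∫ p : ℝ × ℝ,
      -(⟪g (P.pt x p.1 p.2), P.vel x p.1 p.2⟫ * (P.C x p.1 p.2 + 1)) ∂(nu1.prod nu2) := by
    rw [← hpe]
    apply integral_congr_ae
    filter_upwards [ae_strip_pos] with p hp using hker p hp
  have hrad : ∀ θ, ∫ ρ, -(⟪g (P.pt x ρ θ), P.vel x ρ θ⟫ * (P.C x ρ θ + 1)) ∂nu1 =
      2 * u x + ∫ ρ, u (P.pt x ρ θ) * P.C' x ρ θ ∂nu1 := by
    intro θ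
    have h := radial_parts hR (U := fun ρ => u (P.pt x ρ θ))
      (Ur := fun ρ => ⟪g (P.pt x ρ θ), P.vel x ρ θ⟫)
      (J := fun ρ => P.C x ρ θ + 1) (J' := fun ρ => P.C' x ρ θ)
      ((T.rad_cont x hx θ).mono Icc_subset_Ici_self)
      (fun ρ hρ => T.rad x hx θ ρ hρ.1) (T.rad_int x hx θ R hR)
      (((P.C_cont x hx θ).mono Icc_subset_Ici_self).add continuousOn_const)
      (fun ρ hρ => (P.C_deriv x hx θ ρ hρ.1).add_const _)
      (P.C'_int x hx θ R hR) (fun ρ hρ => (hsupp ρ hρ θ).1)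
      (fun ρ hρ => by simp only [(hsupp ρ hρ θ).2, inner_zero_left])
    simp only [P.C_zero x hx θ, P.pt_zero x hx θ] at h
    rw [integral_neg, h]
    ring
  have hi := hpi'.integral_prod_right
  have hi' : Integrable (fun θ => 2 * u x + ∫ ρ, u (P.pt x ρ θ) * P.C' x ρ θ ∂nu1) nu2 := by
    refine hi.congr ?_
    filter_upwards with θ using hrad θ
  have hc : Integrable (fun _ : ℝ => 2 * u x) nu2 := integrable_const _
  have hi2 : Integrable (fun θ => ∫ ρ, u (P.pt x ρ θ) * P.C' x ρ θ ∂nu1) nu2 := by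
    refine (hi'.sub hc).congr ?_
    filter_upwards with θ
    simp
  refine ⟨?_, hi2⟩
  rw [hpe', integral_prod_symm _ hpi']
  have e1 : ∫ θ, ∫ ρ, -(⟪g (P.pt x ρ θ), P.vel x ρ θ⟫ * (P.C x ρ θ + 1)) ∂nu1 ∂nu2 =
      ∫ θ, (2 * u x + ∫ ρ, u (P.pt x ρ θ) * P.C' x ρ θ ∂nu1) ∂nu2 := by
    apply integral_congr_ae
    filter_upwards with θ using hrad θ
  rw [e1, integral_add hc hi2]
  congr 1
  rw [integral_const]
  simp only [smul_eq_mul, measureReal_restrict_apply_univ, Real.volume_real_Ioo]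
  rw [max_eq_left (by linarith [pi_pos])]
  ring

/-- **Sharp Sobolev inequality** with the curvature remainder. -/
theorem sobolev [SFinite μ] (hμ : ∀ᵐ x ∂μ, x ∈ S) (T : P.Test u g) :
    Integrable (fun x => u x * ∫ θ, ∫ ρ, u (P.pt x ρ θ) * P.C' x ρ θ ∂nu1 ∂nu2) μ ∧
    4 * π * ∫ x, u x ^ 2 ∂μ +
      ∫ x, u x * (∫ θ, ∫ ρ, u (P.pt x ρ θ) * P.C' x ρ θ ∂nu1 ∂nu2) ∂μ ≤ (∫ x, ‖g x‖ ∂μ) ^ 2 := by
  have hF := T.int_K
  have h1 : ∀ᵐ y ∂μ, Integrable (fun x => u x * ⟪g y, P.K x y⟫) μ := hF.prod_left_ae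
  have h2 : ∀ᵐ x ∂μ, Integrable (fun y => u x * ⟪g y, P.K x y⟫) μ := hF.prod_right_ae
  have hx : ∀ᵐ x ∂μ, ∫ y, u x * ⟪g y, P.K x y⟫ ∂μ =
      4 * π * u x ^ 2 + u x * ∫ θ, ∫ ρ, u (P.pt x ρ θ) * P.C' x ρ θ ∂nu1 ∂nu2 := by
    filter_upwards [h2, hμ] with x hx hxS
    by_cases hu : u x = 0
    · simp [hu]
    · have : Integrable (fun y => ⟪g y, P.K x y⟫) μ := by
        refine (hx.const_mul (u x)⁻¹).congr ?_
        filter_upwards with y
        field_simp
      rw [integral_const_mul, (target_eq P T hxS this).1]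
      ring
  have hI := hF.integral_prod_left
  have hI2 : Integrable (fun x => 4 * π * u x ^ 2 +
      u x * ∫ θ, ∫ ρ, u (P.pt x ρ θ) * P.C' x ρ θ ∂nu1 ∂nu2) μ := hI.congr hx
  have hI3 : Integrable (fun x => u x * ∫ θ, ∫ ρ, u (P.pt x ρ θ) * P.C' x ρ θ ∂nu1 ∂nu2) μ := by
    refine (hI2.sub (T.int_u2.const_mul (4 * π))).congr ?_
    filter_upwards with x
    simp
  refine ⟨hI3, ?_⟩
  have e1 : ∫ p : X × X, u p.1 * ⟪g p.2, P.K p.1 p.2⟫ ∂(μ.prod μ) =
      4 * π * ∫ x, u x ^ 2 ∂μ +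
      ∫ x, u x * (∫ θ, ∫ ρ, u (P.pt x ρ θ) * P.C' x ρ θ ∂nu1 ∂nu2) ∂μ := by
    rw [integral_prod _ hF, integral_congr_ae hx, integral_add (T.int_u2.const_mul _) hI3,
      integral_const_mul]
  rw [← e1, integral_prod_symm _ hF, sq, ← integral_mul_const]
  apply integral_mono_ae hF.integral_prod_right (T.int_g.mul_const _)
  filter_upwards [h1, hμ] with y hy hyS
  exact source_le P T hyS hy

end Crest.Agent.R241.LA
end
end

-- ▼ part R241/LB4c
section

/-!
R241, block L: the area measure of a surface and its polar coordinates.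
-/

set_option autoImplicit false
set_option linter.unusedSectionVars false

open Set Filter Topology MeasureTheory
open scoped ContDiff RealInnerProductSpace ENNReal
open Crest.GeometryTopology.Submanifold
open Crest.Agent.R241.DDefs
open Crest.Agent.R241.D2
open Crest.Agent.R241.D3b
open Crest.Agent.R241.D3a
open Crest.Agent.R241.D4Met
open Crest.Agent.R241.LB1
open Crest.Agent.R241.LB2
open Crest.Agent.R241.LB3
open Crest.Agent.R241.LA (nu1 nu2)
open Crest.Agent.R241.AF (jac)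

noncomputable section

namespace Crest.Agent.R241.LB4

variable {N : ℕ} {S : Set (Euc N)}

/-- area measure of a surface, on the subtype -/
def μS (S : Set (Euc N)) : Measure S := (μHE[2] : Measure (Euc N)).comap Subtype.val

theorem map_homeo (hS : IsClosed S) (D : ExpData 2 N S) (p : S) :
    Measure.map (D.homeo p) ((volume : Measure (Euc 2)).withDensity
      fun v => ENNReal.ofReal (jac (fderiv ℝ (D.Φ p) v))) = μS S := by
  have hemb : MeasurableEmbedding (Subtype.val : S → Euc N) :=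
    MeasurableEmbedding.subtype_coe hS.measurableSet
  set ν := (volume : Measure (Euc 2)).withDensity
      fun v => ENNReal.ofReal (jac (fderiv ℝ (D.Φ p) v)) with hν
  have hval : (fun v => (D.homeo p v : Euc N)) = D.Φ p := funext fun v => D.homeo_coe p v
  have himg : D.Φ p '' univ = S := by
    rw [image_univ, ← hval]
    ext x
    constructor
    · rintro ⟨v, rfl⟩
      exact (D.homeo p v).2
    · intro hx
      exact ⟨D.log p ⟨x, hx⟩, by simp⟩
  have h1 := AF.map_withDensity_jac (s := univ) (f := D.Φ p) (f' := fderiv ℝ (D.Φ p))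
    MeasurableSet.univ
    (fun x _ => ((D.contDiff p).differentiable (by simp) x).hasFDerivAt.hasFDerivWithinAt) (by
      rw [← hval]
      exact (Subtype.val_injective.comp (D.homeo p).injective).injOn)
  rw [Measure.restrict_univ, AF.finrank_Euc, himg] at h1
  have h2 : Measure.map (Subtype.val : S → Euc N) (Measure.map (D.homeo p) ν) =
      (μHE[2] : Measure (Euc N)).restrict S := by
    rw [Measure.map_map measurable_subtype_coe (D.homeo p).continuous.measurable, ← h1]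
    congr 1
  have h3 : Measure.map (Subtype.val : S → Euc N) (μS S) =
      (μHE[2] : Measure (Euc N)).restrict S := by
    rw [μS, map_comap_subtype_coe hS.measurableSet]
  rw [← hemb.comap_map (Measure.map (D.homeo p) ν), h2, ← h3, hemb.comap_map]

theorem continuous_jac (D : ExpData 2 N S) (p : S) :
    Continuous fun v => jac (fderiv ℝ (D.Φ p) v) :=
  AF.continuous_jac.comp ((D.contDiff p).continuous_fderiv (by simp))

theorem lintegral_μS (hS : IsClosed S) (D : ExpData 2 N S) (p : S) {F : S → ℝ≥0∞}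
    (hF : Measurable F) :
    ∫⁻ x, F x ∂(μS S) = ∫⁻ v, ENNReal.ofReal (jac (fderiv ℝ (D.Φ p) v)) * F (D.homeo p v) := by
  rw [← map_homeo hS D p, lintegral_map hF (D.homeo p).continuous.measurable]
  exact lintegral_withDensity_eq_lintegral_mul _
      (continuous_jac D p).measurable.ennreal_ofReal
      (hF.comp (D.homeo p).continuous.measurable)

theorem sfinite_μS (hS : IsClosed S) (D : ExpData 2 N S) (p : S) : SFinite (μS S) := by
  rw [← map_homeo hS D p]
  infer_instance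

/-- polar coordinates of the Euclidean plane -/
theorem lintegral_polar (f : Euc 2 → ℝ≥0∞) :
    ∫⁻ v, f v = ∫⁻ p : ℝ × ℝ, ENNReal.ofReal p.1 * f (p.1 • Eθ p.2) ∂(nu1.prod nu2) := by
  have e1 : MeasurePreserving ((MeasurableEquiv.toLp 2 (Fin 2 → ℝ)).symm.trans
      (MeasurableEquiv.finTwoArrow (α := ℝ))) :=
    (volume_preserving_finTwoArrow ℝ).comp
      (EuclideanSpace.volume_preserving_symm_measurableEquiv_toLp (ι := Fin 2))
  have e2 := (MeasurePreserving.symm _ e1).lintegral_comp_emb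
    (((MeasurableEquiv.toLp 2 (Fin 2 → ℝ)).symm.trans
      (MeasurableEquiv.finTwoArrow (α := ℝ))).symm.measurableEmbedding) f
  rw [← e2, ← lintegral_comp_polarCoord_symm]
  have e3 : (volume : Measure (ℝ × ℝ)).restrict polarCoord.target = nu1.prod nu2 := by
    rw [polarCoord_target, Measure.volume_eq_prod, Measure.prod_restrict]
  rw [e3]
  refine lintegral_congr fun p => ?_
  rw [smul_eq_mul]
  congr 2
  ext i
  fin_cases i
  · simp [polarCoord, Eθ, MeasurableEquiv.finTwoArrow, MeasurableEquiv.toLp]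
    try rfl
  · simp [polarCoord, Eθ, MeasurableEquiv.finTwoArrow, MeasurableEquiv.toLp]
    try rfl

section

variable {k : ℝ} (hk : 0 ≤ k) (G : Geo 2 N (-(k ^ 2)) S) (sub : IsSubmanifold 2 N S)
  (sc : SimplyConnectedSpace S)

/-- values of the derivative of the exponential map in the polar frame -/
theorem fderiv_polar (x : S) {ρ : ℝ} (hρ : 0 < ρ) (θ : ℝ) :
    fderiv ℝ (D3d.Ph G x) (ρ • Eθ θ) (Eθ θ) = vel G x ρ θ ∧
    fderiv ℝ (D3d.Ph G x) (ρ • Eθ θ) (Rθ θ) = ρ⁻¹ • J G x (ev G x θ) (nv G x θ) ρ := by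
  have h := on_ev G x θ
  have hmem : ρ • ev G x θ ∈ G.T x := (G.T x).smul_mem ρ h.he
  constructor
  · rw [D3d.fderiv_Ph, map_smul]
    have h1 := D3c.fderiv_Exp_self G x.2 hmem
    have h2 : D3d.frm G x (Eθ θ) = ev G x θ := rfl
    rw [h2]
    rw [map_smul, Vel_smul G x.2 h.he] at h1
    exact smul_right_injective _ hρ.ne' h1
  · rw [D3d.fderiv_Ph, map_smul]
    have h2 : D3d.frm G x (Eθ θ) = ev G x θ := rfl
    have h3 : D3d.frm G x (Rθ θ) = nv G x θ := rfl
    rw [h2, h3]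
    -- derivative of `s ↦ Exp (ρ e + s n)`
    have hd := ((D3c.contDiffAt_Exp' G x.2 hmem).differentiableAt (by simp)).hasFDerivAt
    have h4 : HasDerivAt (fun s : ℝ => ρ • (ev G x θ + (ρ⁻¹ * s) • nv G x θ)) (nv G x θ) 0 := by
      have : HasDerivAt (fun s : ℝ => (ρ⁻¹ * s) • nv G x θ) (ρ⁻¹ • nv G x θ) 0 := by
        simpa using ((hasDerivAt_id (0 : ℝ)).const_mul ρ⁻¹).smul_const (nv G x θ)
      refine ((this.const_add (ev G x θ)).const_smul ρ).congr_deriv ?_
      rw [smul_smul, mul_inv_cancel₀ hρ.ne', one_smul]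
    have hd' : HasFDerivAt (Exp G x) (fderiv ℝ (Exp G x) (ρ • ev G x θ))
        (ρ • (ev G x θ + (ρ⁻¹ * (0 : ℝ)) • nv G x θ)) := by
      simpa using hd
    have h5 := hd'.comp_hasDerivAt (0 : ℝ) h4
    have h6 := hasDerivAt_s (q := ((0 : ℝ), ρ))
      ((contDiff_al G h.hx h.he h.hn).differentiable (by simp) ((0 : ℝ), ρ))
    have h7 : HasDerivAt (fun s : ℝ => ρ⁻¹ * s) ρ⁻¹ 0 := by
      simpa using (hasDerivAt_id (0 : ℝ)).const_mul ρ⁻¹
    have h6' : HasDerivAt (fun s => al G x (ev G x θ) (nv G x θ) (s, ρ))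
      (J G x (ev G x θ) (nv G x θ) ρ) (ρ⁻¹ * (0 : ℝ)) := by simpa [J] using h6
    have h8 := h6'.scomp (0 : ℝ) h7
    refine h5.unique (h8.congr_of_eventuallyEq (Eventually.of_forall fun s => ?_))
    have hm : ev G x θ + (ρ⁻¹ * s) • nv G x θ ∈ G.T x :=
      (G.T x).add_mem h.he ((G.T x).smul_mem _ h.hn)
    show Exp G x (ρ • (ev G x θ + (ρ⁻¹ * s) • nv G x θ)) =
      (fl G ((↑x, ev G x θ + (ρ⁻¹ * s) • nv G x θ), ρ)).1
    rw [Exp_smul G x.2 hm]

theorem jac_polar (x : S) {ρ : ℝ} (hρ : 0 < ρ) (θ : ℝ) :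
    ρ * jac (fderiv ℝ (D3d.Ph G x) (ρ • Eθ θ)) = Jc G x ρ θ := by
  have h := on_ev G x θ
  obtain ⟨h1, h2⟩ := fderiv_polar G x hρ θ
  have hon : Orthonormal ℝ (![Eθ θ, Rθ θ] : Fin 2 → Euc 2) := by
    rw [orthonormal_iff_ite]
    intro i j
    fin_cases i <;> fin_cases j <;>
      simp [norm_Eθ, norm_Rθ, inner_Eθ_Rθ, real_inner_comm (Eθ θ) (Rθ θ) ▸ inner_Eθ_Rθ θ]
  have hcard : Fintype.card (Fin 2) = Module.finrank ℝ (Euc 2) := by simp
  let b := basisOfOrthonormalOfCardEqFinrank hon hcard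
  let B : OrthonormalBasis (Fin 2) ℝ (Euc 2) := b.toOrthonormalBasis (by
    rw [coe_basisOfOrthonormalOfCardEqFinrank]; exact hon)
  have hB0 : B 0 = Eθ θ := by simp [B, b]
  have hB1 : B 1 = Rθ θ := by simp [B, b]
  have h3 := AF.jac_sq_gram (fderiv ℝ (D3d.Ph G x) (ρ • Eθ θ)) B
  rw [Matrix.det_fin_two] at h3
  simp only [Matrix.of_apply, hB0, hB1, h1, h2] at h3
  have h4 : ⟪vel G x ρ θ, J G x (ev G x θ) (nv G x θ) ρ⟫ = 0 := by
    rw [real_inner_comm]; exact inner_J_T h ρ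
  have h5 : ‖vel G x ρ θ‖ = 1 := norm_T h ρ
  rw [inner_smul_right, inner_smul_right, inner_smul_left, real_inner_self_eq_norm_sq, h5, h4,
    real_inner_self_eq_norm_sq] at h3
  have h6 : (ρ * jac (fderiv ℝ (D3d.Ph G x) (ρ • Eθ θ))) ^ 2 = Jc G x ρ θ ^ 2 := by
    rw [mul_pow, h3, Jc, jj]
    simp only [RCLike.conj_to_real]
    field_simp
    ring
  have h7 : 0 ≤ ρ * jac (fderiv ℝ (D3d.Ph G x) (ρ • Eθ θ)) :=
    mul_nonneg hρ.le (AF.jac_nonneg _)
  exact (sq_eq_sq₀ h7 (norm_nonneg _)).1 h6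

theorem continuous_flow_polar (x : S) :
    Continuous fun p : ℝ × ℝ => fl G (((x : Euc N), ev G x p.2), p.1) := by
  rw [continuous_iff_continuousAt]
  intro p
  have h := on_ev G x p.2
  have h1 := (contDiffAt_fl' G (q := ((x : Euc N), ev G x p.2)) ⟨h.hx, h.he⟩ p.1).continuousAt
  have h2 : ContinuousAt (fun p : ℝ × ℝ => (((x : Euc N), ev G x p.2), p.1)) p :=
    ((continuous_const.prodMk ((continuous_ev G x).comp continuous_snd)).prodMk
      continuous_fst).continuousAt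
  exact ContinuousAt.comp (f := fun p : ℝ × ℝ => (((x : Euc N), ev G x p.2), p.1)) h1 h2

theorem continuous_vel (x : S) : Continuous fun p : ℝ × ℝ => vel G x p.1 p.2 :=
  continuous_snd.comp (continuous_flow_polar G x)

theorem continuous_Jv (x : S) :
    Continuous fun p : ℝ × ℝ => J G x (ev G x p.2) (nv G x p.2) p.1 := by
  have h0 : (fun p : ℝ × ℝ => J G x (ev G x p.2) (nv G x p.2) p.1) =
      fun p : ℝ × ℝ => A1 G x (ev G x p.2) p.1 (nv G x p.2) := by
    funext p
    have h := on_ev G x p.2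
    rw [A1_apply G h.hx h.he h.hn]
  rw [h0, continuous_iff_continuousAt]
  intro p
  have h := on_ev G x p.2
  have h1 : ContinuousAt (fderiv ℝ (fl G)) (((x : Euc N), ev G x p.2), p.1) :=
    (contDiffAt_fl' G (q := ((x : Euc N), ev G x p.2)) ⟨h.hx, h.he⟩ p.1).fderiv_right
      (m := 0) (by simp) |>.continuousAt
  have h2 : ContinuousAt (fun p : ℝ × ℝ => (((x : Euc N), ev G x p.2), p.1)) p :=
    ((continuous_const.prodMk ((continuous_ev G x).comp continuous_snd)).prodMk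
      continuous_fst).continuousAt
  have h3 := ContinuousAt.comp (f := fun p : ℝ × ℝ => (((x : Euc N), ev G x p.2), p.1)) h1 h2
  have h4 : ContinuousAt (fun p : ℝ × ℝ => A1 G x (ev G x p.2) p.1) p := by
    unfold A1
    exact continuousAt_const.clm_comp (h3.clm_comp continuousAt_const)
  exact h4.clm_apply ((continuous_nv G x).comp continuous_snd).continuousAt

theorem continuous_Jc (x : S) : Continuous fun p : ℝ × ℝ => Jc G x p.1 p.2 :=
  (continuous_Jv G x).norm

theorem continuous_pt (x : S) : Continuous fun p : ℝ × ℝ => pt hk G sub sc x p.1 p.2 :=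
  ((DD hk G sub sc).homeo x).continuous.comp
    (continuous_fst.smul (continuous_Eθ.comp continuous_snd))

theorem ae_pos : ∀ᵐ p : ℝ × ℝ ∂(nu1.prod nu2), 0 < p.1 := LA.ae_strip_pos

theorem lintegral_polar_S (x : S) {F : S → ℝ≥0∞} (hF : Measurable F) :
    ∫⁻ y, F y ∂(μS S) = ∫⁻ p : ℝ × ℝ, ENNReal.ofReal (Jc G x p.1 p.2) *
      F (pt hk G sub sc x p.1 p.2) ∂(nu1.prod nu2) := by
  rw [lintegral_μS G.isClosed (DD hk G sub sc) x hF, lintegral_polar]
  apply lintegral_congr_ae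
  filter_upwards [ae_pos] with p hp
  rw [← mul_assoc, ← ENNReal.ofReal_mul hp.le]
  have := jac_polar G x hp p.2
  have h2 : (DD hk G sub sc).Φ x = D3d.Ph G x := rfl
  rw [h2, this]
  rfl

theorem μS_eq_map (x : S) :
    Measure.map (fun p : ℝ × ℝ => pt hk G sub sc x p.1 p.2)
      ((nu1.prod nu2).withDensity fun p => ENNReal.ofReal (Jc G x p.1 p.2)) = μS S := by
  apply Measure.ext_of_lintegral
  intro F hF
  rw [lintegral_map hF (continuous_pt hk G sub sc x).measurable,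
    lintegral_polar_S hk G sub sc x hF]
  exact lintegral_withDensity_eq_lintegral_mul _ (continuous_Jc G x).measurable.ennreal_ofReal
    (hF.comp (continuous_pt hk G sub sc x).measurable)

theorem polar_S (x : S) {F : S → ℝ} (hF : Integrable F (μS S)) :
    Integrable (fun p : ℝ × ℝ => Jc G x p.1 p.2 * F (pt hk G sub sc x p.1 p.2)) (nu1.prod nu2) ∧
    ∫ p, Jc G x p.1 p.2 * F (pt hk G sub sc x p.1 p.2) ∂(nu1.prod nu2) = ∫ z, F z ∂(μS S) := by
  have hm := (continuous_pt hk G sub sc x).measurable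
  have hd : Measurable fun p : ℝ × ℝ => (Jc G x p.1 p.2).toNNReal :=
    (continuous_Jc G x).measurable.real_toNNReal
  have h0 : ∀ p : ℝ × ℝ, 0 ≤ Jc G x p.1 p.2 := fun p => norm_nonneg _
  have hmap := μS_eq_map hk G sub sc x
  have hF' := hF
  rw [← hmap] at hF'
  have h1 := (integrable_map_measure hF'.aestronglyMeasurable hm.aemeasurable).1 hF'
  have h2 : ((nu1.prod nu2).withDensity fun p => ENNReal.ofReal (Jc G x p.1 p.2)) =
      (nu1.prod nu2).withDensity fun p => ((Jc G x p.1 p.2).toNNReal : ℝ≥0∞) := rfl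
  constructor
  · rw [h2, integrable_withDensity_iff_integrable_smul hd] at h1
    refine h1.congr (Eventually.of_forall fun p => ?_)
    simp only [Function.comp, NNReal.smul_def, Real.coe_toNNReal _ (h0 p), smul_eq_mul]
  · rw [← hmap, integral_map hm.aemeasurable hF'.aestronglyMeasurable, h2,
      integral_withDensity_eq_integral_smul hd]
    refine integral_congr_ae (Eventually.of_forall fun p => ?_)
    simp only [NNReal.smul_def, Real.coe_toNNReal _ (h0 p), smul_eq_mul]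

end

end Crest.Agent.R241.LB4
end
end

-- ▼ part R241/LB4d
section

/-!
R241, block L: the polar data (`LA.Polar`) of a surface.
-/

set_option autoImplicit false
set_option linter.unusedSectionVars false

open Set Filter Topology MeasureTheory
open scoped ContDiff RealInnerProductSpace ENNReal
open Crest.GeometryTopology.Submanifold
open Crest.Agent.R241.DDefs
open Crest.Agent.R241.D2
open Crest.Agent.R241.D3b
open Crest.Agent.R241.D3a
open Crest.Agent.R241.D4Met
open Crest.Agent.R241.LB1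
open Crest.Agent.R241.LB2
open Crest.Agent.R241.LB3
open Crest.Agent.R241.LA (nu1 nu2)
open Crest.Agent.R241.AF (jac)

noncomputable section

namespace Crest.Agent.R241.LB4

variable {N : ℕ} {S : Set (Euc N)} {k : ℝ} (hk : 0 ≤ k) (G : Geo 2 N (-(k ^ 2)) S)
  (sub : IsSubmanifold 2 N S) (sc : SimplyConnectedSpace S)

/-- polar data of the surface -/
def PP : LA.Polar (μS S) (univ : Set S) (Euc N) where
  pt := pt hk G sub sc
  vel := vel G
  nrm := nrm G
  b1 x := ev G x 0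
  b2 x := nv G x 0
  J := Jc G
  J' := Jd G
  C := Cc G
  C' := Cd G
  K := KK hk G sub sc
  pt_mem _ _ _ _ := mem_univ _
  pt_zero x _ θ := by rw [pt, zero_smul, (DD hk G sub sc).homeo_zero]
  pt_per x _ ρ := by
    rw [pt, pt]
    congr 2
    ext i
    fin_cases i <;> simp [Eθ]
  base_orth x _ := by
    have h := on_ev G x 0
    exact ⟨h.ne, h.nn, h.en⟩
  frame_orth x _ ρ hρ θ := by
    have h := on_ev G x θ
    have h1 := on_J h (J_ne_zero hk G h hρ)
    exact ⟨h1.ne, h1.nn, h1.en⟩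
  J_pos _ _ _ _ _ := norm_nonneg _
  J_zero x _ θ := jj_zero G (on_ev G x θ)
  J_cont x _ θ := (continuous_jj G (on_ev G x θ)).continuousOn
  J_deriv x _ θ ρ hρ := hasDerivAt_jj (on_ev G x θ) (J_ne_zero hk G (on_ev G x θ) hρ)
  J'_int x _ θ R hR := by
    have h := on_ev G x θ
    apply intervalIntegral.intervalIntegrable_deriv_of_nonneg (g := jj G x (ev G x θ) (nv G x θ))
      (continuous_jj G h).continuousOn
    · intro ρ hρ
      rw [min_eq_left hR.le, max_eq_right hR.le] at hρ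
      exact hasDerivAt_jj h (J_ne_zero hk G h hρ.1)
    · intro ρ hρ
      rw [min_eq_left hR.le, max_eq_right hR.le] at hρ
      exact zero_le_one.trans (one_le_jd hk G h hρ.1)
  C_zero x _ θ := CC_zero hk G (on_ev G x θ) (on_wb G x θ) (fl_zb G x θ)
  C_cont x _ θ := (continuous_CC G (on_ev G x θ) (on_wb G x θ)).continuousOn
  C_deriv x _ θ ρ hρ := hasDerivAt_CC hk G (on_ev G x θ) (on_wb G x θ) (fl_zb G x θ) hρ
  C'_int x _ θ R hR := by
    have h := on_ev G x θ
    apply intervalIntegral.intervalIntegrable_deriv_of_nonneg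
      (g := CC G x (ev G x θ) (nv G x θ) (zb G x θ) (ub G x θ) (wb G x θ))
      (continuous_CC G h (on_wb G x θ)).continuousOn
    · intro ρ hρ
      rw [min_eq_left hR.le, max_eq_right hR.le] at hρ
      exact hasDerivAt_CC hk G h (on_wb G x θ) (fl_zb G x θ) hρ.1
    · intro ρ hρ
      rw [min_eq_left hR.le, max_eq_right hR.le] at hρ
      exact (mul_nonneg (sq_nonneg k) (norm_nonneg _)).trans
        (CD_ge hk G h (on_wb G x θ) (fl_zb G x θ) hρ.1)
  K_src y _ ρ hρ θ := K_src hk G sub sc y hρ θ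
  K_tgt x _ ρ hρ θ := K_tgt hk G sub sc x hρ θ
  polar x _ F hF := polar_S hk G sub sc x hF

end Crest.Agent.R241.LB4
end
end

-- ▼ part R241/LB5a
section

/-!
R241, block L: Riemannian gradients of functions in an exponential chart.
-/

set_option autoImplicit false
set_option linter.unusedSectionVars false

open Set Filter Topology MeasureTheory
open scoped ContDiff RealInnerProductSpace ENNReal
open Crest.GeometryTopology.Submanifold
open Crest.Agent.R241.DDefs
open Crest.Agent.R241.D4Met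

noncomputable section

namespace Crest.Agent.R241.LB5

/-! ### gradient with respect to an immersion -/

section grad

variable {n N : ℕ} (Φ : Euc n → Euc N) (u : Euc n → ℝ)

/-- metric operator -/
def Mop (z : Euc n) : Euc n →L[ℝ] Euc n := (fderiv ℝ Φ z).adjoint ∘L (fderiv ℝ Φ z)

/-- coordinates of the gradient -/
def gcoord (z : Euc n) : Euc n := Ring.inverse (Mop Φ z) (gradient u z)

/-- the gradient of `u` for the metric induced by `Φ`, as a vector of the ambient space -/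
def gr (z : Euc n) : Euc N := fderiv ℝ Φ z (gcoord Φ u z)

variable {Φ u}

theorem isUnit_Mop {z : Euc n} (h : ∀ w, ‖w‖ ≤ ‖fderiv ℝ Φ z w‖) : IsUnit (Mop Φ z) := by
  rw [ContinuousLinearMap.isUnit_iff_bijective]
  have hinj : Function.Injective (Mop Φ z) := by
    rw [injective_iff_map_eq_zero]
    intro w hw
    have h1 : ⟪Mop Φ z w, w⟫ = ‖fderiv ℝ Φ z w‖ ^ 2 := by
      rw [Mop, ContinuousLinearMap.comp_apply, ContinuousLinearMap.adjoint_inner_left,
        real_inner_self_eq_norm_sq]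
    rw [hw, inner_zero_left] at h1
    have h2 : ‖fderiv ℝ Φ z w‖ = 0 := by
      have := h1.symm
      exact pow_eq_zero_iff (two_ne_zero) |>.1 this
    have h3 := h w
    rw [h2] at h3
    exact norm_le_zero_iff.1 h3
  exact ⟨hinj, LinearMap.surjective_of_injective (f := (Mop Φ z).toLinearMap) hinj⟩

theorem inner_gr {z : Euc n} (h : ∀ w, ‖w‖ ≤ ‖fderiv ℝ Φ z w‖) (w : Euc n) :
    ⟪gr Φ u z, fderiv ℝ Φ z w⟫ = fderiv ℝ u z w := by
  rw [gr, ← ContinuousLinearMap.adjoint_inner_left]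
  have h1 : (ContinuousLinearMap.adjoint (fderiv ℝ Φ z)) ((fderiv ℝ Φ z) (gcoord Φ u z)) =
      gradient u z := by
    have h2 : (Mop Φ z) (gcoord Φ u z) = gradient u z := by
      have h3 := Ring.mul_inverse_cancel (Mop Φ z) (isUnit_Mop h)
      have h4 := congrArg (fun L : Euc n →L[ℝ] Euc n => L (gradient u z)) h3
      exact h4
    exact h2
  rw [h1, gradient, InnerProductSpace.toDual_symm_apply]

theorem norm_gr_le (hn : ∃ w : Euc n, w ≠ 0) {z : Euc n} (h : ∀ w, ‖w‖ ≤ ‖fderiv ℝ Φ z w‖) {c : ℝ}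
    (hc : ∀ w, |fderiv ℝ u z w| ≤ c * ‖fderiv ℝ Φ z w‖) : ‖gr Φ u z‖ ≤ c := by
  have h1 := inner_gr (u := u) h (gcoord Φ u z)
  have h2 : ‖gr Φ u z‖ ^ 2 = fderiv ℝ u z (gcoord Φ u z) := by
    rw [← real_inner_self_eq_norm_sq, ← h1]
    rfl
  have h3 := hc (gcoord Φ u z)
  have h4 : ‖gr Φ u z‖ ^ 2 ≤ c * ‖gr Φ u z‖ := by
    rw [h2]
    exact (le_abs_self _).trans h3
  rcases eq_or_lt_of_le (norm_nonneg (gr Φ u z)) with h0 | h0
  · rw [← h0]
    obtain ⟨w, hw⟩ := hn
    have h5 := hc w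
    have h6 : 0 < ‖fderiv ℝ Φ z w‖ := (norm_pos_iff.2 hw).trans_le (h w)
    have h7 : 0 ≤ c * ‖fderiv ℝ Φ z w‖ := (abs_nonneg _).trans h5
    exact nonneg_of_mul_nonneg_left h7 h6
  · rw [sq] at h4
    exact le_of_mul_le_mul_right h4 h0

theorem gr_eq_zero {z : Euc n} (h : fderiv ℝ u z = 0) : gr Φ u z = 0 := by
  rw [gr, gcoord, gradient, h, map_zero, map_zero, map_zero]

theorem continuous_gr (hΦ : ContDiff ℝ ∞ Φ) (hu : ContDiff ℝ 1 u)
    (h : ∀ z w, ‖w‖ ≤ ‖fderiv ℝ Φ z w‖) : Continuous (gr Φ u) := by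
  have h1 : Continuous (fderiv ℝ Φ) := hΦ.continuous_fderiv (by simp)
  have h2 : Continuous (Mop Φ) := by
    unfold Mop
    exact (ContinuousLinearMap.adjoint.continuous.comp h1).clm_comp h1
  have h3 : Continuous (gradient u) := by
    unfold gradient
    exact ((InnerProductSpace.toDual ℝ (Euc n)).symm.continuous).comp
      (hu.continuous_fderiv (by simp))
  have h4 : Continuous fun z => Ring.inverse (Mop Φ z) := by
    rw [continuous_iff_continuousAt]
    intro z
    obtain ⟨U, hU⟩ := isUnit_Mop (h z)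
    have := NormedRing.inverse_continuousAt U
    rw [hU] at this
    exact ContinuousAt.comp this h2.continuousAt
  exact h1.clm_apply (h4.clm_apply h3)

end grad

open Crest.Agent.R241.D2
open Crest.Agent.R241.D3b
open Crest.Agent.R241.D3a
open Crest.Agent.R241.LB1
open Crest.Agent.R241.LB2
open Crest.Agent.R241.LB3
open Crest.Agent.R241.LB4
open Crest.Agent.R241.LA (nu1 nu2)
open Crest.Agent.R241.AF (jac)

variable {N : ℕ} {S : Set (Euc N)}

/-! ### integration over `S` in an arbitrary exponential chart -/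

theorem integrable_μS_iff (hS : IsClosed S) (D : ExpData 2 N S) (p : S) {F : S → ℝ}
    (hF : AEStronglyMeasurable F (μS S)) :
    Integrable F (μS S) ↔
      Integrable (fun v => jac (fderiv ℝ (D.Φ p) v) * F (D.homeo p v)) := by
  have hm := (D.homeo p).continuous.measurable
  have hd : Measurable fun v => (jac (fderiv ℝ (D.Φ p) v)).toNNReal :=
    (continuous_jac D p).measurable.real_toNNReal
  have hmap := map_homeo hS D p
  rw [← hmap] at hF ⊢
  rw [integrable_map_measure hF hm.aemeasurable]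
  have h2 : ((volume : Measure (Euc 2)).withDensity fun v =>
      ENNReal.ofReal (jac (fderiv ℝ (D.Φ p) v))) =
      (volume : Measure (Euc 2)).withDensity fun v =>
        ((jac (fderiv ℝ (D.Φ p) v)).toNNReal : ℝ≥0∞) := rfl
  rw [h2, integrable_withDensity_iff_integrable_smul hd]
  refine integrable_congr (Eventually.of_forall fun v => ?_)
  simp only [Function.comp, NNReal.smul_def, Real.coe_toNNReal _ (AF.jac_nonneg _), smul_eq_mul]

theorem integral_μS (hS : IsClosed S) (D : ExpData 2 N S) (p : S) {F : S → ℝ}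
    (hF : AEStronglyMeasurable F (μS S)) :
    ∫ x, F x ∂(μS S) = ∫ v, jac (fderiv ℝ (D.Φ p) v) * F (D.homeo p v) := by
  have hm := (D.homeo p).continuous.measurable
  have hd : Measurable fun v => (jac (fderiv ℝ (D.Φ p) v)).toNNReal :=
    (continuous_jac D p).measurable.real_toNNReal
  have hmap := map_homeo hS D p
  rw [← hmap] at hF ⊢
  rw [integral_map hm.aemeasurable hF]
  have h2 : ((volume : Measure (Euc 2)).withDensity fun v =>
      ENNReal.ofReal (jac (fderiv ℝ (D.Φ p) v))) =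
      (volume : Measure (Euc 2)).withDensity fun v =>
        ((jac (fderiv ℝ (D.Φ p) v)).toNNReal : ℝ≥0∞) := rfl
  rw [h2, integral_withDensity_eq_integral_smul hd]
  refine integral_congr_ae (Eventually.of_forall fun v => ?_)
  simp only [NNReal.smul_def, Real.coe_toNNReal _ (AF.jac_nonneg _), smul_eq_mul]

/-- continuous functions with compact support are integrable -/
theorem integrable_of_chart (hS : IsClosed S) (D : ExpData 2 N S) (p : S) {F : S → ℝ}
    (hF : Continuous F) (hc : HasCompactSupport fun v => F (D.homeo p v)) :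
    Integrable F (μS S) := by
  rw [integrable_μS_iff hS D p hF.aestronglyMeasurable]
  apply Continuous.integrable_of_hasCompactSupport
  · exact (continuous_jac D p).mul (hF.comp (D.homeo p).continuous)
  · exact hc.mul_left

end Crest.Agent.R241.LB5
end
end

-- ▼ part R241/LB5b
section

/-!
R241, block L: test functions (`LA.Polar.Test`) from smooth functions in an exponential chart.
-/

set_option autoImplicit false
set_option linter.unusedSectionVars false

open Set Filter Topology MeasureTheory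
open scoped ContDiff RealInnerProductSpace ENNReal
open Crest.GeometryTopology.Submanifold
open Crest.Agent.R241.DDefs
open Crest.Agent.R241.D4Met
open Crest.Agent.R241.D2
open Crest.Agent.R241.D3b
open Crest.Agent.R241.D3a
open Crest.Agent.R241.LB1
open Crest.Agent.R241.LB2
open Crest.Agent.R241.LB3
open Crest.Agent.R241.LB4
open Crest.Agent.R241.LA (nu1 nu2)
open Crest.Agent.R241.AF (jac)

noncomputable section

namespace Crest.Agent.R241.LB5

variable {N : ℕ} {S : Set (Euc N)}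

/-- a function in the chart at `p`, as a function on `S` -/
def uu (D : ExpData 2 N S) (p : S) (u : Euc 2 → ℝ) (x : S) : ℝ := u (D.log p x)

/-- its gradient -/
def gg (D : ExpData 2 N S) (p : S) (u : Euc 2 → ℝ) (x : S) : Euc N := gr (D.Φ p) u (D.log p x)

theorem uu_homeo (D : ExpData 2 N S) (p : S) (u : Euc 2 → ℝ) (v : Euc 2) :
    uu D p u (D.homeo p v) = u v := by rw [uu, D.log_homeo]

theorem gg_homeo (D : ExpData 2 N S) (p : S) (u : Euc 2 → ℝ) (v : Euc 2) :
    gg D p u (D.homeo p v) = gr (D.Φ p) u v := by rw [gg, D.log_homeo]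

variable {D : ExpData 2 N S} {p : S} {u : Euc 2 → ℝ} (hu : ContDiff ℝ ∞ u)
include hu

theorem continuous_uu : Continuous (uu D p u) := hu.continuous.comp (D.homeo p).symm.continuous

theorem continuous_gg : Continuous (gg D p u) :=
  (continuous_gr (D.contDiff p) (hu.of_le (by simp)) (D.expand p)).comp
    (D.homeo p).symm.continuous

omit hu in
theorem gg_eq_zero {x : S} (hx : D.log p x ∉ tsupport u) : gg D p u x = 0 := by
  apply gr_eq_zero
  exact image_eq_zero_of_notMem_tsupport (fun h => hx (tsupport_fderiv_subset ℝ h))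

omit hu in
theorem uu_eq_zero {x : S} (hx : D.log p x ∉ tsupport u) : uu D p u x = 0 :=
  image_eq_zero_of_notMem_tsupport (f := u) hx

variable {k : ℝ} (hk : 0 ≤ k) (G : Geo 2 N (-(k ^ 2)) S)
  (sub : IsSubmanifold 2 N S) (sc : SimplyConnectedSpace S)

theorem hasFDerivAt_uu (x : S) (v : Euc 2) :
    HasFDerivAt (fun v => uu D p u ((DD hk G sub sc).homeo x v))
      ((innerSL ℝ (gg D p u ((DD hk G sub sc).homeo x v))).comp (fderiv ℝ (D3d.Ph G x) v)) v := by
  have hZ : ContDiff ℝ ∞ fun v => D.log p ((DD hk G sub sc).homeo x v) :=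
    D.contDiff_log_comp p (α := fun v => (DD hk G sub sc).homeo x v) (by
      have : (fun v => ((DD hk G sub sc).homeo x v : Euc N)) = D3d.Ph G x :=
        funext fun v => (DD hk G sub sc).homeo_coe x v
      rw [this]
      exact D3d.contDiff_Ph G x)
  have hZd := (hZ.differentiable (by simp) v).hasFDerivAt
  set Z := fun v => D.log p ((DD hk G sub sc).homeo x v) with hZdef
  have hΦ : (fun v => D.Φ p (Z v)) = D3d.Ph G x := by
    funext v
    rw [← D.homeo_coe, hZdef]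
    simp only [D.homeo_log]
    exact (DD hk G sub sc).homeo_coe x v
  have h1 := (((D.contDiff p).differentiable (by simp) (Z v)).hasFDerivAt).comp v hZd
  have h2 : fderiv ℝ (D3d.Ph G x) v = (fderiv ℝ (D.Φ p) (Z v)).comp (fderiv ℝ Z v) := by
    rw [← hΦ]
    exact h1.fderiv
  have h3 := ((hu.differentiable (by simp) (Z v)).hasFDerivAt).comp v hZd
  refine h3.congr_fderiv ?_
  ext w
  rw [h2]
  simp only [ContinuousLinearMap.comp_apply, innerSL_apply_apply]
  exact (inner_gr (D.expand p (Z v)) _).symm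

theorem hasDerivAt_rad (x : S) {ρ : ℝ} (hρ : 0 < ρ) (θ : ℝ) :
    HasDerivAt (fun ρ => uu D p u (pt hk G sub sc x ρ θ))
      ⟪gg D p u (pt hk G sub sc x ρ θ), vel G x ρ θ⟫ ρ := by
  have h1 : HasDerivAt (fun ρ : ℝ => ρ • Eθ θ) (Eθ θ) ρ := by
    simpa using (hasDerivAt_id ρ).smul_const (Eθ θ)
  have h2 := (hasFDerivAt_uu hu hk G sub sc (D := D) (p := p) x (ρ • Eθ θ)).comp_hasDerivAt ρ h1
  refine h2.congr_deriv ?_
  rw [ContinuousLinearMap.comp_apply, innerSL_apply_apply, (fderiv_polar G x hρ θ).1]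
  rfl

theorem hasDerivAt_ang (x : S) {ρ : ℝ} (hρ : 0 < ρ) (θ : ℝ) :
    HasDerivAt (fun θ => uu D p u (pt hk G sub sc x ρ θ))
      ⟪gg D p u (pt hk G sub sc x ρ θ), J G x (ev G x θ) (nv G x θ) ρ⟫ θ := by
  have h1 : HasDerivAt (fun θ : ℝ => ρ • Eθ θ) (ρ • Rθ θ) θ := (hasDerivAt_Eθ θ).const_smul ρ
  have h2 := (hasFDerivAt_uu hu hk G sub sc (D := D) (p := p) x (ρ • Eθ θ)).comp_hasDerivAt θ h1
  refine h2.congr_deriv ?_
  have h3 : fderiv ℝ (D3d.Ph G x) (ρ • Eθ θ) (ρ • Rθ θ) = J G x (ev G x θ) (nv G x θ) ρ := by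
    rw [map_smul, (fderiv_polar G x hρ θ).2, smul_smul, mul_inv_cancel₀ hρ.ne', one_smul]
  rw [ContinuousLinearMap.comp_apply, innerSL_apply_apply, h3]
  rfl

omit hu in
include hk in
theorem Jc_smul_nrm (x : S) {ρ : ℝ} (hρ : 0 < ρ) (θ : ℝ) :
    Jc G x ρ θ • nrm G x ρ θ = J G x (ev G x θ) (nv G x θ) ρ := by
  have h : Jc G x ρ θ ≠ 0 := (hρ.trans_le (le_jj hk G (on_ev G x θ) hρ)).ne'
  rw [nrm, smul_smul, mul_inv_cancel₀ h, one_smul]

omit hu in
theorem norm_log_pt (x : S) {ρ : ℝ} (hρ : 0 ≤ ρ) (θ : ℝ) :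
    ‖logv hk G sub sc x (pt hk G sub sc x ρ θ)‖ = ρ := by
  rw [norm_logv, pt, (DD hk G sub sc).log_homeo, norm_smul, norm_Eθ, mul_one, Real.norm_eq_abs,
    abs_of_nonneg hρ]

omit hu in
theorem measurable_KK :
    Measurable fun q : S × S => KK hk G sub sc q.1 q.2 := by
  classical
  have hopen : IsOpen {q : S × S | q.1 ≠ q.2} := isClosed_diagonal.isOpen_compl
  have h1 := ContinuousOn.measurable_piecewise (f := fun q : S × S => KK hk G sub sc q.1 q.2)
    (g := fun _ => (0 : Euc N)) (s := {q : S × S | q.1 ≠ q.2})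
    (continuousOn_KK hk G sub sc) continuous_const.continuousOn hopen.measurableSet
  have h2 : (fun q : S × S => KK hk G sub sc q.1 q.2) =
      Set.piecewise {q : S × S | q.1 ≠ q.2} (fun q : S × S => KK hk G sub sc q.1 q.2)
        (fun _ => (0 : Euc N)) := by
    funext q
    by_cases h : q.1 = q.2
    · rw [piecewise_eq_of_notMem _ _ _ (by simpa using h), h, KK_self]
    · rw [piecewise_eq_of_mem _ _ _ h]
  rw [h2]
  exact h1

end Crest.Agent.R241.LB5
end
end

-- ▼ part R241/LB5c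
section

/-!
R241, block L: the test function structure and the integrability of the kernel.
-/

set_option autoImplicit false
set_option linter.unusedSectionVars false

open Set Filter Topology MeasureTheory
open scoped ContDiff RealInnerProductSpace ENNReal
open Crest.GeometryTopology.Submanifold
open Crest.Agent.R241.DDefs
open Crest.Agent.R241.D4Met
open Crest.Agent.R241.D2
open Crest.Agent.R241.D3b
open Crest.Agent.R241.D3a
open Crest.Agent.R241.LB1
open Crest.Agent.R241.LB2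
open Crest.Agent.R241.LB3
open Crest.Agent.R241.LB4
open Crest.Agent.R241.LA (nu1 nu2)
open Crest.Agent.R241.AF (jac)

noncomputable section

namespace Crest.Agent.R241.LB5

variable {N : ℕ} {S : Set (Euc N)}

variable {k : ℝ} (hk : 0 ≤ k) (G : Geo 2 N (-(k ^ 2)) S)
  (sub : IsSubmanifold 2 N S) (sc : SimplyConnectedSpace S)

theorem exists_Jc_bound {K' : Set S} (hK : IsCompact K') (R : ℝ) :
    ∃ B, 0 ≤ B ∧ ∀ y ∈ K', ∀ θ, Jc G y R θ ≤ B := by
  set T : Set (Euc N × Euc N) :=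
    ((Subtype.val '' K') ×ˢ Metric.closedBall (0 : Euc N) 1) ∩ TS G with hT
  have hTc : IsCompact T :=
    ((hK.image continuous_subtype_val).prod (isCompact_closedBall _ _)).inter_right (isClosed_TS G)
  have hcont : ContinuousOn (fun q : Euc N × Euc N => hs1 G (q, R)) T := by
    intro q hq
    have h1 := (continuousAt_hs G (p := q.1) (v := q.2) hq.2.1 hq.2.2 R).1
    have h2 : ContinuousAt (fun q : Euc N × Euc N => (q, R)) q :=
      (continuous_id.prodMk continuous_const).continuousAt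
    exact (ContinuousAt.comp (f := fun q : Euc N × Euc N => (q, R)) h1 h2).continuousWithinAt
  obtain ⟨B, hB⟩ := hTc.bddAbove_image hcont
  refine ⟨√B, Real.sqrt_nonneg _, fun y hy θ => ?_⟩
  have h := on_ev G y θ
  have hmem : ((y : Euc N), ev G y θ) ∈ T :=
    ⟨⟨⟨y, hy, rfl⟩, by rw [mem_closedBall_zero_iff]; exact h.ne.le⟩, h.hx, h.he⟩
  have h1 := hB (mem_image_of_mem _ hmem)
  rw [hs1_eq G h] at h1
  exact (Real.le_sqrt (norm_nonneg _) ((sq_nonneg _).trans h1)).2 h1

include hk in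
theorem integral_Jd (y : S) (θ : ℝ) {R : ℝ} (hR : 0 < R) :
    IntervalIntegrable (fun ρ => Jd G y ρ θ + 1) volume 0 R ∧
    ∫ ρ in (0 : ℝ)..R, (Jd G y ρ θ + 1) = Jc G y R θ + R := by
  have h := on_ev G y θ
  have hd : ∀ ρ ∈ Ioo 0 R, HasDerivAt (fun ρ => jj G y (ev G y θ) (nv G y θ) ρ + ρ)
      (Jd G y ρ θ + 1) ρ := fun ρ hρ =>
    (hasDerivAt_jj h (J_ne_zero hk G h hρ.1)).add (hasDerivAt_id ρ)
  have hc : Continuous (fun ρ => jj G y (ev G y θ) (nv G y θ) ρ + ρ) :=
    (continuous_jj G h).add continuous_id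
  have hi : IntervalIntegrable (fun ρ => Jd G y ρ θ + 1) volume 0 R := by
    apply intervalIntegral.intervalIntegrable_deriv_of_nonneg hc.continuousOn
    · rw [min_eq_left hR.le, max_eq_right hR.le]; exact hd
    · intro ρ hρ
      rw [min_eq_left hR.le, max_eq_right hR.le] at hρ
      have h2 : 1 ≤ Jd G y ρ θ := one_le_jd hk G h hρ.1
      linarith
  refine ⟨hi, ?_⟩
  rw [intervalIntegral.integral_eq_sub_of_hasDerivAt_of_le hR.le hc.continuousOn hd hi,
    jj_zero G h]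
  simp [Jc]

theorem measurable_kint {w : S → ℝ} (hw : Continuous w) (y : S) :
    Measurable fun x => ‖w x‖ₑ * ‖KK hk G sub sc x y‖ₑ := by
  have h1 : Measurable fun x => KK hk G sub sc x y := by
    have h0 : Measurable fun x : S => (x, y) := measurable_id.prodMk measurable_const
    have h2 := (measurable_KK hk G sub sc).comp h0
    simp only [Function.comp_def] at h2
    exact h2
  exact hw.measurable.enorm.mul h1.enorm

/-- uniform bound for the kernel integral -/
theorem kint_le {w : S → ℝ} (hw : Continuous w) {K' : Set S} (hK : IsCompact K') {M : ℝ}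
    (hM : ∀ x, |w x| ≤ M) (hsupp : ∀ x, x ∉ K' → w x = 0) :
    ∃ C : ℝ≥0∞, C < ⊤ ∧ ∀ y ∈ K', ∫⁻ x, ‖w x‖ₑ * ‖KK hk G sub sc x y‖ₑ ∂(μS S) ≤ C := by
  -- diameter
  have hcn : Continuous fun q : S × S => ‖logv hk G sub sc q.1 q.2‖ :=
    continuous_norm_logv hk G sub sc
  obtain ⟨R0, hR0⟩ := (hK.prod hK).bddAbove_image hcn.continuousOn
  set R : ℝ := max R0 0 + 1 with hRdef
  have hR : 0 < R := by positivity
  obtain ⟨B, hB0, hB⟩ := exists_Jc_bound G hK R
  refine ⟨∫⁻ θ, ENNReal.ofReal M * ENNReal.ofReal (B + R) ∂nu2, ?_, fun y hy => ?_⟩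
  · rw [lintegral_const]
    refine ENNReal.mul_lt_top (ENNReal.mul_lt_top ENNReal.ofReal_lt_top ENNReal.ofReal_lt_top) ?_
    simp
  have hmeas := measurable_kint hk G sub sc hw y
  rw [lintegral_polar_S hk G sub sc y hmeas]
  have hmeas2 : Measurable fun p : ℝ × ℝ => ENNReal.ofReal (Jc G y p.1 p.2) *
      (‖w (pt hk G sub sc y p.1 p.2)‖ₑ * ‖KK hk G sub sc (pt hk G sub sc y p.1 p.2) y‖ₑ) :=
    ((continuous_Jc G y).measurable.ennreal_ofReal).mul
      (hmeas.comp (continuous_pt hk G sub sc y).measurable)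
  rw [lintegral_prod_symm _ hmeas2.aemeasurable]
  refine lintegral_mono fun θ => ?_
  -- pointwise bound
  have hpt : ∀ᵐ ρ ∂nu1, ENNReal.ofReal (Jc G y ρ θ) *
      (‖w (pt hk G sub sc y ρ θ)‖ₑ * ‖KK hk G sub sc (pt hk G sub sc y ρ θ) y‖ₑ) ≤
      (Ioc 0 R).indicator (fun ρ => ENNReal.ofReal M * ENNReal.ofReal (Jd G y ρ θ + 1)) ρ := by
    filter_upwards [ae_restrict_mem measurableSet_Ioi] with ρ hρ
    have hρ' : 0 < ρ := hρ
    by_cases hle : ρ ≤ R
    · rw [indicator_of_mem (show ρ ∈ Ioc 0 R from ⟨hρ', hle⟩)]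
      have h1 : ENNReal.ofReal (Jc G y ρ θ) * ‖KK hk G sub sc (pt hk G sub sc y ρ θ) y‖ₑ =
          ENNReal.ofReal (Jd G y ρ θ + 1) := by
        have h2 := congrArg (fun v : Euc N => ‖v‖ₑ) (K_src hk G sub sc y hρ' θ)
        simp only [enorm_smul] at h2
        have h20 : 0 ≤ Jc G y ρ θ := norm_nonneg _
        rw [Real.enorm_of_nonneg h20] at h2
        have h3 : 0 ≤ Jd G y ρ θ + 1 := by
          have : 1 ≤ Jd G y ρ θ := one_le_jd hk G (on_ev G y θ) hρ'
          linarith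
        rw [h2, Real.enorm_of_nonneg h3, ← ev_eq]
        have h4 : ‖ev G y θ‖ₑ = 1 := by
          rw [← ofReal_norm, (on_ev G y θ).ne, ENNReal.ofReal_one]
        rw [h4, mul_one]
      have h5 : ‖w (pt hk G sub sc y ρ θ)‖ₑ ≤ ENNReal.ofReal M := by
        rw [← ofReal_norm]
        exact ENNReal.ofReal_le_ofReal (hM _)
      calc _ = ‖w (pt hk G sub sc y ρ θ)‖ₑ * (ENNReal.ofReal (Jc G y ρ θ) *
            ‖KK hk G sub sc (pt hk G sub sc y ρ θ) y‖ₑ) := by ring
        _ ≤ _ := by rw [h1]; gcongr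
    · have h6 : w (pt hk G sub sc y ρ θ) = 0 := by
        apply hsupp
        intro hmem
        have h7 := hR0 (mem_image_of_mem (fun q : S × S => ‖logv hk G sub sc q.1 q.2‖)
          (show (y, pt hk G sub sc y ρ θ) ∈ K' ×ˢ K' from ⟨hy, hmem⟩))
        simp only [] at h7
        rw [norm_log_pt hk G sub sc y hρ'.le] at h7
        have : R0 < R := by
          rw [hRdef]
          linarith [le_max_left R0 0]
        linarith
      rw [h6]
      simp
  refine (lintegral_mono_ae hpt).trans ?_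
  rw [lintegral_indicator measurableSet_Ioc, lintegral_const_mul' _ _ ENNReal.ofReal_ne_top]
  gcongr
  obtain ⟨hi, hint⟩ := integral_Jd hk G y θ hR
  have hset : nu1.restrict (Ioc 0 R) = volume.restrict (Ioc 0 R) := by
    rw [Measure.restrict_restrict measurableSet_Ioc,
      inter_eq_self_of_subset_left Ioc_subset_Ioi_self]
  rw [hset, ← ofReal_integral_eq_lintegral_ofReal]
  · rw [← intervalIntegral.integral_of_le hR.le, hint]
    exact ENNReal.ofReal_le_ofReal (by linarith [hB y hy θ])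
  · exact (intervalIntegrable_iff_integrableOn_Ioc_of_le hR.le).1 hi
  · filter_upwards [ae_restrict_mem measurableSet_Ioc] with ρ hρ
    have : 1 ≤ Jd G y ρ θ := one_le_jd hk G (on_ev G y θ) hρ.1
    show (0 : ℝ) ≤ Jd G y ρ θ + 1
    linarith

/-- integrability of the double kernel integral -/
theorem int_K [SFinite (μS S)] {w : S → ℝ} (hw : Continuous w) {g : S → Euc N}
    (hg : Continuous g) {K' : Set S} (hK : IsCompact K') {M : ℝ}
    (hM : ∀ x, |w x| ≤ M) (hsupp : ∀ x, x ∉ K' → w x = 0 ∧ g x = 0)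
    (hgi : Integrable (fun x => ‖g x‖) (μS S)) :
    Integrable (fun q : S × S => w q.1 * ⟪g q.2, KK hk G sub sc q.1 q.2⟫)
      ((μS S).prod (μS S)) := by
  have hKm := measurable_KK hk G sub sc
  have hgm : Measurable fun q : S × S => g q.2 := hg.measurable.comp measurable_snd
  have hwm : Measurable fun q : S × S => w q.1 := hw.measurable.comp measurable_fst
  have hmeas : Measurable fun q : S × S => w q.1 * ⟪g q.2, KK hk G sub sc q.1 q.2⟫ :=
    hwm.mul (hgm.inner hKm)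
  refine ⟨hmeas.aestronglyMeasurable, ?_⟩
  obtain ⟨C, hC, hC'⟩ := kint_le hk G sub sc hw hK hM (fun x hx => (hsupp x hx).1)
  rw [hasFiniteIntegral_iff_enorm]
  have hmeas2 : Measurable fun q : S × S =>
      ‖g q.2‖ₑ * (‖w q.1‖ₑ * ‖KK hk G sub sc q.1 q.2‖ₑ) :=
    hgm.enorm.mul (hwm.enorm.mul hKm.enorm)
  calc ∫⁻ q : S × S, ‖w q.1 * ⟪g q.2, KK hk G sub sc q.1 q.2⟫‖ₑ ∂((μS S).prod (μS S))
      ≤ ∫⁻ q : S × S, ‖g q.2‖ₑ * (‖w q.1‖ₑ * ‖KK hk G sub sc q.1 q.2‖ₑ)
          ∂((μS S).prod (μS S)) := by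
        refine lintegral_mono fun q => ?_
        rw [enorm_mul]
        calc ‖w q.1‖ₑ * ‖⟪g q.2, KK hk G sub sc q.1 q.2⟫‖ₑ
            ≤ ‖w q.1‖ₑ * (‖g q.2‖ₑ * ‖KK hk G sub sc q.1 q.2‖ₑ) := by
              gcongr
              rw [← ofReal_norm, ← ofReal_norm, ← ofReal_norm,
                ← ENNReal.ofReal_mul (norm_nonneg _)]
              exact ENNReal.ofReal_le_ofReal (norm_inner_le_norm _ _)
          _ = _ := by ring
    _ = ∫⁻ y, ∫⁻ x, ‖g y‖ₑ * (‖w x‖ₑ * ‖KK hk G sub sc x y‖ₑ) ∂(μS S) ∂(μS S) :=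
        lintegral_prod_symm _ hmeas2.aemeasurable
    _ ≤ ∫⁻ y, ‖g y‖ₑ * C ∂(μS S) := by
        refine lintegral_mono fun y => ?_
        rw [lintegral_const_mul _ (measurable_kint hk G sub sc hw y)]
        by_cases hy : y ∈ K'
        · exact mul_le_mul_right (hC' y hy) _
        · rw [(hsupp y hy).2]
          simp
    _ = (∫⁻ y, ‖g y‖ₑ ∂(μS S)) * C := lintegral_mul_const _ hg.measurable.enorm
    _ < ⊤ := by
        refine ENNReal.mul_lt_top ?_ hC
        have := hgi.hasFiniteIntegral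
        rw [hasFiniteIntegral_iff_enorm] at this
        simpa using this

/-- smooth functions in a chart are test functions -/
theorem test {D : ExpData 2 N S} {p : S} {u : Euc 2 → ℝ} (hu : ContDiff ℝ ∞ u)
    (hc : HasCompactSupport u) : (PP hk G sub sc).Test (uu D p u) (gg D p u) := by
  have hS := G.isClosed
  have hcu := continuous_uu (D := D) (p := p) hu
  have hcg := continuous_gg (D := D) (p := p) hu
  have hSF : SFinite (μS S) := sfinite_μS hS D p
  set K' : Set S := D.homeo p '' tsupport u with hK'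
  have hK : IsCompact K' := hc.isCompact.image (D.homeo p).continuous
  have hsupp : ∀ x, x ∉ K' → uu D p u x = 0 ∧ gg D p u x = 0 := by
    intro x hx
    have h1 : D.log p x ∉ tsupport u := fun h => hx ⟨D.log p x, h, D.homeo_log p x⟩
    exact ⟨uu_eq_zero h1, gg_eq_zero h1⟩
  obtain ⟨M, hM⟩ := hc.exists_bound_of_continuous hu.continuous
  have hM' : ∀ x, |uu D p u x| ≤ M := fun x => hM _
  have hcs1 : HasCompactSupport fun v => gg D p u (D.homeo p v) := by
    refine HasCompactSupport.intro hc.isCompact fun v hv => ?_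
    apply gg_eq_zero
    rwa [D.log_homeo]
  have hgi : Integrable (fun x => ‖gg D p u x‖) (μS S) := by
    apply integrable_of_chart hS D p hcg.norm
    exact hcs1.norm
  have hptc : ∀ x, Continuous fun q : ℝ × ℝ => pt hk G sub sc x q.1 q.2 :=
    fun x => continuous_pt hk G sub sc x
  have hc1 : ∀ x, Continuous fun q : ℝ × ℝ => uu D p u (pt hk G sub sc x q.1 q.2) :=
    fun x => hcu.comp (hptc x)
  have hc2 : ∀ x, Continuous fun q : ℝ × ℝ => gg D p u (pt hk G sub sc x q.1 q.2) :=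
    fun x => hcg.comp (hptc x)
  have hc3 : ∀ x, Continuous fun q : ℝ × ℝ =>
      ⟪gg D p u (pt hk G sub sc x q.1 q.2), vel G x q.1 q.2⟫ :=
    fun x => (hc2 x).inner (continuous_vel G x)
  have hc4 : ∀ x, Continuous fun q : ℝ × ℝ =>
      ⟪gg D p u (pt hk G sub sc x q.1 q.2), J G x (ev G x q.2) (nv G x q.2) q.1⟫ :=
    fun x => (hc2 x).inner (continuous_Jv G x)
  have hJn : ∀ (x : S) (ρ : ℝ), 0 < ρ → ∀ θ,
      Jc G x ρ θ * ⟪gg D p u (pt hk G sub sc x ρ θ), nrm G x ρ θ⟫ =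
        ⟪gg D p u (pt hk G sub sc x ρ θ), J G x (ev G x θ) (nv G x θ) ρ⟫ := by
    intro x ρ hρ θ
    rw [← Jc_smul_nrm hk G x hρ θ, inner_smul_right]
  refine ⟨?_, ?_, ?_, ?_, ?_, ?_, ?_, ?_, ?_, ?_, ?_, ?_, ?_, ?_⟩
  · intro x _ θ ρ hρ
    exact hasDerivAt_rad hu hk G sub sc x hρ θ
  · intro x _ θ
    exact ((hc1 x).comp (continuous_id.prodMk continuous_const)).continuousOn
  · intro x _ θ R _
    have h1 : Continuous fun ρ : ℝ => (ρ, θ) := continuous_id.prodMk continuous_const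
    exact ((hc3 x).comp h1).intervalIntegrable 0 R
  · intro x _ ρ hρ θ
    have h1 := hasDerivAt_ang (D := D) (p := p) hu hk G sub sc x hρ θ
    rw [← hJn x ρ hρ θ] at h1
    exact h1
  · intro x _ ρ hρ
    have h1 : Continuous fun θ : ℝ => (ρ, θ) := continuous_const.prodMk continuous_id
    have h2 := (hc4 x).comp h1
    refine h2.congr fun θ => ?_
    exact (hJn x ρ hρ θ).symm
  · intro x _
    have hcn : Continuous fun y : S => ‖logv hk G sub sc x y‖ := by
      have h00 : Continuous fun y : S => (x, y) := continuous_const.prodMk continuous_id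
      have h0 := (continuous_norm_logv hk G sub sc).comp h00
      simp only [Function.comp_def] at h0
      exact h0
    obtain ⟨R0, hR0⟩ := hK.bddAbove_image hcn.continuousOn
    refine ⟨max R0 0 + 1, by positivity, fun ρ hρ θ => ?_⟩
    have hρ0 : 0 ≤ ρ := le_trans (by positivity) hρ
    apply hsupp
    intro hmem
    have h7 := hR0 (mem_image_of_mem (fun y : S => ‖logv hk G sub sc x y‖) hmem)
    have h8 : ‖logv hk G sub sc x (pt hk G sub sc x ρ θ)‖ ≤ R0 := h7
    rw [norm_log_pt hk G sub sc x hρ0] at h8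
    linarith [le_max_left R0 0]
  · exact ⟨M, fun x _ => hM' x⟩
  · exact hgi
  · apply integrable_of_chart hS D p (hcu.pow 2)
    refine HasCompactSupport.intro hc.isCompact fun v hv => ?_
    have : uu D p u (D.homeo p v) = 0 := uu_eq_zero (by rwa [D.log_homeo])
    rw [Pi.pow_apply, this]
    norm_num
  · intro x _
    exact (hc1 x).aestronglyMeasurable
  · intro x _
    exact (hc3 x).aestronglyMeasurable
  · intro x _
    have h1 : Measurable fun q : ℝ × ℝ => nrm G x q.1 q.2 :=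
      ((continuous_Jc G x).measurable.inv).smul (continuous_Jv G x).measurable
    exact ((hc2 x).measurable.inner h1).aestronglyMeasurable
  · intro x _
    exact (continuous_Jc G x).aestronglyMeasurable
  · exact int_K hk G sub sc hcu hcg hK hM' hsupp hgi

end Crest.Agent.R241.LB5
end
end

-- ▼ part R241/LB4e
section

/-!
R241, block L: the joint kernel `W x y = C'(x → y) / J(x → y)`.
-/

set_option autoImplicit false
set_option linter.unusedSectionVars false

open Set Filter Topology MeasureTheory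
open scoped ContDiff RealInnerProductSpace ENNReal
open Crest.GeometryTopology.Submanifold
open Crest.Agent.R241.DDefs
open Crest.Agent.R241.D4Met
open Crest.Agent.R241.D2
open Crest.Agent.R241.D3b
open Crest.Agent.R241.D3a
open Crest.Agent.R241.LB1
open Crest.Agent.R241.LB2
open Crest.Agent.R241.LB3
open Crest.Agent.R241.LA (nu1 nu2)
open Crest.Agent.R241.AF (jac)

noncomputable section

namespace Crest.Agent.R241.LB4

variable {N : ℕ} {S : Set (Euc N)}

section wq

variable {κ : ℝ} (G : Geo 2 N κ S)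

/-- frame free Jacobian -/
def j1 (q : (Euc N × Euc N) × ℝ) : ℝ := √(hs1 G q)

/-- frame free derivative -/
def j2 (q : (Euc N × Euc N) × ℝ) : ℝ := hs2 G q / √(hs1 G q)

/-- frame free kernel -/
def wq (q : (Euc N × Euc N) × ℝ) : ℝ :=
  ((j2 G (fl G (q.1, -1), q.2 + 1) - j2 G q * j2 G (fl G (q.1, -1), 1)) /
    j1 G (fl G (q.1, -1), 1)) / j1 G q

variable {G} {p v w : Euc N}

theorem j1_eq (h : On G p v w) (t : ℝ) : j1 G ((p, v), t) = jj G p v w t := by
  rw [j1, hs1_eq G h, Real.sqrt_sq (show 0 ≤ jj G p v w t from norm_nonneg _)]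

theorem j2_eq (h : On G p v w) (t : ℝ) : j2 G ((p, v), t) = jd G p v w t := by
  rw [j2, hs1_eq G h, Real.sqrt_sq (show 0 ≤ jj G p v w t from norm_nonneg _), hs2_eq G h]
  rfl

theorem wq_eq (h : On G p v w) {wz : Euc N}
    (hz : On G (fl G ((p, v), -1)).1 (fl G ((p, v), -1)).2 wz) (t : ℝ) :
    wq G ((p, v), t) = CD G p v w (fl G ((p, v), -1)).1 (fl G ((p, v), -1)).2 wz t /
      jj G p v w t := by
  rw [wq, CD, j1_eq h, j2_eq h]
  have h1 := j1_eq hz
  have h2 := j2_eq hz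
  rw [Prod.mk.eta] at h1 h2
  rw [h1, h2, h2]

theorem fl_back (hp : p ∈ S) (hv : v ∈ G.T p) :
    fl G (((fl G ((p, v), -1)).1, (fl G ((p, v), -1)).2), 1) = (p, v) := by
  have h1 := fl_add' G (q := (p, v)) ⟨hp, hv⟩ (-1) 1
  rw [neg_add_cancel, fl_zero] at h1
  rw [Prod.mk.eta]
  exact h1.symm

end wq

variable {k : ℝ} (hk : 0 ≤ k) (G : Geo 2 N (-(k ^ 2)) S) (sub : IsSubmanifold 2 N S)
  (sc : SimplyConnectedSpace S)

include hk in
theorem continuousAt_wq {p v w : Euc N} (h : On G p v w) {t : ℝ} (ht : 0 < t) :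
    ContinuousAt (wq G) ((p, v), t) := by
  have hq : (p, v) ∈ TS G := ⟨h.hx, h.he⟩
  have hm := fl_mem G hq (-1)
  obtain ⟨wz, hz⟩ := exists_On (G := G) hm.1 hm.2 (norm_T h (-1))
  -- base quantities
  have hs : ∀ {p v w : Euc N} (_ : On G p v w) {t : ℝ} (_ : 0 < t),
      ContinuousAt (j1 G) ((p, v), t) ∧ ContinuousAt (j2 G) ((p, v), t) ∧
        j1 G ((p, v), t) ≠ 0 := by
    intro p v w h t ht
    obtain ⟨c1, c2⟩ := continuousAt_hs G h.hx h.he t
    have hj : 0 < jj G p v w t := ht.trans_le (le_jj hk G h ht)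
    have h0 : j1 G ((p, v), t) ≠ 0 := by rw [j1_eq h]; exact hj.ne'
    have c3 : ContinuousAt (j1 G) ((p, v), t) := c1.sqrt
    exact ⟨c3, c2.div c3 h0, h0⟩
  have hfl : ContinuousAt (fun q : (Euc N × Euc N) × ℝ => fl G (q.1, -1)) ((p, v), t) := by
    have h1 := (contDiffAt_fl' G hq (-1)).continuousAt
    have h2 : ContinuousAt (fun q : (Euc N × Euc N) × ℝ => (q.1, (-1 : ℝ))) ((p, v), t) :=
      (continuous_fst.prodMk continuous_const).continuousAt
    exact ContinuousAt.comp (f := fun q : (Euc N × Euc N) × ℝ => (q.1, (-1 : ℝ))) h1 h2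
  obtain ⟨a1, a2, a3⟩ := hs h ht
  obtain ⟨b1, b2, b3⟩ := hs hz one_pos
  obtain ⟨c1, c2, c3⟩ := hs hz (show 0 < t + 1 by linarith)
  rw [Prod.mk.eta] at b1 b2 b3 c1 c2 c3
  have d1 : ContinuousAt (fun q : (Euc N × Euc N) × ℝ => (fl G (q.1, -1), (1 : ℝ))) ((p, v), t) :=
    hfl.prodMk continuousAt_const
  have d2 : ContinuousAt (fun q : (Euc N × Euc N) × ℝ => (fl G (q.1, -1), q.2 + 1)) ((p, v), t) :=
    hfl.prodMk (continuous_snd.add continuous_const).continuousAt
  have e1 := ContinuousAt.comp (f := fun q : (Euc N × Euc N) × ℝ => (fl G (q.1, -1), (1 : ℝ)))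
    (x := ((p, v), t)) b1 d1
  have e2 := ContinuousAt.comp (f := fun q : (Euc N × Euc N) × ℝ => (fl G (q.1, -1), (1 : ℝ)))
    (x := ((p, v), t)) b2 d1
  have e3 := ContinuousAt.comp (f := fun q : (Euc N × Euc N) × ℝ => (fl G (q.1, -1), q.2 + 1))
    (x := ((p, v), t)) c2 d2
  exact (((e3.sub (a2.mul e2)).div e1 b3).div a1 a3)

open Classical in
/-- the joint kernel -/
def WW (x y : S) : ℝ := if x = y then k ^ 2 else wq G (dat hk G sub sc x y)

theorem WW_of_ne {x y : S} (h : x ≠ y) : WW hk G sub sc x y = wq G (dat hk G sub sc x y) := by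
  rw [WW, if_neg h]

theorem WW_dir {x y : S} {e n wz : Euc N} (h : On G (x : Euc N) e n) {ρ : ℝ} (hρ : 0 < ρ)
    (hfl : (fl G (((x : Euc N), e), ρ)).1 = y)
    (hz : On G (fl G (((x : Euc N), e), -1)).1 (fl G (((x : Euc N), e), -1)).2 wz) :
    x ≠ y ∧ WW hk G sub sc x y = CD G x e n (fl G (((x : Euc N), e), -1)).1
      (fl G (((x : Euc N), e), -1)).2 wz ρ / jj G x e n ρ := by
  obtain ⟨h1, h2⟩ := dat_eq hk G sub sc h.he h.ne hρ hfl
  have hne : x ≠ y := by
    rintro rfl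
    have h3 : logv hk G sub sc x x = 0 := by
      rw [← norm_eq_zero, norm_logv, (DD hk G sub sc).log_self, norm_zero]
    rw [h3] at h1
    have h4 : ‖ρ • e‖ = ρ := by rw [norm_smul, h.ne, mul_one, Real.norm_eq_abs, abs_of_pos hρ]
    rw [← h1, norm_zero] at h4
    linarith
  refine ⟨hne, ?_⟩
  rw [WW_of_ne hk G sub sc hne, h2, wq_eq h hz]

theorem WW_pt (x : S) {ρ : ℝ} (hρ : 0 < ρ) (θ : ℝ) :
    Jc G x ρ θ * WW hk G sub sc x (pt hk G sub sc x ρ θ) = Cd G x ρ θ := by
  have h := on_ev G x θ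
  have hj : 0 < Jc G x ρ θ := hρ.trans_le (le_jj hk G h hρ)
  have h1 := (WW_dir hk G sub sc (y := pt hk G sub sc x ρ θ) h hρ
    (coe_pt hk G sub sc x ρ θ).symm (on_wb G x θ)).2
  rw [h1]
  show Jc G x ρ θ * (Cd G x ρ θ / Jc G x ρ θ) = Cd G x ρ θ
  field_simp

theorem WW_ge {x y : S} (h : x ≠ y) : k ^ 2 ≤ WW hk G sub sc x y := by
  obtain ⟨e, n, ρ, ho, hρ, hfl, -⟩ := exists_dat hk G sub sc (x := y) (y := x) h.symm
  have hm := fl_mem G (q := ((x : Euc N), e)) ⟨ho.hx, ho.he⟩ (-1)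
  obtain ⟨wz, hz⟩ := exists_On (G := G) hm.1 hm.2 (norm_T ho (-1))
  have hj : 0 < jj G x e n ρ := hρ.trans_le (le_jj hk G ho hρ)
  rw [(WW_dir hk G sub sc ho hρ hfl hz).2, le_div_iff₀ hj]
  exact CD_ge hk G ho hz (fl_back ho.hx ho.he) hρ

theorem WW_ge' (x y : S) : k ^ 2 ≤ WW hk G sub sc x y := by
  by_cases h : x = y
  · rw [WW, if_pos h]
  · exact WW_ge hk G sub sc h

theorem continuousOn_WW :
    ContinuousOn (fun q : S × S => WW hk G sub sc q.1 q.2) {q | q.1 ≠ q.2} := by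
  have h1 : ContinuousOn (fun q : S × S => wq G (dat hk G sub sc q.1 q.2)) {q | q.1 ≠ q.2} := by
    intro q hq
    have hq' : q.1 ≠ q.2 := hq
    obtain ⟨e, n, ρ, ho, hρ, hfl, -⟩ := exists_dat hk G sub sc (x := q.2) (y := q.1) hq'.symm
    have hd : ContinuousWithinAt (fun q : S × S => dat hk G sub sc q.1 q.2) {q | q.1 ≠ q.2} q := by
      have hd0 := continuousOn_dat hk G sub sc
      have hsw : ContinuousOn (fun q : S × S => (q.2, q.1)) {q | q.1 ≠ q.2} :=
        (continuous_snd.prodMk continuous_fst).continuousOn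
      have hmaps : MapsTo (fun q : S × S => (q.2, q.1)) {q | q.1 ≠ q.2} {q | q.1 ≠ q.2} :=
        fun q hq => Ne.symm hq
      have h0 := hd0.comp hsw hmaps
      simp only [Function.comp_def] at h0
      exact h0 q hq
    have hde := (dat_eq hk G sub sc ho.he ho.ne hρ hfl).2
    have hc := continuousAt_wq hk G ho hρ
    rw [← hde] at hc
    exact ContinuousAt.comp_continuousWithinAt (f := fun q : S × S => dat hk G sub sc q.1 q.2) hc hd
  refine h1.congr fun q hq => ?_
  exact WW_of_ne hk G sub sc hq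

theorem measurable_WW : Measurable fun q : S × S => WW hk G sub sc q.1 q.2 := by
  classical
  have hopen : IsOpen {q : S × S | q.1 ≠ q.2} := isClosed_diagonal.isOpen_compl
  have h1 := ContinuousOn.measurable_piecewise (f := fun q : S × S => WW hk G sub sc q.1 q.2)
    (g := fun _ => k ^ 2) (s := {q : S × S | q.1 ≠ q.2})
    (continuousOn_WW hk G sub sc) continuous_const.continuousOn hopen.measurableSet
  have h2 : (fun q : S × S => WW hk G sub sc q.1 q.2) =
      Set.piecewise {q : S × S | q.1 ≠ q.2} (fun q : S × S => WW hk G sub sc q.1 q.2)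
        (fun _ => k ^ 2) := by
    funext q
    by_cases h : q.1 = q.2
    · rw [piecewise_eq_of_notMem _ _ _ (by simpa using h), WW, if_pos h]
    · rw [piecewise_eq_of_mem _ _ _ h]
  rw [h2]
  exact h1

end Crest.Agent.R241.LB4
end
end

-- ▼ part R241/LB6a
section

/-!
R241, block L: rigidity of the Jacobi fields when the kernel vanishes (`k = 0`).
-/

set_option autoImplicit false
set_option linter.unusedSectionVars false

open Set Filter Topology MeasureTheory
open scoped ContDiff RealInnerProductSpace ENNReal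
open Crest.GeometryTopology.Submanifold
open Crest.Agent.R241.DDefs
open Crest.Agent.R241.D4Met
open Crest.Agent.R241.D2
open Crest.Agent.R241.D3b
open Crest.Agent.R241.D3a
open Crest.Agent.R241.LB1
open Crest.Agent.R241.LB2
open Crest.Agent.R241.LB3
open Crest.Agent.R241.LB4

noncomputable section

namespace Crest.Agent.R241.LB6

variable {N : ℕ} {S : Set (Euc N)} {k : ℝ} (hk : 0 ≤ k) (G : Geo 2 N (-(k ^ 2)) S)
include hk

variable {p v w z u wz : Euc N} (h : On G p v w) (hz : On G z u wz)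
  (hzp : fl G ((z, u), 1) = (p, v))
include h hz hzp

theorem one_le_CC {t : ℝ} (ht : 0 < t) : 1 ≤ CC G p v w z u wz t := by
  refine ge_of_deriv_nonneg (fun s hs => hasDerivAt_CC hk G h hz hzp hs) ?_ ?_ ht
  · intro s hs
    exact (mul_nonneg (sq_nonneg k) (norm_nonneg _)).trans (CD_ge hk G h hz hzp hs)
  · have := (continuous_CC G h hz).tendsto 0
    rw [CC_zero hk G h hz hzp] at this
    exact this.mono_left nhdsWithin_le_nhds

theorem CD_deriv_nonneg {s : ℝ} (hs : 0 < s) :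
    0 ≤ -Kv G (fl G ((p, v), s)).1 (fl G ((p, v), s)).2 * CC G p v w z u wz s := by
  have hm := fl_mem G (q := (p, v)) ⟨h.hx, h.he⟩ s
  have h1 := Kv_le hm.1 hm.2 (norm_T h s)
  have h3 : 0 ≤ -Kv G (fl G ((p, v), s)).1 (fl G ((p, v), s)).2 := by nlinarith [sq_nonneg k]
  exact mul_nonneg h3 (zero_le_one.trans (one_le_CC hk G h hz hzp hs))

/-- if `CD` vanishes at `r`, the curvature vanishes along the geodesic on `(0, r)` -/
theorem Kv_eq_zero {r : ℝ} (h0 : CD G p v w z u wz r = 0) {s : ℝ} (hs : s ∈ Ioo 0 r) :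
    Kv G (fl G ((p, v), s)).1 (fl G ((p, v), s)).2 = 0 := by
  -- `CD` is monotone, with limit zero at zero
  have hmono : MonotoneOn (CD G p v w z u wz) (Ioi 0) := by
    apply monotoneOn_of_deriv_nonneg (convex_Ioi 0)
    · intro t ht
      exact (hasDerivAt_CD hk G h hz hzp ht).continuousAt.continuousWithinAt
    · rw [interior_Ioi]
      intro t ht
      exact (hasDerivAt_CD hk G h hz hzp ht).differentiableAt.differentiableWithinAt
    · rw [interior_Ioi]
      intro t ht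
      rw [(hasDerivAt_CD hk G h hz hzp ht).deriv]
      exact CD_deriv_nonneg hk G h hz hzp ht
  have hr : 0 < r := hs.1.trans hs.2
  have hzero : ∀ t ∈ Ioo 0 r, CD G p v w z u wz t = 0 := by
    intro t ht
    apply le_antisymm
    · rw [← h0]
      exact hmono ht.1 hr ht.2.le
    · exact (mul_nonneg (sq_nonneg k) (norm_nonneg _)).trans (CD_ge hk G h hz hzp ht.1)
  have hd : HasDerivAt (CD G p v w z u wz) 0 s := by
    refine (hasDerivAt_const s (0 : ℝ)).congr_of_eventuallyEq ?_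
    filter_upwards [isOpen_Ioo.mem_nhds hs] with t ht
    exact hzero t ht
  have h1 := hd.unique (hasDerivAt_CD hk G h hz hzp hs.1)
  have h2 := one_le_CC hk G h hz hzp hs.1
  have h3 : CC G p v w z u wz s ≠ 0 := by linarith
  have h4 : -Kv G (fl G ((p, v), s)).1 (fl G ((p, v), s)).2 = 0 := by
    rcases mul_eq_zero.1 h1.symm with h5 | h5
    · exact h5
    · exact absurd h5 h3
  linarith

/-- hence the scalar Jacobian is the identity on `(0, r]` -/
theorem jj_eq_self {r : ℝ} (h0 : CD G p v w z u wz r = 0) {t : ℝ} (ht : t ∈ Ioc 0 r) :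
    jj G p v w t = t := by
  have hd : ∀ s ∈ Ioo 0 r, HasDerivAt (jd G p v w) 0 s := by
    intro s hs
    have h1 := hasDerivAt_jd h (J_ne_zero hk G h hs.1)
    rw [Kv_eq_zero hk G h hz hzp h0 hs, neg_zero, zero_mul] at h1
    exact h1
  -- `jd` is constant on `(0, r)`
  have hconst : ∀ s ∈ Ioo 0 r, jd G p v w s = 1 := by
    intro s hs
    have h2 : Tendsto (jd G p v w) (𝓝[>] 0) (𝓝 (jd G p v w s)) := by
      refine tendsto_const_nhds.congr' ?_
      filter_upwards [Ioo_mem_nhdsGT hs.1] with s' hs'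
      have hconv : Convex ℝ (Icc s' s) := convex_Icc _ _
      have hsub : Icc s' s ⊆ Ioo 0 r := fun a ha => ⟨hs'.1.trans_le ha.1, ha.2.trans_lt hs.2⟩
      have h3 := hconv.norm_image_sub_le_of_norm_hasDerivWithin_le (f := jd G p v w)
        (f' := fun _ => 0) (C := 0) (fun a ha => (hd a (hsub ha)).hasDerivWithinAt) (by simp)
        (x := s') (y := s) ⟨le_rfl, hs'.2.le⟩ ⟨hs'.2.le, le_rfl⟩
      rw [zero_mul, norm_le_zero_iff, sub_eq_zero] at h3
      exact h3
    exact tendsto_nhds_unique h2 (tendsto_jd hk G h)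
  -- `jj - id` has zero derivative
  have key : ∀ a ∈ Ioo 0 t, ‖(jj G p v w t - t) - (jj G p v w a - a)‖ ≤ 0 := by
    intro a ha
    have hsub : Icc a t ⊆ Ioc 0 r := fun b hb => ⟨ha.1.trans_le hb.1, hb.2.trans ht.2⟩
    have h6 : ∀ b ∈ Ico a t, HasDerivWithinAt (fun s => jj G p v w s - s) 0 (Ici b) b := by
      intro b hb
      have hb' : b ∈ Ioo 0 r := ⟨ha.1.trans_le hb.1, hb.2.trans_le ht.2⟩
      have h7 := (hasDerivAt_jj h (J_ne_zero hk G h hb'.1)).sub (hasDerivAt_id b)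
      rw [hconst b hb', sub_self] at h7
      exact h7.hasDerivWithinAt
    have h8 := constant_of_has_deriv_right_zero
      (((continuous_jj G h).sub continuous_id).continuousOn (s := Icc a t)) h6 t ⟨ha.2.le, le_rfl⟩
    rw [norm_le_zero_iff, sub_eq_zero]
    exact h8
  have hlim : Tendsto (fun a => (jj G p v w t - t) - (jj G p v w a - a)) (𝓝[>] 0)
      (𝓝 ((jj G p v w t - t) - (0 - 0))) := by
    refine tendsto_const_nhds.sub ((tendsto_jj G h).sub ?_)
    exact (tendsto_id (α := ℝ)).mono_left nhdsWithin_le_nhds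
  have hev : ∀ᶠ a in 𝓝[>] (0 : ℝ), (jj G p v w t - t) - (jj G p v w a - a) = 0 := by
    filter_upwards [Ioo_mem_nhdsGT ht.1] with a ha
    exact norm_le_zero_iff.1 (key a ha)
  have h9 := tendsto_nhds_unique (hlim.congr' hev) (tendsto_const_nhds (x := (0 : ℝ)))
  linarith

omit hk h hz hzp in
theorem fderiv_Exp_polar {G : Geo 2 N (-(k ^ 2)) S} {x e n : Euc N} (h : On G x e n) {ρ : ℝ}
    (hρ : 0 < ρ) :
    fderiv ℝ (Exp G x) (ρ • e) e = (fl G ((x, e), ρ)).2 ∧
    fderiv ℝ (Exp G x) (ρ • e) n = ρ⁻¹ • J G x e n ρ := by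
  have hmem : ρ • e ∈ G.T x := (G.T x).smul_mem ρ h.he
  constructor
  · have h1 := D3c.fderiv_Exp_self G h.hx hmem
    rw [map_smul, Vel_smul G h.hx h.he] at h1
    exact smul_right_injective _ hρ.ne' h1
  · have hd := ((D3c.contDiffAt_Exp' G h.hx hmem).differentiableAt (by simp)).hasFDerivAt
    have h4 : HasDerivAt (fun s : ℝ => ρ • (e + (ρ⁻¹ * s) • n)) n 0 := by
      have : HasDerivAt (fun s : ℝ => (ρ⁻¹ * s) • n) (ρ⁻¹ • n) 0 := by
        simpa using ((hasDerivAt_id (0 : ℝ)).const_mul ρ⁻¹).smul_const n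
      refine ((this.const_add e).const_smul ρ).congr_deriv ?_
      rw [smul_smul, mul_inv_cancel₀ hρ.ne', one_smul]
    have hd' : HasFDerivAt (Exp G x) (fderiv ℝ (Exp G x) (ρ • e))
        (ρ • (e + (ρ⁻¹ * (0 : ℝ)) • n)) := by
      simpa using hd
    have h5 := hd'.comp_hasDerivAt (0 : ℝ) h4
    have h6 := hasDerivAt_s (q := ((0 : ℝ), ρ))
      ((contDiff_al G h.hx h.he h.hn).differentiable (by simp) ((0 : ℝ), ρ))
    have h7 : HasDerivAt (fun s : ℝ => ρ⁻¹ * s) ρ⁻¹ 0 := by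
      simpa using (hasDerivAt_id (0 : ℝ)).const_mul ρ⁻¹
    have h6' : HasDerivAt (fun s => al G x e n (s, ρ))
      (J G x e n ρ) (ρ⁻¹ * (0 : ℝ)) := by simpa [J] using h6
    have h8 := h6'.scomp (0 : ℝ) h7
    refine h5.unique (h8.congr_of_eventuallyEq (Eventually.of_forall fun s => ?_))
    have hm : e + (ρ⁻¹ * s) • n ∈ G.T x :=
      (G.T x).add_mem h.he ((G.T x).smul_mem _ h.hn)
    show Exp G x (ρ • (e + (ρ⁻¹ * s) • n)) = (fl G ((x, e + (ρ⁻¹ * s) • n), ρ)).1
    rw [Exp_smul G h.hx hm]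

omit hk h hz hzp in
theorem jac_Exp_comp {G : Geo 2 N (-(k ^ 2)) S} {x : Euc N} (L : Euc 2 →L[ℝ] Euc N) {a b : Euc 2}
    (ha : ‖a‖ = 1) (hb : ‖b‖ = 1) (hab : ⟪a, b⟫ = 0) (h : On G x (L a) (L b)) {ρ : ℝ}
    (hρ : 0 < ρ) :
    ρ * AF.jac (fderiv ℝ (fun v => Exp G x (L v)) (ρ • a)) = jj G x (L a) (L b) ρ := by
  have hmem : ρ • L a ∈ G.T x := (G.T x).smul_mem ρ h.he
  have hfd : ∀ w, fderiv ℝ (fun v => Exp G x (L v)) (ρ • a) w =
      fderiv ℝ (Exp G x) (ρ • L a) (L w) := by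
    intro w
    have hd := ((D3c.contDiffAt_Exp' G h.hx hmem).differentiableAt (by simp)).hasFDerivAt
    rw [← map_smul] at hd
    have h2 := hd.comp (ρ • a) L.hasFDerivAt
    have h3 : fderiv ℝ (fun v => Exp G x (L v)) (ρ • a) = _ := h2.fderiv
    rw [h3, ← map_smul]; rfl
  obtain ⟨h1, h2⟩ := fderiv_Exp_polar h hρ
  rw [← hfd] at h1 h2
  have hon : Orthonormal ℝ (![a, b] : Fin 2 → Euc 2) := by
    rw [orthonormal_iff_ite]
    intro i j
    fin_cases i <;> fin_cases j <;>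
      simp [ha, hb, hab, real_inner_comm a b ▸ hab]
  have hcard : Fintype.card (Fin 2) = Module.finrank ℝ (Euc 2) := by simp
  let b' := basisOfOrthonormalOfCardEqFinrank hon hcard
  let B : OrthonormalBasis (Fin 2) ℝ (Euc 2) := b'.toOrthonormalBasis (by
    rw [coe_basisOfOrthonormalOfCardEqFinrank]; exact hon)
  have hB0 : B 0 = a := by simp [B, b']
  have hB1 : B 1 = b := by simp [B, b']
  have h3 := AF.jac_sq_gram (fderiv ℝ (fun v => Exp G x (L v)) (ρ • a)) B
  rw [Matrix.det_fin_two] at h3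
  simp only [Matrix.of_apply, hB0, hB1, h1, h2] at h3
  have h4 : ⟪(fl G ((x, L a), ρ)).2, J G x (L a) (L b) ρ⟫ = 0 := by
    rw [real_inner_comm]; exact inner_J_T h ρ
  have h5 : ‖(fl G ((x, L a), ρ)).2‖ = 1 := norm_T h ρ
  rw [inner_smul_right, inner_smul_right, inner_smul_left, real_inner_self_eq_norm_sq, h5, h4,
    real_inner_self_eq_norm_sq] at h3
  have h6 : (ρ * AF.jac (fderiv ℝ (fun v => Exp G x (L v)) (ρ • a))) ^ 2 =
      jj G x (L a) (L b) ρ ^ 2 := by
    rw [mul_pow, h3, jj]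
    simp only [RCLike.conj_to_real]
    field_simp
    ring
  have h7 : 0 ≤ ρ * AF.jac (fderiv ℝ (fun v => Exp G x (L v)) (ρ • a)) :=
    mul_nonneg hρ.le (AF.jac_nonneg _)
  exact (sq_eq_sq₀ h7 (norm_nonneg _)).1 h6

end Crest.Agent.R241.LB6
end
end

-- ▼ part R241/LB6b

/-!
R241, block L: `LSob.SobTarget`.
-/

set_option autoImplicit false
set_option linter.unusedSectionVars false

open Set Filter Topology MeasureTheory
open scoped ContDiff RealInnerProductSpace ENNReal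
open Crest.GeometryTopology.Submanifold
open Crest.Agent.R241.DDefs
open Crest.Agent.R241.D4Met
open Crest.Agent.R241.D2
open Crest.Agent.R241.D3b
open Crest.Agent.R241.D3a
open Crest.Agent.R241.LB1
open Crest.Agent.R241.LB2
open Crest.Agent.R241.LB3
open Crest.Agent.R241.LB4
open Crest.Agent.R241.LB5
open Crest.Agent.R241.LA (nu1 nu2)
open Crest.Agent.R241.AF (jac)

noncomputable section

namespace Crest.Agent.R241.LB6

variable {N : ℕ} {S : Set (Euc N)} {k : ℝ} (hk : 0 ≤ k) (G : Geo 2 N (-(k ^ 2)) S)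
  (sub : IsSubmanifold 2 N S) (sc : SimplyConnectedSpace S)

/-- the kernel in a chart -/
def WC (D : ExpData 2 N S) (p : S) (z w : Euc 2) : ℝ :=
  WW hk G sub sc (D.homeo p z) (D.homeo p w)

theorem measurable_WC (D : ExpData 2 N S) (p : S) :
    Measurable fun q : Euc 2 × Euc 2 => WC hk G sub sc D p q.1 q.2 := by
  have h0 : Measurable fun q : Euc 2 × Euc 2 => (D.homeo p q.1, D.homeo p q.2) :=
    ((D.homeo p).continuous.measurable.comp measurable_fst).prodMk
      ((D.homeo p).continuous.measurable.comp measurable_snd)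
  have h1 := (measurable_WW hk G sub sc).comp h0
  simp only [Function.comp_def] at h1
  exact h1

theorem WC_ge (D : ExpData 2 N S) (p : S) {z w : Euc 2} (h : z ≠ w) :
    k ^ 2 ≤ WC hk G sub sc D p z w :=
  WW_ge hk G sub sc fun h' => h ((D.homeo p).injective h')

/-- inner integral against the kernel -/
theorem inner_int {u : S → ℝ} {g : S → Euc N} (T : (PP hk G sub sc).Test u g)
    (hu : Continuous u) (hu0 : ∀ x, 0 ≤ u x)
    (x : S) (hF : Integrable (fun y => ⟪g y, KK hk G sub sc x y⟫) (μS S)) :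
    ∫⁻ y, ENNReal.ofReal (WW hk G sub sc x y * u y) ∂(μS S) =
      ENNReal.ofReal (∫ θ, ∫ ρ, u (pt hk G sub sc x ρ θ) * Cd G x ρ θ ∂nu1 ∂nu2) := by
  obtain ⟨-, hi2⟩ := LA.target_eq (PP hk G sub sc) T (mem_univ x) hF
  have hWm : Measurable fun y => WW hk G sub sc x y := by
    have h0 : Measurable fun y : S => (x, y) := measurable_const.prodMk measurable_id
    have h2 := (measurable_WW hk G sub sc).comp h0
    simp only [Function.comp_def] at h2
    exact h2
  have hm : Measurable fun y => ENNReal.ofReal (WW hk G sub sc x y * u y) :=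
    (hWm.mul hu.measurable).ennreal_ofReal
  rw [lintegral_polar_S hk G sub sc x hm]
  have hptm := (continuous_pt hk G sub sc x).measurable
  -- the integrand in polar coordinates
  set f : ℝ × ℝ → ℝ := fun q => u (pt hk G sub sc x q.1 q.2) * Cd G x q.1 q.2 with hf
  have hae : ∀ᵐ q : ℝ × ℝ ∂(nu1.prod nu2), ENNReal.ofReal (Jc G x q.1 q.2) *
      ENNReal.ofReal (WW hk G sub sc x (pt hk G sub sc x q.1 q.2) *
        u (pt hk G sub sc x q.1 q.2)) = ENNReal.ofReal (f q) := by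
    filter_upwards [ae_pos] with q hq
    have h20 : 0 ≤ Jc G x q.1 q.2 := norm_nonneg _
    rw [← ENNReal.ofReal_mul h20, ← mul_assoc, WW_pt hk G sub sc x hq, hf]
    congr 1
    ring
  rw [lintegral_congr_ae hae]
  have hfm : AEStronglyMeasurable f (nu1.prod nu2) := by
    have h1 : Measurable fun q : ℝ × ℝ => Jc G x q.1 q.2 *
        (WW hk G sub sc x (pt hk G sub sc x q.1 q.2) * u (pt hk G sub sc x q.1 q.2)) :=
      (continuous_Jc G x).measurable.mul ((hWm.comp hptm).mul (hu.measurable.comp hptm))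
    refine h1.aestronglyMeasurable.congr ?_
    filter_upwards [ae_pos] with q hq
    rw [← mul_assoc, WW_pt hk G sub sc x hq, hf]
    ring
  have hf0 : ∀ᵐ q ∂(nu1.prod nu2), 0 ≤ f q := by
    filter_upwards [ae_pos] with q hq
    exact mul_nonneg (hu0 _) ((mul_nonneg (sq_nonneg k) (norm_nonneg _)).trans
      (CD_ge hk G (on_ev G x q.2) (on_wb G x q.2) (fl_zb G x q.2) hq))
  obtain ⟨R, hR, hsupp⟩ := T.supp x (mem_univ x)
  have hsec : ∀ θ, Integrable (fun ρ => f (ρ, θ)) nu1 := by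
    intro θ
    apply LA.integrable_half_of_supp hR
    · have h1 : ContinuousOn (fun ρ => u (pt hk G sub sc x ρ θ)) (uIcc 0 R) := by
        have h2 : Continuous fun ρ : ℝ => (ρ, θ) := continuous_id.prodMk continuous_const
        exact (hu.comp ((continuous_pt hk G sub sc x).comp h2)).continuousOn
      exact ((PP hk G sub sc).C'_int x (mem_univ x) θ R hR).continuousOn_mul h1
    · intro ρ hρ
      have h1 : u (pt hk G sub sc x ρ θ) = 0 := (hsupp ρ hρ θ).1
      simp only [hf, h1, zero_mul]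
  have hfi : Integrable f (nu1.prod nu2) := by
    rw [integrable_prod_iff' hfm]
    refine ⟨Eventually.of_forall hsec, ?_⟩
    refine hi2.congr ?_
    have h3 : ∀ θ, ∀ᵐ ρ ∂nu1, 0 ≤ f (ρ, θ) := by
      intro θ
      filter_upwards [ae_restrict_mem measurableSet_Ioi] with ρ hρ
      exact mul_nonneg (hu0 _) ((mul_nonneg (sq_nonneg k) (norm_nonneg _)).trans
        (CD_ge hk G (on_ev G x θ) (on_wb G x θ) (fl_zb G x θ) hρ))
    filter_upwards with θ
    have hθ := h3 θ
    apply integral_congr_ae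
    filter_upwards [hθ] with ρ hρ
    rw [Real.norm_of_nonneg hρ]
    rfl
  rw [← ofReal_integral_eq_lintegral_ofReal hfi hf0, integral_prod_symm _ hfi]

/-- the double integral of the kernel -/
theorem double_int [SFinite (μS S)] {u : S → ℝ} {g : S → Euc N}
    (T : (PP hk G sub sc).Test u g) (hu : Continuous u) (hu0 : ∀ x, 0 ≤ u x) :
    ∫⁻ x, ENNReal.ofReal (u x) * ∫⁻ y, ENNReal.ofReal (WW hk G sub sc x y * u y) ∂(μS S) ∂(μS S) ≠ ⊤ ∧
    4 * Real.pi * (∫ x, u x ^ 2 ∂(μS S)) +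
      (∫⁻ x, ENNReal.ofReal (u x) *
        ∫⁻ y, ENNReal.ofReal (WW hk G sub sc x y * u y) ∂(μS S) ∂(μS S)).toReal ≤
        (∫ x, ‖g x‖ ∂(μS S)) ^ 2 := by
  obtain ⟨hI, hineq⟩ := LA.sobolev (PP hk G sub sc) (Eventually.of_forall fun x => mem_univ x) T
  set H : S → ℝ := fun x => ∫ θ, ∫ ρ, u (pt hk G sub sc x ρ θ) * Cd G x ρ θ ∂nu1 ∂nu2 with hH
  have h2 : ∀ᵐ x ∂(μS S), Integrable (fun y => u x * ⟪g y, KK hk G sub sc x y⟫) (μS S) :=
    T.int_K.prod_right_ae
  have hH0 : ∀ x, 0 ≤ H x := by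
    intro x
    apply integral_nonneg
    intro θ
    apply setIntegral_nonneg measurableSet_Ioi
    intro ρ hρ
    exact mul_nonneg (hu0 _) ((mul_nonneg (sq_nonneg k) (norm_nonneg _)).trans
      (CD_ge hk G (on_ev G x θ) (on_wb G x θ) (fl_zb G x θ) hρ))
  have hae : ∀ᵐ x ∂(μS S), ENNReal.ofReal (u x) *
      ∫⁻ y, ENNReal.ofReal (WW hk G sub sc x y * u y) ∂(μS S) = ENNReal.ofReal (u x * H x) := by
    filter_upwards [h2] with x hx
    by_cases h0 : u x = 0
    · simp [h0]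
    · have hF : Integrable (fun y => ⟪g y, KK hk G sub sc x y⟫) (μS S) := by
        refine (hx.const_mul (u x)⁻¹).congr ?_
        filter_upwards with y
        field_simp
      rw [inner_int hk G sub sc T hu hu0 x hF, ENNReal.ofReal_mul (hu0 x)]
  rw [lintegral_congr_ae hae]
  have hI' : Integrable (fun x => u x * H x) (μS S) := hI
  have h0 : 0 ≤ᵐ[μS S] fun x => u x * H x :=
    Eventually.of_forall fun x => mul_nonneg (hu0 x) (hH0 x)
  rw [← ofReal_integral_eq_lintegral_ofReal hI' h0]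
  refine ⟨ENNReal.ofReal_ne_top, ?_⟩
  rw [ENNReal.toReal_ofReal (integral_nonneg_of_ae h0)]
  exact hineq

/-- translation to the chart -/
theorem sob_chart (D : ExpData 2 N S) (p : S) (u c : Euc 2 → ℝ)
    (hu : ContDiff ℝ (⊤ : ℕ∞) u) (hcs : HasCompactSupport u) (hu0 : ∀ z, 0 ≤ u z)
    (hc : ∀ z w, |fderiv ℝ u z w| ≤ c z * ‖fderiv ℝ (D.Φ p) z w‖)
    (hci : Integrable (fun z => c z * jac (fderiv ℝ (D.Φ p) z))) :
    Integrable (fun q : Euc 2 × Euc 2 => WC hk G sub sc D p q.1 q.2 *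
      (u q.1 * jac (fderiv ℝ (D.Φ p) q.1)) * (u q.2 * jac (fderiv ℝ (D.Φ p) q.2)))
      (volume.prod volume) ∧
    4 * Real.pi * (∫ z, u z ^ 2 * jac (fderiv ℝ (D.Φ p) z)) +
      (∫ q : Euc 2 × Euc 2, WC hk G sub sc D p q.1 q.2 *
      (u q.1 * jac (fderiv ℝ (D.Φ p) q.1)) * (u q.2 * jac (fderiv ℝ (D.Φ p) q.2))
        ∂(volume.prod volume)) ≤ (∫ z, c z * jac (fderiv ℝ (D.Φ p) z)) ^ 2 := by
  have hS := G.isClosed
  have hSF : SFinite (μS S) := sfinite_μS hS D p
  have T := test hk G sub sc (D := D) (p := p) hu hcs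
  have hcu := continuous_uu (D := D) (p := p) hu
  have hcg := continuous_gg (D := D) (p := p) hu
  have hU0 : ∀ x, 0 ≤ uu D p u x := fun x => hu0 _
  obtain ⟨hfin, hineq⟩ := double_int hk G sub sc T hcu hU0
  set jc : Euc 2 → ℝ := fun z => jac (fderiv ℝ (D.Φ p) z) with hjc
  have hjc0 : ∀ z, 0 ≤ jc z := fun z => AF.jac_nonneg _
  have hjcc : Continuous jc := continuous_jac D p
  have hWm := measurable_WC hk G sub sc D p
  have hW0 : ∀ z w, 0 ≤ WC hk G sub sc D p z w := fun z w =>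
    (sq_nonneg k).trans (WW_ge' hk G sub sc _ _)
  set Q : Euc 2 × Euc 2 → ℝ := fun q => WC hk G sub sc D p q.1 q.2 *
      (u q.1 * jc q.1) * (u q.2 * jc q.2) with hQ
  have hQm : Measurable Q := by
    refine (hWm.mul ?_).mul ?_
    · exact (hu.continuous.measurable.comp measurable_fst).mul (hjcc.measurable.comp measurable_fst)
    · exact (hu.continuous.measurable.comp measurable_snd).mul (hjcc.measurable.comp measurable_snd)
  have hQ0 : ∀ q, 0 ≤ Q q := fun q =>
    mul_nonneg (mul_nonneg (hW0 _ _) (mul_nonneg (hu0 _) (hjc0 _))) (mul_nonneg (hu0 _) (hjc0 _))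
  -- the double lintegral
  have hL : ∫⁻ q, ENNReal.ofReal (Q q) ∂((volume : Measure (Euc 2)).prod volume) =
      ∫⁻ x, ENNReal.ofReal (uu D p u x) * ∫⁻ y, ENNReal.ofReal
        (WW hk G sub sc x y * uu D p u y) ∂(μS S) ∂(μS S) := by
    rw [lintegral_prod _ hQm.ennreal_ofReal.aemeasurable]
    have hWWm : Measurable fun q : S × S => ENNReal.ofReal
        (WW hk G sub sc q.1 q.2 * uu D p u q.2) :=
      ((measurable_WW hk G sub sc).mul (hcu.measurable.comp measurable_snd)).ennreal_ofReal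
    have hin : Measurable fun x : S => ENNReal.ofReal (uu D p u x) *
        ∫⁻ y, ENNReal.ofReal (WW hk G sub sc x y * uu D p u y) ∂(μS S) :=
      hcu.measurable.ennreal_ofReal.mul hWWm.lintegral_prod_right'
    rw [lintegral_μS hS D p hin]
    refine lintegral_congr fun z => ?_
    have hWz : Measurable fun y : S => ENNReal.ofReal
        (WW hk G sub sc (D.homeo p z) y * uu D p u y) := by
      have h0 : Measurable fun y : S => (D.homeo p z, y) := measurable_const.prodMk measurable_id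
      have h2 := hWWm.comp h0
      simp only [Function.comp_def] at h2
      exact h2
    rw [lintegral_μS hS D p hWz, ← lintegral_const_mul' _ _ ENNReal.ofReal_ne_top,
      ← lintegral_const_mul' _ _ ENNReal.ofReal_ne_top]
    refine lintegral_congr fun w => ?_
    rw [uu_homeo, uu_homeo, ← ENNReal.ofReal_mul (AF.jac_nonneg _), ← ENNReal.ofReal_mul (hu0 _),
      ← ENNReal.ofReal_mul (AF.jac_nonneg _)]
    congr 1
    simp only [hQ, hjc, WC]
    ring
  have hQi : Integrable Q ((volume : Measure (Euc 2)).prod volume) := by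
    refine ⟨hQm.aestronglyMeasurable, ?_⟩
    rw [hasFiniteIntegral_iff_ofReal (Eventually.of_forall hQ0), hL]
    exact hfin.lt_top
  refine ⟨hQi, ?_⟩
  have hQe : ∫ q, Q q ∂((volume : Measure (Euc 2)).prod volume) =
      (∫⁻ x, ENNReal.ofReal (uu D p u x) * ∫⁻ y, ENNReal.ofReal
        (WW hk G sub sc x y * uu D p u y) ∂(μS S) ∂(μS S)).toReal := by
    rw [integral_eq_lintegral_of_nonneg_ae (Eventually.of_forall hQ0) hQm.aestronglyMeasurable, hL]
  rw [← hQe, integral_μS hS D p (F := fun x => uu D p u x ^ 2) (hcu.pow 2).aestronglyMeasurable,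
    integral_μS hS D p (F := fun x => ‖gg D p u x‖) hcg.norm.aestronglyMeasurable] at hineq
  have e1 : ∫ v, jac (fderiv ℝ (D.Φ p) v) * uu D p u (D.homeo p v) ^ 2 =
      ∫ z, u z ^ 2 * jc z := by
    refine integral_congr_ae (Eventually.of_forall fun z => ?_)
    simp only [uu_homeo, hjc]
    ring
  have e2 : ∫ v, jac (fderiv ℝ (D.Φ p) v) * ‖gg D p u (D.homeo p v)‖ ≤ ∫ z, c z * jc z := by
    have hgi := (integrable_μS_iff hS D p hcg.norm.aestronglyMeasurable).1 T.int_g
    refine integral_mono hgi hci fun v => ?_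
    have h1 : ‖gg D p u (D.homeo p v)‖ ≤ c v := by
      rw [gg_homeo]
      exact norm_gr_le ⟨EuclideanSpace.single 0 1, by simp⟩ (D.expand p v) (hc v)
    calc jac (fderiv ℝ (D.Φ p) v) * ‖gg D p u (D.homeo p v)‖
        ≤ jac (fderiv ℝ (D.Φ p) v) * c v := mul_le_mul_of_nonneg_left h1 (AF.jac_nonneg _)
      _ = _ := by simp only [hjc]; ring
  rw [e1] at hineq
  refine hineq.trans ?_
  have e3 : 0 ≤ ∫ v, jac (fderiv ℝ (D.Φ p) v) * ‖gg D p u (D.homeo p v)‖ :=
    integral_nonneg fun v => mul_nonneg (AF.jac_nonneg _) (norm_nonneg _)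
  exact pow_le_pow_left₀ e3 e2 2

/-! ### rigidity -/

theorem hasFDerivAt_Phi (x : S) (v w : Euc 2) :
    fderiv ℝ (D5b.Phi G x) v w = fderiv ℝ (Exp G x) (D5b.frame G x v) (D5b.frame G x w) := by
  have h1 := ((D3c.contDiffAt_Exp' G x.2 (D5b.frame_mem G x v)).differentiableAt
    (by simp)).hasFDerivAt
  have h2 := h1.comp v (D5b.frame G x).toContinuousLinearMap.hasFDerivAt
  have h3 : fderiv ℝ (D5b.Phi G x) v = _ := h2.fderiv
  rw [h3]; rfl

theorem metricMat_zero (x : S) : metricMat (D5b.Phi G x) 0 = 1 := by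
  ext i j
  rw [metricMat, Matrix.of_apply, pd, pd, hasFDerivAt_Phi, hasFDerivAt_Phi, map_zero,
    D3c.fderiv_Exp_zero G x.2 (D5b.frame_mem G x _), D3c.fderiv_Exp_zero G x.2
      (D5b.frame_mem G x _), D5b.inner_frame, stdVec, stdVec, EuclideanSpace.inner_single_left]
  simp [Matrix.one_apply]

theorem metric_one (x : S) (v : Euc 2)
    (hW : v ≠ 0 → WW hk G sub sc x ((D5b.expData hk G sub sc).homeo x v) = 0) {s : ℝ}
    (hs : s ∈ Icc (0 : ℝ) 1) : metricMat (D5b.Phi G x) (s • v) = 1 := by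
  by_cases h0 : s • v = 0
  · rw [h0]; exact metricMat_zero G x
  have hs0 : 0 < s := lt_of_le_of_ne hs.1 fun h => h0 (by rw [← h, zero_smul])
  have hv0 : v ≠ 0 := fun h => h0 (by rw [h, smul_zero])
  have hρ : 0 < ‖v‖ := norm_pos_iff.2 hv0
  set ρ := ‖v‖ with hρdef
  set a : Euc 2 := ρ⁻¹ • v with ha
  have hva : v = ρ • a := by rw [ha, smul_smul, mul_inv_cancel₀ hρ.ne', one_smul]
  have hna : ‖a‖ = 1 := by rw [ha, norm_smul, norm_inv, ← hρdef, Real.norm_eq_abs,
    abs_of_pos hρ, inv_mul_cancel₀ hρ.ne']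
  have ha2 : a 0 ^ 2 + a 1 ^ 2 = 1 := by
    have := EuclideanSpace.real_norm_sq_eq a
    rw [hna, Fin.sum_univ_two] at this
    linarith
  set b : Euc 2 := !₂[-(a 1), a 0] with hb
  have hnb : ‖b‖ = 1 := by
    rw [← sq_eq_sq₀ (norm_nonneg _) zero_le_one, EuclideanSpace.real_norm_sq_eq,
      Fin.sum_univ_two]
    simp [hb]
    linarith
  have hab : ⟪a, b⟫ = 0 := by
    simp [hb, PiLp.inner_apply, Fin.sum_univ_two]
    ring
  have h : On G (x : Euc N) (D5b.frame G x a) (D5b.frame G x b) :=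
    ⟨x.2, D5b.frame_mem G x a, D5b.frame_mem G x b, by rw [LinearIsometry.norm_map, hna],
      by rw [LinearIsometry.norm_map, hnb], by rw [D5b.inner_frame, hab]⟩
  have hm := fl_mem G (q := ((x : Euc N), D5b.frame G x a)) ⟨h.hx, h.he⟩ (-1)
  obtain ⟨wz, hz⟩ := exists_On (G := G) hm.1 hm.2 (norm_T h (-1))
  have hend : (fl G (((x : Euc N), D5b.frame G x a), ρ)).1 =
      (D5b.expData hk G sub sc).homeo x v := by
    rw [← Exp_smul G x.2 h.he, ← map_smul, ← hva]
    exact ((D5b.expData hk G sub sc).homeo_coe x v).symm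
  have h1 := (WW_dir hk G sub sc h hρ hend hz).2
  rw [hW hv0] at h1
  have hj : jj G x (D5b.frame G x a) (D5b.frame G x b) ρ ≠ 0 :=
    (hρ.trans_le (le_jj hk G h hρ)).ne'
  have h2 : CD G x (D5b.frame G x a) (D5b.frame G x b) (fl G (((x : Euc N),
      D5b.frame G x a), -1)).1 (fl G (((x : Euc N), D5b.frame G x a), -1)).2 wz ρ = 0 := by
    rcases div_eq_zero_iff.1 h1.symm with h3 | h3
    · exact h3
    · exact absurd h3 hj
  have hsρ : s * ρ ∈ Ioc 0 ρ := ⟨mul_pos hs0 hρ, by nlinarith [hs.2]⟩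
  have h4 := jj_eq_self hk G h hz (fl_back h.hx h.he) h2 hsρ
  have h5 := jac_Exp_comp (G := G) (x := (x : Euc N)) (D5b.frame G x).toContinuousLinearMap
    hna hnb hab h hsρ.1
  have h5' : s * ρ * AF.jac (fderiv ℝ (D5b.Phi G x) ((s * ρ) • a)) =
      jj G x (D5b.frame G x a) (D5b.frame G x b) (s * ρ) := h5
  rw [h4] at h5'
  have h6 : AF.jac (fderiv ℝ (D5b.Phi G x) ((s * ρ) • a)) = 1 := by
    have := mul_left_cancel₀ hsρ.1.ne' (h5'.trans (mul_one _).symm)
    exact this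
  have h7 : (s * ρ) • a = s • v := by rw [mul_smul, ← hva]
  rw [h7] at h6
  apply E5b.eq_one_of_det_le ((D5b.expData hk G sub sc).expand x (s • v))
  have h8 : (metricMat (D5b.Phi G x) (s • v)).det = 1 := by
    rw [← AF.jac_sq_metricMat, h6, one_pow]
  exact h8.le

/-- an a.e. vanishing kernel vanishes off the diagonal -/
theorem W_eq_zero (D : ExpData 2 N S) (p : S) {A : Set (Euc 2)} (hA : IsOpen A)
    (hae : ∀ᵐ z ∂(volume.restrict A), ∀ᵐ w ∂(volume.restrict A), WC hk G sub sc D p z w = 0)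
    {z₀ w₀ : Euc 2} (hz : z₀ ∈ A) (hw : w₀ ∈ A) (hne : z₀ ≠ w₀) :
    WC hk G sub sc D p z₀ w₀ = 0 := by
  by_contra hW
  have hne' : D.homeo p z₀ ≠ D.homeo p w₀ := fun h => hne ((D.homeo p).injective h)
  have hcont : ContinuousAt (fun q : Euc 2 × Euc 2 => WC hk G sub sc D p q.1 q.2) (z₀, w₀) := by
    have h1 : ContinuousAt (fun q : S × S => WW hk G sub sc q.1 q.2)
        (D.homeo p z₀, D.homeo p w₀) :=
      (continuousOn_WW hk G sub sc).continuousAt
        ((isClosed_diagonal.isOpen_compl : IsOpen {q : S × S | q.1 ≠ q.2}).mem_nhds hne')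
    have h2 : Continuous fun q : Euc 2 × Euc 2 => (D.homeo p q.1, D.homeo p q.2) :=
      ((D.homeo p).continuous.comp continuous_fst).prodMk
        ((D.homeo p).continuous.comp continuous_snd)
    have h3 := ContinuousAt.comp (f := fun q : Euc 2 × Euc 2 => (D.homeo p q.1, D.homeo p q.2))
      (x := (z₀, w₀)) h1 h2.continuousAt
    simp only [Function.comp_def] at h3
    exact h3
  have hev : ∀ᶠ q in 𝓝 (z₀, w₀), WC hk G sub sc D p q.1 q.2 ≠ 0 := hcont.eventually_ne hW
  rw [nhds_prod_eq, Filter.eventually_prod_iff] at hev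
  obtain ⟨P1, hP1, P2, hP2, hP⟩ := hev
  -- a point of `P1 ∩ A` in the full measure set
  have hex : ∀ {P : Euc 2 → Prop} {Q : Euc 2 → Prop} {a : Euc 2}, a ∈ A → (∀ᶠ z in 𝓝 a, P z) →
      (∀ᵐ z ∂(volume.restrict A), Q z) → ∃ z, P z ∧ Q z := by
    intro P Q a ha hPa hQ
    obtain ⟨U, hU, hUo, haU⟩ := eventually_nhds_iff.1 hPa
    by_contra hcon
    push Not at hcon
    have h1 : (U ∩ A) ⊆ {z | ¬(z ∈ A → Q z)} := by
      rintro z ⟨hz1, hz2⟩ hz3
      exact hcon z (hU z hz1) (hz3 hz2)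
    have h2 : volume {z | ¬(z ∈ A → Q z)} = 0 := (ae_restrict_iff' hA.measurableSet).1 hQ
    have h3 : volume (U ∩ A) = 0 := measure_mono_null h1 h2
    have h4 : 0 < volume (U ∩ A) := (hUo.inter hA).measure_pos volume ⟨a, haU, ha⟩
    exact h4.ne' h3
  obtain ⟨z, hz1, hz2⟩ := hex hz hP1 hae
  obtain ⟨w, hw1, hw2⟩ := hex hw hP2 hz2
  exact hP hz1 hw1 hw2

/-! ### the target -/

theorem kernel (h0 : D5.HessIneq (D5c.xdata hk G sub sc) 0)
    (h1 : D5.HessIneq (D5c.xdata hk G sub sc) k) (p : D5c.XX hk G sub sc) :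
    LSob.Kernel (D5c.chModel hk G sub sc h0 h1) p
      (WC hk G sub sc (D5b.expData hk G sub sc) (XS.pt _ p)) := by
  have hpsi : ∀ q : D5c.XX hk G sub sc, LSob.psi (D5c.chModel hk G sub sc h0 h1) q =
      (D5b.expData hk G sub sc).Φ (XS.pt _ q) := fun q => funext (D5c.inc_ee hk G sub sc q)
  have hdn : ∀ q : D5c.XX hk G sub sc, LSob.dn (D5c.chModel hk G sub sc h0 h1) q =
      fun z => jac (fderiv ℝ ((D5b.expData hk G sub sc).Φ (XS.pt _ q)) z) := by
    intro q
    funext z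
    rw [LSob.dn, hpsi, AF.jac_eq_sqrt]
  refine ⟨measurable_WC hk G sub sc _ _, fun z w h => WC_ge hk G sub sc _ _ h, ?_, ?_⟩
  · intro u c hu hcs hu0 _ hc hci
    rw [hdn] at hci ⊢
    rw [hpsi] at hc
    exact sob_chart hk G sub sc _ _ u c hu hcs hu0 hc hci
  · intro hk0 A hA hae z₀ hz w₀ hw v hv s hs
    rw [hpsi]
    have hv' : (D5b.expData hk G sub sc).homeo ((D5b.expData hk G sub sc).homeo (XS.pt _ p) z₀) v =
        (D5b.expData hk G sub sc).homeo (XS.pt _ p) w₀ := hv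
    refine metric_one hk G sub sc _ v ?_ hs
    intro hv0
    have hne : z₀ ≠ w₀ := by
      rintro rfl
      apply hv0
      have h3 : (D5b.expData hk G sub sc).homeo ((D5b.expData hk G sub sc).homeo (XS.pt _ p) z₀) v =
        (D5b.expData hk G sub sc).homeo ((D5b.expData hk G sub sc).homeo (XS.pt _ p) z₀) 0 := by
        rw [ExpData.homeo_zero]; exact hv'
      exact ((D5b.expData hk G sub sc).homeo _).injective h3
    have h4 := W_eq_zero hk G sub sc _ _ hA hae hz hw hne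
    have h5 : WW hk G sub sc ((D5b.expData hk G sub sc).homeo (XS.pt _ p) z₀)
        ((D5b.expData hk G sub sc).homeo ((D5b.expData hk G sub sc).homeo (XS.pt _ p) z₀) v) = 0 := by
      rw [hv']
      exact h4
    exact h5

/-- **The sharp Sobolev target for surfaces.** -/
theorem sobTarget : LSob.SobTarget := by
  intro N k hk S hS hcl hconn hsc hsec
  obtain ⟨G, -⟩ := D.d1 2 N (-(k ^ 2)) S hS hcl hsec
  obtain ⟨h0, h1⟩ := D5e.hessTarget 2 N S k hk G hS hsc
  obtain ⟨p, hp⟩ := hconn.nonempty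
  exact ⟨D5c.XX hk G hS hsc, inferInstance, inferInstance, ⟨XS.of _ ⟨p, hp⟩⟩,
    D5c.chModel hk G hS hsc h0 h1, fun q => ⟨_, kernel hk G hS hsc h0 h1 q⟩⟩

end Crest.Agent.R241.LB6
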